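import Vale.Agent.Lib.P217.Universal

/-!
# P217: the extended stabilizer group acts on the universal deformation ring

`existsUnique_actsBy`. Existence: apply `univ_exists` with `A = E`, `πA = σ⁻¹ ∘ π`, `G = F` and the marking `g.map σ⁻¹ : Γ → Γ.map σ⁻¹ = F.map πA`
(`(Γ.map σ).map σ⁻¹ = Γ`): `ψ : E → E` with `σ⁻¹ ∘ π ∘ ψ = π`, `t : F.map ψ → F` with `t.map (σ⁻¹ ∘ π) = g.map σ⁻¹`, so `t.map π = g`. The same for the inverse
`(σ⁻¹)_*(g⁻¹) : Γ.map σ⁻¹ → Γ`; the two compositions are the identity by `univ_unique`, as in `un_comp_eq_id`, `exists_actsBy`. Uniqueness: `univ_unique`.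
-/

set_option linter.unusedSectionVars false

namespace Vale.Agent.P217

section act_ex
variable {k E : Type} [Field k] [CommRing E] [IsLocalRing E]
    [IsNoetherianRing E] [IsAdicComplete (IsLocalRing.maximalIdeal E) E] {Γ : FormalGroup k}
    {π : E →+* k} {F : FormalGroup E}

theorem actEx_symm_comp (σ : k ≃+* k) :
    ((σ.symm : k ≃+* k) : k →+* k).comp (σ : k →+* k) = RingHom.id k := by
  ext x
  simp

theorem actEx_comp_symm (σ : k ≃+* k) :
    (σ : k →+* k).comp ((σ.symm : k ≃+* k) : k →+* k) = RingHom.id k := by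
  ext x
  simp

theorem actEx_pmap_id {R : Type*} [CommRing R] (f : PowerSeries R) :
    f.map (RingHom.id R) = f := by
  rw [PowerSeries.map_id]
  rfl

/-- the marking for the residue map `σ⁻¹ ∘ π` -/
theorem actEx_marking (hF : IsUniversalDeformation Γ π F) (σ : k ≃+* k) {g : PowerSeries k}
    (hg : IsHom (Γ.map (σ : k →+* k)) Γ g) :
    IsHom Γ (F.map ((((σ.symm : k ≃+* k) : k →+* k)).comp π))
      (g.map ((σ.symm : k ≃+* k) : k →+* k)) := by
  have h1 := hg.map ((σ.symm : k ≃+* k) : k →+* k)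
  rw [un_map_map, actEx_symm_comp, un_map_id] at h1
  rw [← un_map_map, hF.reduction]
  exact h1

theorem actEx_unit (σ : k →+* k) {g : PowerSeries k} (hg1 : IsUnit (PowerSeries.coeff 1 g)) :
    IsUnit (PowerSeries.coeff 1 (g.map σ)) := by
  rw [PowerSeries.coeff_map]
  exact hg1.map σ

theorem actEx_exists (hπ : Function.Surjective π) (hF : IsUniversalDeformation Γ π F)
    (σ : k ≃+* k) (g : PowerSeries k) (hg : IsHom (Γ.map (σ : k →+* k)) Γ g)
    (hg1 : IsUnit (PowerSeries.coeff 1 g)) :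
    ∃ (ψ : E →+* E) (t : PowerSeries E), π.comp ψ = (σ : k →+* k).comp π ∧
      IsHom (F.map ψ) F t ∧ t.map π = g := by
  have hFc := hF.comm
  have hΓ : Γ.IsComm := by
    rw [← hF.reduction]
    infer_instance
  obtain ⟨ψ, t, h1, h2, h3⟩ := univ_exists hF E ((((σ.symm : k ≃+* k) : k →+* k)).comp π)
    (σ.symm.surjective.comp hπ) F (g.map ((σ.symm : k ≃+* k) : k →+* k))
    (actEx_marking hF σ hg) (actEx_unit _ hg1)
  refine ⟨ψ, t, ?_, h2, ?_⟩
  · have h4 : (σ : k →+* k).comp (((((σ.symm : k ≃+* k) : k →+* k)).comp π).comp ψ) =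
        (σ : k →+* k).comp π := by rw [h1]
    rw [RingHom.comp_assoc, ← RingHom.comp_assoc, actEx_comp_symm, RingHom.id_comp] at h4
    exact h4
  · have h4 : PowerSeries.map (σ : k →+* k)
        (PowerSeries.map ((((σ.symm : k ≃+* k) : k →+* k)).comp π) t) =
        PowerSeries.map (σ : k →+* k) (PowerSeries.map ((σ.symm : k ≃+* k) : k →+* k) g) := by
      rw [h3]
    rw [un_pmap_map, un_pmap_map, ← RingHom.comp_assoc, actEx_comp_symm, RingHom.id_comp,
      actEx_pmap_id] at h4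
    exact h4

theorem actEx_unique (hπ : Function.Surjective π) (hF : IsUniversalDeformation Γ π F)
    (σ : k ≃+* k) (g : PowerSeries k) (hg1 : IsUnit (PowerSeries.coeff 1 g))
    (ψ₁ ψ₂ : E →+* E) (t₁ t₂ : PowerSeries E) (h₁ : π.comp ψ₁ = (σ : k →+* k).comp π)
    (h₂ : π.comp ψ₂ = (σ : k →+* k).comp π) (ht₁ : IsHom (F.map ψ₁) F t₁)
    (ht₂ : IsHom (F.map ψ₂) F t₂) (hg₁ : t₁.map π = g) (hg₂ : t₂.map π = g) : ψ₁ = ψ₂ := by
  have hFc := hF.comm
  have hΓ : Γ.IsComm := by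
    rw [← hF.reduction]
    infer_instance
  refine (univ_unique hF E ((((σ.symm : k ≃+* k) : k →+* k)).comp π)
    (σ.symm.surjective.comp hπ) F (g.map ((σ.symm : k ≃+* k) : k →+* k))
    (actEx_unit _ hg1) ψ₁ ψ₂ t₁ t₂ ?_ ?_ ht₁ ht₂ ?_ ?_).1
  · rw [RingHom.comp_assoc, h₁, ← RingHom.comp_assoc, actEx_symm_comp, RingHom.id_comp]
  · rw [RingHom.comp_assoc, h₂, ← RingHom.comp_assoc, actEx_symm_comp, RingHom.id_comp]
  · rw [← un_pmap_map, hg₁]
  · rw [← un_pmap_map, hg₂]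

/-- one composition of the ring maps attached to `(g, σ)` and to its inverse is the identity -/
theorem actEx_comp_eq_id (hπ : Function.Surjective π) (hF : IsUniversalDeformation Γ π F)
    (σ : k ≃+* k) (g h : PowerSeries k) (φ φ' : E →+* E) (t t' : PowerSeries E)
    (a1 : π.comp φ = (σ : k →+* k).comp π)
    (b1 : π.comp φ' = ((σ.symm : k ≃+* k) : k →+* k).comp π)
    (ht : IsHom (F.map φ) F t) (ht' : IsHom (F.map φ') F t') (hg : t.map π = g)
    (hg' : t'.map π = h)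
    (hgg : h.subst (g.map ((σ.symm : k ≃+* k) : k →+* k)) = (PowerSeries.X : PowerSeries k)) :
    φ'.comp φ = RingHom.id E := by
  have hFc := hF.comm
  have hΓ : Γ.IsComm := by
    rw [← hF.reduction]
    infer_instance
  have h1 : IsHom (F.map (φ'.comp φ)) (F.map φ') (t.map φ') := by
    have h2 := ht.map φ'
    rw [un_map_map] at h2
    exact h2
  have h3 : IsHom (F.map (RingHom.id E)) F PowerSeries.X := by
    rw [un_map_id]
    exact isHom_X F
  have h4 := un_map_psubst π (f := t') h1.1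
  rw [un_pmap_map, b1, ← un_pmap_map, hg, hg', hgg] at h4
  refine (univ_unique hF E π hπ F PowerSeries.X (by simp) (φ'.comp φ) (RingHom.id E)
    (t'.subst (t.map φ')) PowerSeries.X ?_ ?_ (h1.comp ht') h3 h4 (PowerSeries.map_X _)).1
  · rw [← RingHom.comp_assoc, b1, RingHom.comp_assoc, a1, ← RingHom.comp_assoc,
      actEx_symm_comp, RingHom.id_comp]
  · rw [RingHom.comp_id]

end act_ex

theorem existsUnique_actsBy {k E : Type} [Field k] [CommRing E] [IsLocalRing E]
    [IsNoetherianRing E] [IsAdicComplete (IsLocalRing.maximalIdeal E) E] {Γ : FormalGroup k}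
    {π : E →+* k} {F : FormalGroup E} (hπ : Function.Surjective π)
    (hF : IsUniversalDeformation Γ π F) (σ : k ≃+* k) (g : PowerSeries k)
    (hg : IsHom (Γ.map (σ : k →+* k)) Γ g) (hg1 : IsUnit (PowerSeries.coeff 1 g)) :
    ∃! φ : E ≃+* E, ActsBy Γ π F g σ φ := by
  obtain ⟨g', hg', hg'1, h1, h2⟩ := exists_inverse_hom hg hg1
  have hh : IsHom (Γ.map ((σ.symm : k ≃+* k) : k →+* k)) Γ
      (g'.map ((σ.symm : k ≃+* k) : k →+* k)) := by
    have h3 := hg'.map ((σ.symm : k ≃+* k) : k →+* k)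
    rw [un_map_map, actEx_symm_comp, un_map_id] at h3
    exact h3
  obtain ⟨φ, t, a1, a2, a3⟩ := actEx_exists hπ hF σ g hg hg1
  obtain ⟨φ', t', b1, b2, b3⟩ := actEx_exists hπ hF σ.symm _ hh (actEx_unit _ hg'1)
  have c1 : φ'.comp φ = RingHom.id E := by
    refine actEx_comp_eq_id hπ hF σ g _ φ φ' t t' a1 b1 a2 b2 a3 b3 ?_
    rw [← un_map_psubst _ hg.1, h1, PowerSeries.map_X]
  have c2 : φ.comp φ' = RingHom.id E := by
    refine actEx_comp_eq_id hπ hF σ.symm _ g φ' φ t' t b1 a1 b2 a2 b3 a3 ?_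
    rw [RingEquiv.symm_symm, un_pmap_map, actEx_comp_symm, actEx_pmap_id, h2]
  refine ⟨RingEquiv.ofRingHom φ φ' c2 c1, ⟨hg, hg1, a1, t, a2, a3⟩, ?_⟩
  rintro φ₂ ⟨-, -, d1, t₂, d2, d3⟩
  have h4 : (φ₂ : E →+* E) = φ :=
    actEx_unique hπ hF σ g hg1 (φ₂ : E →+* E) φ t₂ t d1 a1 d2 a2 d3 a3
  ext x
  exact RingHom.congr_fun h4 x

end Vale.Agent.P217
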