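import Mathlib.FieldTheory.Finite.GaloisField
import Mathlib.RingTheory.AdicCompletion.Basic
import Mathlib.RingTheory.FormalGroup.Basic
import Mathlib.RingTheory.LocalRing.MaximalIdeal.Defs
import Mathlib.RingTheory.WittVector.Basic

/-!
# P217: definitions (homomorphisms of formal group laws, universal deformations, the action of the
Morava stabilizer group, height ideals)
-/

namespace Vale.Agent.P217

open MvPowerSeries

section
variable {R : Type*} [CommRing R]

/-- `f` is a homomorphism `F → G` of one-dimensional formal group laws over `R`: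
`f(0) = 0` and `f(F(X,Y)) = G(f(X),f(Y))`. -/
def IsHom (F G : FormalGroup R) (f : PowerSeries R) : Prop :=
  PowerSeries.constantCoeff f = 0 ∧
  PowerSeries.subst F.toPowerSeries f =
    MvPowerSeries.subst ![PowerSeries.subst (X 0 : MvPowerSeries (Fin 2) R) f,
      PowerSeries.subst (X 1 : MvPowerSeries (Fin 2) R) f] G.toPowerSeries

/-- The series `X`, as a point of the formal group law `F` with values in power series. -/
noncomputable def idPoint (F : FormalGroup R) : F.Point Unit :=
  ⟨PowerSeries.X, PowerSeries.HasSubst.X'⟩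

/-- The series `[m]_F(X)`: the `m`-fold sum of `X` with itself for the formal group law `F`. -/
noncomputable def mulSeries (F : FormalGroup R) (m : ℕ) : PowerSeries R :=
  (m • idPoint F).val

end

section
variable {k E : Type} [Field k] [CommRing E]

/-- `F` over `E`, together with `π : E → k`, is a universal deformation of the formal group law
`Γ` over the field `k`: for every complete Noetherian local ring `A` with residue field `k`
(given by a surjection `πA : A → k`) and every deformation `G` of `Γ` to `A` there are a unique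
ring homomorphism `φ : E → A` over `k` and a unique isomorphism `t : φ_* F → G` which
is the identity modulo the maximal ideal. -/
structure IsUniversalDeformation (Γ : FormalGroup k) (π : E →+* k) (F : FormalGroup E) :
    Prop where
  comm : F.IsComm
  reduction : F.map π = Γ
  universal : ∀ (A : Type) [CommRing A] [IsLocalRing A] [IsNoetherianRing A]
    [IsAdicComplete (IsLocalRing.maximalIdeal A) A] (πA : A →+* k),
    Function.Surjective πA → ∀ G : FormalGroup A, G.IsComm → G.map πA = Γ →
    ∃! φt : (E →+* A) × PowerSeries A,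
      πA.comp φt.1 = π ∧ IsHom (F.map φt.1) G φt.2 ∧ φt.2.map πA = PowerSeries.X

/-- `φ` is the automorphism of `E` by which the element `(g, σ)` of the extended stabilizer group
`Aut(Γ) ⋊ Gal(k/𝔽_p)` acts: `φ` lifts `σ`, and there is an isomorphism `t : φ_* F → F` lifting
the automorphism `g : σ_* Γ → Γ`. -/
def ActsBy (Γ : FormalGroup k) (π : E →+* k) (F : FormalGroup E) (g : PowerSeries k)
    (σ : k ≃+* k) (φ : E ≃+* E) : Prop :=
  IsHom (Γ.map (σ : k →+* k)) Γ g ∧ IsUnit (PowerSeries.coeff 1 g) ∧
  π.comp (φ : E →+* E) = (σ : k →+* k).comp π ∧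
  ∃ t : PowerSeries E, IsHom (F.map (φ : E →+* E)) F t ∧ t.map π = g

/-- The ideal `I` of `E` is invariant under the extended stabilizer group. -/
def IsInvariant (Γ : FormalGroup k) (π : E →+* k) (F : FormalGroup E) (I : Ideal E) : Prop :=
  ∀ (g : PowerSeries k) (σ : k ≃+* k) (φ : E ≃+* E), ActsBy Γ π F g σ φ →
    I.map (φ : E →+* E) = I

end

section
variable (p : ℕ) [Fact p.Prime] (n : ℕ)

/-- The Lubin-Tate ring `W(𝔽_{p^n})[[u_1, …, u_{n-1}]]`; the variable `X i` is `u_{i+1}`. -/
abbrev LTRing : Type := MvPowerSeries (Fin (n - 1)) (WittVector p (GaloisField p n))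

/-- The residue map `W(𝔽_{p^n})[[u_1, …, u_{n-1}]] → 𝔽_{p^n}`. -/
noncomputable def residueMap : LTRing p n →+* GaloisField p n :=
  (WittVector.constantCoeff : WittVector p (GaloisField p n) →+* GaloisField p n).comp
    MvPowerSeries.constantCoeff

/-- The ideal `I_h = (p, u_1, …, u_{h-1})`, with `I_0 = 0`. -/
noncomputable def heightIdeal (h : ℕ) : Ideal (LTRing p n) :=
  if h = 0 then ⊥
  else Ideal.span ({(p : LTRing p n)} ∪ {x | ∃ i : Fin (n - 1), (i : ℕ) + 1 < h ∧ x = X i})

/-- The formal group law `F` over the Lubin-Tate ring is in standard coordinates: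
the coefficient of `X^{p^i}` in `[p]_F(X)` is `u_i` modulo `(p, u_1, …, u_{i-1})`. -/
def HasStandardCoordinates (F : FormalGroup (LTRing p n)) : Prop :=
  ∀ i : Fin (n - 1), PowerSeries.coeff (p ^ ((i : ℕ) + 1)) (mulSeries F p) - X i ∈
    heightIdeal p n ((i : ℕ) + 1)

end

end Vale.Agent.P217
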