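import Mathlib.Algebra.Order.Ring.Star
import Vale.Agent.Lib.P217.Defs

/-!
# P217: formal computations with formal group laws (inverse series, `[m]_F`, homomorphisms)
-/

set_option linter.unusedSectionVars false

namespace Vale.Agent.P217

open MvPowerSeries Filter Topology

section tools
variable {R : Type*} [CommRing R] {σ τ : Type*}

theorem hasSubst_pair {f g : MvPowerSeries σ R} (hf : PowerSeries.HasSubst f)
    (hg : PowerSeries.HasSubst g) : MvPowerSeries.HasSubst ![f, g] :=
  hasSubst_of_constantCoeff_nilpotent fun s => by fin_cases s <;> simpa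

theorem hasSubst_subst {x : σ → MvPowerSeries τ R} (hx : MvPowerSeries.HasSubst x)
    {P : MvPowerSeries σ R} (hP : PowerSeries.HasSubst P) :
    PowerSeries.HasSubst (subst x P) := IsNilpotent_subst hx hP

theorem hasSubst_psubst {x : MvPowerSeries τ R} (hx : PowerSeries.HasSubst x)
    {f : PowerSeries R} (hf : PowerSeries.constantCoeff f = 0) :
    PowerSeries.HasSubst (PowerSeries.subst x f) := by
  refine hasSubst_subst hx.const ?_
  exact PowerSeries.HasSubst.of_constantCoeff_zero' hf

/-- `P(f, g)` followed by a substitution -/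
theorem subst_pair_subst {f g : MvPowerSeries σ R} (hf : PowerSeries.HasSubst f)
    (hg : PowerSeries.HasSubst g) {x : σ → MvPowerSeries τ R} (hx : MvPowerSeries.HasSubst x)
    (P : MvPowerSeries (Fin 2) R) :
    subst x (subst ![f, g] P) = subst ![subst x f, subst x g] P := by
  rw [subst_comp_subst_apply (hasSubst_pair hf hg) hx]
  congr 1
  funext s
  fin_cases s <;> rfl

theorem psubst_pair {f g : PowerSeries R} (hf : PowerSeries.HasSubst f)
    (hg : PowerSeries.HasSubst g) {x : MvPowerSeries τ R} (hx : PowerSeries.HasSubst x)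
    (P : MvPowerSeries (Fin 2) R) :
    PowerSeries.subst x (subst ![f, g] P : PowerSeries R) =
      subst ![PowerSeries.subst x f, PowerSeries.subst x g] P :=
  subst_pair_subst hf hg hx.const P

theorem subst_psubst {a : MvPowerSeries σ R} (ha : PowerSeries.HasSubst a)
    {x : σ → MvPowerSeries τ R} (hx : MvPowerSeries.HasSubst x) (f : PowerSeries R) :
    subst x (PowerSeries.subst a f) = PowerSeries.subst (subst x a) f :=
  MvPowerSeries.subst_comp_subst_apply ha.const hx f

theorem pair_X : (![X 0, X 1] : Fin 2 → MvPowerSeries (Fin 2) R) = MvPowerSeries.X := by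
  funext s
  fin_cases s <;> rfl

theorem subst_pair_X (P : MvPowerSeries (Fin 2) R) :
    subst ![X 0, X 1] P = P := by
  rw [pair_X, subst_self]
  rfl

theorem hasSubst_X (s : σ) : PowerSeries.HasSubst (X s : MvPowerSeries σ R) :=
  PowerSeries.HasSubst.X s

theorem hasSubst_F (F : FormalGroup R) : PowerSeries.HasSubst F.toPowerSeries :=
  PowerSeries.HasSubst.of_constantCoeff_zero F.zero_constantCoeff

end tools

section inverse
variable {R : Type*} [CommRing R]

theorem coeff_single_one (F : FormalGroup R) (n : ℕ) :
    MvPowerSeries.coeff (Finsupp.single 1 n) F.toPowerSeries = if n = 1 then 1 else 0 := by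
  have hs : MvPowerSeries.HasSubst (![0, PowerSeries.X] : Fin 2 → PowerSeries R) :=
    HasSubst.zero_X
  have h : MvPowerSeries.coeff (Finsupp.single () n)
      (subst ![0, PowerSeries.X] F.toPowerSeries : PowerSeries R) =
      PowerSeries.coeff n (PowerSeries.X : PowerSeries R) :=
    congrArg (PowerSeries.coeff n) F.zeroX_eq_X
  rw [PowerSeries.coeff_X, coeff_subst hs, finsum_eq_single _ (Finsupp.single 1 n)] at h
  · rw [← h]
    simp [Finsupp.prod_single_index, PowerSeries.X, X_pow_eq]
  · intro d hd
    by_cases hd₁ : d 0 = 0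
    · by_cases hd₂ : d 1 = n
      · exfalso
        apply hd
        ext s
        fin_cases s
        · simp [hd₁]
        · simp [hd₂]
      · have h1 : (d.prod fun s e => (![0, PowerSeries.X] s : PowerSeries R) ^ e) =
            PowerSeries.X ^ (d 1) := by
          rw [Finsupp.prod_fintype _ _ (by simp)]
          simp [hd₁]
        have h2 : MvPowerSeries.coeff (Finsupp.single () n)
            (d.prod fun s e => (![0, PowerSeries.X] s : PowerSeries R) ^ e) = 0 := by
          rw [h1]
          have := PowerSeries.coeff_X_pow (R := R) n (d 1)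
          rw [PowerSeries.coeff] at this
          rw [this, if_neg (fun h => hd₂ h.symm)]
        rw [h2, smul_zero]
    · have h1 : (d.prod fun s e => (![0, PowerSeries.X] s : PowerSeries R) ^ e) = 0 := by
        rw [Finsupp.prod_fintype _ _ (by simp)]
        simp [hd₁]
      rw [h1]
      simp

theorem coeff_single_zero (F : FormalGroup R) (n : ℕ) :
    MvPowerSeries.coeff (Finsupp.single 0 n) F.toPowerSeries = if n = 1 then 1 else 0 := by
  have hs : MvPowerSeries.HasSubst (![PowerSeries.X, 0] : Fin 2 → PowerSeries R) :=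
    HasSubst.X_zero
  have h : MvPowerSeries.coeff (Finsupp.single () n)
      (subst ![PowerSeries.X, 0] F.toPowerSeries : PowerSeries R) =
      PowerSeries.coeff n (PowerSeries.X : PowerSeries R) :=
    congrArg (PowerSeries.coeff n) F.Xzero_eq_X
  rw [PowerSeries.coeff_X, coeff_subst hs, finsum_eq_single _ (Finsupp.single 0 n)] at h
  · rw [← h]
    simp [Finsupp.prod_single_index, PowerSeries.X, X_pow_eq]
  · intro d hd
    by_cases hd₁ : d 1 = 0
    · by_cases hd₂ : d 0 = n
      · exfalso
        apply hd
        ext s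
        fin_cases s
        · simp [hd₂]
        · simp [hd₁]
      · have h1 : (d.prod fun s e => (![PowerSeries.X, 0] s : PowerSeries R) ^ e) =
            PowerSeries.X ^ (d 0) := by
          rw [Finsupp.prod_fintype _ _ (by simp)]
          simp [hd₁]
        have h2 : MvPowerSeries.coeff (Finsupp.single () n)
            (d.prod fun s e => (![PowerSeries.X, 0] s : PowerSeries R) ^ e) = 0 := by
          rw [h1]
          have := PowerSeries.coeff_X_pow (R := R) n (d 0)
          rw [PowerSeries.coeff] at this
          rw [this, if_neg (fun h => hd₂ h.symm)]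
        rw [h2, smul_zero]
    · have h1 : (d.prod fun s e => (![PowerSeries.X, 0] s : PowerSeries R) ^ e) = 0 := by
        rw [Finsupp.prod_fintype _ _ (by simp)]
        simp [hd₁]
      rw [h1]
      simp

/-- The series `F(X,Y)` has no other terms than `X`, `Y` and multiples of `XY`. -/
theorem exists_toPowerSeries_eq (F : FormalGroup R) : ∃ H : MvPowerSeries (Fin 2) R,
    F.toPowerSeries = X 0 + X 1 + X 0 * X 1 * H := by
  have h01 : ∀ n : ℕ, ¬ (Finsupp.single (1 : Fin 2) n = Finsupp.single 0 1) := by
    intro n h
    have := DFunLike.congr_fun h 0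
    simp at this
  have h10 : ∀ n : ℕ, ¬ (Finsupp.single (0 : Fin 2) n = Finsupp.single 1 1) := by
    intro n h
    have := DFunLike.congr_fun h 1
    simp at this
  have h11 : ∀ (s : Fin 2) (n : ℕ), (Finsupp.single s n = Finsupp.single s 1) ↔ n = 1 := by
    intro s n
    constructor
    · intro h
      have := DFunLike.congr_fun h s
      simpa using this
    · rintro rfl
      rfl
  have h0 : (X 0 : MvPowerSeries (Fin 2) R) ∣ F.toPowerSeries - X 0 - X 1 := by
    rw [X_dvd_iff]
    intro m hm
    obtain ⟨n, rfl⟩ : ∃ n, m = Finsupp.single 1 n := ⟨m 1, by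
      ext s
      fin_cases s
      · simp [hm]
      · simp⟩
    rw [map_sub, map_sub, coeff_single_one, coeff_X, coeff_X, if_neg (h01 n)]
    by_cases h : n = 1
    · subst h
      simp
    · rw [if_neg h, if_neg (fun h' => h ((h11 1 n).1 h'))]
      simp
  obtain ⟨G, hG⟩ := h0
  have h1 : (X 1 : MvPowerSeries (Fin 2) R) ∣ G := by
    rw [X_dvd_iff]
    intro m hm
    have h2 : MvPowerSeries.coeff (Finsupp.single 0 1 + m) (X 0 * G) =
        MvPowerSeries.coeff m G := by
      rw [X, coeff_add_monomial_mul, one_mul]
    rw [← h2, ← hG]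
    obtain ⟨n, rfl⟩ : ∃ n, m = Finsupp.single 0 n := ⟨m 0, by
      ext s
      fin_cases s
      · simp
      · simp [hm]⟩
    rw [← Finsupp.single_add, map_sub, map_sub, coeff_single_zero, coeff_X, coeff_X,
      if_neg (h10 (1 + n))]
    by_cases h : 1 + n = 1
    · rw [h]
      simp
    · rw [if_neg h, if_neg (fun h' => h ((h11 0 (1 + n)).1 h'))]
      simp
  obtain ⟨H, rfl⟩ := h1
  refine ⟨H, ?_⟩
  have h3 : F.toPowerSeries = (F.toPowerSeries - X 0 - X 1) + (X 0 + X 1) := by ring
  rw [h3, hG]
  ring

/-- `F(a,b) = a + b + a b H(a,b)` -/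
theorem subst_pair_eq {F : FormalGroup R} {H : MvPowerSeries (Fin 2) R}
    (hH : F.toPowerSeries = X 0 + X 1 + X 0 * X 1 * H) {σ : Type*} {a b : MvPowerSeries σ R}
    (ha : PowerSeries.HasSubst a) (hb : PowerSeries.HasSubst b) :
    subst ![a, b] F.toPowerSeries = a + b + a * b * subst ![a, b] H := by
  have h := hasSubst_pair ha hb
  rw [hH, subst_add h, subst_add h, subst_mul h, subst_mul h, subst_X h, subst_X h]
  rfl

theorem dvd_subst_sub (P : MvPowerSeries (Fin 2) R) {a b : PowerSeries R}
    (ha : PowerSeries.constantCoeff a = 0) (hb : PowerSeries.constantCoeff b = 0) (m : ℕ)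
    (h : PowerSeries.X ^ m ∣ a - b) :
    PowerSeries.X ^ m ∣ ((subst ![PowerSeries.X, a] P : PowerSeries R) -
      subst ![PowerSeries.X, b] P) := by
  have hs : ∀ c : PowerSeries R, PowerSeries.constantCoeff c = 0 →
      MvPowerSeries.HasSubst (![PowerSeries.X, c] : Fin 2 → PowerSeries R) := fun c hc =>
    hasSubst_pair PowerSeries.HasSubst.X' (PowerSeries.HasSubst.of_constantCoeff_zero' hc)
  rw [PowerSeries.X_pow_dvd_iff]
  intro e he
  rw [map_sub, sub_eq_zero, PowerSeries.coeff, coeff_subst (hs a ha), coeff_subst (hs b hb)]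
  refine finsum_congr fun d => ?_
  congr 1
  have h1 : ∀ c : PowerSeries R, (d.prod fun s e => (![PowerSeries.X, c] s : PowerSeries R) ^ e) =
      PowerSeries.X ^ (d 0) * c ^ (d 1) := fun c => by
    rw [Finsupp.prod_fintype _ _ (by simp)]
    simp
  rw [h1, h1, ← sub_eq_zero, ← map_sub, ← mul_sub]
  have h2 : PowerSeries.X ^ m ∣ PowerSeries.X ^ (d 0) * (a ^ (d 1) - b ^ (d 1)) :=
    (h.trans (sub_dvd_pow_sub_pow a b _)).mul_left _
  exact PowerSeries.X_pow_dvd_iff.1 h2 e he

/-- approximations of the inverse series -/
noncomputable def invApprox (F : FormalGroup R) : ℕ → PowerSeries R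
  | 0 => 0
  | n + 1 => invApprox F n - (subst ![PowerSeries.X, invApprox F n] F.toPowerSeries :
      PowerSeries R)

theorem invApprox_spec (F : FormalGroup R) (n : ℕ) :
    PowerSeries.constantCoeff (invApprox F n) = 0 ∧
    PowerSeries.X ^ (n + 1) ∣ (subst ![PowerSeries.X, invApprox F n] F.toPowerSeries :
      PowerSeries R) := by
  obtain ⟨H, hH⟩ := exists_toPowerSeries_eq F
  have hX : PowerSeries.HasSubst (PowerSeries.X : PowerSeries R) := PowerSeries.HasSubst.X'
  induction n with
  | zero =>
    refine ⟨by simp [invApprox], ?_⟩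
    rw [invApprox]
    have : (subst ![PowerSeries.X, 0] F.toPowerSeries : PowerSeries R) = PowerSeries.X :=
      F.Xzero_eq_X
    rw [this]
    simp
  | succ n ih =>
    obtain ⟨h0, h1⟩ := ih
    have hr0 : PowerSeries.constantCoeff
        (subst ![PowerSeries.X, invApprox F n] F.toPowerSeries : PowerSeries R) = 0 := by
      rw [← PowerSeries.coeff_zero_eq_constantCoeff_apply]
      exact PowerSeries.X_pow_dvd_iff.1 h1 0 (by omega)
    have h0' : PowerSeries.constantCoeff (invApprox F (n + 1)) = 0 := by
      rw [invApprox, map_sub, h0, hr0, sub_zero]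
    refine ⟨h0', ?_⟩
    have hn := PowerSeries.HasSubst.of_constantCoeff_zero' h0
    have hn' := PowerSeries.HasSubst.of_constantCoeff_zero' h0'
    have hd : PowerSeries.X ^ (n + 1) ∣ invApprox F (n + 1) - invApprox F n := by
      rw [invApprox, sub_sub_cancel_left]
      exact h1.neg_right
    have e1 := subst_pair_eq hH hX hn
    have e2 := subst_pair_eq hH hX hn'
    have e3 : invApprox F (n + 1) = invApprox F n -
      (subst ![PowerSeries.X, invApprox F n] F.toPowerSeries : PowerSeries R) := rfl
    have hd2 := dvd_subst_sub H h0' h0 (n + 1) hd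
    have e4 : (subst ![PowerSeries.X, invApprox F (n + 1)] F.toPowerSeries : PowerSeries R) =
        PowerSeries.X * ((invApprox F (n + 1) - invApprox F n) *
          (subst ![PowerSeries.X, invApprox F (n + 1)] H : PowerSeries R) +
          invApprox F n * ((subst ![PowerSeries.X, invApprox F (n + 1)] H : PowerSeries R) -
          subst ![PowerSeries.X, invApprox F n] H)) := by
      rw [e2]
      have e5 : (PowerSeries.X : PowerSeries R) + invApprox F (n + 1) =
          - (PowerSeries.X * invApprox F n *
            (subst ![PowerSeries.X, invApprox F n] H : PowerSeries R)) := by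
        rw [e3, e1]
        ring
      rw [e5]
      ring
    rw [e4, pow_succ']
    refine mul_dvd_mul_left _ (dvd_add (hd.mul_right _) (hd2.mul_left _))

theorem coeff_invApprox (F : FormalGroup R) {n k : ℕ} (h : n ≤ k) :
    PowerSeries.coeff n (invApprox F k) = PowerSeries.coeff n (invApprox F n) := by
  induction k, h using Nat.le_induction with
  | base => rfl
  | succ k hk ih =>
    rw [invApprox, map_sub, ih, PowerSeries.X_pow_dvd_iff.1 (invApprox_spec F k).2 n (by omega),
      sub_zero]

theorem exists_invSeries (F : FormalGroup R) : ∃ i : PowerSeries R,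
    PowerSeries.constantCoeff i = 0 ∧
    MvPowerSeries.subst ![(PowerSeries.X : PowerSeries R), i] F.toPowerSeries =
      (0 : PowerSeries R) := by
  set i : PowerSeries R := PowerSeries.mk fun n => PowerSeries.coeff n (invApprox F n) with hi
  have h0 : PowerSeries.constantCoeff i = 0 := by
    rw [← PowerSeries.coeff_zero_eq_constantCoeff_apply, hi, PowerSeries.coeff_mk,
      PowerSeries.coeff_zero_eq_constantCoeff_apply]
    exact (invApprox_spec F 0).1
  refine ⟨i, h0, ?_⟩
  have hd : ∀ n, PowerSeries.X ^ (n + 1) ∣ i - invApprox F n := by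
    intro n
    rw [PowerSeries.X_pow_dvd_iff]
    intro m hm
    rw [map_sub, hi, PowerSeries.coeff_mk, coeff_invApprox F (by omega : m ≤ n), sub_self]
  ext n
  have h1 := dvd_subst_sub F.toPowerSeries h0 (invApprox_spec F n).1 (n + 1) (hd n)
  have h2 := dvd_add h1 (invApprox_spec F n).2
  rw [sub_add_cancel] at h2
  rw [PowerSeries.X_pow_dvd_iff.1 h2 n (by omega)]
  simp

end inverse

section formal
variable {R : Type*} [CommRing R]

/-- the inverse series of a formal group law -/
noncomputable def invSeries (F : FormalGroup R) : PowerSeries R :=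
  Classical.choose (exists_invSeries F)

theorem invSeries_constantCoeff (F : FormalGroup R) :
    PowerSeries.constantCoeff (invSeries F) = 0 := (Classical.choose_spec (exists_invSeries F)).1

theorem invSeries_spec (F : FormalGroup R) :
    MvPowerSeries.subst ![(PowerSeries.X : PowerSeries R), invSeries F] F.toPowerSeries =
      (0 : PowerSeries R) := (Classical.choose_spec (exists_invSeries F)).2

noncomputable instance (F : FormalGroup R) (σ : Type*) : Neg (F.Point σ) where
  neg x := ⟨(invSeries F).subst x.val, hasSubst_psubst x.prop (invSeries_constantCoeff F)⟩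

theorem Point.neg_val {F : FormalGroup R} {σ : Type*} (x : F.Point σ) :
    (-x).val = (invSeries F).subst x.val := rfl

theorem Point.add_neg {F : FormalGroup R} {σ : Type*} (x : F.Point σ) : x + -x = 0 := by
  apply Subtype.ext
  rw [FormalGroup.add_apply, Point.neg_val, FormalGroup.zero_apply]
  have h := congrArg (PowerSeries.subst x.val) (invSeries_spec F)
  rw [psubst_pair PowerSeries.HasSubst.X'
    (PowerSeries.HasSubst.of_constantCoeff_zero' (invSeries_constantCoeff F)) x.prop,
    PowerSeries.subst_X x.prop] at h
  rw [h, ← PowerSeries.coe_substAlgHom x.prop, map_zero]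

noncomputable instance (F : FormalGroup R) [F.IsComm] (σ : Type*) : AddCommGroup (F.Point σ) where
  __ := (inferInstance : AddCommMonoid (F.Point σ))
  neg := Neg.neg
  zsmul := zsmulRec
  neg_add_cancel x := by
    have h : ∀ y z : F.Point σ, y + z = z + y := fun y z =>
      (inferInstance : AddCommMonoid (F.Point σ)).add_comm y z
    exact (h (-x) x).trans (Point.add_neg x)

theorem subst_zero' {σ : Type*} {a : MvPowerSeries σ R} (ha : PowerSeries.HasSubst a) :
    PowerSeries.subst a (0 : PowerSeries R) = 0 := by
  rw [← PowerSeries.coe_substAlgHom ha, map_zero]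

theorem mulSeries_zero (F : FormalGroup R) : mulSeries F 0 = 0 := by
  rw [mulSeries, zero_nsmul]
  rfl

theorem mulSeries_succ (F : FormalGroup R) (m : ℕ) :
    mulSeries F (m + 1) = subst ![mulSeries F m, PowerSeries.X] F.toPowerSeries := by
  rw [mulSeries, succ_nsmul]
  rfl

theorem mulSeries_constantCoeff (F : FormalGroup R) (m : ℕ) :
    PowerSeries.constantCoeff (mulSeries F m) = 0 := by
  induction m with
  | zero => rw [mulSeries_zero, map_zero]
  | succ m ih =>
    rw [mulSeries_succ]
    obtain ⟨H, hH⟩ := exists_toPowerSeries_eq F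
    rw [subst_pair_eq hH (PowerSeries.HasSubst.of_constantCoeff_zero' ih) PowerSeries.HasSubst.X',
      map_add, map_add, map_mul, map_mul, ih]
    simp

theorem hasSubst_mulSeries (F : FormalGroup R) (m : ℕ) : PowerSeries.HasSubst (mulSeries F m) :=
  PowerSeries.HasSubst.of_constantCoeff_zero' (mulSeries_constantCoeff F m)

theorem mulSeries_coeff_one (F : FormalGroup R) (m : ℕ) :
    PowerSeries.coeff 1 (mulSeries F m) = m := by
  induction m with
  | zero => rw [mulSeries_zero, map_zero, Nat.cast_zero]
  | succ m ih =>
    rw [mulSeries_succ]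
    obtain ⟨H, hH⟩ := exists_toPowerSeries_eq F
    rw [subst_pair_eq hH (hasSubst_mulSeries F m) PowerSeries.HasSubst.X', map_add, map_add, ih]
    have h : PowerSeries.X ^ 2 ∣ mulSeries F m * PowerSeries.X *
        (subst ![mulSeries F m, PowerSeries.X] H : PowerSeries R) := by
      have h1 : PowerSeries.X ∣ mulSeries F m :=
        PowerSeries.X_dvd_iff.2 (mulSeries_constantCoeff F m)
      rw [pow_two]
      exact (mul_dvd_mul h1 (dvd_refl _)).mul_right _
    rw [PowerSeries.X_pow_dvd_iff.1 h 1 (by norm_num)]
    simp

/-- `m • x = [m]_F(x)` for formal points. -/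
theorem Point.nsmul_val {F : FormalGroup R} {σ : Type*} (m : ℕ) (x : F.Point σ) :
    (m • x).val = (mulSeries F m).subst x.val := by
  induction m with
  | zero =>
    rw [zero_nsmul, mulSeries_zero, subst_zero' x.prop]
    rfl
  | succ m ih =>
    rw [succ_nsmul, FormalGroup.add_apply, ih, mulSeries_succ,
      psubst_pair (hasSubst_mulSeries F m) PowerSeries.HasSubst.X' x.prop,
      PowerSeries.subst_X x.prop]

theorem map_subst_pair {S : Type*} [CommRing S] (φ : R →+* S) {σ : Type*}
    {a b : MvPowerSeries σ R} (ha : PowerSeries.HasSubst a) (hb : PowerSeries.HasSubst b)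
    (P : MvPowerSeries (Fin 2) R) :
    (subst ![a, b] P).map φ = subst ![a.map φ, b.map φ] (P.map φ) := by
  rw [map_subst (hasSubst_pair ha hb)]
  congr 1
  funext s
  fin_cases s <;> rfl

theorem mulSeries_map {S : Type*} [CommRing S] (φ : R →+* S) (F : FormalGroup R) (m : ℕ) :
    mulSeries (F.map φ) m = (mulSeries F m).map φ := by
  induction m with
  | zero => rw [mulSeries_zero, mulSeries_zero, map_zero]
  | succ m ih =>
    rw [mulSeries_succ, mulSeries_succ, ih]
    have h := map_subst_pair φ (hasSubst_mulSeries F m)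
      (PowerSeries.HasSubst.X' : PowerSeries.HasSubst (PowerSeries.X : PowerSeries R))
      F.toPowerSeries
    have hX : MvPowerSeries.map φ (PowerSeries.X : PowerSeries R) = PowerSeries.X :=
      PowerSeries.map_X φ
    rw [hX] at h
    exact h.symm

instance {S : Type*} [CommRing S] (φ : R →+* S) (F : FormalGroup R) [F.IsComm] :
    (F.map φ).IsComm where
  comm := by
    have h := congrArg (MvPowerSeries.map φ) (FormalGroup.IsComm.comm (F := F))
    rw [map_subst_pair φ (hasSubst_X 1) (hasSubst_X 0), map_X, map_X] at h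
    exact h

/-- a homomorphism applied to a formal sum -/
theorem IsHom.apply {F G : FormalGroup R} {f : PowerSeries R} (hf : IsHom F G f) {σ : Type*}
    {a b : MvPowerSeries σ R} (ha : PowerSeries.HasSubst a) (hb : PowerSeries.HasSubst b) :
    PowerSeries.subst (subst ![a, b] F.toPowerSeries) f =
      subst ![PowerSeries.subst a f, PowerSeries.subst b f] G.toPowerSeries := by
  have hab := hasSubst_pair ha hb
  have h := congrArg (subst ![a, b]) hf.2
  rw [subst_psubst (hasSubst_F F) hab, subst_pair_subst (hasSubst_psubst (hasSubst_X 0) hf.1)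
    (hasSubst_psubst (hasSubst_X 1) hf.1) hab, subst_psubst (hasSubst_X 0) hab,
    subst_psubst (hasSubst_X 1) hab, subst_X hab, subst_X hab] at h
  exact h

/-- `[m]_F` is an endomorphism of `F`. -/
theorem isHom_mulSeries (F : FormalGroup R) [F.IsComm] (m : ℕ) : IsHom F F (mulSeries F m) := by
  refine ⟨mulSeries_constantCoeff F m, ?_⟩
  let P0 : F.Point (Fin 2) := ⟨X 0, hasSubst_X 0⟩
  let P1 : F.Point (Fin 2) := ⟨X 1, hasSubst_X 1⟩
  have h : m • (P0 + P1) = m • P0 + m • P1 := nsmul_add P0 P1 m
  have h' := congrArg Subtype.val h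
  rw [FormalGroup.add_apply, Point.nsmul_val, Point.nsmul_val, Point.nsmul_val,
    FormalGroup.add_apply] at h'
  have h2 : subst ![P0.val, P1.val] F.toPowerSeries = F.toPowerSeries :=
    subst_pair_X F.toPowerSeries
  rw [h2] at h'
  exact h'

theorem hasSubst_of_isHom {F G : FormalGroup R} {f : PowerSeries R} (hf : IsHom F G f) :
    PowerSeries.HasSubst f := PowerSeries.HasSubst.of_constantCoeff_zero' hf.1

theorem IsHom.comp {F G H : FormalGroup R} {f g : PowerSeries R} (hf : IsHom F G f)
    (hg : IsHom G H g) : IsHom F H (g.subst f) := by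
  have hf' := hasSubst_of_isHom hf
  refine ⟨?_, ?_⟩
  · exact PowerSeries.constantCoeff_subst_eq_zero hf.1 _ hg.1
  · rw [PowerSeries.subst_comp_subst_apply hf' (hasSubst_F F),
      PowerSeries.subst_comp_subst_apply hf' (hasSubst_X 0),
      PowerSeries.subst_comp_subst_apply hf' (hasSubst_X 1), hf.2]
    exact hg.apply (hasSubst_psubst (hasSubst_X 0) hf.1) (hasSubst_psubst (hasSubst_X 1) hf.1)

theorem IsHom.map {S : Type*} [CommRing S] (φ : R →+* S) {F G : FormalGroup R}
    {f : PowerSeries R} (hf : IsHom F G f) : IsHom (F.map φ) (G.map φ) (f.map φ) := by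
  refine ⟨?_, ?_⟩
  · rw [← PowerSeries.coeff_zero_eq_constantCoeff_apply, PowerSeries.coeff_map,
      PowerSeries.coeff_zero_eq_constantCoeff_apply, hf.1, map_zero]
  · have h := congrArg (MvPowerSeries.map φ) hf.2
    rw [PowerSeries.map_subst (hasSubst_F F), map_subst_pair φ
      (hasSubst_psubst (hasSubst_X 0) hf.1) (hasSubst_psubst (hasSubst_X 1) hf.1),
      PowerSeries.map_subst (hasSubst_X 0), PowerSeries.map_subst (hasSubst_X 1), map_X,
      map_X] at h
    exact h

theorem isHom_X (F : FormalGroup R) : IsHom F F PowerSeries.X := by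
  refine ⟨by simp, ?_⟩
  rw [PowerSeries.subst_X (hasSubst_F F), PowerSeries.subst_X (hasSubst_X 0),
    PowerSeries.subst_X (hasSubst_X 1), subst_pair_X]

/-- a homomorphism commutes with multiplication by `m`, as series -/
theorem IsHom.comp_mulSeries {F G : FormalGroup R} {f : PowerSeries R} (hf : IsHom F G f)
    (m : ℕ) : f.subst (mulSeries F m) = (mulSeries G m).subst f := by
  have hf' := hasSubst_of_isHom hf
  induction m with
  | zero =>
    rw [mulSeries_zero, mulSeries_zero, subst_zero' hf',
      PowerSeries.subst_zero_of_constantCoeff_zero hf.1]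
  | succ m ih =>
    rw [mulSeries_succ, mulSeries_succ,
      psubst_pair (hasSubst_mulSeries G m) PowerSeries.HasSubst.X' hf',
      PowerSeries.subst_X hf', ← ih]
    have h := hf.apply (hasSubst_mulSeries F m)
      (PowerSeries.HasSubst.X' : PowerSeries.HasSubst (PowerSeries.X : PowerSeries R))
    have hX : PowerSeries.subst (PowerSeries.X : PowerSeries R) f = f := PowerSeries.X_subst f
    rw [h, hX]

/-- a homomorphism induces additive maps on formal points -/
noncomputable def Point.hom {F G : FormalGroup R} [F.IsComm] [G.IsComm] {f : PowerSeries R}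
    (hf : IsHom F G f) (σ : Type*) : F.Point σ →+ G.Point σ where
  toFun x := ⟨f.subst x.val, hasSubst_psubst x.prop hf.1⟩
  map_zero' := by
    apply Subtype.ext
    exact PowerSeries.subst_zero_of_constantCoeff_zero hf.1
  map_add' x y := by
    apply Subtype.ext
    exact hf.apply x.prop y.prop

end formal

end Vale.Agent.P217
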