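import Mathlib.RingTheory.PowerSeries.Derivative
import Mathlib.RingTheory.PowerSeries.Expand
import Mathlib.RingTheory.PowerSeries.Inverse
import Vale.Agent.Lib.P217.Formal

/-!
# P217: invariant differential, factorization of `[p]` through Frobenius (module A3)

* `hom_derivative`: differentiate `f(F(X,Y)) = G(f(X), f(Y))` with respect to `Y` at `Y = 0`:
  `f'(X) (∂_2 F)(X,0) = (∂_2 G)(f(X),0) f'(0)`.
* `exists_frobenius_factor`: more generally if `f : F → G` is a homomorphism over a ring of
  characteristic `p` and all coefficients of `f` in degrees `< p^h` vanish then `f = V(X^{p^h})`: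
  induction on `h`: for `h ≥ 1`, `f'(0) = 0` so `f' = 0` so `f = f_1(X^p)`, and `f_1` is a homomorphism
  `F^{(p)} → G` (compare `f_1(F^{(p)}(X^p,Y^p)) = f_1(F(X,Y)^p)`; substitution of `X^p, Y^p` is
  injective) whose coefficients in degrees `< p^{h-1}` vanish.
-/

set_option linter.unusedSectionVars false

namespace Vale.Agent.P217

open MvPowerSeries

section
variable {R : Type*} [CommRing R]

/-- `(∂_2 F)(X, 0)` -/
noncomputable def dser (F : FormalGroup R) : PowerSeries R :=
  PowerSeries.mk fun i => coeff (Finsupp.single (0 : Fin 2) i + Finsupp.single 1 1) F.toPowerSeries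

theorem dser_constantCoeff (F : FormalGroup R) : PowerSeries.constantCoeff (dser F) = 1 := by
  rw [← PowerSeries.coeff_zero_eq_constantCoeff_apply, dser, PowerSeries.coeff_mk,
    Finsupp.single_zero, zero_add, coeff_single_one, if_pos rfl]

/-- The coefficients of a series in the first variable only. -/
theorem ff_coeff_subst_X0_of_ne {a : PowerSeries R} {m : Fin 2 →₀ ℕ} (hm : m 1 ≠ 0) :
    coeff m (PowerSeries.subst (X 0 : MvPowerSeries (Fin 2) R) a) = 0 := by
  rw [PowerSeries.coeff_subst_single, if_neg]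
  intro h
  apply hm
  rw [h]
  simp

theorem ff_coeff_subst_X0 (a : PowerSeries R) (i : ℕ) :
    coeff (Finsupp.single (0 : Fin 2) i) (PowerSeries.subst (X 0 : MvPowerSeries (Fin 2) R) a) =
      PowerSeries.coeff i a := by
  rw [PowerSeries.coeff_subst_single]
  simp

theorem ff_coeff_X1_mul_subst_X0 (a : PowerSeries R) (i : ℕ) :
    coeff (Finsupp.single (0 : Fin 2) i + Finsupp.single 1 1)
      (X 1 * PowerSeries.subst (X 0 : MvPowerSeries (Fin 2) R) a) = PowerSeries.coeff i a := by
  rw [add_comm, X, coeff_add_monomial_mul, one_mul, ff_coeff_subst_X0]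

theorem ff_coeff_X1_mul_zero (P : MvPowerSeries (Fin 2) R) {m : Fin 2 →₀ ℕ} (hm : m 1 = 0) :
    coeff m (X 1 * P) = 0 := by
  have h : (X 1 : MvPowerSeries (Fin 2) R) ∣ X 1 * P := dvd_mul_right _ _
  exact X_dvd_iff.1 h m hm

theorem ff_eq_single_of_one_zero {m : Fin 2 →₀ ℕ} (hm : m 1 = 0) :
    m = Finsupp.single (0 : Fin 2) (m 0) := by
  ext s
  fin_cases s
  · simp
  · simp [hm]

theorem ff_eq_single_of_one_one {m : Fin 2 →₀ ℕ} (hm : m 1 = 1) :
    m = Finsupp.single (0 : Fin 2) (m 0) + Finsupp.single 1 1 := by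
  ext s
  fin_cases s
  · simp
  · simp [hm]

/-- expansion modulo the square of the second variable -/
theorem ff_dvd_iff_slices (P : MvPowerSeries (Fin 2) R) (a b : PowerSeries R) :
    X 1 ^ 2 ∣ P - (PowerSeries.subst (X 0 : MvPowerSeries (Fin 2) R) a +
      X 1 * PowerSeries.subst (X 0 : MvPowerSeries (Fin 2) R) b) ↔
    (∀ i, coeff (Finsupp.single (0 : Fin 2) i) P = PowerSeries.coeff i a) ∧
    (∀ i, coeff (Finsupp.single (0 : Fin 2) i + Finsupp.single 1 1) P =
      PowerSeries.coeff i b) := by
  rw [X_pow_dvd_iff]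
  constructor
  · intro h
    constructor
    · intro i
      have := h (Finsupp.single 0 i) (by simp)
      rw [map_sub, map_add, ff_coeff_subst_X0, ff_coeff_X1_mul_zero _ (by simp), add_zero,
        sub_eq_zero] at this
      exact this
    · intro i
      have := h (Finsupp.single 0 i + Finsupp.single 1 1) (by simp)
      rw [map_sub, map_add, ff_coeff_X1_mul_subst_X0, ff_coeff_subst_X0_of_ne (by simp), zero_add,
        sub_eq_zero] at this
      exact this
  · rintro ⟨h0, h1⟩ m hm
    have : m 1 = 0 ∨ m 1 = 1 := by omega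
    rcases this with h | h
    · rw [ff_eq_single_of_one_zero h, map_sub, map_add, ff_coeff_subst_X0,
        ff_coeff_X1_mul_zero _ (by simp), add_zero, h0, sub_self]
    · rw [ff_eq_single_of_one_one h, map_sub, map_add, ff_coeff_X1_mul_subst_X0,
        ff_coeff_subst_X0_of_ne (by simp), zero_add, h1, sub_self]

theorem ff_slices_F (F : FormalGroup R) : X 1 ^ 2 ∣ F.toPowerSeries -
    ((X 0 : MvPowerSeries (Fin 2) R) +
      X 1 * PowerSeries.subst (X 0 : MvPowerSeries (Fin 2) R) (dser F)) := by
  have h := (ff_dvd_iff_slices F.toPowerSeries PowerSeries.X (dser F)).2 ⟨?_, ?_⟩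
  · rwa [PowerSeries.subst_X (hasSubst_X 0)] at h
  · intro i
    rw [coeff_single_zero, PowerSeries.coeff_X]
  · intro i
    rw [dser, PowerSeries.coeff_mk]

/-- Taylor expansion to order two, universal case -/
theorem ff_taylor_two (f : PowerSeries R) : X 1 ^ 2 ∣
    PowerSeries.subst (X 0 + X 1 : MvPowerSeries (Fin 2) R) f -
      (PowerSeries.subst (X 0 : MvPowerSeries (Fin 2) R) f +
      X 1 * PowerSeries.subst (X 0 : MvPowerSeries (Fin 2) R) (PowerSeries.derivative R f)) := by
  rw [ff_dvd_iff_slices]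
  constructor
  · intro i
    have := PowerSeries.coeff_subst_X_zero_add_X_one f (Finsupp.single (0 : Fin 2) i)
    rw [this]
    simp
  · intro i
    have := PowerSeries.coeff_subst_X_zero_add_X_one f
      (Finsupp.single (0 : Fin 2) i + Finsupp.single 1 1)
    rw [this, PowerSeries.coeff_derivative]
    simp
    ring

/-- Taylor expansion to order two -/
theorem ff_taylor_two' (f : PowerSeries R) {σ : Type*} {a b : MvPowerSeries σ R}
    (ha : PowerSeries.HasSubst a) (hb : PowerSeries.HasSubst b) : b ^ 2 ∣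
    PowerSeries.subst (a + b) f -
      (PowerSeries.subst a f + b * PowerSeries.subst a (PowerSeries.derivative R f)) := by
  obtain ⟨K, hK⟩ := ff_taylor_two f
  have hab := hasSubst_pair ha hb
  refine ⟨subst ![a, b] K, ?_⟩
  have h := congrArg (substAlgHom hab) hK
  simp only [map_sub, map_add, map_mul, map_pow] at h
  rw [substAlgHom_X] at h
  simp only [substAlgHom_apply] at h
  have h01 : PowerSeries.HasSubst (X 0 + X 1 : MvPowerSeries (Fin 2) R) :=
    PowerSeries.HasSubst.add (hasSubst_X 0) (hasSubst_X 1)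
  rw [subst_psubst h01 hab, subst_psubst (hasSubst_X 0) hab, subst_psubst (hasSubst_X 0) hab,
    subst_add hab, subst_X hab, subst_X hab] at h
  exact h

theorem hom_derivative {F G : FormalGroup R} {f : PowerSeries R} (hf : IsHom F G f) :
    PowerSeries.derivative R f * dser F =
      PowerSeries.C (PowerSeries.coeff 1 f) * (dser G).subst f := by
  have hf' := hasSubst_of_isHom hf
  set s0 : PowerSeries R → MvPowerSeries (Fin 2) R := fun g =>
    PowerSeries.subst (X 0 : MvPowerSeries (Fin 2) R) g with hs0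
  have hx0 : PowerSeries.HasSubst (X 0 : MvPowerSeries (Fin 2) R) := hasSubst_X 0
  have hx1 : PowerSeries.HasSubst (X 1 : MvPowerSeries (Fin 2) R) := hasSubst_X 1
  -- left side
  obtain ⟨KF, hKF⟩ := ff_slices_F F
  have hb : PowerSeries.HasSubst (X 1 * (s0 (dser F) + X 1 * KF)) := hx1.mul_left
  have hF : F.toPowerSeries = X 0 + X 1 * (s0 (dser F) + X 1 * KF) := by
    rw [sub_eq_iff_eq_add] at hKF
    rw [hKF]
    ring
  obtain ⟨L, hL⟩ := ff_taylor_two' f hx0 hb
  have left : X 1 ^ 2 ∣ PowerSeries.subst F.toPowerSeries f -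
      (s0 f + X 1 * s0 (PowerSeries.derivative R f * dser F)) := by
    rw [hF]
    have e : s0 (PowerSeries.derivative R f * dser F) =
        s0 (PowerSeries.derivative R f) * s0 (dser F) := PowerSeries.subst_mul hx0 _ _
    rw [e]
    refine ⟨(s0 (dser F) + X 1 * KF) ^ 2 * L + KF * s0 (PowerSeries.derivative R f), ?_⟩
    rw [sub_eq_iff_eq_add] at hL
    rw [hL]
    ring
  -- right side
  obtain ⟨KG, hKG⟩ := ff_slices_F G
  have hpair := hasSubst_pair (hasSubst_psubst hx0 hf.1) (hasSubst_psubst hx1 hf.1)
  obtain ⟨M, hM⟩ : X 1 ^ 2 ∣ PowerSeries.subst (X 1 : MvPowerSeries (Fin 2) R) f -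
      C (PowerSeries.coeff 1 f) * X 1 := by
    rw [X_pow_dvd_iff]
    intro m hm
    rw [map_sub, coeff_C_mul, PowerSeries.coeff_subst_single, coeff_X]
    have : m 1 = 0 ∨ m 1 = 1 := by omega
    rcases this with h | h
    · rw [if_neg (c := m = Finsupp.single 1 1), mul_zero, sub_zero, h]
      · split_ifs with h'
        · rw [PowerSeries.coeff_zero_eq_constantCoeff_apply, hf.1]
        · rfl
      · intro h'
        rw [h'] at h
        simp at h
    · rw [h]
      split_ifs <;> simp
  have right : X 1 ^ 2 ∣ PowerSeries.subst F.toPowerSeries f -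
      (s0 f + X 1 * s0 (PowerSeries.C (PowerSeries.coeff 1 f) * (dser G).subst f)) := by
    have e : s0 (PowerSeries.C (PowerSeries.coeff 1 f) * (dser G).subst f) =
        C (PowerSeries.coeff 1 f) * s0 ((dser G).subst f) := by
      have h1 : s0 (PowerSeries.C (PowerSeries.coeff 1 f)) = C (PowerSeries.coeff 1 f) :=
        PowerSeries.subst_C _
      rw [← h1]
      exact PowerSeries.subst_mul hx0 _ _
    have h := congrArg (substAlgHom hpair) hKG
    simp only [map_sub, map_add, map_mul, map_pow] at h
    rw [substAlgHom_X, substAlgHom_X] at h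
    simp only [substAlgHom_apply] at h
    rw [subst_psubst hx0 hpair, subst_X hpair] at h
    have e2 : PowerSeries.subst ((![PowerSeries.subst (X 0 : MvPowerSeries (Fin 2) R) f,
        PowerSeries.subst (X 1 : MvPowerSeries (Fin 2) R) f] : Fin 2 → MvPowerSeries (Fin 2) R) 0)
        (dser G) = s0 ((dser G).subst f) := by
      exact (PowerSeries.subst_comp_subst_apply hf' hx0 (dser G)).symm
    rw [e2] at h
    rw [hf.2, e]
    rw [sub_eq_iff_eq_add] at h hM
    simp only [Matrix.cons_val_zero, Matrix.cons_val_one] at h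
    generalize subst ![PowerSeries.subst (X 0 : MvPowerSeries (Fin 2) R) f,
        PowerSeries.subst (X 1 : MvPowerSeries (Fin 2) R) f] KG = K at h
    generalize s0 ((dser G).subst f) = D at h
    refine ⟨(C (PowerSeries.coeff 1 f) + X 1 * M) ^ 2 * K + M * D, ?_⟩
    linear_combination h + ((PowerSeries.subst (X 1 : MvPowerSeries (Fin 2) R) f + X 1 ^ 2 * M +
      C (PowerSeries.coeff 1 f) * X 1) * K + D) * hM
  ext i
  rw [← ((ff_dvd_iff_slices _ _ _).1 left).2 i, ← ((ff_dvd_iff_slices _ _ _).1 right).2 i]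

variable (p : ℕ) [Fact p.Prime] [CharP R p]

/-- raising to the `p^h`-th power: `f(X)^{p^h} = f^{(p^h)}(X^{p^h})` -/
theorem pow_eq_subst (f : PowerSeries R) (h : ℕ) :
    f ^ (p ^ h) = (f.map (iterateFrobenius R p h)).subst
      (PowerSeries.X ^ (p ^ h) : PowerSeries R) := by
  have hp : p ≠ 0 := (Fact.out : p.Prime).ne_zero
  rw [← PowerSeries.expand_apply (p ^ h) (pow_ne_zero h hp), ← PowerSeries.map_expand]
  exact (MvPowerSeries.map_iterateFrobenius_expand p hp f h).symm

theorem ff_expand_injective {σ : Type*} (q : ℕ) (hq : q ≠ 0) :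
    Function.Injective (MvPowerSeries.expand q hq : MvPowerSeries σ R → MvPowerSeries σ R) := by
  intro a b hab
  ext m
  rw [← coeff_expand_smul q hq a m, ← coeff_expand_smul q hq b m, hab]

theorem isHom_of_frobenius_factor {F G : FormalGroup R} {f : PowerSeries R} (hf : IsHom F G f)
    (h : ℕ) (V : PowerSeries R) (hV0 : PowerSeries.constantCoeff V = 0)
    (hV : f = V.subst (PowerSeries.X ^ (p ^ h) : PowerSeries R)) :
    IsHom (F.map (iterateFrobenius R p h)) G V := by
  have hp : p ≠ 0 := (Fact.out : p.Prime).ne_zero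
  have hq : p ^ h ≠ 0 := pow_ne_zero h hp
  have hXq : PowerSeries.HasSubst (PowerSeries.X ^ (p ^ h) : PowerSeries R) :=
    PowerSeries.HasSubst.X_pow hq
  refine ⟨hV0, ?_⟩
  apply ff_expand_injective (p ^ h) hq
  have hF' : PowerSeries.HasSubst (F.map (iterateFrobenius R p h)).toPowerSeries := hasSubst_F _
  have key : ∀ s : Fin 2, (PowerSeries.subst (X s : MvPowerSeries (Fin 2) R) V).expand (p ^ h) hq =
      PowerSeries.subst (X s : MvPowerSeries (Fin 2) R) f := by
    intro s
    rw [PowerSeries.expand_subst _ hq (hasSubst_X s), hV,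
      PowerSeries.subst_comp_subst_apply hXq (hasSubst_X s)]
    congr 1
    rw [MvPowerSeries.expand_X, PowerSeries.subst_pow (hasSubst_X s),
      PowerSeries.subst_X (hasSubst_X s)]
  have hpair := hasSubst_pair (hasSubst_psubst (hasSubst_X (0 : Fin 2)) hV0)
    (hasSubst_psubst (hasSubst_X (1 : Fin 2)) hV0)
  have e1 : (subst ![PowerSeries.subst (X 0 : MvPowerSeries (Fin 2) R) V,
      PowerSeries.subst (X 1 : MvPowerSeries (Fin 2) R) V] G.toPowerSeries).expand (p ^ h) hq =
      subst ![PowerSeries.subst (X 0 : MvPowerSeries (Fin 2) R) f,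
      PowerSeries.subst (X 1 : MvPowerSeries (Fin 2) R) f] G.toPowerSeries := by
    rw [MvPowerSeries.expand_subst _ hq hpair]
    congr 1
    funext s
    fin_cases s
    · exact key 0
    · exact key 1
  have e2 : (PowerSeries.subst (F.map (iterateFrobenius R p h)).toPowerSeries V).expand
      (p ^ h) hq = PowerSeries.subst F.toPowerSeries f := by
    rw [PowerSeries.expand_subst _ hq hF', hV,
      PowerSeries.subst_comp_subst_apply hXq (hasSubst_F F),
      PowerSeries.subst_pow (hasSubst_F F), PowerSeries.subst_X (hasSubst_F F)]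
    congr 1
    rw [FormalGroup.map_toPowerSeries, ← MvPowerSeries.map_expand]
    exact MvPowerSeries.map_iterateFrobenius_expand p hp F.toPowerSeries h
  rw [e1, e2]
  exact hf.2

/-- a homomorphism with no terms of degree `< p^h` factors through the `p^h`-Frobenius -/
theorem exists_frobenius_factor {F G : FormalGroup R} {f : PowerSeries R} (hf : IsHom F G f)
    (h : ℕ) (hlow : ∀ i < p ^ h, PowerSeries.coeff i f = 0) :
    ∃ V : PowerSeries R, PowerSeries.constantCoeff V = 0 ∧
      f = V.subst (PowerSeries.X ^ (p ^ h) : PowerSeries R) := by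
  have hpp : p.Prime := Fact.out
  have hp : p ≠ 0 := hpp.ne_zero
  induction h generalizing F f with
  | zero =>
    refine ⟨f, hf.1, ?_⟩
    rw [pow_zero, pow_one, PowerSeries.X_subst]
  | succ h ih =>
    have h1 : PowerSeries.coeff 1 f = 0 := hlow 1 (Nat.one_lt_pow (by omega) hpp.one_lt)
    have hder := hom_derivative hf
    rw [h1, map_zero, zero_mul] at hder
    have hunit : IsUnit (dser F) := by
      rw [PowerSeries.isUnit_iff_constantCoeff, dser_constantCoeff]
      exact isUnit_one
    have hd0 : PowerSeries.derivative R f = 0 := by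
      exact (hunit.mul_left_eq_zero).1 hder
    have hndvd : ∀ i, ¬ p ∣ i → PowerSeries.coeff i f = 0 := by
      intro i hi
      obtain ⟨j, rfl⟩ : ∃ j, i = j + 1 := by
        refine ⟨i - 1, ?_⟩
        have : i ≠ 0 := fun h0 => hi (h0 ▸ dvd_zero p)
        omega
      have hc := congrArg (PowerSeries.coeff j) hd0
      rw [PowerSeries.coeff_derivative, map_zero] at hc
      have hu : IsUnit ((j + 1 : ℕ) : R) := (CharP.isUnit_natCast_iff hpp).2 hi
      rw [Nat.cast_add, Nat.cast_one] at hu
      exact (hu.mul_left_eq_zero).1 hc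
    set f₁ : PowerSeries R := PowerSeries.mk fun i => PowerSeries.coeff (p * i) f with hf₁
    have hff : f = PowerSeries.expand p hp f₁ := by
      ext i
      rw [PowerSeries.coeff_expand]
      split_ifs with hdvd
      · rw [hf₁, PowerSeries.coeff_mk, Nat.mul_div_cancel' hdvd]
      · exact hndvd i hdvd
    have hf₁0 : PowerSeries.constantCoeff f₁ = 0 := by
      rw [← PowerSeries.coeff_zero_eq_constantCoeff_apply, hf₁, PowerSeries.coeff_mk, mul_zero,
        PowerSeries.coeff_zero_eq_constantCoeff_apply, hf.1]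
    have hhom : IsHom (F.map (iterateFrobenius R p 1)) G f₁ := by
      refine isHom_of_frobenius_factor p hf 1 f₁ hf₁0 ?_
      rw [pow_one, ← PowerSeries.expand_apply p hp]
      exact hff
    obtain ⟨V, hV0, hV⟩ := ih hhom (by
      intro i hi
      rw [hf₁, PowerSeries.coeff_mk]
      apply hlow
      rw [pow_succ']
      exact Nat.mul_lt_mul_of_pos_left hi hpp.pos)
    refine ⟨V, hV0, ?_⟩
    rw [← PowerSeries.expand_apply (p ^ h) (pow_ne_zero h hp)] at hV
    rw [← PowerSeries.expand_apply (p ^ (h + 1)) (pow_ne_zero (h + 1) hp), hff, hV,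
      ← PowerSeries.expand_mul]
    congr 1
    congr 1
    rw [pow_succ']

end
end Vale.Agent.P217
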