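import Mathlib.RingTheory.MvPowerSeries.Substitution
import Mathlib.RingTheory.PowerSeries.Basic

/-!
# P217: evaluation of power series in complete linearly topologized rings

`ev a f` is the value at `a : σ → B` of a power series `f` with coefficients in `B`.
The coefficient ring is given the discrete topology, so no continuity condition on coefficients is
needed; `B` itself carries its own (complete, separated, linear) topology.
-/

set_option linter.unusedSectionVars false
set_option linter.style.haveILetI false

namespace Vale.Agent.P217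

open MvPowerSeries Filter Topology
open scoped MvPowerSeries.WithPiTopology

/-- Complete separated linearly topologized commutative rings. -/
class AdicRing (B : Type*) [CommRing B] [UniformSpace B] : Prop extends
  IsTopologicalRing B, IsUniformAddGroup B, T2Space B, CompleteSpace B, IsLinearTopology B B

section generic
variable {σ τ R S B : Type*} [CommRing R] [CommRing S] [CommRing B] [UniformSpace B]
  [Algebra R B] [Algebra S B] [Algebra R S] [IsScalarTower R S B]

/-- Value at `a` of the power series `f` with coefficients in `R`. -/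
noncomputable def evR (R : Type*) [CommRing R] [Algebra R B] (a : σ → B) (f : MvPowerSeries σ R) :
    B :=
  letI : UniformSpace R := ⊥
  MvPowerSeries.eval₂ (algebraMap R B) a f

variable [AdicRing B]

/-- evaluation as a ring homomorphism -/
noncomputable def evRHom (R : Type*) [CommRing R] [Algebra R B] {a : σ → B} (ha : HasEval a) :
    MvPowerSeries σ R →+* B :=
  letI : UniformSpace R := ⊥
  haveI : DiscreteTopology R := ⟨rfl⟩
  MvPowerSeries.eval₂Hom (φ := algebraMap R B) continuous_of_discreteTopology ha

theorem coe_evRHom {a : σ → B} (ha : HasEval a) (f : MvPowerSeries σ R) :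
    evRHom R ha f = evR R a f := by
  let _ : UniformSpace R := ⊥
  have _ : DiscreteTopology R := ⟨rfl⟩
  exact congrFun (MvPowerSeries.coe_eval₂Hom (φ := algebraMap R B)
    continuous_of_discreteTopology ha) f

theorem evR_hasSum {a : σ → B} (ha : HasEval a) (f : MvPowerSeries σ R) :
    HasSum (fun d : σ →₀ ℕ => algebraMap R B (coeff d f) * d.prod (fun s e => a s ^ e))
      (evR R a f) := by
  let _ : UniformSpace R := ⊥
  have _ : DiscreteTopology R := ⟨rfl⟩
  exact MvPowerSeries.hasSum_eval₂ (φ := algebraMap R B) continuous_of_discreteTopology ha f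

theorem evR_subst {g : σ → MvPowerSeries τ S} (hg : HasSubst g) {b : τ → B} (hb : HasEval b)
    (f : MvPowerSeries σ R) :
    evR S b (subst g f) = evR R (fun s => evR S b (g s)) f := by
  let _ : UniformSpace R := ⊥
  let _ : UniformSpace S := ⊥
  have _ : DiscreteTopology R := ⟨rfl⟩
  have _ : DiscreteTopology S := ⟨rfl⟩
  exact MvPowerSeries.eval₂_subst hg hb f

theorem hasEval_evR {g : σ → MvPowerSeries τ S} (hg : HasSubst g) {b : τ → B} (hb : HasEval b) :
    HasEval (fun s => evR S b (g s)) := by
  let _ : UniformSpace S := ⊥
  have _ : DiscreteTopology S := ⟨rfl⟩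
  have h1 := hg.hasEval
  have h2 : Continuous (MvPowerSeries.eval₂Hom (φ := algebraMap S B)
    continuous_of_discreteTopology hb) := by
    have := MvPowerSeries.continuous_eval₂ (φ := algebraMap S B)
      continuous_of_discreteTopology hb
    rw [← MvPowerSeries.coe_eval₂Hom (φ := algebraMap S B) continuous_of_discreteTopology hb]
      at this
    exact this
  have h3 := h1.map h2
  convert h3 using 1
  funext s
  exact (congrFun (MvPowerSeries.coe_eval₂Hom (φ := algebraMap S B)
    continuous_of_discreteTopology hb) (g s)).symm

end generic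

section
variable {σ τ B D : Type*} [CommRing B] [UniformSpace B] [CommRing D] [UniformSpace D]

/-- Value at `a` of the power series `f` with coefficients in `B`. -/
noncomputable def ev (a : σ → B) (f : MvPowerSeries σ B) : B := evR B a f

/-- Value at `b` of the one-variable power series `f`. -/
noncomputable def ev1 (b : B) (f : PowerSeries B) : B := ev (fun _ : Unit => b) f

variable [AdicRing B] [AdicRing D]

theorem hasEval_of_finite [Finite σ] {a : σ → B} (ha : ∀ s, IsTopologicallyNilpotent (a s)) :
    HasEval a where
  hpow := ha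
  tendsto_zero := by simp [Filter.cofinite_eq_bot]

theorem hasEval_pair {a b : B} (ha : IsTopologicallyNilpotent a)
    (hb : IsTopologicallyNilpotent b) : HasEval ![a, b] :=
  hasEval_of_finite (by intro s; fin_cases s <;> simpa)

theorem hasEval_unit {b : B} (hb : IsTopologicallyNilpotent b) :
    HasEval (fun _ : Unit => b) := hasEval_of_finite (fun _ => hb)

/-- evaluation as a ring homomorphism -/
noncomputable def evHom {a : σ → B} (ha : HasEval a) : MvPowerSeries σ B →+* B := evRHom B ha

theorem coe_evHom {a : σ → B} (ha : HasEval a) (f : MvPowerSeries σ B) :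
    evHom ha f = ev a f := coe_evRHom ha f

theorem ev_hasSum {a : σ → B} (ha : HasEval a) (f : MvPowerSeries σ B) :
    HasSum (fun d : σ →₀ ℕ => coeff d f * d.prod (fun s e => a s ^ e)) (ev a f) :=
  evR_hasSum ha f

theorem ev_add {a : σ → B} (ha : HasEval a) (f g : MvPowerSeries σ B) :
    ev a (f + g) = ev a f + ev a g := by
  rw [← coe_evHom ha, map_add, coe_evHom, coe_evHom]

theorem ev_sub {a : σ → B} (ha : HasEval a) (f g : MvPowerSeries σ B) :
    ev a (f - g) = ev a f - ev a g := by
  rw [← coe_evHom ha, map_sub, coe_evHom, coe_evHom]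

theorem ev_neg {a : σ → B} (ha : HasEval a) (f : MvPowerSeries σ B) :
    ev a (-f) = - ev a f := by
  rw [← coe_evHom ha, map_neg, coe_evHom]

theorem ev_mul {a : σ → B} (ha : HasEval a) (f g : MvPowerSeries σ B) :
    ev a (f * g) = ev a f * ev a g := by
  rw [← coe_evHom ha, map_mul, coe_evHom, coe_evHom]

theorem ev_pow {a : σ → B} (ha : HasEval a) (f : MvPowerSeries σ B) (n : ℕ) :
    ev a (f ^ n) = ev a f ^ n := by
  rw [← coe_evHom ha, map_pow, coe_evHom]

theorem ev_zero {a : σ → B} (ha : HasEval a) : ev a (0 : MvPowerSeries σ B) = 0 := by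
  rw [← coe_evHom ha, map_zero]

theorem ev_one {a : σ → B} (ha : HasEval a) : ev a (1 : MvPowerSeries σ B) = 1 := by
  rw [← coe_evHom ha, map_one]

theorem ev_C (a : σ → B) (b : B) : ev a (C b) = b :=
  @MvPowerSeries.eval₂_C σ B _ ⊥ B _ _ (RingHom.id B) a b

theorem ev_X (a : σ → B) (s : σ) : ev a (X s) = a s :=
  @MvPowerSeries.eval₂_X σ B _ ⊥ B _ _ (RingHom.id B) a s

theorem ev_subst {g : σ → MvPowerSeries τ B} (hg : HasSubst g) {b : τ → B} (hb : HasEval b)
    (f : MvPowerSeries σ B) :
    ev b (subst g f) = ev (fun s => ev b (g s)) f :=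
  evR_subst hg hb f

theorem hasEval_ev {g : σ → MvPowerSeries τ B} (hg : HasSubst g) {b : τ → B} (hb : HasEval b) :
    HasEval (fun s => ev b (g s)) := hasEval_evR hg hb

/-- Compatibility with continuous ring homomorphisms. -/
theorem map_ev {ψ : B →+* D} (hψ : Continuous ψ) {a : σ → B} (ha : HasEval a)
    (f : MvPowerSeries σ B) : ψ (ev a f) = ev (fun s => ψ (a s)) (f.map ψ) := by
  have h1 : HasEval (fun s => ψ (a s)) := ha.map hψ
  have h2 := (ev_hasSum ha f).map ψ hψ
  have h3 := ev_hasSum h1 (f.map ψ)
  refine HasSum.unique ?_ h3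
  convert h2 using 1
  funext d
  simp [Finsupp.prod]

/-- `ev` is continuous in the series for the product topology of the (discrete) coefficients:
it only depends on the series through its convergent sum. Values lie in a closed ideal if all the
terms do. -/
theorem ev_mem_of_closed {a : σ → B} (ha : HasEval a) (f : MvPowerSeries σ B) (J : Ideal B)
    (hJ : IsClosed (J : Set B))
    (h : ∀ d : σ →₀ ℕ, coeff d f * d.prod (fun s e => a s ^ e) ∈ J) : ev a f ∈ J := by
  refine hJ.mem_of_tendsto (ev_hasSum ha f) ?_
  exact Eventually.of_forall (fun s => Ideal.sum_mem _ (fun d _ => h d))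

end
end Vale.Agent.P217
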