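import Mathlib.Algebra.Order.Ring.Star
import Mathlib.Algebra.Order.Star.Real
import Mathlib.Analysis.Normed.Field.Lemmas
import Mathlib.Analysis.Normed.Group.Ultra
import Mathlib.Analysis.SpecificLimits.Basic
import Mathlib.Topology.Connected.Separation
import Mathlib.Topology.GDelta.MetrizableSpace
import Mathlib.Topology.MetricSpace.Ultra.TotallySeparated
import Vale.Agent.Lib.P217.Ev

/-!
# P217: the valuation ring of a complete ultrametric field, as an `AdicRing`

Normal form for norms of elements `x : OO K` : `‖(x : K)‖`.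
-/

set_option linter.unusedSectionVars false

namespace Vale.Agent.P217

open MvPowerSeries Filter Topology
open scoped MvPowerSeries.WithPiTopology

/-- The closed unit ball of an ultrametric normed field. -/
def OO (K : Type*) [NormedField K] [IsUltrametricDist K] : Subring K where
  carrier := {x | ‖x‖ ≤ 1}
  mul_mem' {a b} ha hb := by
    simp only [Set.mem_ofPred_eq, norm_mul] at *
    exact mul_le_one₀ ha (norm_nonneg _) hb
  one_mem' := by simp
  add_mem' {a b} ha hb := (IsUltrametricDist.norm_add_le_max a b).trans (max_le ha hb)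
  zero_mem' := by simp
  neg_mem' {a} ha := by simpa using ha

section
variable {K : Type*} [NormedField K] [IsUltrametricDist K]

theorem mem_OO {x : K} : x ∈ OO K ↔ ‖x‖ ≤ 1 := Iff.rfl

theorem norm_le_one (x : OO K) : ‖(x : K)‖ ≤ 1 := x.2

theorem OO_norm (x : OO K) : ‖x‖ = ‖(x : K)‖ := rfl

instance : IsUltrametricDist (OO K) :=
  ⟨fun x y z => IsUltrametricDist.dist_triangle_max (x : K) (y : K) (z : K)⟩

instance : IsDomain (OO K) := inferInstance

/-- the closed ideal `{‖y‖ ≤ c}` -/
def ballIdeal (K : Type*) [NormedField K] [IsUltrametricDist K] (c : ℝ) (hc : 0 ≤ c) :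
    Ideal (OO K) where
  carrier := {x | ‖(x : K)‖ ≤ c}
  add_mem' {a b} ha hb := (IsUltrametricDist.norm_add_le_max (a : K) (b : K)).trans (max_le ha hb)
  zero_mem' := by simpa using hc
  smul_mem' a b hb := by
    simp only [Set.mem_ofPred_eq, smul_eq_mul, Subring.coe_mul, norm_mul] at *
    calc ‖(a : K)‖ * ‖(b : K)‖ ≤ 1 * ‖(b : K)‖ := by gcongr; exact norm_le_one a
      _ ≤ c := by simpa using hb

@[simp] theorem mem_ballIdeal {c : ℝ} {hc : 0 ≤ c} {x : OO K} :
    x ∈ ballIdeal K c hc ↔ ‖(x : K)‖ ≤ c := Iff.rfl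

theorem isClosed_ballIdeal (c : ℝ) (hc : 0 ≤ c) : IsClosed (ballIdeal K c hc : Set (OO K)) := by
  have : (ballIdeal K c hc : Set (OO K)) = Metric.closedBall 0 c := by
    ext x; simp
  rw [this]; exact Metric.isClosed_closedBall

end

section
variable {K : Type*} [NontriviallyNormedField K] [IsUltrametricDist K] [CompleteSpace K]

instance : CompleteSpace (OO K) := by
  have : IsClosed ((OO K : Subring K) : Set K) := by
    have : ((OO K : Subring K) : Set K) = Metric.closedBall 0 1 := by
      ext x; simp [mem_OO]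
    rw [this]; exact Metric.isClosed_closedBall
  exact this.completeSpace_coe

instance : IsLinearTopology (OO K) (OO K) := by
  refine IsLinearTopology.mk_of_hasBasis' (R := OO K) (S := Ideal (OO K))
    (ι := {c : ℝ // 0 < c}) (p := fun _ => True)
    (s := fun c => ballIdeal K c.1 c.2.le) ?_ ?_
  · have h := Metric.nhds_basis_closedBall (x := (0 : OO K))
    refine ⟨fun t => ?_⟩
    rw [h.mem_iff]
    constructor
    · rintro ⟨c, hc, hs⟩
      exact ⟨⟨c, hc⟩, trivial, fun y hy => hs (by simpa using hy)⟩
    · rintro ⟨⟨c, hc⟩, -, hs⟩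
      exact ⟨c, hc, fun y hy => hs (by simpa using hy)⟩
  · intro a r x hx
    exact a.mul_mem_left r hx

instance : AdicRing (OO K) where

theorem tn_iff {x : OO K} : IsTopologicallyNilpotent x ↔ ‖(x : K)‖ < 1 := by
  unfold IsTopologicallyNilpotent
  rw [tendsto_zero_iff_norm_tendsto_zero]
  simp only [OO_norm, norm_pow]
  constructor
  · intro h
    by_contra hx
    have h1 : ‖(x : K)‖ = 1 := le_antisymm (norm_le_one x) (not_lt.mp hx)
    simp [h1] at h
  · intro h
    exact tendsto_pow_atTop_nhds_zero_of_lt_one (norm_nonneg _) h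

theorem hasEval_OO {x : OO K} (hx : ‖(x : K)‖ < 1) : HasEval (fun _ : Unit => x) :=
  hasEval_unit (tn_iff.mpr hx)

theorem norm_ev1_le (f : PowerSeries (OO K)) (x : OO K) (hx : ‖(x : K)‖ < 1)
    (h0 : PowerSeries.constantCoeff f = 0) : ‖((ev1 x f : OO K) : K)‖ ≤ ‖(x : K)‖ := by
  have hx' : HasEval (fun _ : Unit => x) := hasEval_OO hx
  refine ev_mem_of_closed hx' f (ballIdeal K ‖(x : K)‖ (norm_nonneg _))
    (isClosed_ballIdeal _ _) ?_
  intro d
  rw [mem_ballIdeal]
  by_cases hd : d = 0
  · subst hd
    have : (coeff 0) f = 0 := h0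
    rw [this]; simp
  · have hd' : d () ≠ 0 := fun h => hd (by ext; simpa using h)
    simp only [Finsupp.prod_fintype, Finset.univ_unique, Finset.prod_singleton, pow_zero,
      implies_true, Subring.coe_mul, Subring.coe_pow, norm_mul, norm_pow]
    calc ‖((coeff d f : OO K) : K)‖ * ‖(x : K)‖ ^ d default ≤ 1 * ‖(x : K)‖ := by
          gcongr
          · exact norm_le_one _
          · exact pow_le_of_le_one (norm_nonneg _) hx.le hd'
      _ = ‖(x : K)‖ := one_mul _

instance (σ : Type*) : AdicRing (MvPowerSeries σ (OO K)) where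

end
end Vale.Agent.P217
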