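import Mathlib.RingTheory.PowerSeries.Inverse
import Vale.Agent.Lib.P217.OK
import Vale.Agent.Lib.P217.Formal

/-!
# P217: the group of points of a formal group law

`Pt F` is the set of topologically nilpotent elements of `B` with the group law given by `F`.
-/

set_option linter.unusedSectionVars false

namespace Vale.Agent.P217

open MvPowerSeries Filter Topology
open scoped MvPowerSeries.WithPiTopology

section points
variable {B D : Type*} [CommRing B] [UniformSpace B] [CommRing D] [UniformSpace D]

/-- Points of the formal group law `F`: the topologically nilpotent elements of `B`. -/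
@[ext] structure Pt (F : FormalGroup B) where
  /-- the underlying element -/
  val : B
  /-- it is topologically nilpotent -/
  tn : IsTopologicallyNilpotent val

variable [AdicRing B] [AdicRing D]

theorem ev_tn {σ : Type*} {a : σ → B} (ha : HasEval a) (f : MvPowerSeries σ B)
    (hf : constantCoeff f = 0) : IsTopologicallyNilpotent (ev a f) := by
  have hs : HasSubst (fun _ : Unit => f) :=
    hasSubst_of_constantCoeff_nilpotent fun _ => by rw [hf]; exact IsNilpotent.zero
  exact (hasEval_ev hs ha).hpow ()

theorem ev1_tn {x : B} (hx : IsTopologicallyNilpotent x) (f : PowerSeries B)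
    (hf : PowerSeries.constantCoeff f = 0) : IsTopologicallyNilpotent (ev1 x f) :=
  ev_tn (hasEval_unit hx) f hf

theorem ev1_comp {x : B} (hx : IsTopologicallyNilpotent x) (f g : PowerSeries B)
    (hg : PowerSeries.constantCoeff g = 0) : ev1 x (f.subst g) = ev1 (ev1 x g) f := by
  have hs : HasSubst (fun _ : Unit => g) :=
    hasSubst_of_constantCoeff_nilpotent fun _ => by
      change IsNilpotent (PowerSeries.constantCoeff g)
      rw [hg]; exact IsNilpotent.zero
  exact ev_subst hs (hasEval_unit hx) f

theorem hasSubst_single_of_zero {σ : Type*} {f : MvPowerSeries σ B}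
    (hf : constantCoeff f = 0) : HasSubst (fun _ : Unit => f) :=
  hasSubst_of_constantCoeff_nilpotent fun _ => by rw [hf]; exact IsNilpotent.zero

theorem hasSubst_pair_of_zero {σ : Type*} {f g : MvPowerSeries σ B}
    (hf : constantCoeff f = 0) (hg : constantCoeff g = 0) : HasSubst ![f, g] :=
  hasSubst_of_constantCoeff_nilpotent fun s => by
    fin_cases s <;> simp [hf, hg]

/-- evaluation of a substituted pair -/
theorem ev_subst_pair {σ : Type*} {f g : MvPowerSeries σ B} {b : σ → B} (hb : HasEval b)
    (h : HasSubst ![f, g]) (F : MvPowerSeries (Fin 2) B) :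
    ev b (subst ![f, g] F) = ev ![ev b f, ev b g] F := by
  rw [ev_subst h hb]
  congr 1
  funext s
  fin_cases s <;> rfl

theorem ev1_zero (f : PowerSeries B) (hf : PowerSeries.constantCoeff f = 0) :
    ev1 (0 : B) f = 0 := by
  have h0 : HasEval (fun _ : Unit => (0 : B)) := hasEval_unit (by
    unfold IsTopologicallyNilpotent
    refine tendsto_atTop_of_eventually_const (i₀ := 1) fun i hi => ?_
    exact zero_pow (by omega))
  have := ev_mem_of_closed h0 f ⊥ (by simp) (fun d => by
    by_cases hd : d = 0
    · subst hd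
      have h1 : (coeff 0) f = 0 := hf
      rw [h1]; simp
    · have hd' : d () ≠ 0 := fun h => hd (by ext; simpa using h)
      simp [Finsupp.prod_fintype, hd'])
  exact (Ideal.mem_bot.mp this)

/-- `1 + t` is a unit for topologically nilpotent `t` -/
theorem isUnit_one_add {t : B} (ht : IsTopologicallyNilpotent t) : IsUnit (1 + t) := by
  have h : IsUnit (1 + PowerSeries.X : PowerSeries B) := by
    rw [PowerSeries.isUnit_iff_constantCoeff]; simp
  obtain ⟨u, hu⟩ := h
  have he := hasEval_unit ht
  have h1 : (1 + PowerSeries.X : PowerSeries B) * (u⁻¹ : (PowerSeries B)ˣ) = 1 := by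
    rw [← hu]; simp
  have h2 : ev1 t ((1 + PowerSeries.X : PowerSeries B) * (u⁻¹ : (PowerSeries B)ˣ)) = 1 := by
    rw [h1]; exact ev_one he
  have h3 : ev1 t (1 + PowerSeries.X : PowerSeries B) = 1 + t := by
    have := ev_add he (1 : MvPowerSeries Unit B) (X ())
    rw [ev_one he, ev_X] at this
    exact this
  have h4 : ev1 t ((1 + PowerSeries.X : PowerSeries B) * (u⁻¹ : (PowerSeries B)ˣ)) =
      (1 + t) * ev1 t (u⁻¹ : (PowerSeries B)ˣ) := by
    rw [← h3]; exact ev_mul he _ _
  exact IsUnit.of_mul_eq_one _ (h4.symm.trans h2)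

namespace Pt
variable {F G : FormalGroup B}

noncomputable instance : Add (Pt F) where
  add x y := ⟨ev ![x.val, y.val] F.toPowerSeries,
    ev_tn (hasEval_pair x.tn y.tn) _ F.zero_constantCoeff⟩

noncomputable instance : Zero (Pt F) where
  zero := ⟨0, by
    unfold IsTopologicallyNilpotent
    refine tendsto_atTop_of_eventually_const (i₀ := 1) fun i hi => ?_
    exact zero_pow (by omega)⟩

noncomputable instance : Neg (Pt F) where
  neg x := ⟨ev1 x.val (invSeries F), ev1_tn x.tn _ (invSeries_constantCoeff F)⟩

theorem add_val (x y : Pt F) : (x + y).val = ev ![x.val, y.val] F.toPowerSeries := rfl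

@[simp] theorem zero_val : (0 : Pt F).val = 0 := rfl

theorem neg_val (x : Pt F) : (-x).val = ev1 x.val (invSeries F) := rfl

protected theorem add_assoc_aux (x y z : Pt F) : x + y + z = x + (y + z) := by
  ext
  rw [add_val, add_val, add_val, add_val]
  have hb : HasEval ![x.val, y.val, z.val] := hasEval_of_finite (by
    intro s; fin_cases s
    · exact x.tn
    · exact y.tn
    · exact z.tn)
  have h := congrArg (ev ![x.val, y.val, z.val]) F.assoc
  have hX : ∀ i : Fin 3, constantCoeff (X i : MvPowerSeries (Fin 3) B) = 0 := by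
    intro i; simp
  have c1 : constantCoeff (subst ![(X 0 : MvPowerSeries (Fin 3) B), X 1] F.toPowerSeries) = 0 := by
    apply constantCoeff_subst_eq_zero (hasSubst_pair_of_zero (hX 0) (hX 1))
    · intro s; fin_cases s <;> simp
    · exact F.zero_constantCoeff
  have c2 : constantCoeff (subst ![(X 1 : MvPowerSeries (Fin 3) B), X 2] F.toPowerSeries) = 0 := by
    apply constantCoeff_subst_eq_zero (hasSubst_pair_of_zero (hX 1) (hX 2))
    · intro s; fin_cases s <;> simp
    · exact F.zero_constantCoeff
  rw [ev_subst_pair hb (hasSubst_pair_of_zero c1 (hX 2)),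
    ev_subst_pair hb (hasSubst_pair_of_zero (hX 0) c2),
    ev_subst_pair hb (hasSubst_pair_of_zero (hX 0) (hX 1)),
    ev_subst_pair hb (hasSubst_pair_of_zero (hX 1) (hX 2)), ev_X, ev_X, ev_X] at h
  exact h

protected theorem zero_add_aux (x : Pt F) : 0 + x = x := by
  ext
  rw [add_val, zero_val]
  have hb := hasEval_unit x.tn
  have h := congrArg (ev (fun _ : Unit => x.val)) F.zeroX_eq_X
  have c : constantCoeff (PowerSeries.X : MvPowerSeries Unit B) = 0 := PowerSeries.constantCoeff_X
  unfold FormalGroup.zeroX at h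
  rw [ev_subst_pair hb (hasSubst_pair_of_zero (map_zero _) c), ev_zero hb] at h
  have hX : ev (fun _ : Unit => x.val) (PowerSeries.X : PowerSeries B) = x.val := ev_X _ _
  rw [hX] at h
  exact h

protected theorem add_zero_aux (x : Pt F) : x + 0 = x := by
  ext
  rw [add_val, zero_val]
  have hb := hasEval_unit x.tn
  have h := congrArg (ev (fun _ : Unit => x.val)) F.Xzero_eq_X
  have c : constantCoeff (PowerSeries.X : MvPowerSeries Unit B) = 0 := PowerSeries.constantCoeff_X
  unfold FormalGroup.Xzero at h
  rw [ev_subst_pair hb (hasSubst_pair_of_zero c (map_zero _)), ev_zero hb] at h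
  have hX : ev (fun _ : Unit => x.val) (PowerSeries.X : PowerSeries B) = x.val := ev_X _ _
  rw [hX] at h
  exact h

protected theorem add_neg_aux (x : Pt F) : x + -x = 0 := by
  ext
  rw [add_val, zero_val, neg_val]
  have hb := hasEval_unit x.tn
  have h := congrArg (ev (fun _ : Unit => x.val)) (invSeries_spec F)
  have c : constantCoeff (PowerSeries.X : MvPowerSeries Unit B) = 0 := PowerSeries.constantCoeff_X
  rw [ev_subst_pair hb (hasSubst_pair_of_zero c (invSeries_constantCoeff F)), ev_zero hb] at h
  have hX : ev (fun _ : Unit => x.val) (PowerSeries.X : PowerSeries B) = x.val := ev_X _ _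
  rw [hX] at h
  exact h

protected theorem add_comm_aux [F.IsComm] (x y : Pt F) : x + y = y + x := by
  ext
  rw [add_val, add_val]
  have hb := hasEval_pair x.tn y.tn
  have hX : ∀ i : Fin 2, constantCoeff (X i : MvPowerSeries (Fin 2) B) = 0 := by
    intro i; simp
  have h := congrArg (ev ![x.val, y.val]) (FormalGroup.IsComm.comm (F := F))
  rw [ev_subst_pair hb (hasSubst_pair_of_zero (hX 1) (hX 0)), ev_X, ev_X] at h
  exact h

noncomputable instance [F.IsComm] : AddCommGroup (Pt F) where
  add_assoc x y z := Pt.add_assoc_aux x y z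
  zero_add x := Pt.zero_add_aux x
  add_zero x := Pt.add_zero_aux x
  add_comm x y := Pt.add_comm_aux x y
  neg_add_cancel x := (Pt.add_comm_aux (-x) x).trans (Pt.add_neg_aux x)
  nsmul := nsmulRec
  zsmul := zsmulRec

theorem nsmul_val [F.IsComm] (m : ℕ) (x : Pt F) : (m • x).val = ev1 x.val (mulSeries F m) := by
  have hb := hasEval_unit x.tn
  induction m with
  | zero =>
    rw [zero_nsmul]
    unfold mulSeries
    rw [zero_nsmul]
    exact (ev_zero hb).symm
  | succ m ih =>
    rw [succ_nsmul, add_val, ih]
    have h1 : mulSeries F (m + 1) =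
        subst ![mulSeries F m, (PowerSeries.X : PowerSeries B)] F.toPowerSeries := by
      unfold mulSeries
      rw [succ_nsmul]
      rfl
    have c : constantCoeff (PowerSeries.X : MvPowerSeries Unit B) = 0 :=
      PowerSeries.constantCoeff_X
    rw [h1]
    unfold ev1
    rw [ev_subst_pair hb (hasSubst_pair_of_zero (mulSeries_constantCoeff F m) c)]
    have hX : ev (fun _ : Unit => x.val) (PowerSeries.X : PowerSeries B) = x.val := ev_X _ _
    rw [hX]

/-- the shape of the sum of two points -/
theorem exists_add_val (x y : Pt F) : ∃ h : B, (x + y).val = x.val + y.val + x.val * y.val * h := by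
  obtain ⟨H, hH⟩ := exists_toPowerSeries_eq F
  have hb := hasEval_pair x.tn y.tn
  refine ⟨ev ![x.val, y.val] H, ?_⟩
  rw [add_val, hH, ev_add hb, ev_add hb, ev_mul hb, ev_mul hb, ev_X, ev_X]
  rfl

/-- a multiple of a topologically nilpotent element is topologically nilpotent -/
theorem tn_mul {x : B} (hx : IsTopologicallyNilpotent x) (h : B) :
    IsTopologicallyNilpotent (x * h) := by
  have := ev1_tn hx (PowerSeries.X * PowerSeries.C h) (by simp)
  have e : ev1 x (PowerSeries.X * PowerSeries.C h) = x * h := by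
    have h1 := ev_mul (hasEval_unit hx) (X () : MvPowerSeries Unit B) (C h)
    rw [ev_X, ev_C] at h1
    exact h1
  rwa [e] at this

/-- the difference of coordinates is a unit times the coordinate of the difference -/
theorem exists_sub_val [F.IsComm] (x y : Pt F) : ∃ t : B, IsTopologicallyNilpotent t ∧
    x.val - y.val = (x - y).val * (1 + t) := by
  obtain ⟨h, hh⟩ := exists_add_val (x - y) y
  rw [sub_add_cancel] at hh
  refine ⟨y.val * h, tn_mul y.tn h, ?_⟩
  rw [hh]; ring

/-- congruence modulo a closed ideal is the same for `F` and for ordinary subtraction -/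
theorem sub_val_mem_iff [F.IsComm] (J : Ideal B) (hJ : IsClosed (J : Set B)) (x y : Pt F) :
    (x - y).val ∈ J ↔ x.val - y.val ∈ J := by
  obtain ⟨t, ht, h⟩ := exists_sub_val x y
  rw [h]
  obtain ⟨u, hu⟩ := isUnit_one_add ht
  constructor
  · exact fun hm => J.mul_mem_right _ hm
  · intro hm
    have := J.mul_mem_right (↑u⁻¹ : B) hm
    rwa [← hu, mul_assoc, Units.mul_inv, mul_one] at this

/-- the subgroup of points lying in a closed ideal -/
noncomputable def inIdeal (F : FormalGroup B) [F.IsComm] (J : Ideal B)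
    (hJ : IsClosed (J : Set B)) : AddSubgroup (Pt F) where
  carrier := {x | x.val ∈ J}
  add_mem' := by
    intro x y hx hy
    obtain ⟨h, hh⟩ := exists_add_val x y
    change (x + y).val ∈ J
    rw [hh]
    exact J.add_mem (J.add_mem hx hy) (J.mul_mem_right _ (J.mul_mem_right _ hx))
  zero_mem' := J.zero_mem
  neg_mem' := by
    intro x hx
    change (-x).val ∈ J
    rw [← zero_sub, sub_val_mem_iff J hJ, zero_val, zero_sub]
    exact J.neg_mem hx

@[simp] theorem mem_inIdeal [F.IsComm] (J : Ideal B) (hJ : IsClosed (J : Set B)) (x : Pt F) :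
    x ∈ inIdeal F J hJ ↔ x.val ∈ J := Iff.rfl

/-- the value of an arbitrary series with zero constant term at a point -/
noncomputable def app (G : FormalGroup B) (f : PowerSeries B)
    (hf : PowerSeries.constantCoeff f = 0) (x : Pt F) : Pt G :=
  ⟨ev1 x.val f, ev1_tn x.tn f hf⟩

/-- a homomorphism of formal group laws induces a homomorphism on points -/
noncomputable def hom [F.IsComm] [G.IsComm] {f : PowerSeries B} (hf : IsHom F G f) :
    Pt F →+ Pt G where
  toFun x := ⟨ev1 x.val f, ev1_tn x.tn f hf.1⟩
  map_zero' := by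
    ext
    exact ev1_zero f hf.1
  map_add' x y := by
    ext
    have hb := hasEval_pair x.tn y.tn
    have h := congrArg (ev ![x.val, y.val]) hf.2
    have hX : ∀ i : Fin 2, constantCoeff (X i : MvPowerSeries (Fin 2) B) = 0 := by
      intro i; simp
    have hc : ∀ i : Fin 2, constantCoeff
        (PowerSeries.subst (X i : MvPowerSeries (Fin 2) B) f) = 0 := by
      intro i
      apply constantCoeff_subst_eq_zero (hasSubst_single_of_zero (hX i))
      · intro _; exact hX i
      · exact hf.1
    have e1 : ∀ i : Fin 2, ev ![x.val, y.val]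
        (PowerSeries.subst (X i : MvPowerSeries (Fin 2) B) f) = ev1 (![x.val, y.val] i) f := by
      intro i
      have := ev_subst (hasSubst_single_of_zero (hX i)) hb f
      rw [ev_X] at this
      exact this
    have e2 : ev ![x.val, y.val] (PowerSeries.subst F.toPowerSeries f) =
        ev1 (ev ![x.val, y.val] F.toPowerSeries) f :=
      ev_subst (hasSubst_single_of_zero F.zero_constantCoeff) hb f
    rw [ev_subst_pair hb (hasSubst_pair_of_zero (hc 0) (hc 1)), e1, e1, e2] at h
    exact h

@[simp] theorem hom_val [F.IsComm] [G.IsComm] {f : PowerSeries B} (hf : IsHom F G f)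
    (x : Pt F) : (hom hf x).val = ev1 x.val f := rfl

/-- functoriality along continuous ring homomorphisms -/
noncomputable def map [F.IsComm] (ψ : B →+* D) (hψ : Continuous ψ) : Pt F →+ Pt (F.map ψ) where
  toFun x := ⟨ψ x.val, x.tn.map hψ⟩
  map_zero' := by
    ext
    exact map_zero ψ
  map_add' x y := by
    ext
    have h := map_ev hψ (hasEval_pair x.tn y.tn) F.toPowerSeries
    have e : (fun s => ψ (![x.val, y.val] s)) = ![ψ x.val, ψ y.val] := by
      funext s; fin_cases s <;> rfl
    rw [e] at h
    exact h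

@[simp] theorem map_val [F.IsComm] (ψ : B →+* D) (hψ : Continuous ψ) (x : Pt F) :
    (map ψ hψ x).val = ψ x.val := rfl

end Pt

end points

section field
variable {K : Type*} [NontriviallyNormedField K] [IsUltrametricDist K] [CompleteSpace K]
variable {F G : FormalGroup (OO K)}

namespace Pt

/-- a point of `F` over `OO K` from an element of norm `< 1` -/
def mk' (F : FormalGroup (OO K)) (x : OO K) (hx : ‖(x : K)‖ < 1) : Pt F := ⟨x, tn_iff.mpr hx⟩

theorem norm_lt (x : Pt F) : ‖(x.val : K)‖ < 1 := tn_iff.mp x.tn

/-- the norm of (the coordinate of) a point -/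
noncomputable def nm (x : Pt F) : ℝ := ‖(x.val : K)‖

theorem nm_nonneg (x : Pt F) : 0 ≤ nm x := norm_nonneg _

theorem nm_lt_one (x : Pt F) : nm x < 1 := x.norm_lt

theorem nm_eq_zero (x : Pt F) : nm x = 0 ↔ x = 0 := by
  unfold nm
  rw [norm_eq_zero]
  constructor
  · intro h
    ext
    simpa using h
  · intro h
    rw [h]; simp

theorem norm_one_add_tn {t : OO K} (ht : IsTopologicallyNilpotent t) :
    ‖((1 + t : OO K) : K)‖ = 1 := by
  have h1 : ‖(t : K)‖ < 1 := tn_iff.mp ht
  have h2 : ‖(1 : K)‖ ≠ ‖(t : K)‖ := by rw [norm_one]; exact h1.ne'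
  have := IsUltrametricDist.norm_add_eq_max_of_norm_ne_norm h2
  rw [norm_one, max_eq_left h1.le] at this
  simpa using this

theorem nm_sub [F.IsComm] (x y : Pt F) : nm (x - y) = ‖(x.val : K) - y.val‖ := by
  obtain ⟨t, ht, h⟩ := exists_sub_val x y
  have h1 := congrArg (fun z : OO K => ‖(z : K)‖) h
  simp only [Subring.coe_mul, norm_mul, norm_one_add_tn ht, mul_one] at h1
  exact h1.symm

theorem nm_neg [F.IsComm] (x : Pt F) : nm (-x) = nm x := by
  rw [← zero_sub, nm_sub]
  simp [nm]

theorem nm_add_le [F.IsComm] (x y : Pt F) : nm (x + y) ≤ max (nm x) (nm y) := by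
  rw [← nm_neg y, ← sub_neg_eq_add, nm_sub, sub_eq_add_neg]
  refine (IsUltrametricDist.norm_add_le_max _ _).trans ?_
  rw [norm_neg]
  exact le_rfl

theorem nm_add_eq_of_lt [F.IsComm] (x y : Pt F) (h : nm x < nm y) : nm (x + y) = nm y := by
  rw [← nm_neg y] at h ⊢
  rw [← sub_neg_eq_add, nm_sub]
  have h0 : ‖(x.val : K)‖ ≠ ‖-((-y).val : K)‖ := by rw [norm_neg]; exact h.ne
  have h1 := IsUltrametricDist.norm_add_eq_max_of_norm_ne_norm h0
  rw [sub_eq_add_neg, h1, norm_neg]
  exact max_eq_right h.le

theorem norm_add_sub_le (x y : Pt F) :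
    ‖((x + y).val : K) - (x.val + y.val)‖ ≤ nm x * nm y := by
  obtain ⟨h, hh⟩ := exists_add_val x y
  have h1 : ((x + y).val : K) - (x.val + y.val) = (x.val : K) * y.val * h := by
    rw [hh]; push_cast; ring
  rw [h1, norm_mul, norm_mul]
  exact mul_le_of_le_one_right (mul_nonneg (norm_nonneg _) (norm_nonneg _)) (norm_le_one h)

theorem nm_hom_le [F.IsComm] [G.IsComm] {f : PowerSeries (OO K)} (hf : IsHom F G f)
    (x : Pt F) : nm (hom hf x) ≤ nm x :=
  norm_ev1_le f x.val x.norm_lt hf.1

theorem nm_nsmul_le [F.IsComm] (m : ℕ) (x : Pt F) : nm (m • x) ≤ nm x := by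
  unfold nm
  rw [nsmul_val]
  exact norm_ev1_le _ x.val x.norm_lt (mulSeries_constantCoeff F m)

/-- multiplication by an integer of absolute value `1` preserves the norm -/
theorem nm_nsmul_eq [F.IsComm] (m : ℕ) (hm : ‖(m : K)‖ = 1) (x : Pt F) :
    nm (m • x) = nm x := by
  have hb := hasEval_unit x.tn
  obtain ⟨f, hf⟩ := PowerSeries.X_dvd_iff.mpr (mulSeries_constantCoeff F m)
  have hf1 : PowerSeries.constantCoeff f = (m : OO K) := by
    rw [← mulSeries_coeff_one F m, hf]
    have := PowerSeries.coeff_succ_X_mul 0 f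
    rw [this]; simp
  have e1 : ev1 x.val (mulSeries F m) = x.val * ev1 x.val f := by
    rw [hf]
    have := ev_mul hb (X () : MvPowerSeries Unit (OO K)) f
    rw [ev_X] at this
    exact this
  have e2 : ev1 x.val f = (m : OO K) + ev1 x.val (f - PowerSeries.C (m : OO K)) := by
    have := ev_sub hb f (C (m : OO K))
    rw [ev_C] at this
    have h3 : ev1 x.val (f - PowerSeries.C (m : OO K)) = ev1 x.val f - (m : OO K) := this
    rw [h3]; ring
  have e3 : ‖((ev1 x.val (f - PowerSeries.C (m : OO K)) : OO K) : K)‖ < 1 :=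
    (norm_ev1_le _ x.val x.norm_lt (by rw [map_sub, hf1]; simp)).trans_lt x.norm_lt
  have e4 : ‖((ev1 x.val f : OO K) : K)‖ = 1 := by
    rw [e2]
    have h5 : ‖((m : OO K) : K)‖ = 1 := by push_cast; exact hm
    have h6 : ‖((m : OO K) : K)‖ ≠ ‖((ev1 x.val (f - PowerSeries.C (m : OO K)) : OO K) : K)‖ := by
      rw [h5]; exact e3.ne'
    have := IsUltrametricDist.norm_add_eq_max_of_norm_ne_norm h6
    rw [h5, max_eq_left e3.le] at this
    rw [Subring.coe_add]
    exact this
  unfold nm
  rw [nsmul_val, e1, Subring.coe_mul, norm_mul, e4, mul_one]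

end Pt
end field

end Vale.Agent.P217
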