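import Mathlib.Analysis.Normed.Order.Lattice
import Mathlib.FieldTheory.IsAlgClosed.Basic
import Mathlib.RingTheory.Henselian
import Mathlib.RingTheory.PowerSeries.Derivative
import Mathlib.RingTheory.PowerSeries.WeierstrassPreparation
import Vale.Agent.Lib.P217.OK

/-!
# P217: counting zeros of power series over `OO K` in the open unit disc (module A8)

Proof.
* `zeroSet_ncard_le`: if `f(y) = 0` with `‖y‖ < 1` then `f = (X - y) g` with `g` over `OO K`
  (`g_n = ∑_{j > n} f_j y^{j-n-1}`). If there were `d + 1` distinct zeros then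
  `f = (X - y_1) ⋯ (X - y_{d+1}) g` (distinct zeros can be divided out one after the other as `OO K`
  is a domain), and the coefficient of `X^d` on the right has norm `< 1`.
* `zeroSet_ncard_eq`: by Weierstrass preparation (Mathlib's general version
  `PowerSeries.IsWeierstrassFactorizationAt` at the ideal `span {ϖ}`, for which `OO K` is adically
  complete, where `ϖ` is a coefficient `coeff i f`, `i < d`, of maximal norm, or anything of norm
  `< 1` if they are all zero), `f = P * u` with `u` a unit and `P` a monic polynomial of degree `d`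
  whose lower coefficients have norm `< 1`.  `P` splits over `K`, its roots have norm `< 1`, and
  they are simple because `f' = P' u + P u'` does not vanish at them.
* `exists_zero`: same factorization.
-/

set_option linter.unusedSectionVars false

namespace Vale.Agent.P217

open MvPowerSeries Filter Topology

section
variable {K : Type*} [NontriviallyNormedField K] [IsUltrametricDist K] [CompleteSpace K]

/-- the zeros of `f` of norm `< 1` -/
def zeroSet (f : PowerSeries (OO K)) : Set (OO K) := {y | ‖(y : K)‖ < 1 ∧ ev1 y f = 0}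

/-- `ev1` at `y` as a ring homomorphism on one-variable series -/
noncomputable def ev1Hom {y : OO K} (hy : ‖(y : K)‖ < 1) : PowerSeries (OO K) →+* OO K :=
  evHom (hasEval_OO hy)

theorem coe_ev1Hom {y : OO K} (hy : ‖(y : K)‖ < 1) (f : PowerSeries (OO K)) :
    ev1Hom hy f = ev1 y f := coe_evHom (hasEval_OO hy) f

theorem ev1_mul {y : OO K} (hy : ‖(y : K)‖ < 1) (f g : PowerSeries (OO K)) :
    ev1 y (f * g) = ev1 y f * ev1 y g := ev_mul (hasEval_OO hy) f g

theorem ev1_add {y : OO K} (hy : ‖(y : K)‖ < 1) (f g : PowerSeries (OO K)) :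
    ev1 y (f + g) = ev1 y f + ev1 y g := ev_add (hasEval_OO hy) f g

theorem ev1_C (y : OO K) (c : OO K) : ev1 y (PowerSeries.C c) = c := ev_C _ c

theorem ev1_X (y : OO K) : ev1 y (PowerSeries.X : PowerSeries (OO K)) = y := ev_X _ ()

theorem ev1_coe {y : OO K} (hy : ‖(y : K)‖ < 1) (P : Polynomial (OO K)) :
    ev1 y (P : PowerSeries (OO K)) = P.eval y := by
  have h : (ev1Hom hy).comp (Polynomial.coeToPowerSeries.ringHom (R := OO K)) =
      Polynomial.evalRingHom y := by
    apply Polynomial.ringHom_ext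
    · intro a
      simp [coe_ev1Hom, ev1_C]
    · simp [coe_ev1Hom, ev1_X]
  have h2 := congrArg (fun φ => φ P) h
  simpa [coe_ev1Hom] using h2

/-- shift of a power series -/
noncomputable def shiftN (f : PowerSeries (OO K)) (n : ℕ) : PowerSeries (OO K) :=
  PowerSeries.mk fun j => PowerSeries.coeff (j + n) f

theorem shiftN_succ (f : PowerSeries (OO K)) (n : ℕ) :
    shiftN f n = PowerSeries.C (PowerSeries.coeff n f) + PowerSeries.X * shiftN f (n + 1) := by
  ext j
  rcases j with _ | j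
  · simp [shiftN]
  · simp [shiftN, PowerSeries.coeff_succ_X_mul, Nat.add_assoc,
      Nat.add_comm 1 n]

theorem exists_div (f : PowerSeries (OO K)) {y : OO K} (hy : ‖(y : K)‖ < 1)
    (h0 : ev1 y f = 0) :
    ∃ g, f = (PowerSeries.X - PowerSeries.C y) * g := by
  have he : ∀ n, ev1 y (shiftN f n) = PowerSeries.coeff n f + y * ev1 y (shiftN f (n + 1)) := by
    intro n
    conv_lhs => rw [shiftN_succ]
    rw [ev1_add hy, ev1_C, ev1_mul hy, ev1_X]
  have hf0 : shiftN f 0 = f := by ext j; simp [shiftN]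
  refine ⟨PowerSeries.mk fun n => ev1 y (shiftN f (n + 1)), ?_⟩
  refine PowerSeries.ext fun n => ?_
  rw [sub_mul, map_sub, PowerSeries.coeff_C_mul, PowerSeries.coeff_mk]
  rcases n with _ | n
  · have h1 := he 0
    rw [hf0, h0] at h1
    rw [PowerSeries.coeff_zero_X_mul, zero_sub]
    exact eq_neg_of_add_eq_zero_left h1.symm
  · rw [PowerSeries.coeff_succ_X_mul, PowerSeries.coeff_mk, he (n + 1)]
    exact (add_sub_cancel_right _ _).symm

/-- distinct zeros can be divided out one after the other -/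
theorem prod_dvd (f : PowerSeries (OO K)) (S : Finset (OO K)) (hS : ∀ y ∈ S, y ∈ zeroSet f) :
    ∃ g, f = (∏ y ∈ S, (PowerSeries.X - PowerSeries.C y)) * g := by
  classical
  induction S using Finset.induction_on with
  | empty => exact ⟨f, by simp⟩
  | insert a S ha ih =>
    obtain ⟨g, hg⟩ := ih (fun y hy => hS y (Finset.mem_insert_of_mem hy))
    obtain ⟨ha1, ha2⟩ := hS a (Finset.mem_insert_self a S)
    have h1 : ev1 a g = 0 := by
      rw [hg, ev1_mul ha1] at ha2
      rcases mul_eq_zero.mp ha2 with h | h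
      · exfalso
        rw [← coe_ev1Hom ha1, map_prod, Finset.prod_eq_zero_iff] at h
        obtain ⟨y, hy, h⟩ := h
        rw [map_sub, coe_ev1Hom, coe_ev1Hom, ev1_X, ev1_C, sub_eq_zero] at h
        exact ha (h ▸ hy)
      · exact h
    obtain ⟨g', hg'⟩ := exists_div g ha1 h1
    refine ⟨g', ?_⟩
    rw [Finset.prod_insert ha, hg, hg']
    ring

/-- the maximal ideal -/
def maxI (K : Type*) [NontriviallyNormedField K] [IsUltrametricDist K] : Ideal (OO K) where
  carrier := {x | ‖(x : K)‖ < 1}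
  add_mem' {a b} ha hb :=
    (IsUltrametricDist.norm_add_le_max (a : K) (b : K)).trans_lt (max_lt ha hb)
  zero_mem' := by simp
  smul_mem' a b hb := by
    simp only [Set.mem_ofPred_eq, smul_eq_mul, Subring.coe_mul, norm_mul] at *
    calc ‖(a : K)‖ * ‖(b : K)‖ ≤ 1 * ‖(b : K)‖ := by gcongr; exact norm_le_one a
      _ < 1 := by simpa using hb

theorem mem_maxI {x : OO K} : x ∈ maxI K ↔ ‖(x : K)‖ < 1 := Iff.rfl

theorem card_le (f : PowerSeries (OO K)) (d : ℕ)
    (hd : ‖((PowerSeries.coeff d f : OO K) : K)‖ = 1) (S : Finset (OO K))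
    (hS : ∀ y ∈ S, y ∈ zeroSet f) : S.card ≤ d := by
  by_contra hlt
  rw [not_le] at hlt
  obtain ⟨g, hg⟩ := prod_dvd f S hS
  set π := Ideal.Quotient.mk (maxI K)
  have h1 : PowerSeries.map π f = PowerSeries.X ^ S.card * PowerSeries.map π g := by
    conv_lhs => rw [hg]
    rw [map_mul, map_prod]
    congr 1
    rw [Finset.prod_congr rfl (g := fun _ => (PowerSeries.X : PowerSeries (OO K ⧸ maxI K)))]
    · simp
    · intro y hy
      rw [map_sub, PowerSeries.map_X, PowerSeries.map_C]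
      have : π y = 0 := Ideal.Quotient.eq_zero_iff_mem.mpr (hS y hy).1
      rw [this]; simp
  have h2 : PowerSeries.coeff d (PowerSeries.map π f) = 0 := by
    rw [h1, PowerSeries.coeff_X_pow_mul', if_neg (not_le.mpr hlt)]
  rw [PowerSeries.coeff_map] at h2
  have h3 := Ideal.Quotient.eq_zero_iff_mem.mp h2
  rw [mem_maxI, hd] at h3
  exact lt_irrefl _ h3

theorem zeroSet_ncard_le (f : PowerSeries (OO K)) (d : ℕ)
    (hd : ‖((PowerSeries.coeff d f : OO K) : K)‖ = 1) :
    (zeroSet f).Finite ∧ (zeroSet f).ncard ≤ d := by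
  have hfin : (zeroSet f).Finite := by
    by_contra hinf
    obtain ⟨S, hS1, hS2⟩ := Set.Infinite.exists_subset_card_eq hinf (d + 1)
    have := card_le f d hd S (fun y hy => hS1 hy)
    omega
  refine ⟨hfin, ?_⟩
  rw [Set.ncard_eq_toFinset_card _ hfin]
  exact card_le f d hd _ (fun y hy => (Set.Finite.mem_toFinset hfin).mp hy)

/-! ### Weierstrass preparation -/

theorem mem_span_iff (ϖ : OO K) (h0 : ϖ ≠ 0) (x : OO K) :
    x ∈ Ideal.span {ϖ} ↔ ‖(x : K)‖ ≤ ‖(ϖ : K)‖ := by
  have hϖ : (ϖ : K) ≠ 0 := fun h => h0 (Subtype.ext h)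
  rw [Ideal.mem_span_singleton]
  constructor
  · rintro ⟨c, rfl⟩
    rw [Subring.coe_mul, norm_mul]
    calc ‖(ϖ : K)‖ * ‖(c : K)‖ ≤ ‖(ϖ : K)‖ * 1 := by gcongr; exact norm_le_one c
      _ = _ := mul_one _
  · intro h
    refine ⟨⟨(x : K) / ϖ, ?_⟩, ?_⟩
    · rw [mem_OO, norm_div]
      exact div_le_one_of_le₀ h (norm_nonneg _)
    · apply Subtype.ext
      simp only [Subring.coe_mul]
      field_simp

theorem mem_span_pow_iff (ϖ : OO K) (h0 : ϖ ≠ 0) (n : ℕ) (x : OO K) :
    x ∈ Ideal.span {ϖ} ^ n ↔ ‖(x : K)‖ ≤ ‖(ϖ : K)‖ ^ n := by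
  rw [Ideal.span_singleton_pow, mem_span_iff _ (pow_ne_zero n h0)]
  simp

theorem isAdicComplete_span (ϖ : OO K) (h0 : ϖ ≠ 0) (h1 : ‖(ϖ : K)‖ < 1) :
    IsAdicComplete (Ideal.span {ϖ}) (OO K) := by
  have ht : Tendsto (fun n : ℕ => ‖(ϖ : K)‖ ^ n) atTop (𝓝 0) :=
    tendsto_pow_atTop_nhds_zero_of_lt_one (norm_nonneg _) h1
  have hhaus : IsHausdorff (Ideal.span {ϖ}) (OO K) := by
    refine ⟨fun x hx => ?_⟩
    have h2 : ∀ n : ℕ, ‖(x : K)‖ ≤ ‖(ϖ : K)‖ ^ n := by
      intro n
      have := hx n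
      rw [SModEq.zero, smul_eq_mul, Ideal.mul_top, mem_span_pow_iff ϖ h0] at this
      exact this
    have h3 : ‖(x : K)‖ ≤ 0 := ge_of_tendsto' ht h2
    exact Subtype.ext (norm_le_zero_iff.mp h3)
  have hprec : IsPrecomplete (Ideal.span {ϖ}) (OO K) := by
    refine ⟨fun s hs => ?_⟩
    have h2 : ∀ {m n : ℕ}, m ≤ n → ‖((s m : K) - (s n : K))‖ ≤ ‖(ϖ : K)‖ ^ m := by
      intro m n hmn
      have := hs hmn
      rw [SModEq.sub_mem, smul_eq_mul, Ideal.mul_top, mem_span_pow_iff ϖ h0] at this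
      simpa using this
    have hc : CauchySeq s := by
      refine cauchySeq_of_le_tendsto_0 (fun n : ℕ => ‖(ϖ : K)‖ ^ n + ‖(ϖ : K)‖ ^ n) ?_ ?_
      · intro n m N hn hm
        have e1 := h2 hn
        have e2 := h2 hm
        rw [dist_eq_norm]
        have : s n - s m = (s N - s m) - (s N - s n) := by ring
        rw [this]
        exact (norm_sub_le _ _).trans (add_le_add e2 e1)
      · simpa using ht.add ht
    obtain ⟨L, hL⟩ := cauchySeq_tendsto_of_complete hc
    refine ⟨L, fun n => ?_⟩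
    rw [SModEq.sub_mem, smul_eq_mul, Ideal.mul_top, mem_span_pow_iff ϖ h0]
    have h3 : Tendsto (fun m => ‖s n - s m‖) atTop (𝓝 ‖s n - L‖) :=
      (tendsto_const_nhds.sub hL).norm
    refine le_of_tendsto h3 ?_
    filter_upwards [eventually_ge_atTop n] with m hm
    exact h2 hm
  exact { toIsHausdorff := hhaus, toIsPrecomplete := hprec }

theorem isUnit_iff_norm {x : OO K} : IsUnit x ↔ ‖(x : K)‖ = 1 := by
  constructor
  · rintro ⟨u, rfl⟩
    have h1 : ((u : OO K) : K) * ((u⁻¹ : (OO K)ˣ) : OO K) = 1 := by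
      rw [← Subring.coe_mul, Units.mul_inv]; rfl
    have h2 := congrArg norm h1
    rw [norm_mul, norm_one] at h2
    have h3 := norm_le_one (u : OO K)
    have h4 := norm_le_one ((u⁻¹ : (OO K)ˣ) : OO K)
    nlinarith [norm_nonneg ((u : OO K) : K), norm_nonneg ((((u⁻¹ : (OO K)ˣ) : OO K)) : K)]
  · intro h
    have hx : (x : K) ≠ 0 := by
      intro h0; rw [h0, norm_zero] at h; exact zero_ne_one h
    have hi : ‖((x : K)⁻¹)‖ ≤ 1 := by rw [norm_inv, h, inv_one]
    refine IsUnit.of_mul_eq_one (⟨(x : K)⁻¹, hi⟩ : OO K) ?_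
    apply Subtype.ext
    simp [hx]

/-- Weierstrass preparation: `f * q = P` with `q` a unit and `P` distinguished of degree `d`. -/
theorem exists_weier (f : PowerSeries (OO K)) (d : ℕ)
    (hlt : ∀ i < d, ‖((PowerSeries.coeff i f : OO K) : K)‖ < 1)
    (hd : ‖((PowerSeries.coeff d f : OO K) : K)‖ = 1) :
    ∃ (q : PowerSeries (OO K)) (P : Polynomial (OO K)),
      P.Monic ∧ P.natDegree = d ∧ (∀ i < d, ‖((P.coeff i : OO K) : K)‖ < 1) ∧
      f * q = P := by
  classical
  obtain ⟨ϖ0, h00, h01⟩ := NormedField.exists_norm_lt_one K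
  have h0mem : ϖ0 ∈ OO K := h01.le
  obtain ⟨ϖ, hϖS, hϖmax⟩ := Finset.exists_max_image
    (insert (⟨ϖ0, h0mem⟩ : OO K) ((Finset.range d).image fun i => PowerSeries.coeff i f))
    (fun x => ‖(x : K)‖) ⟨_, Finset.mem_insert_self _ _⟩
  have hϖ1 : ‖(ϖ : K)‖ < 1 := by
    rcases Finset.mem_insert.mp hϖS with h | h
    · rw [h]; exact h01
    · obtain ⟨i, hi, rfl⟩ := Finset.mem_image.mp h
      exact hlt i (Finset.mem_range.mp hi)
  have hϖ0 : ϖ ≠ 0 := by
    intro h
    have h2 := hϖmax _ (Finset.mem_insert_self _ _)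
    rw [h] at h2
    simp only [ZeroMemClass.coe_zero, norm_zero] at h2
    exact absurd h00 (not_lt.mpr h2)
  have hmem : ∀ i < d, PowerSeries.coeff i f ∈ Ideal.span {ϖ} := by
    intro i hi
    rw [mem_span_iff ϖ hϖ0]
    exact hϖmax _ (Finset.mem_insert_of_mem (Finset.mem_image_of_mem _ (Finset.mem_range.mpr hi)))
  have := isAdicComplete_span ϖ hϖ0 hϖ1
  have hord : (f.map (Ideal.Quotient.mk (Ideal.span {ϖ}))).order = d := by
    rw [PowerSeries.order_eq_nat]
    refine ⟨?_, fun i hi => ?_⟩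
    · rw [PowerSeries.coeff_map, Ne, Ideal.Quotient.eq_zero_iff_mem, mem_span_iff ϖ hϖ0, hd]
      exact not_le.mpr hϖ1
    · rw [PowerSeries.coeff_map, Ideal.Quotient.eq_zero_iff_mem]
      exact hmem i hi
  have hordN : (f.map (Ideal.Quotient.mk (Ideal.span {ϖ}))).order.toNat = d := by
    rw [hord]; rfl
  have H : f.IsWeierstrassDivisorAt (Ideal.span {ϖ}) := by
    unfold PowerSeries.IsWeierstrassDivisorAt
    rw [hordN, isUnit_iff_norm, hd]
  have H2 := H.isWeierstrassDivisionAt_div_mod (f := PowerSeries.X ^ d)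
  obtain ⟨H3, H4⟩ := H2
  rw [hordN] at H3
  set q := H.div (PowerSeries.X ^ d) with hq
  set r := H.mod (PowerSeries.X ^ d) with hr
  have hdeg : (Polynomial.X ^ d - r).degree = (d : WithBot ℕ) := by
    rw [Polynomial.degree_sub_eq_left_of_degree_lt, Polynomial.degree_X_pow]
    rw [Polynomial.degree_X_pow]; exact H3
  have hmonic : (Polynomial.X ^ d - r).Monic :=
    .sub_of_left (Polynomial.monic_X_pow d) (by rw [Polynomial.degree_X_pow]; exact H3)
  have heq : f * q = ((Polynomial.X ^ d - r : Polynomial (OO K)) : PowerSeries (OO K)) := by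
    rw [Polynomial.coe_sub, Polynomial.coe_pow, Polynomial.coe_X, H4]
    ring
  refine ⟨q, Polynomial.X ^ d - r, hmonic, Polynomial.natDegree_eq_of_degree_eq_some hdeg,
    fun i hi => ?_, heq⟩
  have h1 : (Polynomial.X ^ d - r).coeff i = PowerSeries.coeff i (f * q) := by
    rw [heq, Polynomial.coeff_coe]
  rw [h1, ← mem_maxI, PowerSeries.coeff_mul]
  refine Ideal.sum_mem _ fun p hp => ?_
  refine Ideal.mul_mem_right _ _ ?_
  rw [mem_maxI]
  have := Finset.HasAntidiagonal.mem_antidiagonal.mp hp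
  exact hlt _ (by omega)

theorem norm_sum_lt {ι : Type*} (s : Finset ι) (g : ι → K) (C : ℝ) (hC : 0 < C)
    (h : ∀ i ∈ s, ‖g i‖ < C) : ‖∑ i ∈ s, g i‖ < C := by
  classical
  induction s using Finset.induction_on with
  | empty => simpa using hC
  | insert a s ha ih =>
    rw [Finset.sum_insert ha]
    exact (IsUltrametricDist.norm_add_le_max _ _).trans_lt (max_lt
      (h a (Finset.mem_insert_self a s)) (ih fun i hi => h i (Finset.mem_insert_of_mem hi)))

/-- all roots of a distinguished polynomial have norm `< 1` -/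
theorem root_norm_lt (P : Polynomial (OO K)) (d : ℕ) (hP : P.Monic) (hPd : P.natDegree = d)
    (hlt : ∀ i < d, ‖((P.coeff i : OO K) : K)‖ < 1) (a : K)
    (ha : (P.map (OO K).subtype).eval a = 0) : ‖a‖ < 1 := by
  by_contra hge
  rw [not_lt] at hge
  have hpos : 0 < ‖a‖ := lt_of_lt_of_le one_pos hge
  rw [Polynomial.eval_map, Polynomial.eval₂_eq_sum_range, hPd, Finset.sum_range_succ] at ha
  have hc : (OO K).subtype (P.coeff d) = 1 := by
    rw [← hPd, hP.coeff_natDegree, map_one]
  rw [hc, one_mul, add_comm] at ha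
  have h1 : a ^ d = - ∑ i ∈ Finset.range d, (OO K).subtype (P.coeff i) * a ^ i :=
    eq_neg_of_add_eq_zero_left ha
  have h2 : ‖∑ i ∈ Finset.range d, (OO K).subtype (P.coeff i) * a ^ i‖ < ‖a‖ ^ d := by
    refine norm_sum_lt _ _ _ (pow_pos hpos d) fun i hi => ?_
    have hi' := Finset.mem_range.mp hi
    rw [norm_mul, norm_pow]
    calc ‖(OO K).subtype (P.coeff i)‖ * ‖a‖ ^ i < 1 * ‖a‖ ^ i :=
          mul_lt_mul_of_pos_right (hlt i hi') (pow_pos hpos i)
      _ ≤ ‖a‖ ^ d := by
          rw [one_mul]; exact pow_le_pow_right₀ hge hi'.le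
  rw [← norm_neg, ← h1, norm_pow] at h2
  exact lt_irrefl _ h2

theorem eval_map_coe (P : Polynomial (OO K)) (y : OO K) :
    (P.map (OO K).subtype).eval (y : K) = ((P.eval y : OO K) : K) := by
  have := Polynomial.eval_map_apply (f := (OO K).subtype) (p := P) y
  exact this

theorem constantCoeff_norm (f q : PowerSeries (OO K)) (P : Polynomial (OO K)) (d : ℕ)
    (hP : P.Monic) (hPd : P.natDegree = d) (hfq : f * q = P)
    (hltf : ∀ i < d, ‖((PowerSeries.coeff i f : OO K) : K)‖ < 1) :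
    ‖((PowerSeries.coeff 0 q : OO K) : K)‖ = 1 := by
  by_contra hne
  have hlt : ‖((PowerSeries.coeff 0 q : OO K) : K)‖ < 1 :=
    lt_of_le_of_ne (norm_le_one _) hne
  have h1 : PowerSeries.coeff d (f * q) = 1 := by
    rw [hfq, Polynomial.coeff_coe, ← hPd, hP.coeff_natDegree]
  have h2 : PowerSeries.coeff d (f * q) ∈ maxI K := by
    rw [PowerSeries.coeff_mul]
    refine Ideal.sum_mem _ fun p hp => ?_
    have hp' := Finset.HasAntidiagonal.mem_antidiagonal.mp hp
    rcases Nat.lt_or_ge p.1 d with h | h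
    · exact Ideal.mul_mem_right _ _ (hltf _ h)
    · have : p.2 = 0 := by omega
      rw [this]
      exact Ideal.mul_mem_left _ _ hlt
  rw [h1, mem_maxI] at h2
  simp at h2

theorem ev1_ne_zero (q : PowerSeries (OO K))
    (hq : ‖((PowerSeries.coeff 0 q : OO K) : K)‖ = 1) {y : OO K} (hy : ‖(y : K)‖ < 1) :
    ev1 y q ≠ 0 := by
  intro h
  have hf0 : shiftN q 0 = q := by ext j; simp [shiftN]
  have h1 : q = PowerSeries.C (PowerSeries.coeff 0 q) + PowerSeries.X * shiftN q (0 + 1) := by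
    conv_lhs => rw [← hf0, shiftN_succ]
  rw [h1, ev1_add hy, ev1_C, ev1_mul hy, ev1_X] at h
  have h2 : PowerSeries.coeff 0 q ∈ maxI K := by
    rw [eq_neg_of_add_eq_zero_left h]
    exact neg_mem (Ideal.mul_mem_right _ _ hy)
  rw [mem_maxI, hq] at h2
  exact lt_irrefl _ h2

/-- zeros of `f` in the open disc are the roots of the distinguished polynomial -/
theorem mem_zeroSet_iff (f q : PowerSeries (OO K)) (P : Polynomial (OO K)) (d : ℕ)
    (hP : P.Monic) (hPd : P.natDegree = d) (hfq : f * q = P)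
    (hltf : ∀ i < d, ‖((PowerSeries.coeff i f : OO K) : K)‖ < 1) {y : OO K}
    (hy : ‖(y : K)‖ < 1) : ev1 y f = 0 ↔ (P.map (OO K).subtype).eval (y : K) = 0 := by
  have hq := ev1_ne_zero q (constantCoeff_norm f q P d hP hPd hfq hltf) hy
  rw [eval_map_coe, ← ev1_coe hy, ← hfq, ev1_mul hy]
  rw [ZeroMemClass.coe_eq_zero, mul_eq_zero]
  constructor
  · exact fun h => Or.inl h
  · rintro (h | h)
    · exact h
    · exact absurd h hq

theorem zeroSet_image (f q : PowerSeries (OO K)) (P : Polynomial (OO K)) (d : ℕ)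
    (hP : P.Monic) (hPd : P.natDegree = d)
    (hlt : ∀ i < d, ‖((P.coeff i : OO K) : K)‖ < 1) (hfq : f * q = P)
    (hltf : ∀ i < d, ‖((PowerSeries.coeff i f : OO K) : K)‖ < 1) :
    (Subtype.val '' zeroSet f : Set K) = {a | (P.map (OO K).subtype).IsRoot a} := by
  ext a
  constructor
  · rintro ⟨y, ⟨hy1, hy2⟩, rfl⟩
    exact (mem_zeroSet_iff f q P d hP hPd hfq hltf hy1).mp hy2
  · intro ha
    have h1 := root_norm_lt P d hP hPd hlt a ha
    exact ⟨⟨a, h1.le⟩, ⟨h1, (mem_zeroSet_iff f q P d hP hPd hfq hltf (y := ⟨a, h1.le⟩) h1).mpr ha⟩,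
      rfl⟩

theorem zeroSet_ncard_eq [IsAlgClosed K] (f : PowerSeries (OO K)) (d : ℕ)
    (hlt : ∀ i < d, ‖((PowerSeries.coeff i f : OO K) : K)‖ < 1)
    (hd : ‖((PowerSeries.coeff d f : OO K) : K)‖ = 1)
    (hs : ∀ y ∈ zeroSet f, ev1 y (PowerSeries.derivative (OO K) f) ≠ 0) :
    (zeroSet f).ncard = d := by
  classical
  obtain ⟨q, P, hP, hPd, hPlt, hfq⟩ := exists_weier f d hlt hd
  have himg := zeroSet_image f q P d hP hPd hPlt hfq hlt
  set R := P.map (OO K).subtype with hR
  have hR0 : R ≠ 0 := (hP.map _).ne_zero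
  have hcard : R.roots.card = d := by
    rw [IsAlgClosed.card_roots_eq_natDegree, hR, hP.natDegree_map, hPd]
  have hnodup : R.roots.Nodup := by
    rw [Multiset.nodup_iff_count_le_one]
    intro a
    rw [Polynomial.count_roots]
    by_contra hgt
    rw [not_le, Polynomial.one_lt_rootMultiplicity_iff_isRoot hR0] at hgt
    obtain ⟨ha, hda⟩ := hgt
    have hmem : a ∈ (Subtype.val '' zeroSet f : Set K) := by
      rw [himg]; exact ha
    obtain ⟨y, hyz, rfl⟩ := hmem
    obtain ⟨hy1, hy2⟩ := hyz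
    have hder : PowerSeries.derivative (OO K) (f * q) =
        ((Polynomial.derivative P : Polynomial (OO K)) : PowerSeries (OO K)) := by
      rw [hfq, PowerSeries.derivative_coe]
    have h3 := congrArg (ev1 y) hder
    rw [ev1_coe hy1] at h3
    have h4 : ev1 y (PowerSeries.derivative (OO K) (f * q)) =
        ev1 y (PowerSeries.derivative (OO K) f) * ev1 y q := by
      rw [Derivation.leibniz, smul_eq_mul, smul_eq_mul, ev1_add hy1, ev1_mul hy1, ev1_mul hy1,
        hy2, zero_mul, zero_add, mul_comm]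
    rw [h4] at h3
    have hq := ev1_ne_zero q (constantCoeff_norm f q P d hP hPd hfq hlt) hy1
    have h5 : (Polynomial.derivative P).eval y = 0 := by
      apply Subtype.ext
      rw [← eval_map_coe, ← Polynomial.derivative_map]
      exact hda
    rw [h5] at h3
    rcases mul_eq_zero.mp h3 with h | h
    · exact hs y ⟨hy1, hy2⟩ h
    · exact hq h
  have h1 : (zeroSet f).ncard = (Subtype.val '' zeroSet f : Set K).ncard :=
    (Set.ncard_image_of_injective _ Subtype.val_injective).symm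
  rw [h1, himg]
  have h2 : {a | R.IsRoot a} = ((R.roots.toFinset : Finset K) : Set K) := by
    ext a
    simp [Polynomial.mem_roots hR0]
  rw [h2, Set.ncard_coe_finset, Multiset.toFinset_card_of_nodup hnodup, hcard]

theorem exists_zero [IsAlgClosed K] (f : PowerSeries (OO K)) (d : ℕ) (hd0 : 0 < d)
    (hlt : ∀ i < d, ‖((PowerSeries.coeff i f : OO K) : K)‖ < 1)
    (hd : ‖((PowerSeries.coeff d f : OO K) : K)‖ = 1) : (zeroSet f).Nonempty := by
  obtain ⟨q, P, hP, hPd, hPlt, hfq⟩ := exists_weier f d hlt hd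
  have himg := zeroSet_image f q P d hP hPd hPlt hfq hlt
  have hdeg : (P.map (OO K).subtype).degree ≠ 0 := by
    rw [hP.degree_map, Polynomial.degree_eq_natDegree hP.ne_zero, hPd]
    exact_mod_cast hd0.ne'
  obtain ⟨a, ha⟩ := IsAlgClosed.exists_root _ hdeg
  have hmem : a ∈ (Subtype.val '' zeroSet f : Set K) := by
    rw [himg]; exact ha
  obtain ⟨y, hyz, -⟩ := hmem
  exact ⟨y, hyz⟩

end
end Vale.Agent.P217
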