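import Mathlib.Algebra.Module.ZMod
import Mathlib.LinearAlgebra.FreeModule.PID
import Vale.Agent.Lib.P217.Zeros
import Vale.Agent.Lib.P217.Pt
import Vale.Agent.Lib.P217.FrobFactor

/-!
# P217: torsion points of a formal group law over `OO K`, `K` of characteristic `p` (module A9)

Setting: `[p]_F(X) = V(X^{p^h})`, `V'(0) ≠ 0`, the coefficients of `V` in degrees `< p^r` have norm
`< 1` and the coefficient of `X^{p^r}` has norm `1`.  (The formal group law has height `h` over `K` and
height `h + r` over the residue field.)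

Proof plan: `p • y = c` iff `V(y^Q) -_F c = 0`, `Q = p^h`. The series `V(Y) -_F c` satisfies the
hypotheses of `zeroSet_ncard_eq` with `d = p^r` (it is congruent to `V` modulo the ideal
`‖·‖ ≤ ‖c‖`), its derivative at a zero is a unit times `V'(y)` and `V' · dser(F^{(Q)}) = V'(0) dser(F)(V)`
(`hom_derivative`, `isHom_of_frobenius_factor`), so is nonzero. It is simpler to work with
`V(Y) - c` (same zeros).  `y ↦ y^Q` is bijective on `OO K` (`K` algebraically closed of
characteristic `p`).  Then induct on `l` for `card_torsion`.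
-/

set_option linter.unusedSectionVars false

namespace Vale.Agent.P217

open MvPowerSeries Filter Topology

section
variable {K : Type*} [NontriviallyNormedField K] [IsUltrametricDist K] [CompleteSpace K]
  [IsAlgClosed K] {p : ℕ} [Fact p.Prime] [CharP K p]

/-- The data of height `h` generically and height `h + r` on the residue field. -/
structure HtData (p : ℕ) (F : FormalGroup (OO K)) (h r : ℕ) (V : PowerSeries (OO K)) : Prop where
  comm : F.IsComm
  V0 : PowerSeries.constantCoeff V = 0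
  hV : mulSeries F p = V.subst (PowerSeries.X ^ (p ^ h) : PowerSeries (OO K))
  ne : PowerSeries.coeff 1 V ≠ 0
  lt : ∀ i < p ^ r, ‖((PowerSeries.coeff i V : OO K) : K)‖ < 1
  eq : ‖((PowerSeries.coeff (p ^ r) V : OO K) : K)‖ = 1

variable {F : FormalGroup (OO K)} [F.IsComm] {h r : ℕ} {V : PowerSeries (OO K)}

/-- `p • y = V(y^Q)` -/
theorem p_smul_val (H : HtData p F h r V) (y : Pt F) : (p • y).val = ev1 (y.val ^ (p ^ h)) V := by
  have hp : 0 < p := (Fact.out : p.Prime).pos
  have hX : PowerSeries.constantCoeff (PowerSeries.X ^ (p ^ h) : PowerSeries (OO K)) = 0 := by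
    rw [map_pow, PowerSeries.constantCoeff_X, zero_pow (pow_pos hp h).ne']
  rw [Pt.nsmul_val, H.hV, ev1_comp y.tn _ _ hX]
  congr 1
  have h1 := ev_pow (hasEval_unit y.tn) (X () : MvPowerSeries Unit (OO K)) (p ^ h)
  rw [ev_X] at h1
  exact h1

theorem norm_pow_lt_one {y : OO K} (hy : ‖(y : K)‖ < 1) {m : ℕ} (hm : m ≠ 0) :
    ‖((y ^ m : OO K) : K)‖ < 1 := by
  rw [Subring.coe_pow, norm_pow]
  exact pow_lt_one₀ (norm_nonneg _) hy hm

theorem nm_p_smul_le (H : HtData p F h r V) (y : Pt F) : Pt.nm (p • y) ≤ Pt.nm y ^ (p ^ h) := by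
  have hp : 0 < p := (Fact.out : p.Prime).pos
  unfold Pt.nm
  rw [p_smul_val H]
  refine (norm_ev1_le V _ (norm_pow_lt_one y.norm_lt (pow_pos hp h).ne') H.V0).trans ?_
  rw [Subring.coe_pow, norm_pow]

theorem nm_pow_smul_le (H : HtData p F h r V) (m : ℕ) (y : Pt F) :
    Pt.nm (p ^ m • y) ≤ Pt.nm y ^ ((p ^ h) ^ m) := by
  induction m with
  | zero => simp
  | succ m ih =>
    have h1 : p ^ (m + 1) • y = p • (p ^ m • y) := by
      rw [← mul_smul]; congr 1; ring
    rw [h1]
    refine (nm_p_smul_le H _).trans ?_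
    calc Pt.nm (p ^ m • y) ^ (p ^ h) ≤ (Pt.nm y ^ ((p ^ h) ^ m)) ^ (p ^ h) :=
          pow_le_pow_left₀ (Pt.nm_nonneg _) ih _
      _ = _ := by rw [← pow_mul, pow_succ]

omit [IsAlgClosed K] in
theorem charP_OO : CharP (OO K) p :=
  (OO K).subtype.charP Subtype.val_injective p

/-- a power series with constant coefficient of norm `1` does not vanish on the open disc -/
theorem ev1_ne_zero_of_unit {f : PowerSeries (OO K)} (hf : PowerSeries.constantCoeff f = 1)
    {y : OO K} (hy : ‖(y : K)‖ < 1) : ev1 y f ≠ 0 := by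
  have hb := hasEval_OO hy
  have e1 : ev1 y f = 1 + ev1 y (f - 1) := by
    have h1 := ev_sub hb f (1 : MvPowerSeries Unit (OO K))
    rw [ev_one hb] at h1
    have h2 : ev1 y (f - 1) = ev1 y f - 1 := h1
    rw [h2]; ring
  have h3 : ‖((ev1 y (f - 1) : OO K) : K)‖ ≤ ‖(y : K)‖ :=
    norm_ev1_le _ y hy (by rw [map_sub, hf]; simp)
  have h4 : IsTopologicallyNilpotent (ev1 y (f - 1)) := tn_iff.mpr (h3.trans_lt hy)
  rw [e1]
  exact (isUnit_one_add h4).ne_zero

/-- the derivative of `V` does not vanish on the open disc -/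
theorem ev1_derivative_ne_zero (H : HtData p F h r V) {y : OO K} (hy : ‖(y : K)‖ < 1) :
    ev1 y (PowerSeries.derivative (OO K) V) ≠ 0 := by
  have _ := charP_OO (K := K) (p := p)
  have hb := hasEval_OO hy
  have hom := isHom_of_frobenius_factor p (isHom_mulSeries F p) h V H.V0 H.hV
  have hd := hom_derivative hom
  have h1 := congrArg (ev1 y) hd
  have e1 : ev1 y (PowerSeries.derivative (OO K) V * dser (F.map (iterateFrobenius (OO K) p h))) =
      ev1 y (PowerSeries.derivative (OO K) V) *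
        ev1 y (dser (F.map (iterateFrobenius (OO K) p h))) := ev_mul hb _ _
  have e2 : ev1 y (PowerSeries.C (PowerSeries.coeff 1 V) * (dser F).subst V) =
      PowerSeries.coeff 1 V * ev1 (ev1 y V) (dser F) := by
    have h2 := ev_mul hb (C (PowerSeries.coeff 1 V) : MvPowerSeries Unit (OO K))
      ((dser F).subst V)
    rw [ev_C] at h2
    have h3 : ev1 y ((dser F).subst V) = ev1 (ev1 y V) (dser F) :=
      ev1_comp (tn_iff.mpr hy) _ _ H.V0
    rw [← h3]
    exact h2
  rw [e1, e2] at h1
  intro h0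
  rw [h0, zero_mul] at h1
  have h5 : ‖((ev1 y V : OO K) : K)‖ < 1 := (norm_ev1_le V y hy H.V0).trans_lt hy
  exact mul_ne_zero H.ne (ev1_ne_zero_of_unit (dser_constantCoeff F) h5) h1.symm

theorem ev1_sub_C {y : OO K} (hy : ‖(y : K)‖ < 1) (V : PowerSeries (OO K)) (c : OO K) :
    ev1 y (V - PowerSeries.C c) = ev1 y V - c := by
  have h1 := ev_sub (hasEval_OO hy) V (C c : MvPowerSeries Unit (OO K))
  rw [ev_C] at h1
  exact h1

theorem zeroSet_card (H : HtData p F h r V) (c : Pt F) :
    (zeroSet (V - PowerSeries.C c.val)).ncard = p ^ r := by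
  have hp : 0 < p := (Fact.out : p.Prime).pos
  have hpr : 0 < p ^ r := pow_pos hp r
  refine zeroSet_ncard_eq _ _ ?_ ?_ ?_
  · intro i hi
    rcases Nat.eq_zero_or_pos i with h0 | h0
    · subst h0
      have : PowerSeries.coeff 0 (V - PowerSeries.C c.val) = - c.val := by
        have h1 := H.V0
        rw [← PowerSeries.coeff_zero_eq_constantCoeff_apply] at h1
        rw [map_sub, h1, PowerSeries.coeff_zero_C, zero_sub]
      rw [this]
      have h2 := c.norm_lt
      simpa using h2
    · have : PowerSeries.coeff i (V - PowerSeries.C c.val) = PowerSeries.coeff i V := by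
        rw [map_sub, PowerSeries.coeff_C, if_neg (by omega), sub_zero]
      rw [this]
      exact H.lt i hi
  · have : PowerSeries.coeff (p ^ r) (V - PowerSeries.C c.val) = PowerSeries.coeff (p ^ r) V := by
      rw [map_sub, PowerSeries.coeff_C, if_neg (by omega), sub_zero]
    rw [this]
    exact H.eq
  · intro y hy
    have : PowerSeries.derivative (OO K) (V - PowerSeries.C c.val) =
        PowerSeries.derivative (OO K) V := by
      rw [map_sub]
      simp
    rw [this]
    exact ev1_derivative_ne_zero H hy.1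

theorem card_fibre (H : HtData p F h r V) (c : Pt F) :
    Nat.card {y : Pt F // p • y = c} = p ^ r := by
  have hp : 0 < p := (Fact.out : p.Prime).pos
  have hph : p ^ h ≠ 0 := (pow_pos hp h).ne'
  rw [← zeroSet_card H c, ← Nat.card_coe_set_eq]
  let φ : {y : Pt F // p • y = c} → zeroSet (V - PowerSeries.C c.val) := fun y =>
    ⟨y.1.val ^ (p ^ h), norm_pow_lt_one y.1.norm_lt hph, by
      rw [ev1_sub_C (norm_pow_lt_one y.1.norm_lt hph), ← p_smul_val H, y.2, sub_self]⟩
  refine Nat.card_eq_of_bijective φ ⟨?_, ?_⟩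
  · intro y z hyz
    have h1 : y.1.val ^ (p ^ h) = z.1.val ^ (p ^ h) := congrArg Subtype.val hyz
    have h2 : (y.1.val : K) ^ (p ^ h) = (z.1.val : K) ^ (p ^ h) := by
      have := congrArg (fun t : OO K => (t : K)) h1
      simpa using this
    have h3 : iterateFrobenius K p h (y.1.val : K) = iterateFrobenius K p h (z.1.val : K) := by
      rw [iterateFrobenius_def, iterateFrobenius_def]; exact h2
    have h4 := (iterateFrobenius_inj K p h) h3
    ext
    exact_mod_cast h4
  · rintro ⟨z, hz1, hz2⟩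
    obtain ⟨w, hw⟩ := IsAlgClosed.exists_pow_nat_eq (z : K) (pow_pos hp h)
    have hw1 : ‖w‖ < 1 := by
      by_contra hc
      push Not at hc
      have h1 : 1 ≤ ‖w‖ ^ (p ^ h) := one_le_pow₀ hc
      rw [← norm_pow, hw] at h1
      linarith
    have hw2 : w ∈ OO K := mem_OO.mpr hw1.le
    have hwz : (⟨w, hw2⟩ : OO K) ^ (p ^ h) = z := by
      ext
      simpa using hw
    refine ⟨⟨Pt.mk' F ⟨w, hw2⟩ hw1, ?_⟩, ?_⟩
    · ext
      rw [p_smul_val H]
      have h5 : (Pt.mk' F ⟨w, hw2⟩ hw1).val ^ (p ^ h) = z := hwz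
      rw [h5]
      have h6 : ev1 z V - c.val = 0 := by rw [← ev1_sub_C hz1]; exact hz2
      rw [sub_eq_zero.mp h6]
    · apply Subtype.ext
      exact hwz

theorem p_smul_surjective (H : HtData p F h r V) : Function.Surjective fun y : Pt F => p • y := by
  intro c
  have hp : 0 < p := (Fact.out : p.Prime).pos
  have h1 := card_fibre H c
  have h2 : 0 < Nat.card {y : Pt F // p • y = c} := by rw [h1]; exact pow_pos hp r
  obtain ⟨h3, _⟩ := Nat.card_pos_iff.mp h2
  obtain ⟨y, hy⟩ := h3
  exact ⟨y, hy⟩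

theorem card_torsion (H : HtData p F h r V) (l : ℕ) :
    Nat.card {y : Pt F // p ^ l • y = 0} = p ^ (r * l) := by
  have hp : 0 < p := (Fact.out : p.Prime).pos
  induction l with
  | zero =>
    have : Unique {y : Pt F // p ^ 0 • y = 0} :=
      ⟨⟨⟨0, by simp⟩⟩, fun y => Subtype.ext (by simpa using y.2)⟩
    rw [Nat.card_unique]; simp
  | succ l ih =>
    let e : {y : Pt F // p ^ (l + 1) • y = 0} ≃
        Σ z : {z : Pt F // p ^ l • z = 0}, {y : Pt F // p • y = z.1} :=
      { toFun := fun y => ⟨⟨p • y.1, by rw [← mul_smul, ← pow_succ]; exact y.2⟩, ⟨y.1, rfl⟩⟩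
        invFun := fun x => ⟨x.2.1, by rw [pow_succ, mul_smul, x.2.2]; exact x.1.2⟩
        left_inv := fun y => rfl
        right_inv := by
          rintro ⟨⟨z, hz⟩, ⟨y, hy⟩⟩
          have hz' : z = p • y := hy.symm
          subst hz'
          rfl }
    rw [Nat.card_congr e]
    have hfin : Finite {z : Pt F // p ^ l • z = 0} :=
      Nat.finite_of_card_ne_zero (by rw [ih]; exact (pow_pos hp _).ne')
    have _ : Fintype {z : Pt F // p ^ l • z = 0} := Fintype.ofFinite _
    have hfin2 : ∀ z : {z : Pt F // p ^ l • z = 0}, Finite {y : Pt F // p • y = z.1} := fun z =>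
      Nat.finite_of_card_ne_zero (by rw [card_fibre H z.1]; exact (pow_pos hp _).ne')
    rw [Nat.card_sigma, Finset.sum_congr rfl fun z _ => card_fibre H z.1, Finset.sum_const,
      Finset.card_univ, ← Nat.card_eq_fintype_card, ih, smul_eq_mul, ← pow_add]
    congr 1

theorem exists_basis_of_card_aux {T : Type*} [AddCommGroup T] {p : ℕ} [hpf : Fact p.Prime] {r : ℕ}
    [Module (ZMod p) T] [Finite T] (hcard : Nat.card T = p ^ r) :
    ∃ ν : Fin r → T, (∀ y : T, ∃ c : Fin r → ℕ, y = ∑ i, c i • ν i) ∧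
      (∀ c : Fin r → ℤ, ∑ i, c i • ν i = 0 → ∀ i, (p : ℤ) ∣ c i) := by
  have hp : 0 < p := hpf.out.pos
  have hf : Module.Finite (ZMod p) T := Module.Finite.of_finite
  have hrank : Module.finrank (ZMod p) T = r := by
    have h1 := Module.natCard_eq_pow_finrank (K := ZMod p) (V := T)
    rw [hcard, Nat.card_eq_fintype_card, ZMod.card] at h1
    exact (Nat.pow_right_injective hpf.out.two_le h1).symm
  let b : Module.Basis (Fin r) (ZMod p) T := Module.finBasisOfFinrankEq (ZMod p) T hrank
  refine ⟨fun i => b i, ?_, ?_⟩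
  · intro y
    refine ⟨fun i => (b.repr y i).val, ?_⟩
    conv_lhs => rw [← b.sum_repr y]
    refine Finset.sum_congr rfl fun i _ => ?_
    conv_lhs => rw [← ZMod.natCast_zmod_val (b.repr y i)]
    rw [Nat.cast_smul_eq_nsmul]
  · intro c hc i
    have h5 : ∑ i, ((c i : ℤ) : ZMod p) • b i = 0 := by
      rw [← hc]
      refine Finset.sum_congr rfl fun i _ => ?_
      rw [Int.cast_smul_eq_zsmul]
    have h6 := Fintype.linearIndependent_iff.mp b.linearIndependent _ h5 i
    exact (ZMod.intCast_zmod_eq_zero_iff_dvd _ _).mp h6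
theorem exists_basis_of_card {T : Type*} [AddCommGroup T] {p : ℕ} [hpf : Fact p.Prime] {r : ℕ}
    (hT : ∀ y : T, p • y = 0) (hcard : Nat.card T = p ^ r) :
    ∃ ν : Fin r → T, (∀ y : T, ∃ c : Fin r → ℕ, y = ∑ i, c i • ν i) ∧
      (∀ c : Fin r → ℤ, ∑ i, c i • ν i = 0 → ∀ i, (p : ℤ) ∣ c i) := by
  have hfin : Finite T := Nat.finite_of_card_ne_zero (by
    rw [hcard]; exact (pow_pos hpf.out.pos _).ne')
  exact @exists_basis_of_card_aux T _ p _ r (AddCommGroup.zmodModule hT) hfin hcard

/-- a basis of the `p`-torsion -/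
theorem exists_torsion_basis (H : HtData p F h r V) :
    ∃ ν : Fin r → Pt F, (∀ i, p • ν i = 0) ∧
      (∀ y : Pt F, p • y = 0 → ∃ c : Fin r → ℕ, y = ∑ i, c i • ν i) ∧
      (∀ c : Fin r → ℤ, ∑ i, c i • ν i = 0 → ∀ i, (p : ℤ) ∣ c i) := by
  let T : AddSubgroup (Pt F) :=
    { carrier := {y | p • y = 0}
      add_mem' := by
        intro a b ha hb
        simp only [Set.mem_ofPred_eq] at ha hb ⊢
        rw [smul_add, ha, hb, add_zero]
      zero_mem' := by
        simp only [Set.mem_ofPred_eq]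
        exact smul_zero _
      neg_mem' := by
        intro a ha
        simp only [Set.mem_ofPred_eq] at ha ⊢
        rw [smul_neg, ha, neg_zero] }
  have hT : ∀ y : T, p • y = 0 := fun y => Subtype.ext y.2
  have hcard : Nat.card T = p ^ r := card_fibre H 0
  obtain ⟨ν, h1, h2⟩ := exists_basis_of_card hT hcard
  refine ⟨fun i => (ν i : Pt F), fun i => (ν i).2, ?_, ?_⟩
  · intro y hy
    obtain ⟨c, hc⟩ := h1 ⟨y, hy⟩
    refine ⟨c, ?_⟩
    have h4 := congrArg (fun t : T => (t : Pt F)) hc
    simpa [AddSubgroup.val_finsetSum] using h4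
  · intro c hc i
    refine h2 c ?_ i
    apply Subtype.ext
    simpa [AddSubgroup.val_finsetSum] using hc

end
end Vale.Agent.P217
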