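import Vale.Agent.Lib.P217.UC
import Vale.Agent.Lib.P217.Torsion

/-!
# P217: the coordinate functions `E_z` (module A11)

Setting: `R = k[[u_1..u_r]]`, `F` over `R`, a point `ξ` of the open polydisc, `c < 1` with
`‖ξ i‖ ≤ c`; `spec ι hξ : R → OO K` is the evaluation at `ξ`, `Fx = F.map (spec ι hξ)`,
`Fu = F.map (taylor ι hξ)` over `OO K[[Δ]]`, with constant term `Fx`.
-/

set_option linter.unusedSectionVars false

namespace Vale.Agent.P217

open MvPowerSeries Filter Topology
open scoped MvPowerSeries.WithPiTopology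

section
variable {K : Type*} [NontriviallyNormedField K] [IsUltrametricDist K] [CompleteSpace K]
  {k : Type*} [CommRing k] {r : ℕ}

/-- evaluation at `ξ` -/
noncomputable def spec (ι : k →+* OO K) {ξ : Fin r → OO K} (hξ : ∀ i, ‖(ξ i : K)‖ < 1) :
    MvPowerSeries (Fin r) k →+* OO K :=
  (evHom (hasEval_xi hξ)).comp (MvPowerSeries.map ι)

variable (ι : k →+* OO K) {ξ : Fin r → OO K} (hξ : ∀ i, ‖(ξ i : K)‖ < 1)

theorem spec_apply (f : MvPowerSeries (Fin r) k) : spec ι hξ f = ev ξ (f.map ι) :=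
  coe_evHom (hasEval_xi hξ) (f.map ι)

theorem constantCoeff_comp_taylor :
    (constantCoeff : MvPowerSeries (Fin r) (OO K) →+* OO K).comp (taylor ι hξ) =
      spec ι hξ := by
  ext f
  rw [RingHom.comp_apply, constantCoeff_taylor, spec_apply]

/-- `spec` is congruent to the reduction: `‖f(ξ) - f(0)‖ ≤ c` -/
theorem norm_spec_sub_le {c : ℝ} (hc : ∀ i, ‖(ξ i : K)‖ ≤ c) (hc0 : 0 ≤ c)
    (f : MvPowerSeries (Fin r) k) :
    ‖((spec ι hξ f - ι (constantCoeff f) : OO K) : K)‖ ≤ c := by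
  have hx := hasEval_xi hξ
  have h1 : spec ι hξ f - ι (constantCoeff f)
      = ev ξ (f.map ι - C (ι (constantCoeff f))) := by
    rw [ev_sub hx, ev_C, spec_apply]
  rw [h1]
  refine ev_mem_of_closed hx _ (ballIdeal K c hc0) (isClosed_ballIdeal _ _) fun d => ?_
  rw [mem_ballIdeal]
  by_cases hd : d = 0
  · subst hd
    have h0 : coeff (0 : Fin r →₀ ℕ) (f.map ι - C (ι (constantCoeff f))) = 0 := by
      rw [map_sub, coeff_map, coeff_zero_C, coeff_zero_eq_constantCoeff_apply, sub_self]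
    rw [h0]
    simpa using hc0
  · obtain ⟨i, hi⟩ := Finsupp.ne_iff.1 hd
    rw [Finsupp.coe_zero, Pi.zero_apply] at hi
    have h2 : ‖((d.prod fun s e => ξ s ^ e : OO K) : K)‖ ≤ c := by
      have h3 : (d.prod fun s e => ξ s ^ e : OO K) ∈ ballIdeal K c hc0 := by
        rw [Finsupp.prod_fintype _ _ (fun _ => pow_zero _), ← Finset.mul_prod_erase _ _ (Finset.mem_univ i)]
        refine Ideal.mul_mem_right _ _ ?_
        have h4 : ξ i ^ d i = ξ i * ξ i ^ (d i - 1) := by
          rw [← pow_succ']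
          congr 1
          omega
        rw [h4]
        exact Ideal.mul_mem_right _ _ (hc i)
      exact h3
    have h5 : (coeff d (f.map ι - C (ι (constantCoeff f))) * d.prod fun s e => ξ s ^ e)
        ∈ ballIdeal K c hc0 := Ideal.mul_mem_left _ _ h2
    exact h5

/-- `‖f(δ) - f(0)‖ ≤ c` if `‖δ i‖ ≤ c` -/
theorem norm_ev_sub_constantCoeff_le {δ : Fin r → OO K} {c : ℝ} (hc0 : 0 ≤ c) (hc1 : c < 1)
    (hδ : ∀ i, ‖(δ i : K)‖ ≤ c) (f : MvPowerSeries (Fin r) (OO K)) :
    ‖((ev δ f - constantCoeff f : OO K) : K)‖ ≤ c := by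
  have hx : HasEval δ := hasEval_xi fun i => (hδ i).trans_lt hc1
  have h1 : ev δ f - constantCoeff f = ev δ (f - C (constantCoeff f)) := by
    rw [ev_sub hx, ev_C]
  rw [h1]
  have h2 := norm_ev_le hc1 hc0 hδ (f - C (constantCoeff f)) 1 (fun d hd => by
    have hd0 : d = 0 := by
      rw [Nat.lt_one_iff, Finsupp.degree_eq_zero_iff] at hd
      exact hd
    subst hd0
    rw [map_sub, coeff_zero_C, coeff_zero_eq_constantCoeff_apply, sub_self])
  rwa [pow_one] at h2

/-- congruent series have congruent values at congruent points -/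
theorem norm_ev1_sub_ev1_le {c : ℝ} (hc0 : 0 ≤ c) {x y : OO K} (hx : ‖(x : K)‖ < 1)
    (hy : ‖(y : K)‖ < 1) (hxy : ‖((x - y : OO K) : K)‖ ≤ c) (f g : PowerSeries (OO K))
    (hfg : ∀ i, ‖((PowerSeries.coeff i f - PowerSeries.coeff i g : OO K) : K)‖ ≤ c) :
    ‖((ev1 x f - ev1 y g : OO K) : K)‖ ≤ c := by
  have hx' : HasEval (fun _ : Unit => x) := hasEval_OO hx
  have hy' : HasEval (fun _ : Unit => y) := hasEval_OO hy
  have h : ev1 x f - ev1 y g ∈ ballIdeal K c hc0 := by
    refine (isClosed_ballIdeal (K := K) c hc0).mem_of_tendsto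
      ((ev_hasSum hx' f).sub (ev_hasSum hy' g)) ?_
    refine Eventually.of_forall fun s => Ideal.sum_mem _ fun d _ => ?_
    have e : ∀ u : OO K, (d.prod fun _ e => u ^ e : OO K) = u ^ d () := by
      intro u
      rw [Finsupp.prod_fintype _ _ (fun _ => pow_zero _)]
      simp
    have e2 : coeff d f * (d.prod fun _ e => x ^ e : OO K)
        - coeff d g * (d.prod fun _ e => y ^ e : OO K)
        = (coeff d f - coeff d g) * x ^ d () + coeff d g * (x ^ d () - y ^ d ()) := by
      rw [e, e]; ring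
    rw [e2]
    refine Ideal.add_mem _ (Ideal.mul_mem_right _ _ ?_) (Ideal.mul_mem_left _ _ ?_)
    · have h3 := hfg (d ())
      have h4 : d = Finsupp.single () (d ()) := by
        ext
        simp
      rw [mem_ballIdeal, h4]
      exact h3
    · obtain ⟨w, hw⟩ := sub_dvd_pow_sub_pow x y (d ())
      rw [hw]
      exact Ideal.mul_mem_right _ _ hxy
  exact h

variable (F : FormalGroup (MvPowerSeries (Fin r) k)) [F.IsComm] (Γ : FormalGroup k) [Γ.IsComm]
  (hΓ : F.map (constantCoeff : MvPowerSeries (Fin r) k →+* k) = Γ)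
  (p q : ℕ) (hq2 : 2 ≤ q) (hΓp : mulSeries Γ p = PowerSeries.X ^ q)
  {c : ℝ} (hc : ∀ i, ‖(ξ i : K)‖ ≤ c) (hc0 : 0 < c) (hc1 : c < 1)

include hΓ hΓp hc hc0 in
theorem pCong_spec : PCong p q c (F.map (spec ι hξ)) := by
  intro i
  have h1 := norm_spec_sub_le ι hξ hc hc0.le (PowerSeries.coeff i (mulSeries F p))
  have h2 : constantCoeff (PowerSeries.coeff i (mulSeries F p))
      = PowerSeries.coeff i (PowerSeries.X ^ q : PowerSeries k) := by
    rw [← hΓp, ← hΓ, mulSeries_map, PowerSeries.coeff_map]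
  have h3 : ι (PowerSeries.coeff i (PowerSeries.X ^ q : PowerSeries k))
      = PowerSeries.coeff i (PowerSeries.X ^ q : PowerSeries (OO K)) := by
    rw [PowerSeries.coeff_X_pow, PowerSeries.coeff_X_pow]
    split_ifs
    · exact map_one ι
    · exact map_zero ι
  rw [h2, h3] at h1
  rw [mulSeries_map, map_sub, PowerSeries.coeff_map]
  exact h1

include hΓ hc hc0 in
/-- endomorphisms of `Γ` are approximate endomorphisms of `Fx` -/
theorem approxHom_of_end {b : PowerSeries k} (hb : IsHom Γ Γ b) :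
    ApproxHom c (F.map (spec ι hξ)) (F.map (spec ι hξ)) (b.map ι) := by
  set Qc := Ideal.Quotient.mk (ballIdeal K c hc0.le) with hQc
  have hF : (F.map (spec ι hξ)).map Qc = (Γ.map ι).map Qc := by
    rw [← hΓ]
    ext d
    simp only [FormalGroup.map_toPowerSeries, coeff_map]
    rw [Ideal.Quotient.eq]
    exact norm_spec_sub_le ι hξ hc hc0.le _
  have hb2 := (hb.map ι).map Qc
  have hF' : (F.map (spec ι hξ)).toPowerSeries.map Qc = ((Γ.map ι).map Qc).toPowerSeries := by
    rw [← hF]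
    rfl
  have hc00 : PowerSeries.constantCoeff (b.map ι) = 0 := (hb.map ι).1
  refine ⟨hc00, fun d => ?_⟩
  have h1 := hb2.2
  rw [← hF'] at h1
  have e1 : PowerSeries.subst ((F.map (spec ι hξ)).toPowerSeries.map Qc)
      ((b.map ι).map Qc) = (PowerSeries.subst (F.map (spec ι hξ)).toPowerSeries
        (b.map ι)).map Qc := (PowerSeries.map_subst (hasSubst_F _) _).symm
  have e2 : ∀ i : Fin 2, PowerSeries.subst (X i : MvPowerSeries (Fin 2)
      (OO K ⧸ ballIdeal K c hc0.le)) ((b.map ι).map Qc)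
      = (PowerSeries.subst (X i : MvPowerSeries (Fin 2) (OO K)) (b.map ι)).map Qc := by
    intro i
    have h3 : (PowerSeries.subst (X i : MvPowerSeries (Fin 2) (OO K)) (b.map ι)).map Qc
        = PowerSeries.subst ((X i : MvPowerSeries (Fin 2) (OO K)).map Qc)
          ((b.map ι).map Qc) := PowerSeries.map_subst (hasSubst_X i) _
    rw [map_X] at h3
    exact h3.symm
  rw [e1, e2, e2, ← map_subst_pair Qc (hasSubst_psubst (hasSubst_X 0) hc00)
    (hasSubst_psubst (hasSubst_X 1) hc00)] at h1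
  have h2 := congrArg (coeff d) h1
  rw [coeff_map, coeff_map, Ideal.Quotient.eq] at h2
  rw [map_sub]
  exact h2

include hΓ hΓp hc hc0 hc1 hq2 in
/-- action of an endomorphism `b` of `Γ` on the universal cover of `Fx` -/
theorem exists_act {b : PowerSeries k} (hb : IsHom Γ Γ b) :
    ∃ Φ : UC (F.map (spec ι hξ)) p →+ UC (F.map (spec ι hξ)) p, ∀ z l,
      ‖((((Φ z).1 l).val : OO K) : K) - ((ev1 (z.1 l).val (b.map ι) : OO K) : K)‖ ≤ c :=
  exists_ucMap hq2 hc0.le hc1 (pCong_spec ι hξ F Γ hΓ p q hΓp hc hc0)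
    (pCong_spec ι hξ F Γ hΓ p q hΓp hc hc0) _ (approxHom_of_end ι hξ F Γ hΓ hc hc0 hb)

include hΓ hΓp hc hc0 hc1 hq2 in
/-- The coordinate function `E_z`, the `0`-th term of the lift of `z` to `OO K[[Δ]]`. We record the
lift itself. -/
theorem exists_lift_taylor (z : UC (F.map (spec ι hξ)) p) :
    ∃ zt : UC (F.map (taylor ι hξ)) p, ∀ l, constantCoeff (zt.1 l).val = (z.1 l).val := by
  have hG : (F.map (taylor ι hξ)).map (constantCoeff : MvPowerSeries (Fin r) (OO K) →+* OO K)
      = F.map (spec ι hξ) := by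
    ext d
    simp only [FormalGroup.map_toPowerSeries, coeff_map]
    rw [← constantCoeff_comp_taylor ι hξ]
    rfl
  have key : ∀ (G : FormalGroup (OO K)) [G.IsComm],
      (F.map (taylor ι hξ)).map (constantCoeff : MvPowerSeries (Fin r) (OO K) →+* OO K) = G →
      ∀ z : UC G p, ∃ zt : UC (F.map (taylor ι hξ)) p, ∀ l,
        constantCoeff (zt.1 l).val = (z.1 l).val := by
    intro G _ hG z
    subst hG
    refine exists_uLift (F.map (taylor ι hξ)) hq2 hc0 hc1 (fun i => ?_) z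
    have h1 := pCong_spec ι hξ F Γ hΓ p q hΓp hc hc0 i
    have h2 : constantCoeff (PowerSeries.coeff i (mulSeries (F.map (taylor ι hξ)) p
        - PowerSeries.X ^ q)) = PowerSeries.coeff i (mulSeries (F.map (spec ι hξ)) p
          - PowerSeries.X ^ q) := by
      rw [map_sub, map_sub, map_sub, mulSeries_map, mulSeries_map, PowerSeries.coeff_map,
        PowerSeries.coeff_map, PowerSeries.coeff_X_pow, PowerSeries.coeff_X_pow,
        ← constantCoeff_comp_taylor ι hξ]
      congr 1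
      split_ifs
      · exact map_one _
      · exact map_zero _
    rw [h2]
    exact h1
  exact key _ hG z

include hΓ hΓp hc hc0 hc1 hq2 in
include hΓ hΓp hc hc0 hc1 hq2 in
/-- Main formula. Let `φ : R → R` be a ring homomorphism over `k`, `t : φ_* F → F` a homomorphism
lifting the endomorphism `g` of `Γ`, and let `ξ'` be the point `u ↦ spec (φ u)`,
`δ = ξ' - ξ`.  For `z ∈ UC(Fx)` with lift `zt` and `Φ` the action of `g`:
`t_x (zt_0(δ)) = (g z)_0`.

Proof: `w_l = ev δ (zt l)` is a point of `F_{x'}`, `F_{x'} = φ_*F` at `x` , `w ∈ UC(F_{x'})`, and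
`‖w_l - z_l‖ ≤ c`; so `t_x(w)` is in `UC(Fx)` and is congruent to `g(z_l)` modulo `c`; use `uc_ext`. -/
theorem main_formula {g : PowerSeries k} (hg : IsHom Γ Γ g)
    (φ : MvPowerSeries (Fin r) k →+* MvPowerSeries (Fin r) k) (hφC : ∀ a, φ (C a) = C a)
    (hφX : ∀ i, constantCoeff (φ (X i)) = 0)
    (t : PowerSeries (MvPowerSeries (Fin r) k)) (ht : IsHom (F.map φ) F t)
    (htg : t.map (constantCoeff : MvPowerSeries (Fin r) k →+* k) = g)
    (δ : Fin r → OO K) (hδ : ∀ i, δ i = spec ι hξ (φ (X i)) - ξ i)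
    (z : UC (F.map (spec ι hξ)) p) (zt : UC (F.map (taylor ι hξ)) p)
    (hzt : ∀ l, constantCoeff (zt.1 l).val = (z.1 l).val)
    (Φ : UC (F.map (spec ι hξ)) p →+ UC (F.map (spec ι hξ)) p)
    (hΦ : ∀ z l, ‖((((Φ z).1 l).val : OO K) : K) - ((ev1 (z.1 l).val (g.map ι) : OO K) : K)‖ ≤ c) :
    ev1 (ev δ (zt.1 0).val) (t.map (spec ι hξ)) = ((Φ z).1 0).val := by
  have hspecC : ∀ a, spec ι hξ (C a) = ι a := by
    intro a
    rw [spec_apply, map_C, ev_C]
  have hcφ : ∀ i, ‖((spec ι hξ (φ (X i)) : OO K) : K)‖ ≤ c := by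
    intro i
    have h1 := norm_spec_sub_le ι hξ hc hc0.le (φ (X i))
    rw [hφX i, map_zero, sub_zero] at h1
    exact h1
  have hδc : ∀ i, ‖(δ i : K)‖ ≤ c := by
    intro i
    have h1 : δ i ∈ ballIdeal K c hc0.le := by
      rw [hδ i]
      exact Ideal.sub_mem _ (hcφ i) (hc i)
    exact h1
  have hδ1 : ∀ i, ‖(δ i : K)‖ < 1 := fun i => (hδc i).trans_lt hc1
  have hδE : HasEval δ := hasEval_xi hδ1
  have hE : Continuous (evHom hδE : MvPowerSeries (Fin r) (OO K) →+* OO K) := continuous_evHom hδE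
  have hcomp : ∀ f, evHom hδE (taylor ι hξ f) = spec ι hξ (φ f) := by
    intro f
    have h1 := ringHom_eq_ev ((spec ι hξ).comp φ) (fun i => (hcφ i).trans_lt hc1) f
    have h2 : ((spec ι hξ).comp φ).comp C = ι := by
      ext a
      rw [RingHom.comp_apply, RingHom.comp_apply, hφC, hspecC]
    have h3 : (fun i => ((spec ι hξ).comp φ) (X i)) = fun i => ξ i + δ i := by
      funext i
      rw [hδ i, RingHom.comp_apply]
      ring
    rw [h2, h3] at h1
    rw [coe_evHom, ev_taylor ι hξ hδ1, ← h1]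
    rfl
  have hG : (F.map (taylor ι hξ)).map (evHom hδE) = (F.map φ).map (spec ι hξ) := by
    ext d
    simp only [FormalGroup.map_toPowerSeries, coeff_map]
    rw [hcomp]
  have ht' : IsHom ((F.map (taylor ι hξ)).map (evHom hδE)) (F.map (spec ι hξ))
      (t.map (spec ι hξ)) := by
    rw [hG]
    exact ht.map _
  let v : ℕ → Pt (F.map (spec ι hξ)) := fun l =>
    Pt.hom ht' (Pt.map (evHom hδE) hE (zt.1 l))
  have hvUC : ∀ l, p • v (l + 1) = v l := by
    intro l
    change p • Pt.hom ht' (Pt.map (evHom hδE) hE (zt.1 (l + 1)))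
      = Pt.hom ht' (Pt.map (evHom hδE) hE (zt.1 l))
    rw [← map_nsmul, ← map_nsmul, zt.2 l]
  let vv : UC (F.map (spec ι hξ)) p := ⟨v, hvUC⟩
  have hvv : vv = Φ z := by
    refine uc_ext hq2 hc0.le hc1 (pCong_spec ι hξ F Γ hΓ p q hΓp hc hc0) vv (Φ z) fun l => ?_
    have e1 : (vv.1 l).val = ev1 (ev δ (zt.1 l).val) (t.map (spec ι hξ)) := by
      change ev1 (evHom hδE (zt.1 l).val) (t.map (spec ι hξ)) = _
      rw [coe_evHom]
    have h1 := norm_ev_sub_constantCoeff_le hc0.le hc1 hδc (zt.1 l).val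
    rw [hzt l] at h1
    have hzl : ‖((z.1 l).val : K)‖ < 1 := (z.1 l).norm_lt
    have hwl : ‖((ev δ (zt.1 l).val : OO K) : K)‖ < 1 := by
      have h2 : ev δ (zt.1 l).val = (Pt.map (evHom hδE) hE (zt.1 l)).val := by
        rw [Pt.map_val, coe_evHom]
      rw [h2]
      exact (Pt.map (evHom hδE) hE (zt.1 l)).norm_lt
    have h3 := norm_ev1_sub_ev1_le hc0.le hwl hzl h1 (t.map (spec ι hξ)) (g.map ι) (fun i => by
      have h4 := norm_spec_sub_le ι hξ hc hc0.le (PowerSeries.coeff i t)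
      have h5 : constantCoeff (PowerSeries.coeff i t) = PowerSeries.coeff i g := by
        rw [← htg, PowerSeries.coeff_map]
      rw [h5] at h4
      rw [PowerSeries.coeff_map, PowerSeries.coeff_map]
      exact h4)
    have h6 := hΦ z l
    have h7 : (vv.1 l).val - ((Φ z).1 l).val ∈ ballIdeal K c hc0.le := by
      have h8 : (vv.1 l).val - ((Φ z).1 l).val
          = (ev1 (ev δ (zt.1 l).val) (t.map (spec ι hξ)) - ev1 (z.1 l).val (g.map ι))
            - (((Φ z).1 l).val - ev1 (z.1 l).val (g.map ι)) := by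
        rw [e1]; ring
      rw [h8]
      exact Ideal.sub_mem _ h3 h6
    exact h7
  have e0 : (vv.1 0).val = ev1 (ev δ (zt.1 0).val) (t.map (spec ι hξ)) := by
    change ev1 (evHom hδE (zt.1 0).val) (t.map (spec ι hξ)) = _
    rw [coe_evHom]
  rw [← e0, hvv]

end
end Vale.Agent.P217
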