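import Vale.Agent.Lib.P217.MainAux

/-!
# P217: from an invariant prime to an additive relation (assembly)

`R = k[[u_1, …, u_r]]`, `F` over `R` with `[p]_F = V(X^Q)` (`VData`), reducing to `Γ` with
`[p]_Γ = X^q`, `q = p^{h+r}`, `Q = p^h`.  `HasDisp` : for every endomorphism `b` of `Γ` and large `m` the automorphism
`φ` of `R` given by `g = 1 + p^m b`, together with `t : φ_* F → F` lifting `g`, is very close to the identity,
and preserves the ideal `P`.

Theorem `main_relation`: if `P` is a nonzero prime not containing `u_1` there is a point of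
`P` over some `K` and a nontrivial relation (`RelData`).

Proof.
1. `exists_point` for `P` and `f = u_1 = X 0`: `K, ι, ξ` with `P` vanishing at `ξ` and `ξ_0 ≠ 0`; `c = max ‖ξ_i‖ < 1`
   (positive).  `Fx = F.map (spec ι hξ)`, `htData_spec`, `pCong_spec`, `exists_lambda`: `G, lam`.
2. `exists_torsion_basis`: `ν_i`; by `p_smul_surjective` choose `z_i ∈ UC Fx p` with `(z_i)_0 = 0`,
   `(z_i)_1 = ν_i`. `exists_lift_taylor`: `zt_i`, `E_i = (zt_i)_0 ∈ OO K[[Δ]]`, `E_i(0) = 0`.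
3. `A = K[[Δ]]`; `W = mulSeries (F.map taylor)` mapped to `A`. `deform_lambda` (with `lam` mapped to `K`) gives `L`.
   `q_i ∈ A` with `q_i - ∑_{j<N} L_j E_i^j` of order `≥ N` for all `N`. The Jacobian matrix of `(q_i)` is
   `lam_1` times the matrix of `jacobian_ne_zero` (`linear_part`).
4. Let `0 ≠ f ∈ P`, `ft = taylor f ≠ 0`, viewed in `A`; by `formal_ift`, `ft = Ψ(q_1..q_r)`, `Ψ ≠ 0`.
5. For `b` an endomorphism of `Γ`: `Φ_b` the action on `UC Fx p` (`exists_act`),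
   `y_i = (Φ_b z_i)_0`, `ξ_i(b) = lam(y_i) ∈ Pt G`. For `m ≥ m₀` let `(φ_m, t_m)` be as in `HasDisp`,
   `δ_m` the displacement, `‖δ_m‖ ≤ c^{Q^m}`.  `main_formula` for `g = 1 + p^m b`, whose action on the universal
   cover is `id + p^m Φ_b` (check `hΦ`), gives `t_m(E_i(δ_m)) = p^m • y_i`. With `mu m = lam ∘ t_m` (coefficients
   specialized at `ξ`), `mu m (E_i(δ_m)) = lam(p^m • y_i) = ξ_i(b)^{Q^m}`.
   `‖E_i(δ_m)‖ ≤ c^{Q^m}` (`norm_ev_le`, `N = 1`).
   `app_lambda` : `IsApp N q_i (ξ_i(b)^{Q^m})` with `ρ = max(c, ‖ξ_i(b)‖)`; the hypotheses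
   are checked with `isApp_of_OO` (for `W`: `ev_taylor`: the value at `δ_m` of the Taylor expansion of a coefficient
   of `[p]_F` is the coefficient of `[p]` of `F_{x'}`, `x' = spec ∘ φ_m`, by `ringHom_eq_ev`), `hmuW` by
   `IsHom.comp_mulSeries` and `LamData.frob`, `hmu` by the last estimate of `HasDisp`.
   `isApp_subst`: `IsApp N ft (Ψ_{<N}(ξ(b)^{Q^m}))`; by `isApp_of_OO`, `IsApp N ft (ft(δ_m))` and
   `ft(δ_m) = (φ_m f)(ξ) = 0` since `φ_m f ∈ P`.  So `‖Ψ_{<N}(ξ(b)^{Q^m})‖ ≤ C ρ^{N Q^m}`.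
6. `rigidity` for `Ω = {ξ(b)}` and `ℓ` with `ℓ(Ψ) ≠ 0` (some coefficient of `Ψ` is nonzero, choose `ℓ` nonzero on it):
   a nonzero series over `FixF K p h` vanishes on `Ω`, a subgroup (`b ↦ ξ(b)` is additive for addition of
   endomorphisms of `Γ`: use `uc_ext`).
7. `exists_relation`.
-/

set_option linter.unusedSectionVars false

namespace Vale.Agent.P217

open MvPowerSeries Filter Topology
open scoped MvPowerSeries.WithPiTopology

section
variable {k : Type} [Field k] {r : ℕ}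

/-- a power series without constant term, as a formal point -/
noncomputable def seriesPoint {R : Type*} [CommRing R] (F : FormalGroup R) (f : PowerSeries R)
    (hf : PowerSeries.constantCoeff f = 0) : F.Point Unit :=
  ⟨f, PowerSeries.HasSubst.of_constantCoeff_zero' hf⟩

/-- the series of the endomorphism `1 + p^m b` -/
noncomputable def onePlus {R : Type*} [CommRing R] (F : FormalGroup R) (p m : ℕ)
    (b : PowerSeries R) (hb : PowerSeries.constantCoeff b = 0) : PowerSeries R :=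
  (idPoint F + p ^ m • seriesPoint F b hb).val

/-- the ideal generated by the `s`-th powers of the variables -/
noncomputable def powIdeal (k : Type) [Field k] (r s : ℕ) : Ideal (MvPowerSeries (Fin r) k) :=
  Ideal.span {x | ∃ j : Fin r, x = (X j) ^ s}

/-- displacement data: see the module docstring -/
def HasDisp (p h : ℕ) (Γ : FormalGroup k) (F : FormalGroup (MvPowerSeries (Fin r) k))
    (P : Ideal (MvPowerSeries (Fin r) k)) : Prop :=
  ∀ (b : PowerSeries k) (hb : IsHom Γ Γ b), ∃ m₀ : ℕ, ∀ m ≥ m₀,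
    ∃ (φ : MvPowerSeries (Fin r) k →+* MvPowerSeries (Fin r) k)
      (t : PowerSeries (MvPowerSeries (Fin r) k)),
      (∀ a, φ (C a) = C a) ∧
      (∀ i, φ (X i) - X i ∈ powIdeal k r ((p ^ h) ^ m)) ∧
      IsHom (F.map φ) F t ∧
      t.map (constantCoeff : MvPowerSeries (Fin r) k →+* k) = onePlus Γ p m b hb.1 ∧
      (∀ j < (p ^ h) ^ m, PowerSeries.coeff j t - (if j = 1 then 1 else 0) ∈
        powIdeal k r ((p ^ h) ^ m)) ∧
      (∀ f ∈ P, φ f ∈ P)

/-- `Φ` is the action of (the endomorphism with series) `b` on the universal cover -/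
def IsAct {K : Type*} [NontriviallyNormedField K] [IsUltrametricDist K] [CompleteSpace K]
    {p : ℕ} (c : ℝ) (ι : k →+* OO K) {Fx : FormalGroup (OO K)} [Fx.IsComm] (b : PowerSeries k)
    (Φ : UC Fx p →+ UC Fx p) : Prop :=
  ∀ z l, ‖((((Φ z).1 l).val : OO K) : K) - ((ev1 (z.1 l).val (b.map ι) : OO K) : K)‖ ≤ c

end

section
variable {K : Type} [NontriviallyNormedField K] [IsUltrametricDist K] [CompleteSpace K]
  [IsAlgClosed K] {p : ℕ} [Fact p.Prime] [CharP K p] {h : ℕ} [Fact (0 < h)]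

/-- The data of a nontrivial relation at a point. -/
structure RelData (h r : ℕ) [Fact (0 < h)] {k : Type} [Field k] (Γ : FormalGroup k)
    (ι : k →+* OO K) (c : ℝ) (Fx : FormalGroup (OO K)) [Fx.IsComm] (V : PowerSeries (OO K))
    (G : FormalGroup (FixF K p h)) [G.IsComm] (lam : PowerSeries (OO K))
    (z : Fin r → UC Fx p) : Prop where
  c0 : 0 < c
  c1 : c < 1
  ht : HtData p Fx h r V
  pcong : PCong p (p ^ (h + r)) c Fx
  cong : ∀ d, ‖((coeff d (Fx.toPowerSeries - (Γ.map ι).toPowerSeries) : OO K) : K)‖ ≤ c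
  lamD : LamData Fx G lam
  z0 : ∀ i, (z i).1 0 = 0
  indep : ∀ a : Fin r → ℤ, ∑ i, a i • (z i).1 1 = 0 → ∀ i, (p : ℤ) ∣ a i
  rel : ∃ (j : Fin r) (χ : Fin r → PowerSeries (FixF K p h)) (hχ : ∀ i, IsHom G G (χ i)),
    χ j = 0 ∧ ∀ b : PowerSeries k, IsHom Γ Γ b → ∀ Φ : UC Fx p →+ UC Fx p, IsAct c ι b Φ →
      Pt.hom lamD.hom ((Φ (z j)).1 0) =
        ∑ i, Pt.hom ((hχ i).map (algebraMap (FixF K p h) (OO K)))
          (Pt.hom lamD.hom ((Φ (z i)).1 0))

end

/-! ### actions on the universal cover -/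

section act
variable {K : Type*} [NontriviallyNormedField K] [IsUltrametricDist K] [CompleteSpace K]
  {k : Type} [Field k] {p : ℕ} {c : ℝ} {ι : k →+* OO K} {Γ : FormalGroup k} [Γ.IsComm]
  {Fx : FormalGroup (OO K)} [Fx.IsComm]

theorem ma_constantCoeff_point {F : FormalGroup k} (P : F.Point Unit) :
    PowerSeries.constantCoeff P.val = 0 := by
  have h := P.prop
  have h2 : IsNilpotent (PowerSeries.constantCoeff P.val) := h
  exact h2.eq_zero

theorem ma_constantCoeff_map_point {F : FormalGroup k} (P : F.Point Unit) :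
    PowerSeries.constantCoeff (PowerSeries.map ι P.val) = 0 := by
  rw [← PowerSeries.coeff_zero_eq_constantCoeff_apply]
  have : PowerSeries.coeff 0 (PowerSeries.map ι P.val) = ι (PowerSeries.coeff 0 P.val) :=
    PowerSeries.coeff_map _ _ _
  rw [this, PowerSeries.coeff_zero_eq_constantCoeff_apply, ma_constantCoeff_point, map_zero]

/-- value of a sum of series -/
theorem ma_ev1_add_point (P Q : Γ.Point Unit) {x : OO K} (hx : ‖(x : K)‖ < 1) :
    ev1 x (PowerSeries.map ι (P + Q).val) =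
      ev ![ev1 x (PowerSeries.map ι P.val), ev1 x (PowerSeries.map ι Q.val)] (Γ.map ι).toPowerSeries := by
  have hb := hasEval_OO hx
  have h1 : PowerSeries.map ι (P + Q).val = subst ![PowerSeries.map ι P.val, PowerSeries.map ι Q.val] (Γ.map ι).toPowerSeries := by
    rw [FormalGroup.add_apply]
    exact map_subst_pair ι P.prop Q.prop _
  rw [h1]
  exact ev_subst_pair hb (hasSubst_pair_of_zero (ma_constantCoeff_map_point P)
    (ma_constantCoeff_map_point Q)) _

theorem ma_norm_ev1_point (P : Γ.Point Unit) {x : OO K} (hx : ‖(x : K)‖ < 1) :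
    ‖((ev1 x (PowerSeries.map ι P.val) : OO K) : K)‖ < 1 :=
  (norm_ev1_le _ x hx (ma_constantCoeff_map_point P)).trans_lt hx

theorem ma_ev1_zero_point {x : OO K} (hx : ‖(x : K)‖ < 1) :
    ev1 x (PowerSeries.map ι (0 : Γ.Point Unit).val) = 0 := by
  have h0 : (0 : Γ.Point Unit).val = 0 := rfl
  have h1 : PowerSeries.map ι (0 : Γ.Point Unit).val = 0 := by rw [h0]; exact map_zero _
  rw [h1]
  exact ev_zero (hasEval_OO hx)

theorem isAct_zero (hc0 : 0 ≤ c) :
    IsAct c ι (0 : Γ.Point Unit).val (0 : UC Fx p →+ UC Fx p) := by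
  intro z l
  rw [ma_ev1_zero_point (z.1 l).norm_lt]
  have h1 : (((0 : UC Fx p →+ UC Fx p) z).1 l).val = 0 := rfl
  rw [h1]
  simpa using hc0

theorem isAct_id (hc0 : 0 ≤ c) :
    IsAct c ι (idPoint Γ).val (AddMonoidHom.id (UC Fx p)) := by
  intro z l
  have h0 : PowerSeries.map ι (idPoint Γ).val = PowerSeries.X := PowerSeries.map_X ι
  have h1 : ev1 (z.1 l).val (PowerSeries.X : PowerSeries (OO K)) = (z.1 l).val := ev_X _ _
  rw [h0, h1]
  simpa using hc0

theorem isAct_add (hc0 : 0 ≤ c)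
    (hcong : ∀ d, ‖((coeff d (Fx.toPowerSeries - (Γ.map ι).toPowerSeries) : OO K) : K)‖ ≤ c)
    {P Q : Γ.Point Unit} {Φ Ψ : UC Fx p →+ UC Fx p}
    (hP : IsAct c ι P.val Φ) (hQ : IsAct c ι Q.val Ψ) : IsAct c ι (P + Q).val (Φ + Ψ) := by
  intro z l
  have hx := (z.1 l).norm_lt
  rw [ma_ev1_add_point P Q hx]
  exact ma_ev_pair_sub_mem hc0 hcong ((Φ z).1 l).norm_lt ((Ψ z).1 l).norm_lt
    (ma_norm_ev1_point P hx) (ma_norm_ev1_point Q hx) (hP z l) (hQ z l)

theorem isAct_neg (hc0 : 0 ≤ c)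
    (hcong : ∀ d, ‖((coeff d (Fx.toPowerSeries - (Γ.map ι).toPowerSeries) : OO K) : K)‖ ≤ c)
    {P : Γ.Point Unit} {Φ : UC Fx p →+ UC Fx p}
    (hP : IsAct c ι P.val Φ) : IsAct c ι (-P).val (-Φ) := by
  intro z l
  have hx := (z.1 l).norm_lt
  set w : OO K := ev1 (z.1 l).val (PowerSeries.map ι (-P).val) with hw
  have hwn : ‖(w : K)‖ < 1 := ma_norm_ev1_point (-P) hx
  let a : Pt Fx := Pt.mk' Fx w hwn
  let y : Pt Fx := (Φ z).1 l
  have h1 : (y + a).val ∈ ballIdeal K c hc0 := by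
    have h2 := ma_ev_pair_sub_mem hc0 hcong (x := y.val) (y := w) (x' := ev1 (z.1 l).val (PowerSeries.map ι P.val))
      (y' := w) y.norm_lt hwn (ma_norm_ev1_point P hx) hwn (hP z l)
      (by rw [sub_self]; exact (ballIdeal K c hc0).zero_mem)
    rw [hw, ← ma_ev1_add_point P (-P) hx, Point.add_neg, ma_ev1_zero_point hx, sub_zero, ← hw] at h2
    exact h2
  have h3 : (-y - a).val ∈ ballIdeal K c hc0 := by
    have h4 := (Pt.inIdeal Fx _ (isClosed_ballIdeal (K := K) c hc0)).neg_mem (x := y + a) h1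
    have h5 : -(y + a) = -y - a := by abel
    rw [h5] at h4
    exact h4
  rw [Pt.sub_val_mem_iff _ (isClosed_ballIdeal (K := K) c hc0)] at h3
  exact h3

theorem isAct_nsmul (hc0 : 0 ≤ c)
    (hcong : ∀ d, ‖((coeff d (Fx.toPowerSeries - (Γ.map ι).toPowerSeries) : OO K) : K)‖ ≤ c)
    {P : Γ.Point Unit} {Φ : UC Fx p →+ UC Fx p}
    (hP : IsAct c ι P.val Φ) (m : ℕ) : IsAct c ι (m • P).val (m • Φ) := by
  induction m with
  | zero => rw [zero_nsmul, zero_nsmul]; exact isAct_zero hc0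
  | succ m ih => rw [succ_nsmul, succ_nsmul]; exact isAct_add hc0 hcong ih hP

theorem isHom_onePlus {m : ℕ} {b : PowerSeries k} (hb : IsHom Γ Γ b) :
    IsHom Γ Γ (onePlus Γ p m b hb.1) :=
  ma_isHom_add (P := idPoint Γ) (isHom_X Γ) (ma_isHom_nsmul (P := seriesPoint Γ b hb.1) hb _)

theorem isAct_onePlus (hc0 : 0 ≤ c)
    (hcong : ∀ d, ‖((coeff d (Fx.toPowerSeries - (Γ.map ι).toPowerSeries) : OO K) : K)‖ ≤ c)
    {m : ℕ} {b : PowerSeries k} (hb : IsHom Γ Γ b) {Φ : UC Fx p →+ UC Fx p}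
    (hΦ : IsAct c ι b Φ) :
    IsAct c ι (onePlus Γ p m b hb.1) (AddMonoidHom.id (UC Fx p) + p ^ m • Φ) :=
  isAct_add (P := idPoint Γ) hc0 hcong (isAct_id hc0)
    (isAct_nsmul (P := seriesPoint Γ b hb.1) hc0 hcong hΦ _)

/-- the group of all actions of endomorphisms of `Γ` -/
def actGroup (p : ℕ) (c : ℝ) (ι : k →+* OO K) (Γ : FormalGroup k) [Γ.IsComm]
    (Fx : FormalGroup (OO K)) [Fx.IsComm] (hc0 : 0 ≤ c)
    (hcong : ∀ d, ‖((coeff d (Fx.toPowerSeries - (Γ.map ι).toPowerSeries) : OO K) : K)‖ ≤ c) :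
    AddSubgroup (UC Fx p →+ UC Fx p) where
  carrier := {Φ | ∃ P : Γ.Point Unit, IsHom Γ Γ P.val ∧ IsAct c ι P.val Φ}
  add_mem' := by
    rintro Φ Ψ ⟨P, hP, hP'⟩ ⟨Q, hQ, hQ'⟩
    exact ⟨P + Q, ma_isHom_add hP hQ, isAct_add hc0 hcong hP' hQ'⟩
  zero_mem' := ⟨0, ma_isHom_zero, isAct_zero hc0⟩
  neg_mem' := by
    rintro Φ ⟨P, hP, hP'⟩
    exact ⟨-P, ma_isHom_neg hP, isAct_neg hc0 hcong hP'⟩

theorem mem_actGroup {hc0 : 0 ≤ c}
    {hcong : ∀ d, ‖((coeff d (Fx.toPowerSeries - (Γ.map ι).toPowerSeries) : OO K) : K)‖ ≤ c}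
    {Φ : UC Fx p →+ UC Fx p} :
    Φ ∈ actGroup p c ι Γ Fx hc0 hcong ↔ ∃ b, IsHom Γ Γ b ∧ IsAct c ι b Φ := by
  constructor
  · rintro ⟨P, hP, hP'⟩
    exact ⟨P.val, hP, hP'⟩
  · rintro ⟨b, hb, hb'⟩
    exact ⟨seriesPoint Γ b hb.1, hb, hb'⟩

end act

/-! ### specialization and displacement -/

section specdisp
variable {K : Type*} [NontriviallyNormedField K] [IsUltrametricDist K] [CompleteSpace K]
  {k : Type} [Field k] {r : ℕ} (ι : k →+* OO K) {ξ : Fin r → OO K}
  (hξ : ∀ i, ‖(ξ i : K)‖ < 1)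

theorem ma_spec_X (i : Fin r) : spec ι hξ (X i) = ξ i := by
  rw [spec_apply, map_X, ev_X]

theorem ma_spec_C (a : k) : spec ι hξ (C a) = ι a := by
  rw [spec_apply, map_C, ev_C]

theorem ma_norm_spec_le_of_mem {c : ℝ} (hc : ∀ i, ‖(ξ i : K)‖ ≤ c) (hc0 : 0 ≤ c) (s : ℕ)
    {f : MvPowerSeries (Fin r) k} (hf : f ∈ powIdeal k r s) :
    spec ι hξ f ∈ ballIdeal K (c ^ s) (pow_nonneg hc0 s) := by
  have h : powIdeal k r s ≤ (ballIdeal K (c ^ s) (pow_nonneg hc0 s)).comap (spec ι hξ) := by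
    rw [powIdeal, Ideal.span_le]
    rintro x ⟨j, rfl⟩
    change spec ι hξ (X j ^ s) ∈ ballIdeal K (c ^ s) (pow_nonneg hc0 s)
    rw [map_pow, ma_spec_X, mem_ballIdeal, Subring.coe_pow, norm_pow]
    exact pow_le_pow_left₀ (norm_nonneg _) (hc j) s
  exact h hf

theorem ma_constantCoeff_of_mem_powIdeal {s : ℕ} (hs : 0 < s) {f : MvPowerSeries (Fin r) k}
    (hf : f ∈ powIdeal k r s) : constantCoeff f = 0 := by
  have h : powIdeal k r s ≤ RingHom.ker (constantCoeff : MvPowerSeries (Fin r) k →+* k) := by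
    rw [powIdeal, Ideal.span_le]
    rintro x ⟨j, rfl⟩
    change constantCoeff (X j ^ s : MvPowerSeries (Fin r) k) = 0
    rw [map_pow, constantCoeff_X, zero_pow hs.ne']
  exact h hf

/-- value of the Taylor expansion at a displacement -/
theorem ma_ev_taylor_eq_spec (φ : MvPowerSeries (Fin r) k →+* MvPowerSeries (Fin r) k)
    (hφC : ∀ a, φ (C a) = C a) {δ : Fin r → OO K}
    (hδ : ∀ i, δ i = spec ι hξ (φ (X i)) - ξ i) (hδ1 : ∀ i, ‖(δ i : K)‖ < 1)
    (f : MvPowerSeries (Fin r) k) : ev δ (taylor ι hξ f) = spec ι hξ (φ f) := by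
  have h3 : (fun i => ((spec ι hξ).comp φ) (X i)) = fun i => ξ i + δ i := by
    funext i
    rw [hδ i, RingHom.comp_apply]
    ring
  have h4 : ∀ i, ‖((((spec ι hξ).comp φ) (X i) : OO K) : K)‖ < 1 := by
    intro i
    have h5 := congrFun h3 i
    rw [h5, Subring.coe_add]
    exact (IsUltrametricDist.norm_add_le_max _ _).trans_lt (max_lt (hξ i) (hδ1 i))
  have h1 := ringHom_eq_ev ((spec ι hξ).comp φ) h4 f
  have h2 : ((spec ι hξ).comp φ).comp C = ι := by
    ext a
    rw [RingHom.comp_apply, RingHom.comp_apply, hφC, ma_spec_C]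
  rw [h2, h3] at h1
  rw [ev_taylor ι hξ hδ1, ← h1]
  rfl

/-- the Taylor expansion over `K` -/
noncomputable def tayK : MvPowerSeries (Fin r) k →+* MvPowerSeries (Fin r) K :=
  (MvPowerSeries.map (OO K).subtype).comp (taylor ι hξ)

theorem tayK_apply (f : MvPowerSeries (Fin r) k) :
    tayK ι hξ f = MvPowerSeries.map (OO K).subtype (taylor ι hξ f) := rfl

theorem constantCoeff_tayK (f : MvPowerSeries (Fin r) k) :
    constantCoeff (tayK ι hξ f) = ((spec ι hξ f : OO K) : K) := by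
  rw [tayK_apply, constantCoeff_map, constantCoeff_taylor, spec_apply]
  rfl

theorem tayK_injective : Function.Injective (tayK ι hξ) := by
  intro f g hfg
  rw [tayK_apply, tayK_apply] at hfg
  apply taylor_injective ι hξ
  ext d
  have h := congrArg (coeff d) hfg
  rw [coeff_map, coeff_map] at h
  exact h

end specdisp

/-! ### points of `G` -/

section points
variable {K : Type*} [NontriviallyNormedField K] [IsUltrametricDist K] [CompleteSpace K]
  {p : ℕ} [Fact p.Prime] [CharP K p] {h : ℕ} [Fact (0 < h)]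

theorem ma_GO_pow_smul_val (G : FormalGroup (FixF K p h)) [G.IsComm]
    (hG : mulSeries G p = PowerSeries.X ^ (p ^ h)) (m : ℕ) (y : Pt (GO G)) :
    (p ^ m • y).val = y.val ^ ((p ^ h) ^ m) := by
  have h1 : ∀ x : Pt (GO G), (p • x).val = x.val ^ (p ^ h) := by
    intro x
    rw [Pt.nsmul_val, mulSeries_map, hG, map_pow, PowerSeries.map_X]
    have h2 := ev_pow (hasEval_unit x.tn) (X () : MvPowerSeries Unit (OO K)) (p ^ h)
    rw [ev_X] at h2
    exact h2
  induction m with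
  | zero => rw [pow_zero, one_nsmul, pow_zero, pow_one]
  | succ m ih =>
    rw [pow_succ' p, mul_nsmul', h1, ih, ← pow_mul, pow_succ]

end points

/-! ### choice of the displacements -/

section disp
variable {k : Type} [Field k] {r : ℕ}

theorem ma_map_id_formalGroup {R : Type*} [CommRing R] (F : FormalGroup R) :
    F.map (RingHom.id R) = F := by
  ext d
  simp [FormalGroup.map_toPowerSeries]

theorem exists_disp {p h : ℕ} {Γ : FormalGroup k} {F : FormalGroup (MvPowerSeries (Fin r) k)}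
    {P : Ideal (MvPowerSeries (Fin r) k)} (hD : HasDisp p h Γ F P) {b : PowerSeries k}
    (hb : IsHom Γ Γ b) :
    ∃ (m₀ : ℕ) (φ : ℕ → (MvPowerSeries (Fin r) k →+* MvPowerSeries (Fin r) k))
      (t : ℕ → PowerSeries (MvPowerSeries (Fin r) k)),
      (∀ m a, φ m (C a) = C a) ∧
      (∀ m i, φ m (X i) - X i ∈ powIdeal k r ((p ^ h) ^ m)) ∧
      (∀ m, IsHom (F.map (φ m)) F (t m)) ∧
      (∀ m, ∀ j < (p ^ h) ^ m, PowerSeries.coeff j (t m) - (if j = 1 then 1 else 0) ∈
        powIdeal k r ((p ^ h) ^ m)) ∧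
      (∀ m, ∀ f ∈ P, φ m f ∈ P) ∧
      (∀ m ≥ m₀, (t m).map (constantCoeff : MvPowerSeries (Fin r) k →+* k) =
        onePlus Γ p m b hb.1) := by
  obtain ⟨m₀, hm⟩ := hD b hb
  have h1 : ∀ m : ℕ, ∃ (φ : MvPowerSeries (Fin r) k →+* MvPowerSeries (Fin r) k)
      (t : PowerSeries (MvPowerSeries (Fin r) k)),
      (∀ a, φ (C a) = C a) ∧
      (∀ i, φ (X i) - X i ∈ powIdeal k r ((p ^ h) ^ m)) ∧
      (IsHom (F.map φ) F t) ∧
      (∀ j < (p ^ h) ^ m, PowerSeries.coeff j t - (if j = 1 then 1 else 0) ∈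
        powIdeal k r ((p ^ h) ^ m)) ∧
      (∀ f ∈ P, φ f ∈ P) ∧
      (m ≥ m₀ → t.map (constantCoeff : MvPowerSeries (Fin r) k →+* k) =
        onePlus Γ p m b hb.1) := by
    intro m
    by_cases hmm : m ≥ m₀
    · obtain ⟨φ, t, a1, a2, a3, a4, a5, a6⟩ := hm m hmm
      exact ⟨φ, t, a1, a2, a3, a5, a6, fun _ => a4⟩
    · refine ⟨RingHom.id _, PowerSeries.X, fun a => rfl, fun i => ?_, ?_, fun j _ => ?_,
        fun f hf => hf, fun h => absurd h hmm⟩
      · rw [RingHom.id_apply, sub_self]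
        exact Ideal.zero_mem _
      · rw [ma_map_id_formalGroup]
        exact isHom_X F
      · rw [PowerSeries.coeff_X, sub_self]
        exact Ideal.zero_mem _
  choose φ t a1 a2 a3 a4 a5 a6 using h1
  exact ⟨m₀, φ, t, a1, a2, a3, a4, a5, a6⟩

end disp

/-! ### the asymptotic estimate -/

section estimate
variable {K : Type} [NontriviallyNormedField K] [IsUltrametricDist K] [CompleteSpace K]
  [IsAlgClosed K] {p : ℕ} [Fact p.Prime] [CharP K p] {h r : ℕ} [Fact (0 < h)]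
  {k : Type} [Field k] [CharP k p]
  {F : FormalGroup (MvPowerSeries (Fin r) k)} [F.IsComm]
  {V : PowerSeries (MvPowerSeries (Fin r) k)}

theorem ma_map_mulSeries_eq {S : Type*} [CommRing S] (H : VData p h F V)
    (ψ : MvPowerSeries (Fin r) k →+* S) :
    PowerSeries.map ψ (mulSeries F p) =
      (PowerSeries.map ψ V).subst (PowerSeries.X ^ (p ^ h) : PowerSeries S) := by
  have hs : PowerSeries.HasSubst (PowerSeries.X ^ (p ^ h) :
      PowerSeries (MvPowerSeries (Fin r) k)) :=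
    PowerSeries.HasSubst.X_pow (pow_ne_zero _ (Fact.out : p.Prime).ne_zero)
  have h1 : PowerSeries.map ψ (mulSeries F p) =
      MvPowerSeries.map ψ (V.subst (PowerSeries.X ^ (p ^ h) :
        PowerSeries (MvPowerSeries (Fin r) k))) := by
    rw [← H.hV]
    rfl
  rw [h1, PowerSeries.map_subst hs]
  congr 1
  have h2 : (MvPowerSeries.map ψ) (PowerSeries.X ^ (p ^ h) :
      PowerSeries (MvPowerSeries (Fin r) k)) = PowerSeries.X ^ (p ^ h) := by
    rw [map_pow]
    congr 1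
    exact PowerSeries.map_X ψ
  exact h2

theorem ma_constantCoeff_map_V {S : Type*} [CommRing S] (H : VData p h F V)
    (ψ : MvPowerSeries (Fin r) k →+* S) :
    PowerSeries.constantCoeff (PowerSeries.map ψ V) = 0 := by
  rw [← PowerSeries.coeff_zero_eq_constantCoeff_apply, PowerSeries.coeff_map,
    PowerSeries.coeff_zero_eq_constantCoeff_apply, H.V0, map_zero]

variable (ι : k →+* OO K) {ξ : Fin r → OO K} (hξ : ∀ i, ‖(ξ i : K)‖ < 1)
  {c : ℝ} (hc : ∀ i, ‖(ξ i : K)‖ ≤ c) (hc0 : 0 < c) (hc1 : c < 1)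

omit [IsAlgClosed K] [CharP K p] [Fact (0 < h)] [Fact p.Prime] in
include hc hc0 in
theorem ma_norm_delta_le (φ : ℕ → (MvPowerSeries (Fin r) k →+* MvPowerSeries (Fin r) k))
    (hφX : ∀ m i, φ m (X i) - X i ∈ powIdeal k r ((p ^ h) ^ m))
    {δ : ℕ → Fin r → OO K} (hδ : ∀ m i, δ m i = spec ι hξ (φ m (X i)) - ξ i) (m : ℕ)
    (i : Fin r) : ‖(δ m i : K)‖ ≤ c ^ ((p ^ h) ^ m) := by
  have h1 := ma_norm_spec_le_of_mem ι hξ hc hc0.le _ (hφX m i)
  rw [map_sub, ma_spec_X, ← hδ m i] at h1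
  exact h1

theorem ma_Q_ge_two : 2 ≤ p ^ h := by
  have h1 := (Fact.out : p.Prime).two_le
  exact h1.trans (Nat.le_self_pow (Fact.out : 0 < h).ne' p)

include hc hc0 hc1 in
theorem app_one (H : VData p h F V) (hV1 : spec ι hξ (PowerSeries.coeff 1 V) ≠ 0)
    {G : FormalGroup (FixF K p h)} {lam : PowerSeries (OO K)}
    (lamD : LamData (F.map (spec ι hξ)) G lam)
    (L : PowerSeries (MvPowerSeries (Fin r) K)) (hL0 : PowerSeries.constantCoeff L = 0)
    (hLlam : PowerSeries.map MvPowerSeries.constantCoeff L = PowerSeries.map (OO K).subtype lam)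
    (hLW : L.subst (PowerSeries.map (tayK ι hξ) (mulSeries F p)) = L ^ (p ^ h))
    (φ : ℕ → (MvPowerSeries (Fin r) k →+* MvPowerSeries (Fin r) k))
    (t : ℕ → PowerSeries (MvPowerSeries (Fin r) k))
    (hφC : ∀ m a, φ m (C a) = C a)
    (hφX : ∀ m i, φ m (X i) - X i ∈ powIdeal k r ((p ^ h) ^ m))
    (ht : ∀ m, IsHom (F.map (φ m)) F (t m))
    (htX : ∀ m, ∀ j < (p ^ h) ^ m, PowerSeries.coeff j (t m) - (if j = 1 then 1 else 0) ∈
        powIdeal k r ((p ^ h) ^ m))
    (δ : ℕ → Fin r → OO K) (hδ : ∀ m i, δ m i = spec ι hξ (φ m (X i)) - ξ i)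
    {ρ : ℝ} (hρ1 : ρ < 1) (hcρ : c ≤ ρ)
    (E : MvPowerSeries (Fin r) (OO K)) (hE : constantCoeff E = 0) (N : ℕ) :
    IsApp (p ^ h) ρ (fun m i => (δ m i : K)) N
      (compSer L (MvPowerSeries.map (OO K).subtype E))
      (fun m => ((ev1 (ev (δ m) E) (lam.subst (PowerSeries.map (spec ι hξ) (t m))) :
        OO K) : K)) := by
  have hQ := ma_Q_ge_two (p := p) (h := h)
  have hρ0 : 0 < ρ := hc0.trans_le hcρ
  have hQm : ∀ m : ℕ, 0 < (p ^ h) ^ m := fun m => pow_pos (by omega) m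
  have hδc := ma_norm_delta_le ι hξ hc hc0 φ hφX hδ
  have hδρ : ∀ m ≥ 0, ∀ i, ‖(δ m i : K)‖ ≤ ρ ^ ((p ^ h) ^ m) := fun m _ i =>
    (hδc m i).trans (pow_le_pow_left₀ hc0.le hcρ _)
  have hcm : ∀ m : ℕ, c ^ ((p ^ h) ^ m) < 1 := fun m => pow_lt_one₀ hc0.le hc1 (hQm m).ne'
  have hδ1 : ∀ m i, ‖(δ m i : K)‖ < 1 := fun m i => (hδc m i).trans_lt (hcm m)
  have hbar0 : ∀ m, PowerSeries.constantCoeff (PowerSeries.map (spec ι hξ) (t m)) = 0 := fun m =>
    ((ht m).map (spec ι hξ)).1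
  have hbarS : ∀ m, PowerSeries.HasSubst (PowerSeries.map (spec ι hξ) (t m)) := fun m =>
    PowerSeries.HasSubst.of_constantCoeff_zero' (hbar0 m)
  have hem : ∀ m, ‖((ev (δ m) E : OO K) : K)‖ ≤ c ^ ((p ^ h) ^ m) := by
    intro m
    have h1 := norm_ev_le (hcm m) (pow_nonneg hc0.le _) (hδc m) E 1 (fun d hd => by
      have hd0 : d = 0 := by
        rw [Nat.lt_one_iff, Finsupp.degree_eq_zero_iff] at hd
        exact hd
      rw [hd0, coeff_zero_eq_constantCoeff_apply, hE])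
    rwa [pow_one] at h1
  have hE' : constantCoeff (MvPowerSeries.map (OO K).subtype E) = 0 := by
    rw [constantCoeff_map, hE, map_zero]
  refine app_lambda hρ0 hρ1 (m₀ := 0) hδρ L (PowerSeries.map (tayK ι hξ) (mulSeries F p))
    (PowerSeries.map (tayK ι hξ) V) (ma_constantCoeff_map_V H _) (ma_map_mulSeries_eq H _) ?_ hL0 hLW
    (fun m => lam.subst (PowerSeries.map (spec ι hξ) (t m)))
    (fun m => PowerSeries.map ((spec ι hξ).comp (φ m)) (mulSeries F p))
    (fun m => PowerSeries.map ((spec ι hξ).comp (φ m)) V)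
    (fun m => ma_constantCoeff_map_V H _) (fun m => ma_map_mulSeries_eq H _) (fun m => ?_)
    (fun m _ => ?_) (fun N j => ?_) (fun j => ?_)
    (MvPowerSeries.map (OO K).subtype E) _ hE' (fun N d hd => compSer_spec L hE' N d hd)
    (fun m => ev (δ m) E) ⟨1, fun m _ => ?_⟩ (fun m => (hem m).trans_lt (hcm m))
    (fun N => isApp_of_OO hQ hρ0 hρ1 hδρ N E) N
  · rw [PowerSeries.coeff_map, constantCoeff_tayK]
    intro h0
    exact hV1 (Subtype.ext h0)
  · exact PowerSeries.constantCoeff_subst_eq_zero (hbar0 m) _ lamD.hom.1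
  · -- the functional equation
    have h1 := ((ht m).map (spec ι hξ)).comp_mulSeries p
    have h2 : mulSeries ((F.map (φ m)).map (spec ι hξ)) p =
        PowerSeries.map ((spec ι hξ).comp (φ m)) (mulSeries F p) := by
      rw [mulSeries_map, mulSeries_map]
      ext j
      simp only [PowerSeries.coeff_map]
      rfl
    rw [h2] at h1
    have hWs : PowerSeries.HasSubst (PowerSeries.map ((spec ι hξ).comp (φ m)) (mulSeries F p)) := by
      rw [← h2]
      exact hasSubst_mulSeries _ _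
    have h3 := PowerSeries.subst_comp_subst_apply (hbarS m) hWs lam
    rw [h3]
    have h4 := PowerSeries.subst_comp_subst_apply (hasSubst_mulSeries (F.map (spec ι hξ)) p)
      (hbarS m) lam
    have h5 : PowerSeries.subst (PowerSeries.subst
        (PowerSeries.map ((spec ι hξ).comp (φ m)) (mulSeries F p))
        (PowerSeries.map (spec ι hξ) (t m))) lam =
        PowerSeries.subst (PowerSeries.subst (PowerSeries.map (spec ι hξ) (t m))
          (mulSeries (F.map (spec ι hξ)) p)) lam := congrArg (fun s => PowerSeries.subst s lam) h1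
    rw [h5, ← h4, lamD.frob, PowerSeries.subst_pow (hbarS m)]
  · -- approximation of the coefficients
    rw [PowerSeries.coeff_map, tayK_apply]
    have h1 := isApp_of_OO hQ hρ0 hρ1 hδρ N (taylor ι hξ (PowerSeries.coeff j (mulSeries F p)))
    have h2 : (fun m => ((ev (δ m) (taylor ι hξ (PowerSeries.coeff j (mulSeries F p))) :
        OO K) : K)) = fun m => ((PowerSeries.coeff j (PowerSeries.map
          ((spec ι hξ).comp (φ m)) (mulSeries F p)) : OO K) : K) := by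
      funext m
      rw [ma_ev_taylor_eq_spec ι hξ (φ m) (hφC m) (hδ m) (hδ1 m), PowerSeries.coeff_map]
      rfl
    rw [h2] at h1
    exact h1
  · -- convergence
    have h1 : MvPowerSeries.constantCoeff (PowerSeries.coeff j L) =
        ((PowerSeries.coeff j lam : OO K) : K) := by
      rw [← PowerSeries.coeff_map, hLlam, PowerSeries.coeff_map]
      rfl
    rw [h1, tendsto_iff_norm_sub_tendsto_zero]
    have h2 : Tendsto (fun m : ℕ => c ^ ((p ^ h) ^ m)) atTop (𝓝 0) :=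
      (tendsto_pow_atTop_nhds_zero_of_lt_one hc0.le hc1).comp
        (tendsto_pow_atTop_atTop_of_one_lt (by omega))
    refine squeeze_zero' (Eventually.of_forall fun m => norm_nonneg _) ?_ h2
    filter_upwards [eventually_ge_atTop j] with m hm
    have hj : j < (p ^ h) ^ m := hm.trans_lt (Nat.lt_pow_self (by omega))
    have h3 := ma_subst_sub_mem (ballIdeal K (c ^ ((p ^ h) ^ m)) (pow_nonneg hc0.le _)) lam
      (PowerSeries.map (spec ι hξ) (t m)) (hbar0 m) ((p ^ h) ^ m) (fun i hi => by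
        have h4 := ma_norm_spec_le_of_mem ι hξ hc hc0.le _ (htX m i hi)
        rw [map_sub] at h4
        rw [PowerSeries.coeff_map]
        have h5 : spec ι hξ (if i = 1 then 1 else 0) = if i = 1 then 1 else 0 := by
          split_ifs
          · exact map_one _
          · exact map_zero _
        rwa [h5] at h4) hj
    exact h3
  · rw [one_mul]
    exact (hem m).trans (pow_le_pow_left₀ hc0.le hcρ _)

include hc hc0 in
theorem ma_cong_spec {Γ : FormalGroup k}
    (hΓ : F.map (constantCoeff : MvPowerSeries (Fin r) k →+* k) = Γ) :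
    ∀ d, ‖((coeff d ((F.map (spec ι hξ)).toPowerSeries - (Γ.map ι).toPowerSeries) :
      OO K) : K)‖ ≤ c := by
  intro d
  have h1 := norm_spec_sub_le ι hξ hc hc0.le (coeff d F.toPowerSeries)
  have e1 : coeff d (F.map (spec ι hξ)).toPowerSeries = spec ι hξ (coeff d F.toPowerSeries) := by
    simp [FormalGroup.map_toPowerSeries]
  have e2 : coeff d (Γ.map ι).toPowerSeries = ι (constantCoeff (coeff d F.toPowerSeries)) := by
    rw [← hΓ]
    simp [FormalGroup.map_toPowerSeries]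
  rw [map_sub, e1, e2]
  exact h1

include hc hc0 hc1 in
theorem estimate_N {Γ : FormalGroup k} [Γ.IsComm]
    (hΓp : mulSeries Γ p = PowerSeries.X ^ (p ^ (h + r)))
    (H : VData p h F V)
    (hΓ : F.map (constantCoeff : MvPowerSeries (Fin r) k →+* k) = Γ)
    {P : Ideal (MvPowerSeries (Fin r) k)} (hD : HasDisp p h Γ F P)
    (hPξ : ∀ g ∈ P, spec ι hξ g = 0)
    (hV1 : spec ι hξ (PowerSeries.coeff 1 V) ≠ 0)
    {G : FormalGroup (FixF K p h)} [G.IsComm] {lam : PowerSeries (OO K)}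
    (lamD : LamData (F.map (spec ι hξ)) G lam)
    (L : PowerSeries (MvPowerSeries (Fin r) K)) (hL0 : PowerSeries.constantCoeff L = 0)
    (hLlam : PowerSeries.map MvPowerSeries.constantCoeff L = PowerSeries.map (OO K).subtype lam)
    (hLW : L.subst (PowerSeries.map (tayK ι hξ) (mulSeries F p)) = L ^ (p ^ h))
    (z : Fin r → UC (F.map (spec ι hξ)) p) (hz0 : ∀ i, (z i).1 0 = 0)
    (zt : Fin r → UC (F.map (taylor ι hξ)) p)
    (hzt : ∀ i l, constantCoeff ((zt i).1 l).val = ((z i).1 l).val)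
    {f : MvPowerSeries (Fin r) k} (hf : f ∈ P) (Ψ : MvPowerSeries (Fin r) K)
    (hΨ : tayK ι hξ f = subst (fun i =>
      compSer L (MvPowerSeries.map (OO K).subtype ((zt i).1 0).val)) Ψ)
    {b : PowerSeries k} (hb : IsHom Γ Γ b)
    (Φ : UC (F.map (spec ι hξ)) p →+ UC (F.map (spec ι hξ)) p) (hΦ : IsAct c ι b Φ)
    {ρ : ℝ} (hρ1 : ρ < 1) (hcρ : c ≤ ρ)
    (hω : ∀ i, ‖(((Pt.hom lamD.hom ((Φ (z i)).1 0)).val : OO K) : K)‖ ≤ ρ) (N : ℕ) :
    ∃ C : ℝ, ∃ m₀ : ℕ, ∀ m ≥ m₀,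
      ‖trEval N Ψ (fun i => (((Pt.hom lamD.hom ((Φ (z i)).1 0)).val : OO K) : K) ^
        ((p ^ h) ^ m))‖ ≤ C * ρ ^ (N * (p ^ h) ^ m) := by
  obtain ⟨m₀, φ, t, hφC, hφX, ht, htX, hφP, htm⟩ := exists_disp hD hb
  have hQ := ma_Q_ge_two (p := p) (h := h)
  have hρ0 : 0 < ρ := hc0.trans_le hcρ
  have hQm : ∀ m : ℕ, 0 < (p ^ h) ^ m := fun m => pow_pos (by omega) m
  obtain ⟨δ, hδ⟩ : ∃ δ : ℕ → Fin r → OO K, ∀ m i, δ m i = spec ι hξ (φ m (X i)) - ξ i :=
    ⟨fun m i => spec ι hξ (φ m (X i)) - ξ i, fun m i => rfl⟩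
  have hδc := ma_norm_delta_le ι hξ hc hc0 φ hφX hδ
  have hδρ : ∀ m ≥ 0, ∀ i, ‖(δ m i : K)‖ ≤ ρ ^ ((p ^ h) ^ m) := fun m _ i =>
    (hδc m i).trans (pow_le_pow_left₀ hc0.le hcρ _)
  have hcm : ∀ m : ℕ, c ^ ((p ^ h) ^ m) < 1 := fun m => pow_lt_one₀ hc0.le hc1 (hQm m).ne'
  have hδ1 : ∀ m i, ‖(δ m i : K)‖ < 1 := fun m i => (hδc m i).trans_lt (hcm m)
  have hE0 : ∀ i, constantCoeff ((zt i).1 0).val = 0 := by
    intro i
    rw [hzt i 0, hz0 i]
    rfl
  have hφ0 : ∀ m i, constantCoeff (φ m (X i)) = 0 := by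
    intro m i
    have h1 := ma_constantCoeff_of_mem_powIdeal (hQm m) (hφX m i)
    rw [map_sub, constantCoeff_X, sub_zero] at h1
    exact h1
  have hq2 : 2 ≤ p ^ (h + r) := by
    rw [pow_add]
    exact hQ.trans (Nat.le_mul_of_pos_right _ (pow_pos (Fact.out : p.Prime).pos _))
  have hcong := ma_cong_spec (Γ := Γ) ι hξ hc hc0 hΓ
  -- the values
  have hval : ∀ m ≥ m₀, ∀ i, ev1 (ev (δ m) ((zt i).1 0).val)
      (lam.subst (PowerSeries.map (spec ι hξ) (t m))) =
        (Pt.hom lamD.hom ((Φ (z i)).1 0)).val ^ ((p ^ h) ^ m) := by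
    intro m hm i
    have h1 := main_formula ι hξ F Γ hΓ p (p ^ (h + r)) hq2 hΓp hc hc0 hc1
      (isHom_onePlus (p := p) (m := m) hb) (φ m) (hφC m) (hφ0 m) (t m) (ht m) (htm m hm) (δ m)
      (hδ m) (z i) (zt i) (hzt i) (AddMonoidHom.id _ + p ^ m • Φ)
      (isAct_onePlus hc0.le hcong hb hΦ)
    have hδE : HasEval (δ m) := hasEval_xi (hδ1 m)
    have htn : IsTopologicallyNilpotent (ev (δ m) ((zt i).1 0).val) := ev_tn hδE _ (hE0 i)
    rw [ev1_comp htn lam _ ((ht m).map (spec ι hξ)).1]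
    have h2 : ev1 (ev (δ m) ((zt i).1 0).val) (PowerSeries.map (spec ι hξ) (t m)) =
        (p ^ m • (Φ (z i)).1 0).val := by
      have h3 : (((AddMonoidHom.id (UC (F.map (spec ι hξ)) p) + p ^ m • Φ) (z i)).1 0) =
          (z i).1 0 + p ^ m • (Φ (z i)).1 0 := rfl
      rw [h3, hz0 i, zero_add] at h1
      exact h1
    rw [h2]
    have h4 : ev1 (p ^ m • (Φ (z i)).1 0).val lam =
        (Pt.hom lamD.hom (p ^ m • (Φ (z i)).1 0)).val := rfl
    rw [h4, map_nsmul]
    exact ma_GO_pow_smul_val G lamD.pG m _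
  -- approximations
  have happ : ∀ i, IsApp (p ^ h) ρ (fun m i => (δ m i : K)) N
      (compSer L (MvPowerSeries.map (OO K).subtype ((zt i).1 0).val))
      (fun m => (((Pt.hom lamD.hom ((Φ (z i)).1 0)).val : OO K) : K) ^ ((p ^ h) ^ m)) := by
    intro i
    obtain ⟨C, m₁, h1⟩ := app_one ι hξ hc hc0 hc1 H hV1 lamD L hL0 hLlam hLW φ t hφC hφX ht htX
      δ hδ hρ1 hcρ ((zt i).1 0).val (hE0 i) N
    refine ⟨C, max m₀ m₁, fun m hm => ?_⟩
    have h2 := h1 m (le_of_max_le_right hm)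
    beta_reduce at h2
    rw [hval m (le_of_max_le_left hm) i] at h2
    exact h2
  have h5 := isApp_subst (m₀ := 0) hQ hρ0 hρ1 hδρ N
    (fun i => compSer L (MvPowerSeries.map (OO K).subtype ((zt i).1 0).val))
    (fun i => constantCoeff_compSer hL0)
    (fun i m => (((Pt.hom lamD.hom ((Φ (z i)).1 0)).val : OO K) : K) ^ ((p ^ h) ^ m))
    (fun i => ⟨1, fun m _ => by
      rw [norm_pow, one_mul]
      exact pow_le_pow_left₀ (norm_nonneg _) (hω i) _⟩) happ Ψ
  rw [← hΨ] at h5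
  have h6 := isApp_of_OO hQ hρ0 hρ1 hδρ N (taylor ι hξ f)
  obtain ⟨C₁, m₁, h7⟩ := h5
  obtain ⟨C₂, m₂, h8⟩ := h6
  refine ⟨C₁ + C₂, max m₁ m₂, fun m hm => ?_⟩
  have h9 := h7 m (le_of_max_le_left hm)
  have h10 := h8 m (le_of_max_le_right hm)
  have h11 : ev (δ m) (taylor ι hξ f) = 0 := by
    rw [ma_ev_taylor_eq_spec ι hξ (φ m) (hφC m) (hδ m) (hδ1 m)]
    exact hPξ _ (hφP m f hf)
  beta_reduce at h9 h10
  rw [h11, ← tayK_apply] at h10
  rw [add_mul]
  have h12 : ‖trEval N (tayK ι hξ f) (fun i => (δ m i : K))‖ ≤ C₂ * ρ ^ (N * (p ^ h) ^ m) := by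
    simpa using h10
  set A := trEval N (tayK ι hξ f) (fun i => (δ m i : K)) with hA
  set B := trEval N Ψ (fun i => (((Pt.hom lamD.hom ((Φ (z i)).1 0)).val : OO K) : K) ^
        ((p ^ h) ^ m)) with hB
  have h13 : B = A - (A - B) := by ring
  rw [h13]
  exact (norm_sub_le _ _).trans (by linarith)

end estimate

theorem main_relation {k : Type} [Field k] {p : ℕ} [Fact p.Prime] [CharP k p] {h r : ℕ}
    [Fact (0 < h)] (hr : 0 < r) (Γ : FormalGroup k) [Γ.IsComm]
    (hΓp : mulSeries Γ p = PowerSeries.X ^ (p ^ (h + r)))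
    (F : FormalGroup (MvPowerSeries (Fin r) k)) [F.IsComm]
    (V : PowerSeries (MvPowerSeries (Fin r) k)) (H : VData p h F V)
    (hΓ : F.map (constantCoeff : MvPowerSeries (Fin r) k →+* k) = Γ)
    (P : Ideal (MvPowerSeries (Fin r) k)) [P.IsPrime] (hP : P ≠ ⊥) (hX : X ⟨0, hr⟩ ∉ P)
    (hD : HasDisp p h Γ F P) :
    ∃ (K : Type) (_ : NontriviallyNormedField K) (_ : IsUltrametricDist K) (_ : CompleteSpace K)
      (_ : IsAlgClosed K) (_ : CharP K p) (ι : k →+* OO K) (c : ℝ) (Fx : FormalGroup (OO K))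
      (_ : Fx.IsComm) (V' : PowerSeries (OO K)) (G : FormalGroup (FixF K p h)) (_ : G.IsComm)
      (lam : PowerSeries (OO K)) (z : Fin r → UC Fx p),
      RelData h r Γ ι c Fx V' G lam z := by
  obtain ⟨K, i1, i2, i3, i4, i5, ι, ξ, hξ, hPξ', hne'⟩ := exists_point p k r P (X ⟨0, hr⟩) hX
    (constantCoeff_X _)
  have hne : ξ ⟨0, hr⟩ ≠ 0 := by
    rw [map_X, ev_X] at hne'
    exact hne'
  have hPξ : ∀ g ∈ P, spec ι hξ g = 0 := fun g hg => by
    rw [spec_apply]
    exact hPξ' g hg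
  have hQ := ma_Q_ge_two (p := p) (h := h)
  have hun : (Finset.univ : Finset (Fin r)).Nonempty := ⟨⟨0, hr⟩, Finset.mem_univ _⟩
  obtain ⟨c, hc, hc0, hc1⟩ : ∃ c : ℝ, (∀ i, ‖(ξ i : K)‖ ≤ c) ∧ 0 < c ∧ c < 1 := by
    refine ⟨Finset.univ.sup' hun (fun i => ‖(ξ i : K)‖), fun i =>
      Finset.le_sup' (fun i => ‖(ξ i : K)‖) (Finset.mem_univ i), ?_, ?_⟩
    · refine lt_of_lt_of_le ?_ (Finset.le_sup' (fun i => ‖(ξ i : K)‖) (Finset.mem_univ ⟨0, hr⟩))
      rw [norm_pos_iff]
      intro h0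
      exact hne (Subtype.ext h0)
    · rw [Finset.sup'_lt_iff]
      exact fun i _ => hξ i
  have hHt := htData_spec ι hξ hr H hne
  have hV1 : spec ι hξ (PowerSeries.coeff 1 V) ≠ 0 := by
    have h1 := hHt.ne
    rw [PowerSeries.coeff_map] at h1
    exact h1
  obtain ⟨G, lam, lamD⟩ := exists_lambda hHt
  have : G.IsComm := lamD.comm
  obtain ⟨ν, hν, hνspan, hνind⟩ := exists_torsion_basis hHt
  choose z hz0 hz1 using fun i => ma_exists_uc_of_torsion hHt (ν i) (hν i)
  have hq2 : 2 ≤ p ^ (h + r) := by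
    rw [pow_add]
    exact hQ.trans (Nat.le_mul_of_pos_right _ (pow_pos (Fact.out : p.Prime).pos _))
  choose zt hzt using fun i => exists_lift_taylor ι hξ F Γ hΓ p (p ^ (h + r)) hq2 hΓp hc hc0 hc1
    (z i)
  -- deformation of `lam`
  have hWc : PowerSeries.map (constantCoeff : MvPowerSeries (Fin r) K →+* K)
      (PowerSeries.map (tayK ι hξ) (mulSeries F p)) =
      PowerSeries.map (OO K).subtype (mulSeries (F.map (spec ι hξ)) p) := by
    rw [mulSeries_map]
    ext j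
    rw [PowerSeries.coeff_map, PowerSeries.coeff_map, PowerSeries.coeff_map, constantCoeff_tayK]
    rfl
  have hlamS := hasSubst_mulSeries (F.map (spec ι hξ)) p
  have hlam : (PowerSeries.map (OO K).subtype lam).subst
      (PowerSeries.map (constantCoeff : MvPowerSeries (Fin r) K →+* K)
        (PowerSeries.map (tayK ι hξ) (mulSeries F p))) =
      PowerSeries.map (OO K).subtype lam ^ (p ^ h) := by
    rw [hWc]
    have h1 : MvPowerSeries.map (OO K).subtype (lam.subst (mulSeries (F.map (spec ι hξ)) p)) =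
      (PowerSeries.map (OO K).subtype lam).subst (PowerSeries.map (OO K).subtype
        (mulSeries (F.map (spec ι hξ)) p)) := PowerSeries.map_subst hlamS lam
    rw [← h1, lamD.frob, map_pow]
    rfl
  have hlam0 : PowerSeries.constantCoeff (PowerSeries.map (OO K).subtype lam) = 0 := by
    rw [← PowerSeries.coeff_zero_eq_constantCoeff_apply, PowerSeries.coeff_map,
      PowerSeries.coeff_zero_eq_constantCoeff_apply, lamD.hom.1, map_zero]
  obtain ⟨L, hL0, hLlam, hLW⟩ := deform_lambda p h (Fact.out : 0 < h)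
    (PowerSeries.map (tayK ι hξ) (mulSeries F p)) (PowerSeries.map (tayK ι hξ) V)
    (ma_constantCoeff_map_V H _) (ma_map_mulSeries_eq H _) (by
      rw [PowerSeries.coeff_map, constantCoeff_tayK]
      intro h0
      exact hV1 (Subtype.ext h0)) (PowerSeries.map (OO K).subtype lam) hlam0 hlam
  -- the Jacobian
  have hE0 : ∀ i, constantCoeff (MvPowerSeries.map (OO K).subtype ((zt i).1 0).val) = 0 := by
    intro i
    rw [constantCoeff_map, hzt i 0, hz0 i]
    exact map_zero _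
  have hL1 : constantCoeff (PowerSeries.coeff 1 L) = ((PowerSeries.coeff 1 lam : OO K) : K) := by
    rw [← PowerSeries.coeff_map, hLlam, PowerSeries.coeff_map]
    rfl
  have hJ : (Matrix.of fun i j : Fin r => coeff (Finsupp.single j 1)
      (compSer L (MvPowerSeries.map (OO K).subtype ((zt i).1 0).val))).det ≠ 0 := by
    have h1 : (Matrix.of fun i j : Fin r => coeff (Finsupp.single j 1)
        (compSer L (MvPowerSeries.map (OO K).subtype ((zt i).1 0).val))) =
        ((PowerSeries.coeff 1 lam : OO K) : K) • (OO K).subtype.mapMatrix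
          (Matrix.of fun i j : Fin r => ev1 ((ν i).val ^ (p ^ h)) (Wser ι hξ V j)) := by
      ext i j
      rw [Matrix.of_apply, coeff_single_compSer hL0 (hE0 i), hL1, coeff_map,
        linear_part ι hξ H (z i) (hz0 i) (zt i) (hzt i) j, hz1 i]
      rfl
    rw [h1, Matrix.det_smul, ← RingHom.map_det]
    refine mul_ne_zero (pow_ne_zero _ ?_) ?_
    · intro h0
      exact lamD.ne (Subtype.ext h0)
    · intro h0
      exact jacobian_ne_zero ι hξ hr H hne ν hν hνspan (Subtype.ext h0)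
  -- the relation
  obtain ⟨f, hf, hf0⟩ := (Submodule.ne_bot_iff _).1 hP
  obtain ⟨Ψ, hΨ⟩ := formal_ift
    (fun i => compSer L (MvPowerSeries.map (OO K).subtype ((zt i).1 0).val))
    (fun i => constantCoeff_compSer hL0) hJ (tayK ι hξ f)
  have hΨ0 : Ψ ≠ 0 := by
    rintro rfl
    apply hf0
    apply tayK_injective ι hξ
    rw [hΨ, map_zero]
    have hs : MvPowerSeries.HasSubst
        (fun i => compSer L (MvPowerSeries.map (OO K).subtype ((zt i).1 0).val)) :=
      hasSubst_of_constantCoeff_zero fun i => constantCoeff_compSer hL0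
    rw [← coe_substAlgHom hs, map_zero]
  obtain ⟨d, hd⟩ : ∃ d, coeff d Ψ ≠ 0 := by
    by_contra hcon
    push Not at hcon
    exact hΨ0 (MvPowerSeries.ext fun d => by rw [hcon d, map_zero])
  obtain ⟨ℓ, hℓ⟩ := ma_exists_functional (FixF K p h) hd
  have hcong := ma_cong_spec (Γ := Γ) ι hξ hc hc0 hΓ
  let evl : (UC (F.map (spec ι hξ)) p →+ UC (F.map (spec ι hξ)) p) →+
      (Fin r → Pt (GO G)) :=
    { toFun := fun Φ i => Pt.hom lamD.hom ((Φ (z i)).1 0)
      map_zero' := by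
        funext i
        have h1 : (((0 : UC (F.map (spec ι hξ)) p →+ UC (F.map (spec ι hξ)) p) (z i)).1 0) = 0 :=
          rfl
        rw [h1, map_zero]
        rfl
      map_add' := by
        intro Φ Φ'
        funext i
        have h1 : (((Φ + Φ') (z i)).1 0) = (Φ (z i)).1 0 + (Φ' (z i)).1 0 := rfl
        rw [h1, map_add]
        rfl }
  have hvan : Van ((actGroup p c ι Γ (F.map (spec ι hξ)) hc0.le hcong).map evl)
      (mapCoeff ℓ Ψ) := by
    intro ω hω
    refine rigidity {a | ∃ ω ∈ (actGroup p c ι Γ (F.map (spec ι hξ)) hc0.le hcong).map evl,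
      a = fun i => (ω i).val} Ψ ?_ ℓ _ ⟨ω, hω, rfl⟩
    rintro a ⟨ω', hω', rfl⟩
    obtain ⟨Φ, hΦ, rfl⟩ := hω'
    obtain ⟨b, hb, hΦb⟩ := mem_actGroup.1 hΦ
    refine ⟨max c (Finset.univ.sup' hun (fun i => ‖(((evl Φ i).val : OO K) : K)‖)),
      hc0.trans_le (le_max_left _ _), max_lt hc1 ?_, fun i => ?_, fun N => ?_⟩
    · rw [Finset.sup'_lt_iff]
      exact fun i _ => (evl Φ i).norm_lt
    · exact (Finset.le_sup' (fun i => ‖(((evl Φ i).val : OO K) : K)‖)
        (Finset.mem_univ i)).trans (le_max_right _ _)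
    · exact estimate_N ι hξ hc hc0 hc1 hΓp H hΓ hD hPξ hV1 lamD L hL0 hLlam hLW z hz0 zt hzt hf Ψ
        hΨ hb Φ hΦb (max_lt hc1 (by
          rw [Finset.sup'_lt_iff]
          exact fun i _ => (evl Φ i).norm_lt)) (le_max_left _ _) (fun i =>
            (Finset.le_sup' (fun i => ‖(((evl Φ i).val : OO K) : K)‖)
              (Finset.mem_univ i)).trans (le_max_right _ _)) N
  have hne2 : mapCoeff ℓ Ψ ≠ 0 := by
    intro h0
    apply hℓ
    exact congrArg (coeff d) h0
  obtain ⟨j, χ, hχ, hχj, hrel⟩ := exists_relation G lamD.pG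
    ((actGroup p c ι Γ (F.map (spec ι hξ)) hc0.le hcong).map evl) (mapCoeff ℓ Ψ) hne2 hvan
  refine ⟨K, i1, i2, i3, i4, i5, ι, c, F.map (spec ι hξ), inferInstance, V.map (spec ι hξ), G,
    lamD.comm, lam, z, hc0, hc1, hHt, pCong_spec ι hξ F Γ hΓ p (p ^ (h + r)) hΓp hc hc0, hcong,
    lamD, hz0, fun a ha => ?_, j, χ, hχ, hχj, fun b hb Φ hΦ => ?_⟩
  · refine hνind a ?_
    simpa [hz1] using ha
  · exact hrel (evl Φ) ⟨Φ, mem_actGroup.2 ⟨b, hb, hΦ⟩, rfl⟩

end Vale.Agent.P217
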