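import Vale.Agent.Lib.P217.LogFam
import Vale.Agent.Lib.P217.Coord
import Vale.Agent.Lib.P217.MainP

/-!
# P217 (characteristic zero part): auxiliary lemmas for the module Z5 (lifts of series, image of
the homomorphism defect under ring homomorphisms)
-/

set_option linter.unusedSectionVars false

namespace Vale.Agent.P217

open MvPowerSeries Filter Topology
open scoped MvPowerSeries.WithPiTopology

section
variable {E : Type*} [CommRing E] {D : Type*} [CommRing D]

/-- a power series without constant term lifts to a power series without constant term -/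
theorem za_exists_lift {π : E →+* D} (hπ : Function.Surjective π) (b : PowerSeries D)
    (hb : PowerSeries.constantCoeff b = 0) :
    ∃ bt : PowerSeries E, PowerSeries.constantCoeff bt = 0 ∧ bt.map π = b := by
  classical
  choose s hs using hπ
  refine ⟨PowerSeries.mk fun i => if i = 0 then 0 else s (PowerSeries.coeff i b), ?_, ?_⟩
  · rw [← PowerSeries.coeff_zero_eq_constantCoeff_apply, PowerSeries.coeff_mk, if_pos rfl]
  · ext i
    rw [PowerSeries.coeff_map, PowerSeries.coeff_mk]
    by_cases hi : i = 0
    · rw [if_pos hi, map_zero, hi, PowerSeries.coeff_zero_eq_constantCoeff_apply, hb]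
    · rw [if_neg hi, hs]

/-- the homomorphism defect `b(F(X,Y)) - G(b(X), b(Y))` -/
noncomputable def zaDefect (F G : FormalGroup E) (b : PowerSeries E) : MvPowerSeries (Fin 2) E :=
  PowerSeries.subst F.toPowerSeries b -
    MvPowerSeries.subst ![PowerSeries.subst (X 0 : MvPowerSeries (Fin 2) E) b,
      PowerSeries.subst (X 1 : MvPowerSeries (Fin 2) E) b] G.toPowerSeries

theorem zaDefect_map (φ : E →+* D) (F G : FormalGroup E) (b : PowerSeries E)
    (hb : PowerSeries.constantCoeff b = 0) :
    (zaDefect F G b).map φ = zaDefect (F.map φ) (G.map φ) (b.map φ) := by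
  unfold zaDefect
  have e1 : PowerSeries.subst (F.map φ).toPowerSeries (b.map φ) =
      (PowerSeries.subst F.toPowerSeries b).map φ := by
    have h := PowerSeries.map_subst (h := φ) (hasSubst_F F) b
    exact h.symm
  have e2 : ∀ i : Fin 2, PowerSeries.subst (X i : MvPowerSeries (Fin 2) D) (b.map φ)
      = (PowerSeries.subst (X i : MvPowerSeries (Fin 2) E) b).map φ := by
    intro i
    have h3 : (PowerSeries.subst (X i : MvPowerSeries (Fin 2) E) b).map φ
        = PowerSeries.subst ((X i : MvPowerSeries (Fin 2) E).map φ) (b.map φ) :=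
      PowerSeries.map_subst (hasSubst_X i) _
    rw [map_X] at h3
    exact h3.symm
  have e3 : (G.map φ).toPowerSeries = G.toPowerSeries.map φ := rfl
  rw [e1, e2, e2, e3, map_sub, map_subst_pair φ (hasSubst_psubst (hasSubst_X 0) hb)
    (hasSubst_psubst (hasSubst_X 1) hb)]

end
end Vale.Agent.P217
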