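import Mathlib.RingTheory.Henselian
import Vale.Agent.Lib.P217.FrobFactor
import Vale.Agent.Lib.P217.Defs

/-!
# P217: consequences of the universal property (module A5, general part)

`E` is complete local Noetherian with residue map `π : E → k`, and `F` is a universal deformation of `Γ`.

* `conj_formalGroup`: transport of a formal group law by an invertible series.
* `univ_exists`, `univ_unique`: the universal property for arbitrary markings `g`: given a formal group law `G` over
  `A` and an isomorphism `g : Γ → πA_* G`, there is a unique `(ψ, t)` with `t : ψ_* F → G` lifting `g`.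
  Proof: choose a lift `ĝ` of `g`, put `G' = ĝ^{-1} G(ĝ X, ĝ Y)`, which reduces to `Γ`; `(ψ, t)` corresponds to
  `(ψ, ĝ^{-1} ∘ t)`.
* `exists_actsBy`: every automorphism `g` of `Γ` acts on `E`.  (Take `A = E`, `G = F`; the map for `g^{-1}` is inverse, by
  uniqueness.)
-/

set_option linter.unusedSectionVars false

namespace Vale.Agent.P217

open MvPowerSeries

section univ_tools
variable {R : Type*} [CommRing R]

theorem un_coeff_X_zero (P : MvPowerSeries (Fin 2) R) (n : ℕ) :
    PowerSeries.coeff n (subst ![PowerSeries.X, 0] P : PowerSeries R) =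
      MvPowerSeries.coeff (Finsupp.single 0 n) P := by
  have hs : MvPowerSeries.HasSubst (![PowerSeries.X, 0] : Fin 2 → PowerSeries R) :=
    HasSubst.X_zero
  have h : MvPowerSeries.coeff (Finsupp.single () n)
      (subst ![PowerSeries.X, 0] P : PowerSeries R) =
      MvPowerSeries.coeff (Finsupp.single 0 n) P := by
    rw [coeff_subst hs, finsum_eq_single _ (Finsupp.single 0 n)]
    · simp [Finsupp.prod_single_index, PowerSeries.X, X_pow_eq]
    · intro d hd
      by_cases hd₁ : d 1 = 0
      · by_cases hd₂ : d 0 = n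
        · exfalso
          apply hd
          ext s
          fin_cases s
          · simp [hd₂]
          · simp [hd₁]
        · have h1 : (d.prod fun s e => (![PowerSeries.X, 0] s : PowerSeries R) ^ e) =
              PowerSeries.X ^ (d 0) := by
            rw [Finsupp.prod_fintype _ _ (by simp)]
            simp [hd₁]
          have h2 : MvPowerSeries.coeff (Finsupp.single () n)
              (d.prod fun s e => (![PowerSeries.X, 0] s : PowerSeries R) ^ e) = 0 := by
            rw [h1]
            have := PowerSeries.coeff_X_pow (R := R) n (d 0)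
            rw [PowerSeries.coeff] at this
            rw [this, if_neg (fun h => hd₂ h.symm)]
          rw [h2, smul_zero]
      · have h1 : (d.prod fun s e => (![PowerSeries.X, 0] s : PowerSeries R) ^ e) = 0 := by
          rw [Finsupp.prod_fintype _ _ (by simp)]
          simp [hd₁]
        rw [h1]
        simp
  exact h

theorem un_coeff_zero_X (P : MvPowerSeries (Fin 2) R) (n : ℕ) :
    PowerSeries.coeff n (subst ![0, PowerSeries.X] P : PowerSeries R) =
      MvPowerSeries.coeff (Finsupp.single 1 n) P := by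
  have hs : MvPowerSeries.HasSubst (![0, PowerSeries.X] : Fin 2 → PowerSeries R) :=
    HasSubst.zero_X
  have h : MvPowerSeries.coeff (Finsupp.single () n)
      (subst ![0, PowerSeries.X] P : PowerSeries R) =
      MvPowerSeries.coeff (Finsupp.single 1 n) P := by
    rw [coeff_subst hs, finsum_eq_single _ (Finsupp.single 1 n)]
    · simp [Finsupp.prod_single_index, PowerSeries.X, X_pow_eq]
    · intro d hd
      by_cases hd₁ : d 0 = 0
      · by_cases hd₂ : d 1 = n
        · exfalso
          apply hd
          ext s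
          fin_cases s
          · simp [hd₁]
          · simp [hd₂]
        · have h1 : (d.prod fun s e => (![0, PowerSeries.X] s : PowerSeries R) ^ e) =
              PowerSeries.X ^ (d 1) := by
            rw [Finsupp.prod_fintype _ _ (by simp)]
            simp [hd₁]
          have h2 : MvPowerSeries.coeff (Finsupp.single () n)
              (d.prod fun s e => (![0, PowerSeries.X] s : PowerSeries R) ^ e) = 0 := by
            rw [h1]
            have := PowerSeries.coeff_X_pow (R := R) n (d 1)
            rw [PowerSeries.coeff] at this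
            rw [this, if_neg (fun h => hd₂ h.symm)]
          rw [h2, smul_zero]
      · have h1 : (d.prod fun s e => (![0, PowerSeries.X] s : PowerSeries R) ^ e) = 0 := by
          rw [Finsupp.prod_fintype _ _ (by simp)]
          simp [hd₁]
        rw [h1]
        simp
  exact h

/-- the two compositional inverse identities -/
theorem un_exists_inv (f : PowerSeries R) (h0 : PowerSeries.constantCoeff f = 0)
    (h1 : IsUnit (PowerSeries.coeff 1 f)) :
    ∃ g : PowerSeries R, PowerSeries.constantCoeff g = 0 ∧ IsUnit (PowerSeries.coeff 1 g) ∧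
      g.subst f = (PowerSeries.X : PowerSeries R) ∧
      f.subst g = (PowerSeries.X : PowerSeries R) := by
  refine ⟨f.substInvOfIsUnit h1, f.constantCoeff_substInvOfIsUnit h1, ?_,
    PowerSeries.subst_substInvOfIsUnit_left f h0 h1,
    PowerSeries.subst_substInvOfIsUnit_right f h0 h1⟩
  rw [PowerSeries.coeff_one_substInvOfIsUnit]
  exact (h1.unit⁻¹).isUnit

/-- if `h ∘ f = X` then `h (f a) = a` -/
theorem un_cancel {σ : Type*} {f g : PowerSeries R} (hf : PowerSeries.constantCoeff f = 0)
    (hgf : g.subst f = (PowerSeries.X : PowerSeries R)) {a : MvPowerSeries σ R}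
    (ha : PowerSeries.HasSubst a) :
    PowerSeries.subst (PowerSeries.subst a f) g = a := by
  rw [← PowerSeries.subst_comp_subst_apply (PowerSeries.HasSubst.of_constantCoeff_zero' hf) ha,
    hgf, PowerSeries.subst_X ha]

/-- the conjugated series `g(F(f X, f Y))` -/
noncomputable def unConj (F : FormalGroup R) (f g : PowerSeries R) : MvPowerSeries (Fin 2) R :=
  PowerSeries.subst (subst ![PowerSeries.subst (X 0 : MvPowerSeries (Fin 2) R) f,
    PowerSeries.subst (X 1 : MvPowerSeries (Fin 2) R) f] F.toPowerSeries) g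

theorem un_hasSubst (F : FormalGroup R) {f : PowerSeries R}
    (h0 : PowerSeries.constantCoeff f = 0) {σ : Type*} {a b : MvPowerSeries σ R}
    (ha : PowerSeries.HasSubst a) (hb : PowerSeries.HasSubst b) :
    PowerSeries.HasSubst (subst ![PowerSeries.subst a f, PowerSeries.subst b f]
      F.toPowerSeries) :=
  hasSubst_subst (hasSubst_pair (hasSubst_psubst ha h0) (hasSubst_psubst hb h0)) (hasSubst_F F)

theorem unConj_subst (F : FormalGroup R) {f g : PowerSeries R}
    (h0 : PowerSeries.constantCoeff f = 0) {σ : Type*} {a b : MvPowerSeries σ R}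
    (ha : PowerSeries.HasSubst a) (hb : PowerSeries.HasSubst b) :
    subst ![a, b] (unConj F f g) =
      PowerSeries.subst (subst ![PowerSeries.subst a f, PowerSeries.subst b f]
        F.toPowerSeries) g := by
  have hab := hasSubst_pair ha hb
  rw [unConj, subst_psubst (un_hasSubst F h0 (hasSubst_X 0) (hasSubst_X 1)) hab,
    subst_pair_subst (hasSubst_psubst (hasSubst_X 0) h0)
    (hasSubst_psubst (hasSubst_X 1) h0) hab, subst_psubst (hasSubst_X 0) hab,
    subst_psubst (hasSubst_X 1) hab, subst_X hab, subst_X hab]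
  rfl

/-- `f (unConj (a,b)) = F(f a, f b)` -/
theorem un_apply_unConj (F : FormalGroup R) {f g : PowerSeries R}
    (h0 : PowerSeries.constantCoeff f = 0) (g0 : PowerSeries.constantCoeff g = 0)
    (hfg : f.subst g = (PowerSeries.X : PowerSeries R)) {σ : Type*} {a b : MvPowerSeries σ R}
    (ha : PowerSeries.HasSubst a) (hb : PowerSeries.HasSubst b) :
    PowerSeries.subst (subst ![a, b] (unConj F f g)) f =
      subst ![PowerSeries.subst a f, PowerSeries.subst b f] F.toPowerSeries := by
  rw [unConj_subst F h0 ha hb]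
  exact un_cancel g0 hfg (un_hasSubst F h0 ha hb)

theorem un_map_id (F : FormalGroup R) : F.map (RingHom.id R) = F := by
  apply FormalGroup.ext
  rw [FormalGroup.map_toPowerSeries, MvPowerSeries.map_id]
  rfl

theorem un_map_map {S T : Type*} [CommRing S] [CommRing T] (F : FormalGroup R) (φ : R →+* S)
    (ψ : S →+* T) : (F.map φ).map ψ = F.map (ψ.comp φ) := by
  apply FormalGroup.ext
  rw [FormalGroup.map_toPowerSeries, FormalGroup.map_toPowerSeries,
    FormalGroup.map_toPowerSeries, MvPowerSeries.map_comp]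
  rfl

theorem un_pmap_map {S T : Type*} [CommRing S] [CommRing T] (f : PowerSeries R) (φ : R →+* S)
    (ψ : S →+* T) : (f.map φ).map ψ = f.map (ψ.comp φ) := by
  rw [PowerSeries.map_comp]
  rfl

theorem un_map_psubst {S : Type*} [CommRing S] (φ : R →+* S) {a f : PowerSeries R}
    (ha : PowerSeries.constantCoeff a = 0) :
    PowerSeries.map φ (f.subst a : PowerSeries R) =
      ((f.map φ).subst (a.map φ) : PowerSeries S) :=
  PowerSeries.map_subst (PowerSeries.HasSubst.of_constantCoeff_zero' ha) f

end univ_tools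

/-- transport of structure along an invertible series `f` : a formal group law `G` with `f : G → F` an
isomorphism -/
theorem exists_conj {R : Type*} [CommRing R] (F : FormalGroup R) [F.IsComm] (f : PowerSeries R)
    (h0 : PowerSeries.constantCoeff f = 0) (h1 : IsUnit (PowerSeries.coeff 1 f)) :
    ∃ G : FormalGroup R, G.IsComm ∧ IsHom G F f := by
  obtain ⟨g, g0, -, hgf, hfg⟩ := un_exists_inv f h0 h1
  have hX : PowerSeries.HasSubst (PowerSeries.X : PowerSeries R) := PowerSeries.HasSubst.X'
  have hz : PowerSeries.HasSubst (0 : PowerSeries R) := PowerSeries.HasSubst.zero'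
  have hcc : MvPowerSeries.constantCoeff (unConj F f g) = 0 := by
    rw [unConj]
    refine PowerSeries.constantCoeff_subst_eq_zero ?_ _ g0
    refine MvPowerSeries.constantCoeff_subst_eq_zero (hasSubst_pair
      (hasSubst_psubst (hasSubst_X 0) h0) (hasSubst_psubst (hasSubst_X 1) h0)) ?_
      F.zero_constantCoeff
    intro s
    fin_cases s
    · exact PowerSeries.constantCoeff_subst_eq_zero (by simp) _ h0
    · exact PowerSeries.constantCoeff_subst_eq_zero (by simp) _ h0
  have hhs : PowerSeries.HasSubst (unConj F f g) := PowerSeries.HasSubst.of_constantCoeff_zero hcc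
  have hf0 : PowerSeries.subst (0 : PowerSeries R) f = (0 : PowerSeries R) :=
    PowerSeries.subst_zero_of_constantCoeff_zero h0
  have hfX : PowerSeries.subst (PowerSeries.X : PowerSeries R) f = f := PowerSeries.X_subst f
  let G : FormalGroup R :=
    { toPowerSeries := unConj F f g
      zero_constantCoeff := hcc
      lin_coeff_X := by
        rw [← un_coeff_X_zero (unConj F f g) 1, unConj_subst F h0 hX hz, hf0, hfX]
        have := F.add_zero (PowerSeries.HasSubst.of_constantCoeff_zero' h0)
        rw [this, hgf, PowerSeries.coeff_one_X]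
      lin_coeff_Y := by
        rw [← un_coeff_zero_X (unConj F f g) 1, unConj_subst F h0 hz hX, hf0, hfX]
        have := F.zero_add (PowerSeries.HasSubst.of_constantCoeff_zero' h0)
        rw [this, hgf, PowerSeries.coeff_one_X]
      assoc := by
        have y0 : PowerSeries.HasSubst (X 0 : MvPowerSeries (Fin 3) R) := hasSubst_X 0
        have y1 : PowerSeries.HasSubst (X 1 : MvPowerSeries (Fin 3) R) := hasSubst_X 1
        have y2 : PowerSeries.HasSubst (X 2 : MvPowerSeries (Fin 3) R) := hasSubst_X 2
        have y01 : PowerSeries.HasSubst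
            (subst ![(X 0 : MvPowerSeries (Fin 3) R), X 1] (unConj F f g)) :=
          hasSubst_subst (hasSubst_pair y0 y1) hhs
        have y12 : PowerSeries.HasSubst
            (subst ![(X 1 : MvPowerSeries (Fin 3) R), X 2] (unConj F f g)) :=
          hasSubst_subst (hasSubst_pair y1 y2) hhs
        rw [unConj_subst F h0 y01 y2, unConj_subst F h0 y0 y12,
          un_apply_unConj F h0 g0 hfg y0 y1, un_apply_unConj F h0 g0 hfg y1 y2,
          F.assoc' (hasSubst_psubst y0 h0) (hasSubst_psubst y1 h0) (hasSubst_psubst y2 h0)] }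
  have hG : G.toPowerSeries = unConj F f g := rfl
  refine ⟨G, ⟨?_⟩, h0, ?_⟩
  · rw [hG, unConj_subst F h0 (hasSubst_X 1) (hasSubst_X 0), unConj,
      F.comm' (hasSubst_psubst (hasSubst_X 0) h0) (hasSubst_psubst (hasSubst_X 1) h0)]
  · rw [hG, unConj]
    exact un_cancel g0 hfg (un_hasSubst F h0 (hasSubst_X 0) (hasSubst_X 1))

/-- the inverse series of an isomorphism is an isomorphism -/
theorem exists_inverse_hom {R : Type*} [CommRing R] {F G : FormalGroup R} {f : PowerSeries R}
    (hf : IsHom F G f) (h1 : IsUnit (PowerSeries.coeff 1 f)) :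
    ∃ g : PowerSeries R, IsHom G F g ∧ IsUnit (PowerSeries.coeff 1 g) ∧
      g.subst f = (PowerSeries.X : PowerSeries R) ∧
      f.subst g = (PowerSeries.X : PowerSeries R) := by
  obtain ⟨g, g0, g1, hgf, hfg⟩ := un_exists_inv f hf.1 h1
  refine ⟨g, ⟨g0, ?_⟩, g1, hgf, hfg⟩
  have h := hf.apply (hasSubst_psubst (hasSubst_X (R := R) (0 : Fin 2)) g0)
    (hasSubst_psubst (hasSubst_X (R := R) (1 : Fin 2)) g0)
  rw [un_cancel g0 hfg (hasSubst_X 0), un_cancel g0 hfg (hasSubst_X 1), subst_pair_X] at h
  rw [← h]
  exact un_cancel hf.1 hgf (hasSubst_subst (hasSubst_pair (hasSubst_psubst (hasSubst_X 0) g0)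
    (hasSubst_psubst (hasSubst_X 1) g0)) (hasSubst_F F))

/-- a formal group law isomorphic (via the given series) to another is determined by it -/
theorem formalGroup_eq_of_hom {R : Type*} [CommRing R] {F F' G : FormalGroup R}
    {f : PowerSeries R} (h1 : IsUnit (PowerSeries.coeff 1 f)) (hf : IsHom F G f)
    (hf' : IsHom F' G f) : F = F' := by
  obtain ⟨g, g0, g1, hgf, hfg⟩ := un_exists_inv f hf.1 h1
  apply FormalGroup.ext
  have h := hf.2.trans hf'.2.symm
  have h2 := congrArg (fun a => PowerSeries.subst a g) h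
  rwa [un_cancel hf.1 hgf (hasSubst_F F), un_cancel hf.1 hgf (hasSubst_F F')] at h2

section
variable {k E : Type} [Field k] [CommRing E] {Γ : FormalGroup k} [Γ.IsComm] {π : E →+* k}
  {F : FormalGroup E}

/-- a unit linear coefficient can be detected on the residue field -/
theorem un_isUnit_coeff_one (A : Type) [CommRing A] [IsLocalRing A] (πA : A →+* k)
    (hπA : Function.Surjective πA) (t : PowerSeries A)
    (h : IsUnit (PowerSeries.coeff 1 (t.map πA))) : IsUnit (PowerSeries.coeff 1 t) := by
  have : IsLocalHom πA := hπA.isLocalHom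
  rw [PowerSeries.coeff_map] at h
  exact isUnit_of_map_unit πA _ h

theorem univ_exists (hF : IsUniversalDeformation Γ π F) (A : Type) [CommRing A] [IsLocalRing A]
    [IsNoetherianRing A] [IsAdicComplete (IsLocalRing.maximalIdeal A) A] (πA : A →+* k)
    (hπA : Function.Surjective πA) (G : FormalGroup A) [G.IsComm] (g : PowerSeries k)
    (hg : IsHom Γ (G.map πA) g) (hg1 : IsUnit (PowerSeries.coeff 1 g)) :
    ∃ (ψ : E →+* A) (t : PowerSeries A), πA.comp ψ = π ∧ IsHom (F.map ψ) G t ∧
      t.map πA = g := by
  -- a lift of `g`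
  obtain ⟨u, hu⟩ := PowerSeries.map_surjective πA hπA g
  obtain ⟨q, hq0, hq⟩ : ∃ q : PowerSeries A, PowerSeries.constantCoeff q = 0 ∧ q.map πA = g := by
    refine ⟨u - PowerSeries.C (PowerSeries.constantCoeff u), by simp, ?_⟩
    rw [map_sub, hu, PowerSeries.map_C]
    have h1 : πA (PowerSeries.constantCoeff u) = 0 := by
      have h2 : PowerSeries.coeff 0 (u.map πA) = 0 := by
        rw [hu, PowerSeries.coeff_zero_eq_constantCoeff_apply]
        exact hg.1
      rw [PowerSeries.coeff_map, PowerSeries.coeff_zero_eq_constantCoeff_apply] at h2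
      exact h2
    rw [h1, map_zero, sub_zero]
  have hq1 : IsUnit (PowerSeries.coeff 1 q) :=
    un_isUnit_coeff_one A πA hπA q (by rw [hq]; exact hg1)
  obtain ⟨G', hG'c, hG'⟩ := exists_conj G q hq0 hq1
  have hred : G'.map πA = Γ := by
    have h3 := hG'.map πA
    rw [hq] at h3
    exact formalGroup_eq_of_hom hg1 h3 hg
  obtain ⟨⟨ψ, t⟩, ⟨h4, h5, h6⟩, -⟩ := hF.universal A πA hπA G' hG'c hred
  refine ⟨ψ, q.subst t, h4, h5.comp hG', ?_⟩
  have h7 := un_map_psubst πA (f := q) h5.1
  rw [h6, hq, PowerSeries.X_subst] at h7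
  exact h7

theorem univ_unique (hF : IsUniversalDeformation Γ π F) (A : Type) [CommRing A] [IsLocalRing A]
    [IsNoetherianRing A] [IsAdicComplete (IsLocalRing.maximalIdeal A) A] (πA : A →+* k)
    (hπA : Function.Surjective πA) (G : FormalGroup A) [G.IsComm] (g : PowerSeries k)
    (hg1 : IsUnit (PowerSeries.coeff 1 g)) (ψ₁ ψ₂ : E →+* A) (t₁ t₂ : PowerSeries A)
    (h₁ : πA.comp ψ₁ = π) (h₂ : πA.comp ψ₂ = π) (ht₁ : IsHom (F.map ψ₁) G t₁)
    (ht₂ : IsHom (F.map ψ₂) G t₂) (hg₁ : t₁.map πA = g) (hg₂ : t₂.map πA = g) :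
    ψ₁ = ψ₂ ∧ t₁ = t₂ := by
  have := hF.comm
  have hu1 : IsUnit (PowerSeries.coeff 1 t₁) :=
    un_isUnit_coeff_one A πA hπA t₁ (by rw [hg₁]; exact hg1)
  obtain ⟨s, hs, hs1, hst, hts⟩ := exists_inverse_hom ht₁ hu1
  have hred : (F.map ψ₁).map πA = Γ := by
    rw [un_map_map, h₁]
    exact hF.reduction
  have hsg : (s.map πA).subst g = (PowerSeries.X : PowerSeries k) := by
    have h3 := un_map_psubst πA (f := s) ht₁.1
    rw [hst, PowerSeries.map_X, hg₁] at h3
    exact h3.symm
  have hu := hF.universal A πA hπA (F.map ψ₁) inferInstance hred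
  have e1 : ((ψ₁, PowerSeries.X) : (E →+* A) × PowerSeries A) = (ψ₂, s.subst t₂) := by
    refine hu.unique ⟨h₁, isHom_X _, PowerSeries.map_X _⟩ ⟨h₂, ht₂.comp hs, ?_⟩
    have h4 := un_map_psubst πA (f := s) ht₂.1
    rw [hg₂, hsg] at h4
    exact h4
  obtain ⟨e2, e3⟩ := Prod.mk.inj e1
  refine ⟨e2, ?_⟩
  have h5 : PowerSeries.subst (PowerSeries.subst t₂ s) t₁ = t₂ :=
    un_cancel hs.1 hts (hasSubst_of_isHom ht₂)
  have h6 : PowerSeries.subst t₂ s = (PowerSeries.X : PowerSeries A) := e3.symm
  rw [h6] at h5
  rw [← h5]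
  exact (PowerSeries.X_subst t₁).symm

/-- one composition of the two ring maps attached to inverse automorphisms is the identity -/
theorem un_comp_eq_id [IsLocalRing E] [IsNoetherianRing E]
    [IsAdicComplete (IsLocalRing.maximalIdeal E) E] (hπ : Function.Surjective π)
    (hF : IsUniversalDeformation Γ π F) (g g' : PowerSeries k)
    (φ φ' : E →+* E) (t t' : PowerSeries E) (h : π.comp φ = π) (h' : π.comp φ' = π)
    (ht : IsHom (F.map φ) F t) (ht' : IsHom (F.map φ') F t') (hg : t.map π = g)
    (hg' : t'.map π = g') (hgg : g'.subst g = (PowerSeries.X : PowerSeries k)) :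
    φ'.comp φ = RingHom.id E := by
  have := hF.comm
  have h1 : IsHom (F.map (φ'.comp φ)) (F.map φ') (t.map φ') := by
    have h2 := ht.map φ'
    rw [un_map_map] at h2
    exact h2
  have h3 : IsHom (F.map (RingHom.id E)) F PowerSeries.X := by
    rw [un_map_id]
    exact isHom_X F
  have h4 := un_map_psubst π (f := t') h1.1
  rw [un_pmap_map, h', hg, hg', hgg] at h4
  refine (univ_unique hF E π hπ F PowerSeries.X (by simp) (φ'.comp φ) (RingHom.id E)
    (t'.subst (t.map φ')) PowerSeries.X ?_ ?_ (h1.comp ht') h3 h4 (PowerSeries.map_X _)).1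
  · rw [← RingHom.comp_assoc, h', h]
  · rw [RingHom.comp_id]

theorem exists_actsBy [IsLocalRing E] [IsNoetherianRing E]
    [IsAdicComplete (IsLocalRing.maximalIdeal E) E] (hπ : Function.Surjective π)
    (hF : IsUniversalDeformation Γ π F) (g : PowerSeries k) (hg : IsHom Γ Γ g)
    (hg1 : IsUnit (PowerSeries.coeff 1 g)) :
    ∃ φ : E ≃+* E, ActsBy Γ π F g (RingEquiv.refl k) φ := by
  have := hF.comm
  obtain ⟨g', hg', hg'1, h1, h2⟩ := exists_inverse_hom hg hg1
  obtain ⟨φ, t, a1, a2, a3⟩ := univ_exists hF E π hπ F g (by rw [hF.reduction]; exact hg) hg1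
  obtain ⟨φ', t', b1, b2, b3⟩ := univ_exists hF E π hπ F g' (by rw [hF.reduction]; exact hg') hg'1
  have c1 := un_comp_eq_id hπ hF g g' φ φ' t t' a1 b1 a2 b2 a3 b3 h1
  have c2 := un_comp_eq_id hπ hF g' g φ' φ t' t b1 a1 b2 a2 b3 a3 h2
  have hφ : ((RingEquiv.ofRingHom φ φ' c2 c1 : E ≃+* E) : E →+* E) = φ := rfl
  refine ⟨RingEquiv.ofRingHom φ φ' c2 c1, ?_, hg1, ?_, t, ?_, a3⟩
  · have hid : ((RingEquiv.refl k : k ≃+* k) : k →+* k) = RingHom.id k := rfl
    rw [hid, un_map_id]
    exact hg
  · rw [hφ, a1]
    rfl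
  · rw [hφ]
    exact a2

end
end Vale.Agent.P217
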