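import Vale.Agent.Lib.P217.Coord
import Vale.Agent.Lib.P217.MainP
import Vale.Agent.Lib.P217.Universal

/-!
# P217: auxiliary statements on formal points for `ActZ.lean`
-/

set_option linter.unusedSectionVars false

namespace Vale.Agent.P217

open MvPowerSeries Filter Topology
open scoped MvPowerSeries.WithPiTopology

namespace AZ

section
variable {R S : Type*} [CommRing R] [CommRing S]

/-- change of coefficients on formal points -/
noncomputable def pm (G : FormalGroup R) [G.IsComm] (φ : R →+* S) :
    G.Point Unit →+ (G.map φ).Point Unit where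
  toFun f := ⟨f.val.map φ, by
    have h := f.prop
    have h2 : IsNilpotent (φ (MvPowerSeries.constantCoeff f.val)) := h.map φ
    change IsNilpotent (MvPowerSeries.constantCoeff (MvPowerSeries.map φ f.val))
    rwa [MvPowerSeries.constantCoeff_map]⟩
  map_zero' := Subtype.ext (map_zero _)
  map_add' f g := Subtype.ext (map_subst_pair φ f.prop g.prop G.toPowerSeries)

theorem pm_val (G : FormalGroup R) [G.IsComm] (φ : R →+* S) (P : G.Point Unit) :
    (pm G φ P).val = PowerSeries.map φ P.val := rfl

theorem pm_seriesPoint (G : FormalGroup R) [G.IsComm] (φ : R →+* S) {f : PowerSeries R}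
    (hf : PowerSeries.constantCoeff f = 0) {g : PowerSeries S}
    (hg : PowerSeries.constantCoeff g = 0) (h : f.map φ = g) :
    pm G φ (seriesPoint G f hf) = seriesPoint (G.map φ) g hg := Subtype.ext h

theorem pm_idPoint (G : FormalGroup R) [G.IsComm] (φ : R →+* S) :
    pm G φ (idPoint G) = idPoint (G.map φ) := Subtype.ext (PowerSeries.map_X φ)

theorem cc_add {G : FormalGroup R} [G.IsComm] {P Q : G.Point Unit}
    (hP : PowerSeries.constantCoeff P.val = 0) (hQ : PowerSeries.constantCoeff Q.val = 0) :
    PowerSeries.constantCoeff (P + Q).val = 0 := by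
  rw [FormalGroup.add_apply]
  exact ma_constantCoeff_pair hP hQ G

theorem cc_neg {G : FormalGroup R} [G.IsComm] {P : G.Point Unit}
    (hP : PowerSeries.constantCoeff P.val = 0) : PowerSeries.constantCoeff (-P).val = 0 := by
  rw [Point.neg_val]
  exact PowerSeries.constantCoeff_subst_eq_zero hP _ (invSeries_constantCoeff G)

theorem cc_sub {G : FormalGroup R} [G.IsComm] {P Q : G.Point Unit}
    (hP : PowerSeries.constantCoeff P.val = 0) (hQ : PowerSeries.constantCoeff Q.val = 0) :
    PowerSeries.constantCoeff (P - Q).val = 0 := by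
  have h : P - Q = P + -Q := sub_eq_add_neg P Q
  rw [h]
  exact cc_add hP (cc_neg hQ)

theorem cc_nsmul {G : FormalGroup R} [G.IsComm] {P : G.Point Unit}
    (hP : PowerSeries.constantCoeff P.val = 0) (m : ℕ) :
    PowerSeries.constantCoeff (m • P).val = 0 := by
  induction m with
  | zero =>
    rw [zero_nsmul]
    exact map_zero _
  | succ m ih =>
    rw [succ_nsmul]
    exact cc_add ih hP

/-- composition of one-variable series and change of coefficients -/
theorem pmap_subst (φ : R →+* S)
    {f g : PowerSeries R} (hf : PowerSeries.constantCoeff f = 0) :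
    PowerSeries.map φ (PowerSeries.subst f g) =
      PowerSeries.subst (PowerSeries.map φ f) (PowerSeries.map φ g) :=
  PowerSeries.map_subst (PowerSeries.HasSubst.of_constantCoeff_zero' hf) g

theorem exists_lift_series {π : R →+* S} (hπ : Function.Surjective π) (b : PowerSeries S)
    (hb : PowerSeries.constantCoeff b = 0) :
    ∃ bt : PowerSeries R, PowerSeries.constantCoeff bt = 0 ∧ bt.map π = b := by
  choose g hg using hπ
  refine ⟨PowerSeries.mk fun n => if n = 0 then 0 else g (PowerSeries.coeff n b), ?_, ?_⟩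
  · rw [← PowerSeries.coeff_zero_eq_constantCoeff_apply, PowerSeries.coeff_mk, if_pos rfl]
  · ext n
    rw [PowerSeries.coeff_map, PowerSeries.coeff_mk]
    by_cases hn : n = 0
    · subst hn
      rw [if_pos rfl, map_zero, PowerSeries.coeff_zero_eq_constantCoeff_apply, hb]
    · rw [if_neg hn, hg]

end

section ok
variable {K : Type*} [NontriviallyNormedField K] [IsUltrametricDist K] [CompleteSpace K]

theorem cc_point {G : FormalGroup (OO K)} (P : G.Point Unit) :
    PowerSeries.constantCoeff P.val = 0 := by
  have h : IsNilpotent (PowerSeries.constantCoeff P.val) := P.prop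
  exact h.eq_zero

/-- the value of formal points at a point -/
noncomputable def pe {G : FormalGroup (OO K)} [G.IsComm] (z : Pt G) : G.Point Unit →+ Pt G where
  toFun P := ⟨ev1 z.val P.val, ev1_tn z.tn _ (cc_point P)⟩
  map_zero' := by
    apply Pt.ext
    exact ev_zero (hasEval_unit z.tn)
  map_add' P Q := by
    apply Pt.ext
    change ev1 z.val (P + Q).val = ev ![ev1 z.val P.val, ev1 z.val Q.val] G.toPowerSeries
    rw [FormalGroup.add_apply]
    exact ev_subst_pair (hasEval_unit z.tn) (hasSubst_pair P.prop Q.prop) _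

theorem pe_val {G : FormalGroup (OO K)} [G.IsComm] (z : Pt G) (P : G.Point Unit) :
    (pe z P).val = ev1 z.val P.val := rfl

theorem pe_idPoint {G : FormalGroup (OO K)} [G.IsComm] (z : Pt G) : pe z (idPoint G) = z := by
  apply Pt.ext
  exact ev_X _ _

theorem nm_sub_sub_le {G : FormalGroup (OO K)} [G.IsComm] {a a' u u' : Pt G} {c : ℝ}
    (h : Pt.nm (a - u) ≤ c) (h' : Pt.nm (a' - u') ≤ c) :
    Pt.nm ((a - a') - (u - u')) ≤ c := by
  have e : (a - a') - (u - u') = (a - u) + -(a' - u') := by abel
  rw [e]
  refine (Pt.nm_add_le _ _).trans (max_le h ?_)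
  rw [Pt.nm_neg]
  exact h'

theorem nm_add_sub_le {G : FormalGroup (OO K)} [G.IsComm] {a a' u u' : Pt G} {c : ℝ}
    (h : Pt.nm (a - u) ≤ c) (h' : Pt.nm (a' - u') ≤ c) :
    Pt.nm ((a + a') - (u + u')) ≤ c := by
  have e : (a + a') - (u + u') = (a - u) + (a' - u') := by abel
  rw [e]
  exact (Pt.nm_add_le _ _).trans (max_le h h')

theorem nm_nsmul_sub_le {G : FormalGroup (OO K)} [G.IsComm] {a u : Pt G} {c : ℝ}
    (h : Pt.nm (a - u) ≤ c) (m : ℕ) : Pt.nm (m • a - m • u) ≤ c := by
  rw [← nsmul_sub]
  exact (Pt.nm_nsmul_le _ _).trans h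

end ok

end AZ
end Vale.Agent.P217
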