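import Vale.Agent.Lib.P217.LogFam
import Vale.Agent.Lib.P217.Coord
import Vale.Agent.Lib.P217.MainP
import Vale.Agent.Lib.P217.ActZA
import Vale.Agent.Lib.P217.ActZAux

/-!
# P217 (characteristic zero part): action of endomorphisms on universal covers and the logarithm (modules Z5)

`E = R0[[u_1, …, u_r]]`, `π : E → κ` surjective onto the residue field, `F` over `E` reducing to `Γ` with `[p]_Γ = X^q`,
`x = spec ι hξ : E → OO K` with `‖x(f)‖ ≤ c < 1` for `f ∈ ker π`. Compare `Coord.lean` (where `R0 = κ`), everything is proved in the same way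
(`exists_ucMap`, `uc_ext`, `exists_uLift`).

`IsActE π x c b Φ`: `Φ` is the action of the endomorphism `b` of `Γ` on `UC Fx p`: for all lifts `bt` of `b` to `E`,
`(Φ z)_l ≡ bt_x(z_l)` modulo `c`. (Two lifts are congruent modulo `ker π`, so it suffices to check one lift, `actE_of_lift`.)

* `pCong_specE`: the coefficients of `[p]_F - X^q` are in `ker π`.
* `exists_actE`: for a lift `bt` of `b`, the coefficients of `bt(F(X,Y)) - F(bt X, bt Y)` are in `ker π`, so `bt_x` is an `ApproxHom`.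
* `main_formulaE`: `l ↦ t_x(zt_l(δ))` is in `UC Fx p`, since `zt(δ)` is in the universal cover of
  `(F.map taylor).map (evHom δ) = F.map (x ∘ φ)` (`ringHom_eq_ev`, `ev_taylor`: both ring homomorphisms `E → OO K` send `u_i` to `ξ_i + δ_i` and agree on
  constants), and it is congruent modulo `c` to `g(z_l)`: `‖δ_i‖ ≤ c` because `φ(X i) - X i ∈ ker π`. Conclude by `uc_ext`.
* `log_formula`: apply `IsLog.hom` to `t_x` at the point `zt_0(δ)`; the action of `onePlus Γ p m b` is `id + p^m Φ` (`actE_onePlus`, `actE_unique`).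
* `log_expansion`: `log_family` for `N = zt_0`, `F.map taylor`; note that for `δ = 0` it gives `a₀ = Lz`.
-/

set_option linter.unusedSectionVars false

namespace Vale.Agent.P217

open MvPowerSeries Filter Topology
open scoped MvPowerSeries.WithPiTopology

section
variable {R0 : Type} [CommRing R0] {κ : Type} [Field κ] {r : ℕ}
  {K : Type} [NontriviallyNormedField K] [IsUltrametricDist K] [CompleteSpace K]

/-- `Φ` is the action of the series `b` over `κ` on the universal cover -/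
def IsActE (π : MvPowerSeries (Fin r) R0 →+* κ) (x : MvPowerSeries (Fin r) R0 →+* OO K) (c : ℝ)
    {p : ℕ} {Fx : FormalGroup (OO K)} [Fx.IsComm] (b : PowerSeries κ)
    (Φ : UC Fx p →+ UC Fx p) : Prop :=
  ∀ bt : PowerSeries (MvPowerSeries (Fin r) R0), PowerSeries.constantCoeff bt = 0 →
    bt.map π = b → ∀ z l,
      ‖((((Φ z).1 l).val : OO K) : K) - ((ev1 (z.1 l).val (bt.map x) : OO K) : K)‖ ≤ c

variable {π : MvPowerSeries (Fin r) R0 →+* κ} (hπ : Function.Surjective π)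
  (F : FormalGroup (MvPowerSeries (Fin r) R0)) [F.IsComm] (Γ : FormalGroup κ) [Γ.IsComm]
  (hΓ : F.map π = Γ) {p q : ℕ} (hq2 : 2 ≤ q) (hΓp : mulSeries Γ p = PowerSeries.X ^ q)
  (ι : R0 →+* OO K) {ξ : Fin r → OO K} (hξ : ∀ i, ‖(ξ i : K)‖ < 1)
  {c : ℝ} (hc0 : 0 < c) (hc1 : c < 1)
  (hker : ∀ f, π f = 0 → ‖((spec ι hξ f : OO K) : K)‖ ≤ c)

include hΓ hΓp hker in
theorem pCong_specE : PCong p q c (F.map (spec ι hξ)) := by
  intro i
  have h1 := hker (PowerSeries.coeff i (mulSeries F p - PowerSeries.X ^ q)) (by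
    rw [← PowerSeries.coeff_map, map_sub, map_pow, PowerSeries.map_X, ← mulSeries_map, hΓ,
      hΓp, sub_self, map_zero])
  have h2 : PowerSeries.coeff i (mulSeries (F.map (spec ι hξ)) p - PowerSeries.X ^ q) =
      spec ι hξ (PowerSeries.coeff i (mulSeries F p - PowerSeries.X ^ q)) := by
    rw [← PowerSeries.coeff_map, map_sub (PowerSeries.map (spec ι hξ)), map_pow,
      PowerSeries.map_X, ← mulSeries_map]
  rw [h2]
  exact h1

include hc0 hker in
/-- it suffices to check one lift -/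
theorem actE_of_lift {Fx : FormalGroup (OO K)} [Fx.IsComm] (b : PowerSeries κ)
    (Φ : UC Fx p →+ UC Fx p) (bt : PowerSeries (MvPowerSeries (Fin r) R0))
    (h0 : PowerSeries.constantCoeff bt = 0) (hb : bt.map π = b)
    (h : ∀ z l, ‖((((Φ z).1 l).val : OO K) : K) -
      ((ev1 (z.1 l).val (bt.map (spec ι hξ)) : OO K) : K)‖ ≤ c) :
    IsActE π (spec ι hξ) c b Φ := by
  intro bt' _ hb' z l
  have hzl : ‖((z.1 l).val : K)‖ < 1 := (z.1 l).norm_lt
  have h1 := norm_ev1_sub_ev1_le hc0.le hzl hzl (by simpa using hc0.le)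
    (bt.map (spec ι hξ)) (bt'.map (spec ι hξ)) (fun i => by
      rw [PowerSeries.coeff_map, PowerSeries.coeff_map, ← map_sub]
      exact hker _ (by
        rw [map_sub, ← PowerSeries.coeff_map, ← PowerSeries.coeff_map, hb, hb', sub_self]))
  have h2 : ((Φ z).1 l).val - ev1 (z.1 l).val (bt'.map (spec ι hξ)) ∈
      ballIdeal K c hc0.le := by
    have h3 : ((Φ z).1 l).val - ev1 (z.1 l).val (bt'.map (spec ι hξ)) =
        (((Φ z).1 l).val - ev1 (z.1 l).val (bt.map (spec ι hξ))) +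
          (ev1 (z.1 l).val (bt.map (spec ι hξ)) - ev1 (z.1 l).val (bt'.map (spec ι hξ))) := by
      ring
    rw [h3]
    exact Ideal.add_mem _ (h z l) h1
  exact h2

include hπ hΓ hΓp hc0 hc1 hker hq2

theorem exists_actE {b : PowerSeries κ} (hb : IsHom Γ Γ b) :
    ∃ Φ : UC (F.map (spec ι hξ)) p →+ UC (F.map (spec ι hξ)) p,
      IsActE π (spec ι hξ) c b Φ := by
  obtain ⟨bt, h0, hbt⟩ := za_exists_lift hπ b hb.1
  have hA : ApproxHom c (F.map (spec ι hξ)) (F.map (spec ι hξ)) (bt.map (spec ι hξ)) := by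
    refine ⟨?_, fun d => ?_⟩
    · rw [← PowerSeries.coeff_zero_eq_constantCoeff_apply, PowerSeries.coeff_map,
        PowerSeries.coeff_zero_eq_constantCoeff_apply, h0, map_zero]
    · have h1 : (zaDefect F F bt).map π = 0 := by
        rw [zaDefect_map π F F bt h0, hΓ, hbt]
        exact sub_eq_zero.2 hb.2
      have h2 := hker (coeff d (zaDefect F F bt)) (by rw [← coeff_map, h1, map_zero])
      have h3 : spec ι hξ (coeff d (zaDefect F F bt)) =
          coeff d (zaDefect (F.map (spec ι hξ)) (F.map (spec ι hξ)) (bt.map (spec ι hξ))) := by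
        rw [← coeff_map, zaDefect_map (spec ι hξ) F F bt h0]
      rw [h3] at h2
      exact h2
  obtain ⟨Φ, hΦ⟩ := exists_ucMap hq2 hc0.le hc1 (pCong_specE F Γ hΓ hΓp ι hξ hker)
    (pCong_specE F Γ hΓ hΓp ι hξ hker) _ hA
  exact ⟨Φ, actE_of_lift ι hξ hc0 hker b Φ bt h0 hbt hΦ⟩

theorem actE_unique {b : PowerSeries κ} (hb : IsHom Γ Γ b)
    {Φ Φ' : UC (F.map (spec ι hξ)) p →+ UC (F.map (spec ι hξ)) p}
    (h : IsActE π (spec ι hξ) c b Φ) (h' : IsActE π (spec ι hξ) c b Φ') : Φ = Φ' := by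
  obtain ⟨bt, h0, hbt⟩ := za_exists_lift hπ b hb.1
  refine AddMonoidHom.ext fun z => ?_
  refine uc_ext hq2 hc0.le hc1 (pCong_specE F Γ hΓ hΓp ι hξ hker) (Φ z) (Φ' z) fun l => ?_
  have h1 : ((Φ z).1 l).val - ((Φ' z).1 l).val ∈ ballIdeal K c hc0.le := by
    have h2 : ((Φ z).1 l).val - ((Φ' z).1 l).val =
        (((Φ z).1 l).val - ev1 (z.1 l).val (bt.map (spec ι hξ))) -
          (((Φ' z).1 l).val - ev1 (z.1 l).val (bt.map (spec ι hξ))) := by
      ring
    rw [h2]
    exact Ideal.sub_mem _ (h bt h0 hbt z l) (h' bt h0 hbt z l)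
  exact h1

theorem actE_comp {b b' : PowerSeries κ} (hb : IsHom Γ Γ b) (hb' : IsHom Γ Γ b')
    {Φ Φ' : UC (F.map (spec ι hξ)) p →+ UC (F.map (spec ι hξ)) p}
    (h : IsActE π (spec ι hξ) c b Φ) (h' : IsActE π (spec ι hξ) c b' Φ') :
    IsActE π (spec ι hξ) c (b.subst b') (Φ.comp Φ') := by
  subst hΓ
  obtain ⟨bt, bt0, hbt⟩ := AZ.exists_lift_series hπ b hb.1
  obtain ⟨bt', bt0', hbt'⟩ := AZ.exists_lift_series hπ b' hb'.1
  have h0 : PowerSeries.constantCoeff (PowerSeries.subst bt' bt) = 0 :=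
    PowerSeries.constantCoeff_subst_eq_zero bt0' _ bt0
  refine actE_of_lift ι hξ hc0 hker _ (Φ.comp Φ') (PowerSeries.subst bt' bt) h0 ?_ ?_
  · have h1 := AZ.pmap_subst π (g := bt) bt0'
    rw [hbt, hbt'] at h1
    exact h1
  · intro z l
    have h2 := h bt bt0 hbt (Φ' z) l
    have h3 := h' bt' bt0' hbt' z l
    have hx0 : PowerSeries.constantCoeff (bt'.map (spec ι hξ)) = 0 := by
      rw [← PowerSeries.coeff_zero_eq_constantCoeff_apply, PowerSeries.coeff_map,
        PowerSeries.coeff_zero_eq_constantCoeff_apply, bt0', map_zero]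
    have e1 : ev1 (z.1 l).val (PowerSeries.map (spec ι hξ) (PowerSeries.subst bt' bt)) =
        ev1 (ev1 (z.1 l).val (bt'.map (spec ι hξ))) (bt.map (spec ι hξ)) := by
      rw [AZ.pmap_subst (spec ι hξ) bt0']
      exact ev1_comp (z.1 l).tn _ _ hx0
    have hw : ‖((ev1 (z.1 l).val (bt'.map (spec ι hξ)) : OO K) : K)‖ < 1 :=
      (norm_ev1_le _ _ (z.1 l).norm_lt hx0).trans_lt (z.1 l).norm_lt
    have h4 := norm_ev1_sub_ev1_le hc0.le ((Φ' z).1 l).norm_lt hw h3
      (bt.map (spec ι hξ)) (bt.map (spec ι hξ)) (fun i => by rw [sub_self]; simpa using hc0.le)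
    have h5 : ((Φ (Φ' z)).1 l).val - ev1 (z.1 l).val
        (PowerSeries.map (spec ι hξ) (PowerSeries.subst bt' bt)) ∈ ballIdeal K c hc0.le := by
      have e2 : ((Φ (Φ' z)).1 l).val - ev1 (z.1 l).val
          (PowerSeries.map (spec ι hξ) (PowerSeries.subst bt' bt)) =
          (((Φ (Φ' z)).1 l).val - ev1 ((Φ' z).1 l).val (bt.map (spec ι hξ))) +
          (ev1 ((Φ' z).1 l).val (bt.map (spec ι hξ)) -
            ev1 (ev1 (z.1 l).val (bt'.map (spec ι hξ))) (bt.map (spec ι hξ))) := by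
        rw [e1]; ring
      rw [e2]
      exact Ideal.add_mem _ h2 h4
    exact h5

theorem actE_X : IsActE π (spec ι hξ) c (PowerSeries.X : PowerSeries κ)
    (AddMonoidHom.id (UC (F.map (spec ι hξ)) p)) := by
  refine actE_of_lift ι hξ hc0 hker _ _ PowerSeries.X PowerSeries.constantCoeff_X
    (PowerSeries.map_X π) ?_
  intro z l
  have h0 : PowerSeries.map (spec ι hξ) (PowerSeries.X :
      PowerSeries (MvPowerSeries (Fin r) R0)) = PowerSeries.X := PowerSeries.map_X _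
  have h1 : ev1 (z.1 l).val (PowerSeries.X : PowerSeries (OO K)) = (z.1 l).val := ev_X _ _
  rw [h0, h1]
  simpa using hc0.le

theorem actE_sub {b b' b'' : PowerSeries κ} (hb : IsHom Γ Γ b) (hb' : IsHom Γ Γ b')
    (hb'' : PowerSeries.constantCoeff b'' = 0)
    (heq : seriesPoint Γ b'' hb'' = seriesPoint Γ b hb.1 - seriesPoint Γ b' hb'.1)
    {Φ Φ' : UC (F.map (spec ι hξ)) p →+ UC (F.map (spec ι hξ)) p}
    (h : IsActE π (spec ι hξ) c b Φ) (h' : IsActE π (spec ι hξ) c b' Φ') :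
    IsActE π (spec ι hξ) c b'' (Φ - Φ') := by
  subst hΓ
  obtain ⟨bt, bt0, hbt⟩ := AZ.exists_lift_series hπ b hb.1
  obtain ⟨bt', bt0', hbt'⟩ := AZ.exists_lift_series hπ b' hb'.1
  set P := seriesPoint F bt bt0 with hP
  set P' := seriesPoint F bt' bt0' with hP'
  refine actE_of_lift ι hξ hc0 hker b'' (Φ - Φ') (P - P').val (AZ.cc_sub bt0 bt0') ?_ ?_
  · have h1 : AZ.pm F π (P - P') = seriesPoint (F.map π) b'' hb'' := by
      rw [map_sub, heq, hP, hP', AZ.pm_seriesPoint F π bt0 hb.1 hbt,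
        AZ.pm_seriesPoint F π bt0' hb'.1 hbt']
    exact congrArg Subtype.val h1
  · intro z l
    have h2 := h bt bt0 hbt z l
    have h3 := h' bt' bt0' hbt' z l
    have k2 : Pt.nm ((Φ z).1 l - AZ.pe (z.1 l) (AZ.pm F (spec ι hξ) P)) ≤ c := by
      rw [Pt.nm_sub]
      exact h2
    have k3 : Pt.nm ((Φ' z).1 l - AZ.pe (z.1 l) (AZ.pm F (spec ι hξ) P')) ≤ c := by
      rw [Pt.nm_sub]
      exact h3
    have k4 := AZ.nm_sub_sub_le k2 k3
    rw [← map_sub, ← map_sub, Pt.nm_sub] at k4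
    exact k4

theorem actE_onePlus {b : PowerSeries κ} (hb : IsHom Γ Γ b) (m : ℕ)
    {Φ : UC (F.map (spec ι hξ)) p →+ UC (F.map (spec ι hξ)) p}
    (h : IsActE π (spec ι hξ) c b Φ) :
    IsActE π (spec ι hξ) c (onePlus Γ p m b hb.1) (AddMonoidHom.id _ + p ^ m • Φ) := by
  subst hΓ
  obtain ⟨bt, bt0, hbt⟩ := AZ.exists_lift_series hπ b hb.1
  set P := seriesPoint F bt bt0 with hP
  refine actE_of_lift ι hξ hc0 hker _ _ (idPoint F + p ^ m • P).val
    (AZ.cc_add PowerSeries.constantCoeff_X (AZ.cc_nsmul bt0 _)) ?_ ?_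
  · have h1 : AZ.pm F π (idPoint F + p ^ m • P) =
        idPoint (F.map π) + p ^ m • seriesPoint (F.map π) b hb.1 := by
      rw [map_add, map_nsmul, hP, AZ.pm_seriesPoint F π bt0 hb.1 hbt, AZ.pm_idPoint]
    exact congrArg Subtype.val h1
  · intro z l
    have h2 := h bt bt0 hbt z l
    have k2 : Pt.nm ((Φ z).1 l - AZ.pe (z.1 l) (AZ.pm F (spec ι hξ) P)) ≤ c := by
      rw [Pt.nm_sub]
      exact h2
    have k1 : Pt.nm (z.1 l - AZ.pe (z.1 l) (AZ.pm F (spec ι hξ) (idPoint F))) ≤ c := by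
      rw [AZ.pm_idPoint, AZ.pe_idPoint, sub_self, (Pt.nm_eq_zero _).2 rfl]
      exact hc0.le
    have k4 := AZ.nm_add_sub_le k1 (AZ.nm_nsmul_sub_le k2 (p ^ m))
    rw [← map_nsmul, ← map_nsmul, ← map_add, ← map_add, Pt.nm_sub] at k4
    exact k4

theorem actE_mulSeries : IsActE π (spec ι hξ) c (mulSeries Γ p)
    (p • AddMonoidHom.id (UC (F.map (spec ι hξ)) p)) := by
  subst hΓ
  refine actE_of_lift ι hξ hc0 hker _ _ (mulSeries F p) (mulSeries_constantCoeff F p)
    (mulSeries_map π F p).symm ?_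
  intro z l
  have h1 : ev1 (z.1 l).val (PowerSeries.map (spec ι hξ) (mulSeries F p)) = (p • z.1 l).val := by
    rw [Pt.nsmul_val, mulSeries_map]
  rw [h1]
  have h2 : (((p • AddMonoidHom.id (UC (F.map (spec ι hξ)) p)) z).1 l).val = (p • z.1 l).val := rfl
  rw [h2, sub_self, norm_zero]
  exact hc0.le

theorem actE_surjective {b : PowerSeries κ} (hb : IsHom Γ Γ b)
    (hb1 : IsUnit (PowerSeries.coeff 1 b))
    {Φ : UC (F.map (spec ι hξ)) p →+ UC (F.map (spec ι hξ)) p}
    (h : IsActE π (spec ι hξ) c b Φ) : Function.Surjective Φ := by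
  obtain ⟨g, hg, -, hgb, hbg⟩ := exists_inverse_hom hb hb1
  obtain ⟨Ψ, hΨ⟩ := exists_actE hπ F Γ hΓ hq2 hΓp ι hξ hc0 hc1 hker hg
  have h1 := actE_comp hπ F Γ hΓ hq2 hΓp ι hξ hc0 hc1 hker hb hg h hΨ
  rw [hbg] at h1
  have h2 := actE_X hπ F Γ hΓ hq2 hΓp ι hξ hc0 hc1 hker
  have h3 := actE_unique hπ F Γ hΓ hq2 hΓp ι hξ hc0 hc1 hker (isHom_X Γ) h1 h2
  intro z
  exact ⟨Ψ z, DFunLike.congr_fun h3 z⟩

theorem exists_lift_taylorE (z : UC (F.map (spec ι hξ)) p) :
    ∃ zt : UC (F.map (taylor ι hξ)) p, ∀ l, constantCoeff (zt.1 l).val = (z.1 l).val := by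
  have hG : (F.map (taylor ι hξ)).map (constantCoeff : MvPowerSeries (Fin r) (OO K) →+* OO K)
      = F.map (spec ι hξ) := by
    ext d
    simp only [FormalGroup.map_toPowerSeries, coeff_map]
    rw [← constantCoeff_comp_taylor ι hξ]
    rfl
  have key : ∀ (G : FormalGroup (OO K)) [G.IsComm],
      (F.map (taylor ι hξ)).map (constantCoeff : MvPowerSeries (Fin r) (OO K) →+* OO K) = G →
      ∀ z : UC G p, ∃ zt : UC (F.map (taylor ι hξ)) p, ∀ l,
        constantCoeff (zt.1 l).val = (z.1 l).val := by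
    intro G _ hG z
    subst hG
    refine exists_uLift (F.map (taylor ι hξ)) hq2 hc0 hc1 (fun i => ?_) z
    have h1 := pCong_specE F Γ hΓ hΓp ι hξ hker i
    have h2 : constantCoeff (PowerSeries.coeff i (mulSeries (F.map (taylor ι hξ)) p
        - PowerSeries.X ^ q)) = PowerSeries.coeff i (mulSeries (F.map (spec ι hξ)) p
          - PowerSeries.X ^ q) := by
      rw [map_sub, map_sub, map_sub, mulSeries_map, mulSeries_map, PowerSeries.coeff_map,
        PowerSeries.coeff_map, PowerSeries.coeff_X_pow, PowerSeries.coeff_X_pow,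
        ← constantCoeff_comp_taylor ι hξ]
      congr 1
      split_ifs
      · exact map_one _
      · exact map_zero _
    rw [h2]
    exact h1
  exact key _ hG z

theorem main_formulaE {g : PowerSeries κ} (hg : IsHom Γ Γ g)
    (φ : MvPowerSeries (Fin r) R0 →+* MvPowerSeries (Fin r) R0) (hφC : ∀ a, φ (C a) = C a)
    (hφπ : ∀ f, π (φ f) = π f) (t : PowerSeries (MvPowerSeries (Fin r) R0))
    (ht : IsHom (F.map φ) F t) (htg : t.map π = g)
    (δ : Fin r → OO K) (hδ : ∀ i, δ i = spec ι hξ (φ (X i)) - ξ i)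
    (z : UC (F.map (spec ι hξ)) p) (zt : UC (F.map (taylor ι hξ)) p)
    (hzt : ∀ l, constantCoeff (zt.1 l).val = (z.1 l).val)
    (Φ : UC (F.map (spec ι hξ)) p →+ UC (F.map (spec ι hξ)) p)
    (hΦ : IsActE π (spec ι hξ) c g Φ) :
    ev1 (ev δ (zt.1 0).val) (t.map (spec ι hξ)) = ((Φ z).1 0).val := by
  have hspecC : ∀ a, spec ι hξ (C a) = ι a := by
    intro a
    rw [spec_apply, map_C, ev_C]
  have hspecX : ∀ i, spec ι hξ (X i) = ξ i := by
    intro i
    rw [spec_apply, map_X, ev_X]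
  have hδc : ∀ i, ‖(δ i : K)‖ ≤ c := by
    intro i
    have h1 := hker (φ (X i) - X i) (by rw [map_sub, hφπ, sub_self])
    rw [map_sub, hspecX, ← hδ i] at h1
    exact h1
  have hδ1 : ∀ i, ‖(δ i : K)‖ < 1 := fun i => (hδc i).trans_lt hc1
  have hφ1 : ∀ i, ‖((spec ι hξ (φ (X i)) : OO K) : K)‖ < 1 := by
    intro i
    have h1 : ((spec ι hξ (φ (X i)) : OO K) : K) = (δ i : K) + (ξ i : K) := by
      rw [hδ i]
      push_cast
      ring
    rw [h1]
    exact (IsUltrametricDist.norm_add_le_max _ _).trans_lt (max_lt (hδ1 i) (hξ i))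
  have hδE : HasEval δ := hasEval_xi hδ1
  have hE : Continuous (evHom hδE : MvPowerSeries (Fin r) (OO K) →+* OO K) := continuous_evHom hδE
  have hcomp : ∀ f, evHom hδE (taylor ι hξ f) = spec ι hξ (φ f) := by
    intro f
    have h1 := ringHom_eq_ev ((spec ι hξ).comp φ) hφ1 f
    have h2 : ((spec ι hξ).comp φ).comp C = ι := by
      ext a
      rw [RingHom.comp_apply, RingHom.comp_apply, hφC, hspecC]
    have h3 : (fun i => ((spec ι hξ).comp φ) (X i)) = fun i => ξ i + δ i := by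
      funext i
      rw [hδ i, RingHom.comp_apply]
      ring
    rw [h2, h3] at h1
    rw [coe_evHom, ev_taylor ι hξ hδ1, ← h1]
    rfl
  have hG : (F.map (taylor ι hξ)).map (evHom hδE) = (F.map φ).map (spec ι hξ) := by
    ext d
    simp only [FormalGroup.map_toPowerSeries, coeff_map]
    rw [hcomp]
  have ht' : IsHom ((F.map (taylor ι hξ)).map (evHom hδE)) (F.map (spec ι hξ))
      (t.map (spec ι hξ)) := by
    rw [hG]
    exact ht.map _
  let v : ℕ → Pt (F.map (spec ι hξ)) := fun l =>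
    Pt.hom ht' (Pt.map (evHom hδE) hE (zt.1 l))
  have hvUC : ∀ l, p • v (l + 1) = v l := by
    intro l
    change p • Pt.hom ht' (Pt.map (evHom hδE) hE (zt.1 (l + 1)))
      = Pt.hom ht' (Pt.map (evHom hδE) hE (zt.1 l))
    rw [← map_nsmul, ← map_nsmul, zt.2 l]
  let vv : UC (F.map (spec ι hξ)) p := ⟨v, hvUC⟩
  have hvv : vv = Φ z := by
    refine uc_ext hq2 hc0.le hc1 (pCong_specE F Γ hΓ hΓp ι hξ hker) vv (Φ z) fun l => ?_
    have e1 : (vv.1 l).val = ev1 (ev δ (zt.1 l).val) (t.map (spec ι hξ)) := by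
      change ev1 (evHom hδE (zt.1 l).val) (t.map (spec ι hξ)) = _
      rw [coe_evHom]
    have h1 := norm_ev_sub_constantCoeff_le hc0.le hc1 hδc (zt.1 l).val
    rw [hzt l] at h1
    have hzl : ‖((z.1 l).val : K)‖ < 1 := (z.1 l).norm_lt
    have hwl : ‖((ev δ (zt.1 l).val : OO K) : K)‖ < 1 := by
      have h2 : ev δ (zt.1 l).val = (Pt.map (evHom hδE) hE (zt.1 l)).val := by
        rw [Pt.map_val, coe_evHom]
      rw [h2]
      exact (Pt.map (evHom hδE) hE (zt.1 l)).norm_lt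
    have h3 := norm_ev1_sub_ev1_le hc0.le hwl hzl h1 (t.map (spec ι hξ)) (t.map (spec ι hξ))
      (fun i => by
        rw [sub_self]
        simpa using hc0.le)
    have h6 := hΦ t ht.1 htg z l
    have h7 : (vv.1 l).val - ((Φ z).1 l).val ∈ ballIdeal K c hc0.le := by
      have h8 : (vv.1 l).val - ((Φ z).1 l).val
          = (ev1 (ev δ (zt.1 l).val) (t.map (spec ι hξ)) - ev1 (z.1 l).val (t.map (spec ι hξ)))
            - (((Φ z).1 l).val - ev1 (z.1 l).val (t.map (spec ι hξ))) := by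
        rw [e1]; ring
      rw [h8]
      exact Ideal.sub_mem _ h3 h6
    exact h7
  have e0 : (vv.1 0).val = ev1 (ev δ (zt.1 0).val) (t.map (spec ι hξ)) := by
    change ev1 (evHom hδE (zt.1 0).val) (t.map (spec ι hξ)) = _
    rw [coe_evHom]
  rw [← e0, hvv]

theorem log_formula (hp0 : (p : K) ≠ 0) (hp1 : ‖(p : K)‖ < 1) {b : PowerSeries κ}
    (hb : IsHom Γ Γ b) (m : ℕ)
    (hg : IsHom Γ Γ (onePlus Γ p m b hb.1))
    (φ : MvPowerSeries (Fin r) R0 →+* MvPowerSeries (Fin r) R0) (hφC : ∀ a, φ (C a) = C a)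
    (hφπ : ∀ f, π (φ f) = π f) (t : PowerSeries (MvPowerSeries (Fin r) R0))
    (ht : IsHom (F.map φ) F t) (htg : t.map π = onePlus Γ p m b hb.1)
    (δ : Fin r → OO K) (hδ : ∀ i, δ i = spec ι hξ (φ (X i)) - ξ i)
    (z : UC (F.map (spec ι hξ)) p) (zt : UC (F.map (taylor ι hξ)) p)
    (hzt : ∀ l, constantCoeff (zt.1 l).val = (z.1 l).val)
    (Φ : UC (F.map (spec ι hξ)) p →+ UC (F.map (spec ι hξ)) p)
    (hΦ : IsActE π (spec ι hξ) c b Φ) {v Lz LΦ : K}
    (hv : Tendsto (fun l : ℕ => ((ev δ (p ^ l • zt.1 0).val : OO K) : K) / (p : K) ^ l) atTop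
      (𝓝 v))
    (hz : IsLog p (F.map (spec ι hξ)) (z.1 0) Lz)
    (hΦz : IsLog p (F.map (spec ι hξ)) ((Φ z).1 0) LΦ) :
    ((spec ι hξ (PowerSeries.coeff 1 t) : OO K) : K) * v = Lz + (p : K) ^ m * LΦ := by
  have hspecC : ∀ a, spec ι hξ (C a) = ι a := by
    intro a
    rw [spec_apply, map_C, ev_C]
  have hspecX : ∀ i, spec ι hξ (X i) = ξ i := by
    intro i
    rw [spec_apply, map_X, ev_X]
  have hδc : ∀ i, ‖(δ i : K)‖ ≤ c := by
    intro i
    have h1 := hker (φ (X i) - X i) (by rw [map_sub, hφπ, sub_self])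
    rw [map_sub, hspecX] at h1
    rw [hδ i]
    exact h1
  have hδ1 : ∀ i, ‖(δ i : K)‖ < 1 := fun i => (hδc i).trans_lt hc1
  have hδE : HasEval δ := hasEval_xi hδ1
  have hE : Continuous (evHom hδE : MvPowerSeries (Fin r) (OO K) →+* OO K) := continuous_evHom hδE
  have hcomp : ∀ f, evHom hδE (taylor ι hξ f) = spec ι hξ (φ f) := by
    intro f
    have h3 : (fun i => ((spec ι hξ).comp φ) (X i)) = fun i => ξ i + δ i := by
      funext i
      rw [hδ i, RingHom.comp_apply]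
      ring
    have h4 : ∀ i, ‖((((spec ι hξ).comp φ) (X i) : OO K) : K)‖ < 1 := by
      intro i
      have h5 := congrFun h3 i
      rw [h5, Subring.coe_add]
      exact (IsUltrametricDist.norm_add_le_max _ _).trans_lt (max_lt (hξ i) (hδ1 i))
    have h1 := ringHom_eq_ev ((spec ι hξ).comp φ) h4 f
    have h2 : ((spec ι hξ).comp φ).comp C = ι := by
      ext a
      rw [RingHom.comp_apply, RingHom.comp_apply, hφC, hspecC]
    rw [h2, h3] at h1
    rw [coe_evHom, ev_taylor ι hξ hδ1, ← h1]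
    rfl
  have hG : (F.map (taylor ι hξ)).map (evHom hδE) = (F.map φ).map (spec ι hξ) := by
    ext d
    simp only [FormalGroup.map_toPowerSeries, coeff_map]
    rw [hcomp]
  have ht' : IsHom ((F.map (taylor ι hξ)).map (evHom hδE)) (F.map (spec ι hξ))
      (t.map (spec ι hξ)) := by
    rw [hG]
    exact ht.map _
  have hw : IsLog p ((F.map (taylor ι hξ)).map (evHom hδE))
      (Pt.map (evHom hδE) hE (zt.1 0)) v := by
    unfold IsLog
    refine hv.congr fun l => ?_
    rw [← map_nsmul, Pt.map_val, coe_evHom]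
  have h1 := hw.hom hp0 hp1 ht'
  have h2 : Pt.hom ht' (Pt.map (evHom hδE) hE (zt.1 0)) =
      z.1 0 + p ^ m • (Φ z).1 0 := by
    ext
    rw [Pt.hom_val, Pt.map_val, coe_evHom]
    have h3 := main_formulaE hπ F Γ hΓ hq2 hΓp ι hξ hc0 hc1 hker hg φ hφC hφπ t ht htg δ hδ z zt
      hzt _ (actE_onePlus hπ F Γ hΓ hq2 hΓp ι hξ hc0 hc1 hker hb m hΦ)
    rw [h3]
    rfl
  rw [h2, PowerSeries.coeff_map] at h1
  exact h1.unique (hz.add hp0 hp1 (by
    have h4 := hΦz.nsmul hp0 hp1 (p ^ m)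
    rwa [Nat.cast_pow] at h4))

theorem log_expansion (hp0 : (p : K) ≠ 0) (hp1 : ‖(p : K)‖ < 1)
    (z : UC (F.map (spec ι hξ)) p) {Lz : K} (hz : IsLog p (F.map (spec ι hξ)) (z.1 0) Lz) :
    ∃ (a : Fin r → K) (C ε : ℝ), 0 ≤ C ∧ 0 < ε ∧
      ∀ (b : PowerSeries κ) (hb : IsHom Γ Γ b)
        (Φ : UC (F.map (spec ι hξ)) p →+ UC (F.map (spec ι hξ)) p)
        (_ : IsActE π (spec ι hξ) c b Φ) (m : ℕ) (_ : IsHom Γ Γ (onePlus Γ p m b hb.1))
        (φ : MvPowerSeries (Fin r) R0 →+* MvPowerSeries (Fin r) R0)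
        (_ : ∀ a, φ (MvPowerSeries.C a) = MvPowerSeries.C a) (_ : ∀ f, π (φ f) = π f)
        (t : PowerSeries (MvPowerSeries (Fin r) R0)) (_ : IsHom (F.map φ) F t)
        (_ : t.map π = onePlus Γ p m b hb.1) (LΦ : K)
        (_ : IsLog p (F.map (spec ι hξ)) ((Φ z).1 0) LΦ) (s : ℝ), s ≤ ε →
        (∀ i, ‖((spec ι hξ (φ (X i)) - ξ i : OO K) : K)‖ ≤ s) →
        ‖Lz + (p : K) ^ m * LΦ - ((spec ι hξ (PowerSeries.coeff 1 t) : OO K) : K) *
          (Lz + ∑ i, a i * ((spec ι hξ (φ (X i)) - ξ i : OO K) : K))‖ ≤ C * s ^ 2 := by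
  obtain ⟨zt, hzt⟩ := exists_lift_taylorE hπ F Γ hΓ hq2 hΓp ι hξ hc0 hc1 hker z
  have hPC : ∀ i, ‖((constantCoeff (PowerSeries.coeff i (mulSeries (F.map (taylor ι hξ)) p -
      PowerSeries.X ^ q)) : OO K) : K)‖ ≤ c := by
    intro i
    have h1 := pCong_specE F Γ hΓ hΓp ι hξ hker i
    have h2 : constantCoeff (PowerSeries.coeff i (mulSeries (F.map (taylor ι hξ)) p
        - PowerSeries.X ^ q)) = PowerSeries.coeff i (mulSeries (F.map (spec ι hξ)) p
          - PowerSeries.X ^ q) := by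
      rw [map_sub, map_sub, map_sub, mulSeries_map, mulSeries_map, PowerSeries.coeff_map,
        PowerSeries.coeff_map, PowerSeries.coeff_X_pow, PowerSeries.coeff_X_pow,
        ← constantCoeff_comp_taylor ι hξ]
      congr 1
      split_ifs
      · exact map_one _
      · exact map_zero _
    rw [h2]
    exact h1
  obtain ⟨a₀, a, C₀, ε, hC0, hε0, hε1, hlf⟩ := log_family hp0 hp1 (F.map (taylor ι hξ)) hq2 hc0
    hc1 hPC (zt.1 0)
  -- the constant term
  have ha₀ : a₀ = Lz := by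
    obtain ⟨v, hv, hvs⟩ := hlf 0 (fun i => by simpa using hε0.le)
    have h1 := hvs 0 (fun i => by simp)
    have h0E : HasEval (0 : Fin r → OO K) := hasEval_xi fun i => by simp
    have h2 : ∀ f : MvPowerSeries (Fin r) (OO K), ev (0 : Fin r → OO K) f = constantCoeff f := by
      intro f
      have h3 := norm_ev_sub_constantCoeff_le (K := K) (δ := (0 : Fin r → OO K)) (c := 0) le_rfl
        zero_lt_one (fun i => by simp) f
      have h4 : ((ev (0 : Fin r → OO K) f : OO K) : K) - ((constantCoeff f : OO K) : K) = 0 :=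
        norm_le_zero_iff.mp h3
      exact Subtype.ext (sub_eq_zero.mp h4)
    have h5 : v = Lz := by
      have h6 : IsLog p (F.map (spec ι hξ)) (z.1 0) v := by
        unfold IsLog
        refine hv.congr fun l => ?_
        rw [h2]
        congr 1
        congr 1
        have hconst : Continuous (constantCoeff : MvPowerSeries (Fin r) (OO K) →+* OO K) :=
          continuous_constantCoeff_OO
        have hGc : (F.map (taylor ι hξ)).map
            (constantCoeff : MvPowerSeries (Fin r) (OO K) →+* OO K) = F.map (spec ι hξ) := by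
          ext d
          simp only [FormalGroup.map_toPowerSeries, coeff_map]
          rw [← constantCoeff_comp_taylor ι hξ]
          rfl
        have key : ∀ (G : FormalGroup (OO K)) [G.IsComm],
            (F.map (taylor ι hξ)).map
              (constantCoeff : MvPowerSeries (Fin r) (OO K) →+* OO K) = G →
            ∀ w : Pt G, constantCoeff (zt.1 0).val = w.val →
              constantCoeff (p ^ l • zt.1 0).val = (p ^ l • w).val := by
          intro G _ hG w hw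
          subst hG
          have h7 : Pt.map constantCoeff hconst (zt.1 0) = w := by
            ext
            rw [Pt.map_val, hw]
          rw [← h7, ← map_nsmul, Pt.map_val]
        exact key _ hGc (z.1 0) (hzt 0)
      exact h6.unique hz
    have h6 : ‖v - a₀‖ ≤ 0 := by simpa using h1
    rw [← h5]
    exact (sub_eq_zero.mp (norm_le_zero_iff.mp h6)).symm
  refine ⟨a, C₀, ε, hC0, hε0, ?_⟩
  intro b hb Φ hΦ m hg φ hφC hφπ t ht htg LΦ hLΦ s hsε hs
  obtain ⟨v, hv, hvs⟩ := hlf (fun i => spec ι hξ (φ (X i)) - ξ i) (fun i => (hs i).trans hsε)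
  have h1 := log_formula hπ F Γ hΓ hq2 hΓp ι hξ hc0 hc1 hker hp0 hp1 hb m hg φ hφC hφπ t ht htg
    (fun i => spec ι hξ (φ (X i)) - ξ i) (fun i => rfl) z zt hzt Φ hΦ hv hz hLΦ
  have h2 := hvs s hs
  rw [ha₀] at h2
  rw [← h1, ← mul_sub]
  have h3 : v - (Lz + ∑ i, a i * ((spec ι hξ (φ (X i)) - ξ i : OO K) : K)) =
      v - Lz - ∑ i, a i * ((spec ι hξ (φ (X i)) - ξ i : OO K) : K) := by ring
  rw [h3, norm_mul]
  calc _ ≤ 1 * ‖v - Lz - ∑ i, a i * ((spec ι hξ (φ (X i)) - ξ i : OO K) : K)‖ :=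
        mul_le_mul_of_nonneg_right (norm_le_one _) (norm_nonneg _)
    _ ≤ _ := by rw [one_mul]; exact h2

end
end Vale.Agent.P217
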