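import Mathlib.Algebra.CharP.Lemmas
import Vale.Agent.Lib.P217.OK

/-!
# P217: the subfield of elements with `x ^ (p ^ h) = x`
-/

set_option linter.unusedSectionVars false

namespace Vale.Agent.P217

section
variable (K : Type*) [Field K] (p : ℕ) [Fact p.Prime] [CharP K p] (h : ℕ)

/-- The subfield `{x | x ^ (p ^ h) = x}` (the field with `p ^ h` elements when `K` is
algebraically closed). -/
def FixF : Subfield K where
  carrier := {x | x ^ (p ^ h) = x}
  mul_mem' {a b} ha hb := by
    simp only [Set.mem_ofPred_eq] at *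
    rw [mul_pow, ha, hb]
  one_mem' := by simp
  add_mem' {a b} ha hb := by
    simp only [Set.mem_ofPred_eq] at *
    rw [add_pow_char_pow, ha, hb]
  zero_mem' := by
    simp only [Set.mem_ofPred_eq]
    exact zero_pow (pow_ne_zero _ (Fact.out : p.Prime).ne_zero)
  neg_mem' {a} ha := by
    simp only [Set.mem_ofPred_eq] at *
    have h1 : (-a) ^ (p ^ h) + a ^ (p ^ h) = 0 := by
      rw [← add_pow_char_pow, neg_add_cancel]
      exact zero_pow (pow_ne_zero _ (Fact.out : p.Prime).ne_zero)
    rw [ha] at h1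
    exact eq_neg_of_add_eq_zero_left h1
  inv_mem' a ha := by
    simp only [Set.mem_ofPred_eq] at *
    rw [inv_pow, ha]

variable {K p h}

theorem mem_FixF {x : K} : x ∈ FixF K p h ↔ x ^ (p ^ h) = x := Iff.rfl

end

section
variable {K : Type*} [NormedField K] [IsUltrametricDist K] {p : ℕ} [Fact p.Prime] [CharP K p]
  {h : ℕ} [hh : Fact (0 < h)]

theorem norm_le_one_of_mem_FixF {x : K} (hx : x ∈ FixF K p h) : ‖x‖ ≤ 1 := by
  by_contra hlt
  rw [not_le] at hlt
  have h1 : ‖x‖ ^ (p ^ h) = ‖x‖ := by rw [← norm_pow, hx]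
  have h2 : 1 < p ^ h := Nat.one_lt_pow hh.out.ne' (Fact.out : p.Prime).one_lt
  have h3 : ‖x‖ ^ 1 < ‖x‖ ^ (p ^ h) := pow_lt_pow_right₀ hlt h2
  rw [h1, pow_one] at h3
  exact lt_irrefl _ h3

instance : Algebra (FixF K p h) (OO K) :=
  RingHom.toAlgebra
    { toFun := fun c => ⟨(c : K), norm_le_one_of_mem_FixF c.2⟩
      map_one' := rfl
      map_mul' := fun _ _ => rfl
      map_zero' := rfl
      map_add' := fun _ _ => rfl }

@[simp] theorem coe_algebraMap_FixF (c : FixF K p h) :
    ((algebraMap (FixF K p h) (OO K) c : OO K) : K) = (c : K) := rfl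

end
end Vale.Agent.P217
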