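import Mathlib.Algebra.CharP.Frobenius
import Mathlib.Algebra.Field.Subfield.Basic
import Mathlib.Analysis.Normed.Order.Lattice
import Mathlib.RingTheory.Henselian
import Vale.Agent.Lib.P217.FixF

/-!
# P217: Frobenius rigidity (module R1)

Notation: `Q = p ^ h`, `κ = FixF K p h = {x | x ^ Q = x}`.

* `frobenius_stable_component`: a `K`-subspace `V` of `ι → K` (`ι` finite) which is stable under a
  field endomorphism `φ` with fixed field `κ` is defined over `κ`: for every `κ`-linear
  `ℓ : K → κ` and `v ∈ V`, the vector `ℓ ∘ v` lies in `V`.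
  Proof: choose a set `B ⊆ ι` of coordinates such that `V → (B → K)` is bijective, and let
  `e b ∈ V` (`b ∈ B`) be the dual basis. Then `φ ∘ e b` lies in `V` and has the same `B`-coordinates
  as `e b`, so `φ ∘ e b = e b`, i.e. `e b` has coordinates in `κ`. Now `v = ∑ v b • e b`, so
  `ℓ ∘ v = ∑ ℓ (v b) • e b ∈ V`.

* `rigidity`: let `V_N` be the space of polynomials `Ψ` of degree `< N` (vectors of coefficients
  indexed by the finite set of exponents of degree `< N`) with: for all `ω ∈ Ω` there are `C, m₀`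
  with `‖Ψ(ω^{Q^m})‖ ≤ C ρ_ω^{N Q^m}` for all `m ≥ m₀`, where `ρ_ω` is the number given by the
  hypothesis `hΨ` for `ω`.
  It is a `K`-subspace and it is stable under `φ = (x ↦ x ^ Q)` on coefficients, because
  `Ψ^{(Q)}(ω^{Q^{m+1}}) = (Ψ(ω^{Q^m}))^Q`.  So by the first lemma the truncations of `ℓ(Ψ)` are in
  `V_N` for all `N`.  As `ℓ(Ψ)` has coefficients in `κ`, its truncation `φ_N` satisfies
  `φ_N(ω^{Q^m}) = φ_N(ω)^{Q^m}`, so `‖φ_N(ω)‖ ≤ C^{1/Q^m} ρ_ω^N` for all large `m`, hence
  `‖φ_N(ω)‖ ≤ ρ_ω^N`; let `N → ∞`.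
-/

set_option linter.unusedSectionVars false

namespace Vale.Agent.P217

open MvPowerSeries Filter Topology

theorem frobenius_stable_component {K : Type*} [Field K] (φ : K →+* K) (κ : Subfield K)
    (hκ : ∀ x : K, x ∈ κ ↔ φ x = x) {ι : Type*} [Finite ι] (V : Submodule K (ι → K))
    (hV : ∀ v ∈ V, (fun i => φ (v i)) ∈ V) (ℓ : K →ₗ[κ] κ) (v : ι → K) (hv : v ∈ V) :
    (fun i => ((ℓ (v i) : κ) : K)) ∈ V := by
  classical
  have := Fintype.ofFinite ι
  let supp : (ι → K) → Finset ι := fun u => Finset.univ.filter (fun i => u i ≠ 0)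
  have hsupp : ∀ u i, i ∈ supp u ↔ u i ≠ 0 := by
    intro u i
    simp [supp]
  have key : ∀ n : ℕ, ∀ v ∈ V, (supp v).card = n → (fun i => ((ℓ (v i) : κ) : K)) ∈ V := by
    intro n
    induction n using Nat.strong_induction_on with
    | _ n ih =>
      intro v hv hn
      by_cases hv0 : v = 0
      · have h0 : (fun i => ((ℓ (v i) : κ) : K)) = 0 := by
          funext i
          rw [hv0]
          simp
        rw [h0]
        exact V.zero_mem
      · have hex : ∃ m, ∃ u ∈ V, u ≠ 0 ∧ supp u ⊆ supp v ∧ (supp u).card = m :=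
          ⟨_, v, hv, hv0, Finset.Subset.refl _, rfl⟩
        obtain ⟨w, hwV, hw0, hws, hwm⟩ := Nat.find_spec hex
        have hmin : ∀ u ∈ V, supp u ⊆ supp v → (supp u).card < (supp w).card → u = 0 := by
          intro u hu hus hlt
          by_contra hu0
          rw [hwm] at hlt
          exact Nat.find_min hex hlt ⟨u, hu, hu0, hus, rfl⟩
        obtain ⟨i, hi⟩ : ∃ i, w i ≠ 0 := by
          by_contra hcon
          push Not at hcon
          exact hw0 (funext hcon)
        -- normalise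
        have hw'V : (w i)⁻¹ • w ∈ V := V.smul_mem _ hwV
        have hfix : ∀ j, φ (((w i)⁻¹ • w) j) = ((w i)⁻¹ • w) j := by
          have hz : (fun j => φ (((w i)⁻¹ • w) j)) - (w i)⁻¹ • w = 0 := by
            apply hmin _ (V.sub_mem (hV _ hw'V) hw'V)
            · intro j hj
              apply hws
              rw [hsupp] at hj ⊢
              intro hwj
              apply hj
              simp [hwj]
            · apply Finset.card_lt_card
              rw [Finset.ssubset_iff_of_subset]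
              · refine ⟨i, (hsupp w i).2 hi, ?_⟩
                rw [hsupp]
                simp [hi]
              · intro j hj
                rw [hsupp] at hj ⊢
                intro hwj
                apply hj
                simp [hwj]
          intro j
          have := congrFun hz j
          simpa [sub_eq_zero] using this
        set w' : ι → K := (w i)⁻¹ • w with hw'
        have hw'i : w' i = 1 := by
          rw [hw']
          simp [hi]
        have hmem : ∀ j, w' j ∈ κ := fun j => (hκ _).2 (hfix j)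
        have h1 : (fun j => ((ℓ (v i * w' j) : κ) : K)) ∈ V := by
          have h2 : (fun j => ((ℓ (v i * w' j) : κ) : K)) = ((ℓ (v i) : κ) : K) • w' := by
            funext j
            have h3 : v i * w' j = (⟨w' j, hmem j⟩ : κ) • v i := by
              rw [Subfield.smul_def]
              simp [mul_comm]
            rw [h3, map_smul]
            simp [mul_comm]
          rw [h2]
          exact V.smul_mem _ hw'V
        have h4 : v - v i • w' ∈ V := V.sub_mem hv (V.smul_mem _ hw'V)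
        have h5 : (supp (v - v i • w')).card < n := by
          rw [← hn]
          apply Finset.card_lt_card
          rw [Finset.ssubset_iff_of_subset]
          · refine ⟨i, hws ((hsupp w i).2 hi), ?_⟩
            rw [hsupp]
            simp [hw'i]
          · intro j hj
            rw [hsupp] at hj ⊢
            intro hvj
            apply hj
            have hwj : w j = 0 := by
              by_contra h
              exact (hsupp v j).1 (hws ((hsupp w j).2 h)) hvj
            simp [hw', hwj, hvj]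
        have h6 := ih _ h5 _ h4 rfl
        have h7 : (fun j => ((ℓ (v j) : κ) : K))
            = (fun j => ((ℓ ((v - v i • w') j) : κ) : K)) + fun j => ((ℓ (v i * w' j) : κ) : K) := by
          funext j
          rw [Pi.add_apply, ← Subfield.coe_add, ← map_add]
          congr 2
          simp
        rw [h7]
        exact V.add_mem h6 h1
  exact key _ v hv rfl

section
variable {K : Type*} [NontriviallyNormedField K] [IsUltrametricDist K] [CompleteSpace K]
  {p : ℕ} [Fact p.Prime] [CharP K p] {h : ℕ} [Fact (0 < h)]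

/-- apply a map to the coefficients of a power series -/
def mapCoeff {σ K κ : Type*} (ℓ : K → κ) (Ψ : MvPowerSeries σ K) : MvPowerSeries σ κ :=
  fun d => ℓ (Ψ d)

/-- value of the truncation of `f` in degrees `< N` at the point `a` -/
noncomputable def trEval {σ K : Type*} [Finite σ] [CommRing K] (N : ℕ) (f : MvPowerSeries σ K)
    (a : σ → K) : K := MvPolynomial.eval a (MvPowerSeries.truncTotal N f)

/-- value of a monomial -/
noncomputable def monVal {σ R : Type*} [CommRing R] (a : σ → R) (d : σ →₀ ℕ) : R :=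
  d.prod (fun i e => a i ^ e)

theorem monVal_pow {σ R : Type*} [CommRing R] (a : σ → R) (d : σ →₀ ℕ) (n : ℕ) :
    monVal (fun i => a i ^ n) d = monVal a d ^ n := by
  unfold monVal Finsupp.prod
  rw [← Finset.prod_pow]
  refine Finset.prod_congr rfl fun i _ => ?_
  change (a i ^ n) ^ d i = (a i ^ d i) ^ n
  rw [← pow_mul, ← pow_mul, mul_comm]

theorem monVal_coe {σ : Type*} (ω : σ → OO K) (d : σ →₀ ℕ) :
    ((monVal ω d : OO K) : K) = monVal (fun i => (ω i : K)) d := by
  unfold monVal Finsupp.prod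
  push_cast
  rfl

theorem norm_monVal_le {σ : Type*} {a : σ → K} {ρ : ℝ} (ha : ∀ i, ‖a i‖ ≤ ρ) (d : σ →₀ ℕ) :
    ‖monVal a d‖ ≤ ρ ^ d.degree := by
  unfold monVal Finsupp.prod
  rw [norm_prod, Finsupp.degree_apply, ← Finset.prod_pow_eq_pow_sum]
  refine Finset.prod_le_prod (fun i _ => norm_nonneg _) fun i _ => ?_
  rw [norm_pow]
  exact pow_le_pow_left₀ (norm_nonneg _) (ha i) _

/-- exponents of degree `< N` -/
abbrev LowDeg (σ : Type*) (N : ℕ) : Type _ := {d : σ →₀ ℕ // d.degree < N}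

instance {σ : Type*} [Finite σ] (N : ℕ) : Finite (LowDeg σ N) :=
  (Finsupp.finite_of_degree_lt N).to_subtype

open Classical in
noncomputable instance {σ : Type*} [Finite σ] (N : ℕ) : Fintype (LowDeg σ N) :=
  Fintype.ofFinite _

/-- value of the polynomial with coefficients `v` -/
noncomputable def lowVal {σ R : Type*} [Finite σ] [CommRing R] {N : ℕ} (v : LowDeg σ N → R)
    (a : σ → R) : R := ∑ d : LowDeg σ N, v d * monVal a d

theorem sum_lowDeg {σ R : Type*} [Finite σ] [CommRing R] (N : ℕ) (g : (σ →₀ ℕ) → R) :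
    ∑ d ∈ (Finsupp.finite_of_degree_lt (σ := σ) N).toFinset, g d = ∑ d : LowDeg σ N, g d :=
  Finset.sum_subtype _ (fun x => by simp) g

theorem trEval_eq {σ R : Type*} [Finite σ] [CommRing R] (N : ℕ) (f : MvPowerSeries σ R)
    (a : σ → R) : trEval N f a = lowVal (N := N) (fun d => coeff (d : σ →₀ ℕ) f) a := by
  unfold trEval lowVal
  rw [MvPolynomial.eval_eq, ← sum_lowDeg N (fun d => coeff d f * monVal a d)]
  have h1 : (MvPowerSeries.truncTotal N f).support ⊆
      (Finsupp.finite_of_degree_lt (σ := σ) N).toFinset := by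
    intro d hd
    rw [MvPolynomial.mem_support_iff, MvPowerSeries.coeff_truncTotal_eq_ite] at hd
    by_contra hcon
    apply hd
    rw [if_neg]
    simpa using hcon
  rw [Finset.sum_subset h1]
  · refine Finset.sum_congr rfl fun d hd => ?_
    rw [MvPowerSeries.coeff_truncTotal]
    · rfl
    · simpa using hd
  · intro d _ hd
    rw [MvPolynomial.notMem_support_iff.1 hd, zero_mul]

theorem lowVal_add {σ R : Type*} [Finite σ] [CommRing R] {N : ℕ} (v w : LowDeg σ N → R)
    (a : σ → R) : lowVal (v + w) a = lowVal v a + lowVal w a := by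
  unfold lowVal
  rw [← Finset.sum_add_distrib]
  refine Finset.sum_congr rfl fun d _ => ?_
  rw [Pi.add_apply, add_mul]

theorem lowVal_smul {σ R : Type*} [Finite σ] [CommRing R] {N : ℕ} (c : R) (v : LowDeg σ N → R)
    (a : σ → R) : lowVal (c • v) a = c * lowVal v a := by
  unfold lowVal
  rw [Finset.mul_sum]
  refine Finset.sum_congr rfl fun d _ => ?_
  rw [Pi.smul_apply, smul_eq_mul, mul_assoc]

theorem lowVal_pow {σ : Type*} [Finite σ] {N : ℕ} (v : LowDeg σ N → K) (a : σ → K) (n : ℕ) :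
    lowVal (fun d => v d ^ (p ^ n)) (fun i => a i ^ (p ^ n)) = lowVal v a ^ (p ^ n) := by
  unfold lowVal
  rw [sum_pow_char_pow]
  refine Finset.sum_congr rfl fun d _ => ?_
  rw [mul_pow, monVal_pow]

/-- vectors of coefficients of polynomials which are small at the Frobenius twists -/
def smallSub {σ : Type*} [Finite σ] (p h : ℕ) (Ω : Set (σ → OO K)) (ρ : (σ → OO K) → ℝ) (N : ℕ) :
    Submodule K (LowDeg σ N → K) where
  carrier := {v | ∀ ω ∈ Ω, ∃ C : ℝ, ∃ m₀ : ℕ, ∀ m ≥ m₀,
    ‖lowVal v (fun i => (ω i : K) ^ ((p ^ h) ^ m))‖ ≤ C * ρ ω ^ (N * (p ^ h) ^ m)}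
  add_mem' := by
    intro v w hv hw ω hω
    obtain ⟨C, m₀, h1⟩ := hv ω hω
    obtain ⟨C', m₀', h2⟩ := hw ω hω
    refine ⟨C + C', max m₀ m₀', fun m hm => ?_⟩
    rw [lowVal_add, add_mul]
    exact (norm_add_le _ _).trans (add_le_add (h1 m (le_trans (le_max_left _ _) hm))
      (h2 m (le_trans (le_max_right _ _) hm)))
  zero_mem' := by
    intro ω _
    refine ⟨0, 0, fun m _ => ?_⟩
    unfold lowVal
    simp
  smul_mem' := by
    intro c v hv ω hω
    obtain ⟨C, m₀, h1⟩ := hv ω hω
    refine ⟨‖c‖ * C, m₀, fun m hm => ?_⟩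
    rw [lowVal_smul, norm_mul, mul_assoc]
    exact mul_le_mul_of_nonneg_left (h1 m hm) (norm_nonneg _)

theorem smallSub_frob {σ : Type*} [Finite σ] (Ω : Set (σ → OO K)) (ρ : (σ → OO K) → ℝ)
    (N : ℕ) (v : LowDeg σ N → K) (hv : v ∈ smallSub p h Ω ρ N) :
    (fun d => v d ^ (p ^ h)) ∈ smallSub p h Ω ρ N := by
  intro ω hω
  obtain ⟨C, m₀, h1⟩ := hv ω hω
  refine ⟨C ^ (p ^ h), m₀ + 1, fun m hm => ?_⟩
  obtain ⟨m', rfl⟩ : ∃ m', m = m' + 1 := ⟨m - 1, by omega⟩
  have h2 := h1 m' (by omega)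
  have h3 : (fun i => (ω i : K) ^ ((p ^ h) ^ (m' + 1))) =
      fun i => ((ω i : K) ^ ((p ^ h) ^ m')) ^ (p ^ h) := by
    funext i
    rw [← pow_mul (ω i : K), pow_succ (p ^ h)]
  rw [h3, lowVal_pow (p := p), norm_pow]
  calc _ ≤ (C * ρ ω ^ (N * (p ^ h) ^ m')) ^ (p ^ h) := pow_le_pow_left₀ (norm_nonneg _) h2 _
    _ = C ^ (p ^ h) * ρ ω ^ (N * (p ^ h) ^ (m' + 1)) := by
      rw [mul_pow, ← pow_mul, mul_assoc, ← pow_succ]

theorem pow_mem_FixF {x : K} (hx : x ∈ FixF K p h) (m : ℕ) : x ^ ((p ^ h) ^ m) = x := by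
  induction m with
  | zero => simp
  | succ m ih => rw [pow_succ, pow_mul, ih, hx]

theorem le_of_pow_le {x ρ C : ℝ} (hρ : 0 < ρ) {Q m₀ : ℕ} (hQ : 1 < Q)
    (h1 : ∀ m ≥ m₀, x ^ (Q ^ m) ≤ C * ρ ^ (Q ^ m)) : x ≤ ρ := by
  by_contra hcon
  rw [not_le] at hcon
  have ht : 1 < x / ρ := (one_lt_div hρ).2 hcon
  obtain ⟨n, hn⟩ := pow_unbounded_of_one_lt C ht
  have h2 := h1 (max n m₀) (le_max_right _ _)
  have h3 : n ≤ Q ^ (max n m₀) := (le_max_left n m₀).trans (Nat.lt_pow_self hQ).le
  have h4 : (x / ρ) ^ n ≤ (x / ρ) ^ (Q ^ (max n m₀)) := pow_le_pow_right₀ ht.le h3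
  rw [div_pow _ _ (Q ^ _), le_div_iff₀ (by positivity)] at h4
  have h5 : C * ρ ^ (Q ^ max n m₀) < (x / ρ) ^ n * ρ ^ (Q ^ max n m₀) :=
    mul_lt_mul_of_pos_right hn (by positivity)
  linarith

theorem rigidity {σ : Type*} [Finite σ] (Ω : Set (σ → OO K)) (Ψ : MvPowerSeries σ K)
    (hΨ : ∀ ω ∈ Ω, ∃ ρ : ℝ, 0 < ρ ∧ ρ < 1 ∧ (∀ i, ‖(ω i : K)‖ ≤ ρ) ∧
      ∀ N : ℕ, ∃ C : ℝ, ∃ m₀ : ℕ, ∀ m ≥ m₀,
        ‖trEval N Ψ (fun i => (ω i : K) ^ ((p ^ h) ^ m))‖ ≤ C * ρ ^ (N * (p ^ h) ^ m))
    (ℓ : K →ₗ[FixF K p h] (FixF K p h)) :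
    ∀ ω ∈ Ω, ev ω ((mapCoeff ℓ Ψ).map (algebraMap (FixF K p h) (OO K))) = 0 := by
  choose! ρ hρ0 hρ1 hρω hρN using hΨ
  intro ω hω
  have hQ : 1 < p ^ h := Nat.one_lt_pow (Fact.out : 0 < h).ne' (Fact.out : p.Prime).one_lt
  have ha : HasEval ω := hasEval_of_finite fun i => tn_iff.2 ((hρω ω hω i).trans_lt (hρ1 ω hω))
  set f := (mapCoeff ℓ Ψ).map (algebraMap (FixF K p h) (OO K)) with hf
  have hcoef : ∀ d, ((coeff d f : OO K) : K) = ((ℓ (coeff d Ψ) : FixF K p h) : K) := by
    intro d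
    rw [hf, coeff_map, coe_algebraMap_FixF]
    rfl
  -- the truncations are small
  have hP : ∀ N : ℕ, ‖lowVal (N := N) (fun d => ((ℓ (coeff (d : σ →₀ ℕ) Ψ) : FixF K p h) : K))
      (fun i => (ω i : K))‖ ≤ ρ ω ^ N := by
    intro N
    have hmem : (fun d : LowDeg σ N => coeff (d : σ →₀ ℕ) Ψ) ∈ smallSub p h Ω ρ N := by
      intro ω' hω'
      obtain ⟨C, m₀, h1⟩ := hρN ω' hω' N
      refine ⟨C, m₀, fun m hm => ?_⟩
      rw [← trEval_eq]
      exact h1 m hm
    have h2 := frobenius_stable_component (iterateFrobenius K p h) (FixF K p h)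
      (fun x => by rw [iterateFrobenius_def]; exact Iff.rfl) (smallSub p h Ω ρ N)
      (fun v hv => by
        have := smallSub_frob (p := p) (h := h) Ω ρ N v hv
        simpa only [iterateFrobenius_def] using this) ℓ _ hmem
    obtain ⟨C, m₀, h3⟩ := h2 ω hω
    refine le_of_pow_le (Q := p ^ h) (C := C) (m₀ := m₀) (pow_pos (hρ0 ω hω) N) hQ
      fun m hm => ?_
    have h4 := h3 m hm
    have h5 : lowVal (N := N) (fun d => ((ℓ (coeff (d : σ →₀ ℕ) Ψ) : FixF K p h) : K))
        (fun i => (ω i : K) ^ ((p ^ h) ^ m)) =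
        lowVal (N := N) (fun d => ((ℓ (coeff (d : σ →₀ ℕ) Ψ) : FixF K p h) : K))
        (fun i => (ω i : K)) ^ ((p ^ h) ^ m) := by
      have h6 := lowVal_pow (p := p) (N := N)
        (fun d => ((ℓ (coeff (d : σ →₀ ℕ) Ψ) : FixF K p h) : K)) (fun i => (ω i : K)) (h * m)
      rw [pow_mul p h m] at h6
      rw [← h6]
      congr 1
      funext d
      rw [pow_mem_FixF (ℓ (coeff (d : σ →₀ ℕ) Ψ)).2]
    rw [h5, norm_pow, pow_mul] at h4
    exact h4
  -- the values
  have hball : ∀ N : ℕ, ‖((ev ω f : OO K) : K)‖ ≤ ρ ω ^ N := by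
    intro N
    have hpos : 0 ≤ ρ ω ^ N := pow_nonneg (hρ0 ω hω).le N
    have hmem : ev ω f ∈ ballIdeal K (ρ ω ^ N) hpos := by
      refine (isClosed_ballIdeal (K := K) (ρ ω ^ N) hpos).mem_of_tendsto (ev_hasSum ha f) ?_
      filter_upwards [eventually_ge_atTop (Finsupp.finite_of_degree_lt (σ := σ) N).toFinset]
        with s hs
      classical
      rw [← Finset.sum_sdiff hs]
      refine (ballIdeal K (ρ ω ^ N) hpos).add_mem ?_ ?_
      · refine Ideal.sum_mem _ fun d hd => ?_
        have hd' : N ≤ d.degree := by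
          have := (Finset.mem_sdiff.1 hd).2
          simpa using this
        rw [mem_ballIdeal, Subring.coe_mul, norm_mul]
        have h1 : ‖((coeff d f : OO K) : K)‖ ≤ 1 := norm_le_one _
        have h2 : ‖((d.prod (fun s e => ω s ^ e) : OO K) : K)‖ ≤ ρ ω ^ N := by
          have h3 := norm_monVal_le (a := fun i => (ω i : K)) (hρω ω hω) d
          rw [← monVal_coe] at h3
          exact h3.trans (pow_le_pow_of_le_one (hρ0 ω hω).le (hρ1 ω hω).le hd')
        calc _ ≤ 1 * ρ ω ^ N := mul_le_mul h1 h2 (norm_nonneg _) zero_le_one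
          _ = ρ ω ^ N := one_mul _
      · rw [mem_ballIdeal]
        have h1 : ((∑ d ∈ (Finsupp.finite_of_degree_lt (σ := σ) N).toFinset,
            coeff d f * d.prod (fun s e => ω s ^ e) : OO K) : K) =
            lowVal (N := N) (fun d => ((ℓ (coeff (d : σ →₀ ℕ) Ψ) : FixF K p h) : K))
              (fun i => (ω i : K)) := by
          rw [sum_lowDeg N (fun d => coeff d f * d.prod (fun s e => ω s ^ e))]
          unfold lowVal
          rw [AddSubmonoidClass.coe_finsetSum]
          refine Finset.sum_congr rfl fun d _ => ?_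
          rw [Subring.coe_mul, hcoef, ← monVal_coe]
          rfl
        rw [h1]
        exact hP N
    exact hmem
  have hlim : Tendsto (fun N : ℕ => ρ ω ^ N) atTop (𝓝 0) :=
    tendsto_pow_atTop_nhds_zero_of_lt_one (hρ0 ω hω).le (hρ1 ω hω)
  have h0 : ‖((ev ω f : OO K) : K)‖ ≤ 0 := ge_of_tendsto' hlim hball
  exact Subtype.ext (norm_le_zero_iff.1 h0)

end
end Vale.Agent.P217
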