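import Mathlib.Analysis.Normed.Order.Lattice
import Mathlib.RingTheory.Henselian
import Vale.Agent.Lib.P217.OK

/-!
# P217: specializations of `k[[u_1..u_r]]` to `OO K` and Taylor expansion (module A10)

`ringHom_eq_ev`: both sides are ring homomorphisms agreeing on constants and variables, so on
polynomials; every `f` is a polynomial plus an element of the ideal `(X_i)^N` (finitely many
variables!), on which both sides are small (`‖·‖ ≤ ρ^N`, `ρ = max ‖y (X i)‖`).

`taylor ι ξ` sends `u_i` to `ξ_i + Δ_i`.
`taylor_injective`: compose with the evaluation `Δ_i ↦ Δ_i - ξ_i` of `OO K[[Δ]]`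
(`ev`/`evHom` for the `AdicRing` `MvPowerSeries (Fin r) (OO K)`): this gives the coefficientwise map
`MvPowerSeries.map ι`, which is injective.
-/

set_option linter.unusedSectionVars false

namespace Vale.Agent.P217

open MvPowerSeries Filter Topology
open scoped MvPowerSeries.WithPiTopology

namespace TaylorAux

/-- evaluation after a continuous change of coefficients is continuous -/
theorem continuous_ev_map {σ B D : Type*} [CommRing B] [UniformSpace B] [CommRing D]
    [UniformSpace D] [AdicRing B] [AdicRing D] {φ : B →+* D} (hφ : Continuous φ) {a : σ → D}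
    (ha : HasEval a) :
    Continuous (fun f : MvPowerSeries σ B => ev a (f.map φ)) := by
  have h : (fun f : MvPowerSeries σ B => ev a (f.map φ)) = MvPowerSeries.eval₂ φ a := by
    funext f
    refine HasSum.unique (ev_hasSum ha (f.map φ)) ?_
    have h1 := MvPowerSeries.hasSum_eval₂ hφ ha f
    simpa only [coeff_map] using h1
  rw [h]
  exact MvPowerSeries.continuous_eval₂ hφ ha

/-- the `i`-th part of the decomposition along the variables -/
noncomputable def decompG {k : Type*} [CommRing k] {r : ℕ} (f : MvPowerSeries (Fin r) k)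
    (i : Fin r) : MvPowerSeries (Fin r) k := by
  classical
  exact fun d => if ∀ j < i, d j = 0 then coeff (d + Finsupp.single i 1) f else 0

theorem coeff_decompG {k : Type*} [CommRing k] {r : ℕ} (f : MvPowerSeries (Fin r) k)
    (i : Fin r) (d : Fin r →₀ ℕ) [Decidable (∀ j < i, d j = 0)] : coeff d (decompG f i)
      = if ∀ j < i, d j = 0 then coeff (d + Finsupp.single i 1) f else 0 := by
  change (decompG f i) d = _
  unfold decompG
  by_cases h : ∀ j < i, d j = 0
  · rw [if_pos h, if_pos h]
  · rw [if_neg h, if_neg h]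

/-- a power series in finitely many variables is a constant plus a combination of the variables -/
theorem exists_decomp {k : Type*} [CommRing k] {r : ℕ} (f : MvPowerSeries (Fin r) k) :
    ∃ g : Fin r → MvPowerSeries (Fin r) k, f = C (constantCoeff f) + ∑ i, X i * g i := by
  classical
  refine ⟨decompG f, ?_⟩
  ext d
  rw [map_add, map_sum]
  have hterm : ∀ i : Fin r, coeff d (X i * decompG f i)
      = if Finsupp.single i 1 ≤ d then
        (if ∀ j < i, (d - Finsupp.single i 1 : Fin r →₀ ℕ) j = 0 then
          coeff (d - Finsupp.single i 1 + Finsupp.single i 1) f else 0) else 0 := by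
    intro i
    rw [X_def, coeff_monomial_mul, coeff_decompG, one_mul]
  simp_rw [hterm]
  by_cases hd : d = 0
  · subst hd
    rw [coeff_zero_C]
    have : ∀ i : Fin r, ¬ (Finsupp.single i 1 ≤ (0 : Fin r →₀ ℕ)) := by
      intro i h
      have := h i
      simp at this
    simp [this]
  · rw [coeff_C_of_ne_zero hd, zero_add]
    -- the least index in the support
    have hs : (Finset.univ.filter (fun i => d i ≠ 0)).Nonempty := by
      by_contra hne
      apply hd
      ext i
      by_contra hi
      exact hne ⟨i, by simpa using hi⟩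
    set i₀ := (Finset.univ.filter (fun i => d i ≠ 0)).min' hs with hi₀
    have h0 : d i₀ ≠ 0 := by
      have := Finset.min'_mem _ hs
      simpa using this
    have hlt : ∀ j < i₀, d j = 0 := by
      intro j hj
      by_contra hne
      have := Finset.min'_le (Finset.univ.filter (fun i => d i ≠ 0)) j (by simpa using hne)
      exact absurd hj (not_lt.mpr this)
    have hle : Finsupp.single i₀ 1 ≤ d := by
      rw [Finsupp.single_le_iff]
      omega
    rw [Finset.sum_eq_single i₀]
    · rw [if_pos hle, if_pos, tsub_add_cancel_of_le hle]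
      intro j hj
      rw [Finsupp.tsub_apply, hlt j hj, Nat.zero_sub]
    · intro i _ hi
      rcases lt_or_gt_of_ne hi with h | h
      · rw [if_neg]
        rw [Finsupp.single_le_iff, hlt i h]
        omega
      · by_cases hle' : Finsupp.single i 1 ≤ d
        · rw [if_pos hle', if_neg]
          intro hall
          have h1 := hall i₀ h
          rw [Finsupp.tsub_apply, Finsupp.single_apply, if_neg (ne_of_gt h)] at h1
          omega
        · rw [if_neg hle']
    · intro h
      exact absurd (Finset.mem_univ i₀) h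

theorem coeff_single_mul {R : Type*} [CommRing R] {r : ℕ} (f g : MvPowerSeries (Fin r) R)
    (j : Fin r) : coeff (Finsupp.single j 1) (f * g)
      = constantCoeff f * coeff (Finsupp.single j 1) g
        + coeff (Finsupp.single j 1) f * constantCoeff g := by
  classical
  rw [coeff_mul, Finsupp.antidiagonal_single]
  simp [Finset.Nat.antidiagonal_succ]

end TaylorAux

open TaylorAux

section
variable {K : Type*} [NontriviallyNormedField K] [IsUltrametricDist K] [CompleteSpace K]
  {k : Type*} [CommRing k] {r : ℕ}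

theorem hasEval_xi {ξ : Fin r → OO K} (hξ : ∀ i, ‖(ξ i : K)‖ < 1) : HasEval ξ :=
  hasEval_of_finite fun i => tn_iff.mpr (hξ i)

/-- a common bound below one -/
theorem exists_rho {ξ : Fin r → OO K} (hξ : ∀ i, ‖(ξ i : K)‖ < 1) :
    ∃ ρ : ℝ, 0 ≤ ρ ∧ ρ < 1 ∧ ∀ i, ‖(ξ i : K)‖ ≤ ρ := by
  refine ⟨((Finset.univ.sup fun i => ‖(ξ i : K)‖₊ : NNReal) : ℝ), NNReal.coe_nonneg _, ?_, ?_⟩
  · have : (Finset.univ.sup fun i => ‖(ξ i : K)‖₊ : NNReal) < 1 := by
      rw [Finset.sup_lt_iff (by exact zero_lt_one)]
      intro i _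
      exact hξ i
    exact this
  · intro i
    have : ‖(ξ i : K)‖₊ ≤ (Finset.univ.sup fun i => ‖(ξ i : K)‖₊ : NNReal) :=
      Finset.le_sup (f := fun i => ‖(ξ i : K)‖₊) (Finset.mem_univ i)
    exact this

/-- A homomorphism from a power series ring to `OO K` sending the variables into the open ball is an
evaluation. -/
theorem ringHom_eq_ev (y : MvPowerSeries (Fin r) k →+* OO K)
    (hy : ∀ i, ‖((y (X i) : OO K) : K)‖ < 1) (f : MvPowerSeries (Fin r) k) :
    y f = ev (fun i => y (X i)) (f.map (y.comp C)) := by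
  have ha : HasEval (fun i => y (X i)) := hasEval_xi hy
  obtain ⟨ρ, hρ0, hρ1, hρ⟩ := exists_rho hy
  set E : MvPowerSeries (Fin r) k →+* OO K := (evHom ha).comp (MvPowerSeries.map (y.comp C))
    with hE
  have hEf : ∀ g, E g = ev (fun i => y (X i)) (g.map (y.comp C)) := by
    intro g
    rw [hE, RingHom.comp_apply, coe_evHom]
  have hEC : ∀ c, E (C c) = y (C c) := by
    intro c
    rw [hEf, map_C, ev_C]
    rfl
  have hEX : ∀ i, E (X i) = y (X i) := by
    intro i
    rw [hEf, map_X, ev_X]
  have key : ∀ N : ℕ, ∀ g, y g - E g ∈ ballIdeal K (ρ ^ N) (pow_nonneg hρ0 N) := by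
    intro N
    induction N with
    | zero =>
      intro g
      rw [mem_ballIdeal, pow_zero]
      exact norm_le_one _
    | succ N ih =>
      intro g
      obtain ⟨h, hg⟩ := exists_decomp g
      have h1 : y g - E g = ∑ i, y (X i) * (y (h i) - E (h i)) := by
        conv_lhs => rw [hg]
        rw [map_add, map_add, hEC, map_sum, map_sum, add_sub_add_left_eq_sub,
          ← Finset.sum_sub_distrib]
        refine Finset.sum_congr rfl (fun i _ => ?_)
        rw [map_mul, map_mul, hEX, mul_sub]
      rw [h1]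
      refine Ideal.sum_mem _ (fun i _ => ?_)
      have h2 := ih (h i)
      rw [mem_ballIdeal] at h2 ⊢
      rw [Subring.coe_mul, norm_mul, pow_succ, mul_comm]
      exact mul_le_mul h2 (hρ i) (norm_nonneg _) (pow_nonneg hρ0 N)
  rw [← hEf, ← sub_eq_zero]
  have hlim : Tendsto (fun N : ℕ => ρ ^ N) atTop (𝓝 0) :=
    tendsto_pow_atTop_nhds_zero_of_lt_one hρ0 hρ1
  have hle : ‖((y f - E f : OO K) : K)‖ ≤ 0 :=
    ge_of_tendsto' hlim (fun N => (mem_ballIdeal (hc := pow_nonneg hρ0 N)).mp (key N f))
  have h0 : ((y f - E f : OO K) : K) = 0 := by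
    rw [← norm_eq_zero]
    exact le_antisymm hle (norm_nonneg _)
  exact Subtype.ext h0

theorem hasEval_taylor {ξ : Fin r → OO K} (hξ : ∀ i, ‖(ξ i : K)‖ < 1) :
    HasEval (fun i : Fin r => (C (ξ i) + X i : MvPowerSeries (Fin r) (OO K))) := by
  refine hasEval_of_finite (fun i => ?_)
  refine IsTopologicallyNilpotent.add ?_ ?_
  · exact (tn_iff.mpr (hξ i)).map (WithPiTopology.continuous_C)
  · exact WithPiTopology.isTopologicallyNilpotent_of_constantCoeff_zero (constantCoeff_X i)

/-- Taylor expansion at `ξ`: the ring homomorphism `u_i ↦ ξ_i + Δ_i`. -/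
noncomputable def taylor (ι : k →+* OO K) {ξ : Fin r → OO K} (hξ : ∀ i, ‖(ξ i : K)‖ < 1) :
    MvPowerSeries (Fin r) k →+* MvPowerSeries (Fin r) (OO K) :=
  (evHom (hasEval_taylor hξ)).comp (MvPowerSeries.map (C.comp ι))

variable (ι : k →+* OO K) {ξ : Fin r → OO K} (hξ : ∀ i, ‖(ξ i : K)‖ < 1)

theorem taylor_apply (f : MvPowerSeries (Fin r) k) : taylor ι hξ f
    = ev (fun i : Fin r => (C (ξ i) + X i : MvPowerSeries (Fin r) (OO K))) (f.map (C.comp ι)) := by
  unfold taylor
  rw [RingHom.comp_apply, coe_evHom]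

theorem taylor_C (c : k) : taylor ι hξ (C c) = C (ι c) := by
  rw [taylor_apply, map_C, ev_C]
  rfl

theorem taylor_X (i : Fin r) : taylor ι hξ (X i) = C (ξ i) + X i := by
  rw [taylor_apply, map_X, ev_X]

theorem continuous_constantCoeff_OO :
    Continuous (constantCoeff : MvPowerSeries (Fin r) (OO K) →+* OO K) :=
  WithPiTopology.continuous_constantCoeff (OO K)

/-- evaluation of a series over `OO K` at `δ`, as a continuous ring homomorphism -/
theorem continuous_evHom {δ : Fin r → OO K} (hδ : HasEval δ) :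
    Continuous (evHom hδ : MvPowerSeries (Fin r) (OO K) →+* OO K) := by
  have h := continuous_ev_map (φ := RingHom.id (OO K)) continuous_id hδ
  have h2 : (fun f : MvPowerSeries (Fin r) (OO K) => ev δ (f.map (RingHom.id (OO K))))
      = (evHom hδ : MvPowerSeries (Fin r) (OO K) →+* OO K) := by
    funext f
    rw [coe_evHom]
    congr 1
  rw [← h2]
  exact h

theorem constantCoeff_taylor (f : MvPowerSeries (Fin r) k) :
    constantCoeff (taylor ι hξ f) = ev ξ (f.map ι) := by
  rw [taylor_apply, map_ev continuous_constantCoeff_OO (hasEval_taylor hξ)]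
  have h1 : (fun s : Fin r => constantCoeff (C (ξ s) + X s : MvPowerSeries (Fin r) (OO K))) = ξ := by
    funext s
    simp
  have h2 : (f.map (C.comp ι)).map (constantCoeff : MvPowerSeries (Fin r) (OO K) →+* OO K)
      = f.map ι := by
    ext d
    simp
  rw [h1, h2]

theorem ev_taylor {δ : Fin r → OO K} (hδ : ∀ i, ‖(δ i : K)‖ < 1) (f : MvPowerSeries (Fin r) k) :
    ev δ (taylor ι hξ f) = ev (fun i => ξ i + δ i) (f.map ι) := by
  have hδ' : HasEval δ := hasEval_xi hδ
  rw [← coe_evHom hδ', taylor_apply, map_ev (continuous_evHom hδ') (hasEval_taylor hξ)]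
  have h1 : (fun s : Fin r => evHom hδ' (C (ξ s) + X s : MvPowerSeries (Fin r) (OO K)))
      = fun i => ξ i + δ i := by
    funext s
    rw [coe_evHom, ev_add hδ', ev_C, ev_X]
  have h2 : (f.map (C.comp ι)).map (evHom hδ') = f.map ι := by
    ext d
    simp only [coeff_map, RingHom.comp_apply, coe_evHom, ev_C]
  rw [h1, h2]

theorem taylor_injective_of (hι : Function.Injective ι) : Function.Injective (taylor ι hξ) := by
  -- the inverse translation
  have hneg : ∀ i, ‖((-ξ i : OO K) : K)‖ < 1 := by
    intro i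
    rw [Subring.coe_neg, norm_neg]
    exact hξ i
  have ha : HasEval (fun i : Fin r => (C (-ξ i) + X i : MvPowerSeries (Fin r) (OO K))) :=
    hasEval_taylor hneg
  set Ψ : MvPowerSeries (Fin r) (OO K) →+* MvPowerSeries (Fin r) (OO K) :=
    (evHom ha).comp (MvPowerSeries.map C) with hΨ
  have hΨf : ∀ g, Ψ g = ev (fun i : Fin r => (C (-ξ i) + X i : MvPowerSeries (Fin r) (OO K)))
      (g.map C) := by
    intro g
    rw [hΨ, RingHom.comp_apply, coe_evHom]
  have hcont : Continuous Ψ := by
    have h := continuous_ev_map (φ := (C : OO K →+* MvPowerSeries (Fin r) (OO K)))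
      WithPiTopology.continuous_C ha
    have h2 : (Ψ : MvPowerSeries (Fin r) (OO K) → MvPowerSeries (Fin r) (OO K))
        = fun f : MvPowerSeries (Fin r) (OO K) => ev (fun i : Fin r =>
          (C (-ξ i) + X i : MvPowerSeries (Fin r) (OO K))) (f.map C) := by
      funext g
      exact hΨf g
    rw [h2]
    exact h
  have hΨC : ∀ c, Ψ (C c) = C c := by
    intro c
    rw [hΨf, map_C, ev_C]
  have hΨX : ∀ i, Ψ (X i) = C (-ξ i) + X i := by
    intro i
    rw [hΨf, map_X, ev_X]
  have hcomp : ∀ f : MvPowerSeries (Fin r) k, Ψ (taylor ι hξ f) = f.map ι := by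
    intro f
    rw [taylor_apply, map_ev hcont (hasEval_taylor hξ)]
    have h1 : (fun s : Fin r => Ψ (C (ξ s) + X s : MvPowerSeries (Fin r) (OO K)))
        = fun s => X s := by
      funext s
      rw [map_add, hΨC, hΨX, map_neg]
      ring
    have h2 : (f.map (C.comp ι)).map Ψ = f.map (C.comp ι) := by
      ext1 d
      simp only [coeff_map, RingHom.comp_apply, hΨC]
    rw [h1, h2]
    have hX : HasEval (fun s : Fin r => (X s : MvPowerSeries (Fin r) (OO K))) := HasEval.X
    refine HasSum.unique (ev_hasSum hX _) ?_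
    have h3 := WithPiTopology.hasSum_of_monomials_self (f.map ι)
    have h4 : (fun d : Fin r →₀ ℕ => coeff d (f.map ((C : OO K →+* MvPowerSeries (Fin r)
        (OO K)).comp ι)) * d.prod (fun s e => (X s : MvPowerSeries (Fin r) (OO K)) ^ e))
        = fun d => monomial d (coeff d (f.map ι)) := by
      funext d
      rw [coeff_map, coeff_map, RingHom.comp_apply]
      rw [← MvPolynomial.coe_monomial, MvPolynomial.monomial_eq, MvPolynomial.coe_mul,
        MvPolynomial.coe_C]
      congr 1
      unfold Finsupp.prod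
      rw [← MvPolynomial.coeToMvPowerSeries.ringHom_apply, map_prod]
      refine Finset.prod_congr rfl (fun s _ => ?_)
      rw [map_pow, MvPolynomial.coeToMvPowerSeries.ringHom_apply, MvPolynomial.coe_X]
    rw [h4]
    exact h3
  intro f g hfg
  have h1 : f.map ι = g.map ι := by
    rw [← hcomp f, ← hcomp g, hfg]
  ext d
  have h2 := congrArg (coeff d) h1
  rw [coeff_map, coeff_map] at h2
  exact hι h2

/-- the linear coefficients of the Taylor expansion reduce to those of `f` -/
theorem coeff_single_taylor (f : MvPowerSeries (Fin r) k) (j : Fin r) :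
    ‖((coeff (Finsupp.single j 1) (taylor ι hξ f) - ι (coeff (Finsupp.single j 1) f) : OO K) :
      K)‖ < 1 := by
  classical
  obtain ⟨ρ, hρ0, hρ1, hρ⟩ := exists_rho hξ
  obtain ⟨g, hg⟩ := exists_decomp f
  choose h hh using fun i => exists_decomp (g i)
  set T := taylor ι hξ with hT
  have hTX : ∀ i, T (X i) = C (ξ i) + X i := taylor_X ι hξ
  have hTC : ∀ c, T (C c) = C (ι c) := taylor_C ι hξ
  have hne : (Finsupp.single j 1 : Fin r →₀ ℕ) ≠ 0 := by simp
  have hX0 : ∀ i, constantCoeff (C (ξ i) + X i : MvPowerSeries (Fin r) (OO K)) = ξ i := by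
    intro i
    simp
  have hX1 : ∀ i, coeff (Finsupp.single j 1) (C (ξ i) + X i : MvPowerSeries (Fin r) (OO K))
      = if j = i then 1 else 0 := by
    intro i
    rw [map_add, coeff_C_of_ne_zero hne, zero_add, coeff_index_single_X]
  -- the linear coefficient of `f`
  have hfj : coeff (Finsupp.single j 1) f = constantCoeff (g j) := by
    conv_lhs => rw [hg]
    rw [map_add, coeff_C_of_ne_zero hne, zero_add, map_sum, Finset.sum_eq_single j]
    · rw [coeff_single_mul]
      simp
    · intro i _ hij
      rw [coeff_single_mul, coeff_index_single_X, if_neg (Ne.symm hij)]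
      simp
    · intro hj
      exact absurd (Finset.mem_univ j) hj
  have hTf : coeff (Finsupp.single j 1) (T f)
      = constantCoeff (T (g j)) + ∑ i, ξ i * coeff (Finsupp.single j 1) (T (g i)) := by
    conv_lhs => rw [hg]
    rw [map_add, hTC, map_add, coeff_C_of_ne_zero hne, zero_add, map_sum, map_sum]
    have : ∀ i, coeff (Finsupp.single j 1) (T (X i * g i))
        = ξ i * coeff (Finsupp.single j 1) (T (g i))
          + (if j = i then constantCoeff (T (g i)) else 0) := by
      intro i
      rw [map_mul, hTX, coeff_single_mul, hX0, hX1]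
      split_ifs <;> simp
    rw [Finset.sum_congr rfl (fun i _ => this i), Finset.sum_add_distrib, Finset.sum_ite_eq,
      if_pos (Finset.mem_univ j), add_comm]
  have hTg : constantCoeff (T (g j)) = ι (constantCoeff (g j))
      + ∑ i, ξ i * constantCoeff (T (h j i)) := by
    conv_lhs => rw [hh j]
    rw [map_add, map_add, hTC, constantCoeff_C, map_sum, map_sum]
    congr 1
    refine Finset.sum_congr rfl (fun i _ => ?_)
    rw [map_mul, map_mul, hTX, hX0]
  have hdiff : coeff (Finsupp.single j 1) (T f) - ι (coeff (Finsupp.single j 1) f)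
      = (∑ i, ξ i * constantCoeff (T (h j i)))
        + ∑ i, ξ i * coeff (Finsupp.single j 1) (T (g i)) := by
    rw [hTf, hTg, hfj]
    ring
  have hmem : coeff (Finsupp.single j 1) (T f) - ι (coeff (Finsupp.single j 1) f)
      ∈ ballIdeal K ρ hρ0 := by
    rw [hdiff]
    refine Ideal.add_mem _ (Ideal.sum_mem _ (fun i _ => ?_)) (Ideal.sum_mem _ (fun i _ => ?_))
    · exact Ideal.mul_mem_right _ _ (by rw [mem_ballIdeal]; exact hρ i)
    · exact Ideal.mul_mem_right _ _ (by rw [mem_ballIdeal]; exact hρ i)
  exact lt_of_le_of_lt (mem_ballIdeal.mp hmem) hρ1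

/-- size of a value: if `f` has no terms of degree `< N` then `‖f(δ)‖ ≤ ρ^N` for `‖δ i‖ ≤ ρ` -/
theorem norm_ev_le {δ : Fin r → OO K} {ρ : ℝ} (hρ : ρ < 1) (hρ0 : 0 ≤ ρ)
    (hδ : ∀ i, ‖(δ i : K)‖ ≤ ρ) (f : MvPowerSeries (Fin r) (OO K)) (N : ℕ)
    (hf : ∀ d : Fin r →₀ ℕ, d.degree < N → coeff d f = 0) :
    ‖((ev δ f : OO K) : K)‖ ≤ ρ ^ N := by
  have hδ' : HasEval δ := hasEval_xi (fun i => lt_of_le_of_lt (hδ i) hρ)
  refine ev_mem_of_closed hδ' f (ballIdeal K (ρ ^ N) (pow_nonneg hρ0 N))
    (isClosed_ballIdeal _ _) ?_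
  intro d
  by_cases hd : d.degree < N
  · rw [hf d hd, zero_mul]
    exact Ideal.zero_mem _
  · refine Ideal.mul_mem_left _ _ ?_
    rw [mem_ballIdeal]
    have h1 : ((d.prod (fun s e => δ s ^ e) : OO K) : K) = ∏ s ∈ d.support, (δ s : K) ^ d s := by
      unfold Finsupp.prod
      rw [SubmonoidClass.coe_finsetProd]
      simp
    rw [h1, norm_prod]
    calc ∏ s ∈ d.support, ‖(δ s : K) ^ d s‖ ≤ ∏ s ∈ d.support, ρ ^ d s := by
          refine Finset.prod_le_prod (fun _ _ => norm_nonneg _) (fun s _ => ?_)
          rw [norm_pow]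
          exact pow_le_pow_left₀ (norm_nonneg _) (hδ s) _
      _ = ρ ^ d.degree := by
          rw [Finset.prod_pow_eq_pow_sum]
          rfl
      _ ≤ ρ ^ N := pow_le_pow_of_le_one hρ0 hρ.le (not_lt.mp hd)

end
section
variable {K : Type*} [NontriviallyNormedField K] [IsUltrametricDist K] [CompleteSpace K]
  {k : Type*} [Field k] {r : ℕ} (ι : k →+* OO K) {ξ : Fin r → OO K} (hξ : ∀ i, ‖(ξ i : K)‖ < 1)

theorem taylor_injective : Function.Injective (taylor ι hξ) :=
  taylor_injective_of ι hξ ι.injective

end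

end Vale.Agent.P217
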