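import Mathlib.Algebra.CharP.Algebra
import Mathlib.RingTheory.PowerSeries.Expand
import Vale.Agent.Lib.P217.Rigid
import Vale.Agent.Lib.P217.Taylor

/-!
# P217: proof of `app_lambda` (auxiliary file)

`Near Q ρ N s t` : the sequences `s`, `t` agree up to `O(ρ^{N Q^m})`.
-/

set_option linter.unusedSectionVars false

namespace Vale.Agent.P217.AL

open MvPowerSeries Filter Topology

/-- the sequences `s` and `t` agree up to `O(ρ^{N Q^m})` -/
def Near {K : Type*} [NormedField K] (Q : ℕ) (ρ : ℝ) (N : ℕ) (s t : ℕ → K) : Prop :=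
  ∃ C : ℝ, ∃ m₀ : ℕ, ∀ m ≥ m₀, ‖s m - t m‖ ≤ C * ρ ^ (N * Q ^ m)

/-- eventually bounded sequences -/
def EBdd {K : Type*} [NormedField K] (s : ℕ → K) : Prop :=
  ∃ C : ℝ, ∃ m₀ : ℕ, ∀ m ≥ m₀, ‖s m‖ ≤ C

section seq
variable {K : Type*} [NormedField K] {Q : ℕ} {ρ : ℝ} {N : ℕ} {s t u s' t' : ℕ → K}

theorem Near.refl (s : ℕ → K) : Near Q ρ N s s := ⟨0, 0, fun m _ => by simp⟩

theorem Near.symm (h : Near Q ρ N s t) : Near Q ρ N t s := by
  obtain ⟨C, m₀, h⟩ := h
  exact ⟨C, m₀, fun m hm => by rw [norm_sub_rev]; exact h m hm⟩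

theorem Near.trans (h : Near Q ρ N s t) (h' : Near Q ρ N t u) : Near Q ρ N s u := by
  obtain ⟨C, m₀, h⟩ := h
  obtain ⟨C', m₁, h'⟩ := h'
  refine ⟨C + C', max m₀ m₁, fun m hm => ?_⟩
  have e : s m - u m = (s m - t m) + (t m - u m) := by ring
  rw [e, add_mul]
  exact (norm_add_le _ _).trans (add_le_add (h m (le_trans (le_max_left _ _) hm))
    (h' m (le_trans (le_max_right _ _) hm)))

theorem Near.add (h : Near Q ρ N s t) (h' : Near Q ρ N s' t') :
    Near Q ρ N (fun m => s m + s' m) (fun m => t m + t' m) := by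
  obtain ⟨C, m₀, h⟩ := h
  obtain ⟨C', m₁, h'⟩ := h'
  refine ⟨C + C', max m₀ m₁, fun m hm => ?_⟩
  have e : (s m + s' m) - (t m + t' m) = (s m - t m) + (s' m - t' m) := by ring
  rw [e, add_mul]
  exact (norm_add_le _ _).trans (add_le_add (h m (le_trans (le_max_left _ _) hm))
    (h' m (le_trans (le_max_right _ _) hm)))

theorem Near.sub (h : Near Q ρ N s t) (h' : Near Q ρ N s' t') :
    Near Q ρ N (fun m => s m - s' m) (fun m => t m - t' m) := by
  obtain ⟨C, m₀, h⟩ := h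
  obtain ⟨C', m₁, h'⟩ := h'
  refine ⟨C + C', max m₀ m₁, fun m hm => ?_⟩
  have e : (s m - s' m) - (t m - t' m) = (s m - t m) - (s' m - t' m) := by ring
  rw [e, add_mul]
  exact (norm_sub_le _ _).trans (add_le_add (h m (le_trans (le_max_left _ _) hm))
    (h' m (le_trans (le_max_right _ _) hm)))

theorem EBdd.mul (h : EBdd s) (h' : EBdd t) : EBdd (fun m => s m * t m) := by
  obtain ⟨C, m₀, h⟩ := h
  obtain ⟨C', m₁, h'⟩ := h'
  refine ⟨|C| * |C'|, max m₀ m₁, fun m hm => ?_⟩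
  rw [norm_mul]
  exact mul_le_mul ((h m (le_trans (le_max_left _ _) hm)).trans (le_abs_self _))
    ((h' m (le_trans (le_max_right _ _) hm)).trans (le_abs_self _)) (norm_nonneg _) (abs_nonneg _)

theorem Near.mul_right (hρ0 : 0 < ρ) (h : Near Q ρ N s t) (hb : EBdd u) :
    Near Q ρ N (fun m => s m * u m) (fun m => t m * u m) := by
  obtain ⟨C, m₀, h⟩ := h
  obtain ⟨C', m₁, h'⟩ := hb
  refine ⟨|C| * |C'|, max m₀ m₁, fun m hm => ?_⟩
  rw [← sub_mul, norm_mul]
  have h1 := h m (le_trans (le_max_left _ _) hm)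
  have h2 := (h' m (le_trans (le_max_right _ _) hm)).trans (le_abs_self _)
  have hp : 0 < ρ ^ (N * Q ^ m) := by positivity
  calc ‖s m - t m‖ * ‖u m‖ ≤ (|C| * ρ ^ (N * Q ^ m)) * |C'| :=
        mul_le_mul (h1.trans (mul_le_mul_of_nonneg_right (le_abs_self _) hp.le)) h2
          (norm_nonneg _) (by positivity)
    _ = _ := by ring

theorem Near.eBdd (hρ0 : 0 < ρ) (hρ1 : ρ < 1) (h : Near Q ρ N s t) (hb : EBdd s) : EBdd t := by
  obtain ⟨C, m₀, h⟩ := h
  obtain ⟨C', m₁, h'⟩ := hb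
  refine ⟨C' + |C|, max m₀ m₁, fun m hm => ?_⟩
  have h1 := h m (le_trans (le_max_left _ _) hm)
  have h2 := h' m (le_trans (le_max_right _ _) hm)
  have hp : ρ ^ (N * Q ^ m) ≤ 1 := pow_le_one₀ hρ0.le hρ1.le
  have hp0 : 0 < ρ ^ (N * Q ^ m) := by positivity
  have e : t m = s m - (s m - t m) := by ring
  rw [e]
  refine (norm_sub_le _ _).trans (add_le_add h2 (h1.trans ?_))
  calc C * ρ ^ (N * Q ^ m) ≤ |C| * 1 :=
        mul_le_mul (le_abs_self _) hp hp0.le (abs_nonneg _)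
    _ = |C| := mul_one _

theorem Near.mul (hρ0 : 0 < ρ) (hρ1 : ρ < 1) (h : Near Q ρ N s t) (h' : Near Q ρ N s' t')
    (hb : EBdd s) (hb' : EBdd s') :
    Near Q ρ N (fun m => s m * s' m) (fun m => t m * t' m) := by
  have h1 := h.mul_right hρ0 hb'
  have h2 := h'.mul_right hρ0 (h.eBdd hρ0 hρ1 hb)
  refine h1.trans ?_
  simpa only [mul_comm] using h2

end seq

section trEval
variable {K : Type*} [NontriviallyNormedField K] [IsUltrametricDist K]
variable {σ : Type*} [Finite σ] {Q : ℕ} {ρ : ℝ} {δ : ℕ → σ → K}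

theorem eval_small (hρ0 : 0 < ρ) (hρ1 : ρ < 1) {m₀ : ℕ}
    (hδ : ∀ m ≥ m₀, ∀ i, ‖δ m i‖ ≤ ρ ^ (Q ^ m)) (N : ℕ) (P : MvPolynomial σ K)
    (hP : ∀ x : σ →₀ ℕ, x.degree < N → P.coeff x = 0) :
    ∃ C : ℝ, ∃ m₁ : ℕ, ∀ m ≥ m₁, ‖MvPolynomial.eval (δ m) P‖ ≤ C * ρ ^ (N * Q ^ m) := by
  refine ⟨∑ x ∈ P.support, ‖P.coeff x‖, m₀, fun m hm => ?_⟩
  rw [MvPolynomial.eval_eq, Finset.sum_mul]
  refine (norm_sum_le _ _).trans (Finset.sum_le_sum fun x hx => ?_)
  rw [norm_mul, norm_prod]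
  refine mul_le_mul_of_nonneg_left ?_ (norm_nonneg _)
  have hN : N ≤ x.degree := by
    by_contra hc
    exact (MvPolynomial.mem_support_iff.1 hx) (hP x (not_le.1 hc))
  calc ∏ i ∈ x.support, ‖δ m i ^ x i‖ ≤ ∏ i ∈ x.support, (ρ ^ (Q ^ m)) ^ x i := by
        refine Finset.prod_le_prod (fun i _ => norm_nonneg _) fun i _ => ?_
        rw [norm_pow]
        exact pow_le_pow_left₀ (norm_nonneg _) (hδ m hm i) _
    _ = (ρ ^ (Q ^ m)) ^ x.degree := by
        rw [Finset.prod_pow_eq_pow_sum, Finsupp.degree]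
        rfl
    _ = ρ ^ (x.degree * Q ^ m) := by rw [← pow_mul, mul_comm]
    _ ≤ ρ ^ (N * Q ^ m) := pow_le_pow_of_le_one hρ0.le hρ1.le (Nat.mul_le_mul_right _ hN)

theorem trEval_add (N : ℕ) (f g : MvPowerSeries σ K) (a : σ → K) :
    trEval N (f + g) a = trEval N f a + trEval N g a := by
  rw [trEval, map_add, map_add]
  rfl

theorem trEval_mul_near (hρ0 : 0 < ρ) (hρ1 : ρ < 1) {m₀ : ℕ}
    (hδ : ∀ m ≥ m₀, ∀ i, ‖δ m i‖ ≤ ρ ^ (Q ^ m)) (N : ℕ) (f g : MvPowerSeries σ K) :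
    Near Q ρ N (fun m => trEval N (f * g) (δ m))
      (fun m => trEval N f (δ m) * trEval N g (δ m)) := by
  obtain ⟨C, m₁, h⟩ := eval_small hρ0 hρ1 hδ N (truncTotal N (f * g) -
    truncTotal N f * truncTotal N g) (fun x hx => by
      rw [MvPolynomial.coeff_sub, coeff_truncTotal _ hx,
        coeff_truncTotal_mul_truncTotal_eq_coeff_mul _ _ hx, sub_self])
  refine ⟨C, m₁, fun m hm => ?_⟩
  have := h m hm
  rw [map_sub, map_mul (MvPolynomial.eval (δ m)) (truncTotal N f) (truncTotal N g)] at this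
  exact this

theorem trEval_eBdd (hρ0 : 0 < ρ) (hρ1 : ρ < 1) {m₀ : ℕ}
    (hδ : ∀ m ≥ m₀, ∀ i, ‖δ m i‖ ≤ ρ ^ (Q ^ m)) (N : ℕ) (f : MvPowerSeries σ K) :
    EBdd (fun m => trEval N f (δ m)) := by
  obtain ⟨C, m₁, h⟩ := eval_small hρ0 hρ1 hδ 0 (truncTotal N f) (fun x hx => by omega)
  refine ⟨C, m₁, fun m hm => ?_⟩
  have := h m hm
  simpa [trEval] using this

theorem tendsto_rho_pow (hQ : 2 ≤ Q) (hρ0 : 0 < ρ) (hρ1 : ρ < 1) :
    Tendsto (fun m : ℕ => ρ ^ (Q ^ m)) atTop (𝓝 0) := by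
  have h1 : Tendsto (fun m : ℕ => Q ^ m) atTop atTop :=
    tendsto_pow_atTop_atTop_of_one_lt (by omega)
  exact (tendsto_pow_atTop_nhds_zero_of_lt_one hρ0.le hρ1).comp h1

theorem trEval_tendsto (hQ : 2 ≤ Q) (hρ0 : 0 < ρ) (hρ1 : ρ < 1) {m₀ : ℕ}
    (hδ : ∀ m ≥ m₀, ∀ i, ‖δ m i‖ ≤ ρ ^ (Q ^ m)) {N : ℕ} (hN : 1 ≤ N) (f : MvPowerSeries σ K) :
    Tendsto (fun m => trEval N f (δ m)) atTop (𝓝 (constantCoeff f)) := by
  obtain ⟨C, m₁, h⟩ := eval_small hρ0 hρ1 hδ 1 (truncTotal N f -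
    MvPolynomial.C (constantCoeff f)) (fun x hx => by
      have hx0 : x = 0 := by
        rw [← Finsupp.degree_eq_zero_iff]
        omega
      rw [hx0, MvPolynomial.coeff_sub, coeff_truncTotal _ (by simp; omega)]
      simp)
  rw [tendsto_iff_norm_sub_tendsto_zero]
  have h2 : Tendsto (fun m : ℕ => C * ρ ^ (Q ^ m)) atTop (𝓝 0) := by
    simpa using (tendsto_rho_pow hQ hρ0 hρ1).const_mul C
  refine squeeze_zero' (Eventually.of_forall fun m => norm_nonneg _) ?_ h2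
  filter_upwards [eventually_ge_atTop m₁] with m hm
  have := h m hm
  rw [map_sub, MvPolynomial.eval_C, one_mul] at this
  exact this

end trEval

section isA
variable {K : Type*} [NontriviallyNormedField K] [IsUltrametricDist K]
variable {σ : Type*} [Finite σ] {Q : ℕ} {ρ : ℝ} {δ : ℕ → σ → K}

/-- same content as `IsApp` -/
def IsA (Q : ℕ) (ρ : ℝ) (δ : ℕ → σ → K) (N : ℕ) (f : MvPowerSeries σ K) (s : ℕ → K) : Prop :=
  Near Q ρ N (fun m => trEval N f (δ m)) s

theorem IsA.add {N : ℕ} {f g : MvPowerSeries σ K} {s t : ℕ → K} (hf : IsA Q ρ δ N f s)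
    (hg : IsA Q ρ δ N g t) : IsA Q ρ δ N (f + g) (fun m => s m + t m) := by
  have h := Near.add hf hg
  unfold IsA
  simp only [trEval_add]
  exact h

theorem trEval_zero (N : ℕ) (a : σ → K) : trEval N (0 : MvPowerSeries σ K) a = 0 := by
  rw [trEval, map_zero, map_zero]

theorem IsA.zero (N : ℕ) : IsA Q ρ δ N (0 : MvPowerSeries σ K) (fun _ => 0) := by
  unfold IsA
  simp only [trEval_zero]
  exact Near.refl _

theorem IsA.sum {ι : Type*} {N : ℕ} (S : Finset ι) {f : ι → MvPowerSeries σ K}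
    {s : ι → ℕ → K} (hf : ∀ i ∈ S, IsA Q ρ δ N (f i) (s i)) :
    IsA Q ρ δ N (∑ i ∈ S, f i) (fun m => ∑ i ∈ S, s i m) := by
  classical
  induction S using Finset.induction_on with
  | empty => simp only [Finset.sum_empty]; exact IsA.zero N
  | insert a S ha ih =>
    simp only [Finset.sum_insert ha]
    exact (hf a (Finset.mem_insert_self a S)).add
      (ih fun i hi => hf i (Finset.mem_insert_of_mem hi))

theorem IsA.mul (hρ0 : 0 < ρ) (hρ1 : ρ < 1) {m₀ : ℕ}
    (hδ : ∀ m ≥ m₀, ∀ i, ‖δ m i‖ ≤ ρ ^ (Q ^ m)) {N : ℕ} {f g : MvPowerSeries σ K} {s t : ℕ → K}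
    (hf : IsA Q ρ δ N f s) (hg : IsA Q ρ δ N g t) :
    IsA Q ρ δ N (f * g) (fun m => s m * t m) :=
  (trEval_mul_near hρ0 hρ1 hδ N f g).trans
    (Near.mul hρ0 hρ1 hf hg (trEval_eBdd hρ0 hρ1 hδ N f) (trEval_eBdd hρ0 hρ1 hδ N g))

theorem IsA.C (N : ℕ) (c : K) : IsA Q ρ δ N (MvPowerSeries.C c) (fun _ => c) := by
  rcases Nat.eq_zero_or_pos N with rfl | hN
  · refine ⟨‖c‖, 0, fun m _ => ?_⟩
    have h : truncTotal 0 (MvPowerSeries.C c : MvPowerSeries σ K) = 0 := by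
      ext x
      rw [coeff_truncTotal_eq_zero _ (Nat.zero_le _), MvPolynomial.coeff_zero]
    simp [trEval, h]
  · have h : truncTotal N (MvPowerSeries.C c : MvPowerSeries σ K) = MvPolynomial.C c := by
      classical
      ext x
      rw [coeff_truncTotal_eq_ite, MvPolynomial.coeff_C, MvPowerSeries.coeff_C]
      by_cases hx : x = 0
      · subst hx
        simp [hN]
      · simp [hx, Ne.symm hx]
    refine ⟨0, 0, fun m _ => ?_⟩
    simp [trEval, h]

theorem IsA.one (N : ℕ) : IsA Q ρ δ N (1 : MvPowerSeries σ K) (fun _ => 1) := by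
  have := IsA.C (Q := Q) (ρ := ρ) (δ := δ) N (1 : K)
  rwa [map_one] at this

theorem IsA.pow (hρ0 : 0 < ρ) (hρ1 : ρ < 1) {m₀ : ℕ}
    (hδ : ∀ m ≥ m₀, ∀ i, ‖δ m i‖ ≤ ρ ^ (Q ^ m)) {N : ℕ} {f : MvPowerSeries σ K} {s : ℕ → K}
    (hf : IsA Q ρ δ N f s) (n : ℕ) : IsA Q ρ δ N (f ^ n) (fun m => s m ^ n) := by
  induction n with
  | zero => simpa using IsA.one N
  | succ n ih =>
    simp only [pow_succ]
    exact ih.mul hρ0 hρ1 hδ hf

theorem IsA.self (N : ℕ) (f : MvPowerSeries σ K) :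
    IsA Q ρ δ N f (fun m => trEval N f (δ m)) := Near.refl _

theorem Near.tendsto (hQ : 2 ≤ Q) (hρ0 : 0 < ρ) (hρ1 : ρ < 1) {N : ℕ} (hN : 1 ≤ N)
    {s t : ℕ → K} (h : Near Q ρ N s t) {l : K} (hs : Tendsto s atTop (𝓝 l)) :
    Tendsto t atTop (𝓝 l) := by
  obtain ⟨C, m₁, h⟩ := h
  have h1 : Tendsto (fun m => s m - t m) atTop (𝓝 0) := by
    rw [tendsto_zero_iff_norm_tendsto_zero]
    have h2 : Tendsto (fun m : ℕ => |C| * ρ ^ (Q ^ m)) atTop (𝓝 0) := by
      simpa using (tendsto_rho_pow hQ hρ0 hρ1).const_mul |C|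
    refine squeeze_zero' (Eventually.of_forall fun m => norm_nonneg _) ?_ h2
    filter_upwards [eventually_ge_atTop m₁] with m hm
    refine (h m hm).trans ?_
    refine mul_le_mul (le_abs_self _) ?_ (by positivity) (abs_nonneg _)
    exact pow_le_pow_of_le_one hρ0.le hρ1.le (Nat.le_mul_of_pos_left _ hN)
  have h3 := hs.sub h1
  simpa using h3

end isA

section algebra
variable {A : Type*} [CommRing A]

theorem coeff_pow_eq_zero_of_lt {V : PowerSeries A} (hV : PowerSeries.constantCoeff V = 0)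
    {i j : ℕ} (h : j < i) : PowerSeries.coeff j (V ^ i) = 0 := by
  have h1 : PowerSeries.X ^ i ∣ V ^ i := pow_dvd_pow_of_dvd (PowerSeries.X_dvd_iff.2 hV) i
  exact PowerSeries.X_pow_dvd_iff.1 h1 j h

theorem coeff_pow_self {V : PowerSeries A} (hV : PowerSeries.constantCoeff V = 0) (j : ℕ) :
    PowerSeries.coeff j (V ^ j) = (PowerSeries.coeff 1 V) ^ j := by
  obtain ⟨V', rfl⟩ := PowerSeries.X_dvd_iff.2 hV
  have h1 : PowerSeries.coeff 1 (PowerSeries.X * V') = PowerSeries.constantCoeff V' := by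
    have := PowerSeries.coeff_succ_X_mul 0 V'
    simpa using this
  have h2 : PowerSeries.coeff j ((PowerSeries.X * V') ^ j) =
      PowerSeries.constantCoeff (V' ^ j) := by
    rw [mul_pow]
    have := PowerSeries.coeff_X_pow_mul (V' ^ j) j 0
    simpa using this
  rw [h1, h2, map_pow]

theorem coeff_subst_range {L V : PowerSeries A} (hV : PowerSeries.constantCoeff V = 0) (j : ℕ) :
    PowerSeries.coeff j (L.subst V) =
      ∑ i ∈ Finset.range (j + 1), PowerSeries.coeff i L * PowerSeries.coeff j (V ^ i) := by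
  rw [PowerSeries.coeff_subst' (PowerSeries.HasSubst.of_constantCoeff_zero' hV)]
  rw [finsum_eq_sum_of_support_subset (s := Finset.range (j + 1))]
  · simp only [smul_eq_mul]
  · intro i hi
    rw [Finset.mem_coe, Finset.mem_range]
    by_contra hc
    apply hi
    simp only
    rw [coeff_pow_eq_zero_of_lt hV (by omega), smul_zero]

theorem coeff_expand' {V : PowerSeries A} {q : ℕ} (hq : q ≠ 0) (l : ℕ) :
    PowerSeries.coeff (q * l) (V.subst (PowerSeries.X ^ q : PowerSeries A)) =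
      PowerSeries.coeff l V := by
  have h := PowerSeries.coeff_expand_mul q hq V l
  rwa [PowerSeries.expand_apply] at h

theorem coeff_rel {p : ℕ} [Fact p.Prime] [CharP A p] (h : ℕ) {L V : PowerSeries A}
    (hV0 : PowerSeries.constantCoeff V = 0)
    (hL : L.subst (V.subst (PowerSeries.X ^ (p ^ h) : PowerSeries A)) = L ^ (p ^ h)) (j : ℕ) :
    (PowerSeries.coeff j L) ^ (p ^ h) =
      ∑ i ∈ Finset.range (j + 1), PowerSeries.coeff i L * PowerSeries.coeff j (V ^ i) := by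
  have hp : p.Prime := Fact.out
  have : ExpChar A p := ExpChar.prime hp
  have hq : p ^ h ≠ 0 := pow_ne_zero _ hp.ne_zero
  have h0 : PowerSeries.expand (p ^ h) hq (L.subst V) =
      L.subst (PowerSeries.expand (p ^ h) hq V) :=
    PowerSeries.expand_subst (p ^ h) hq (PowerSeries.HasSubst.of_constantCoeff_zero' hV0) L
  have h1 : PowerSeries.expand (p ^ h) hq (L.subst V) = L ^ (p ^ h) := by
    rw [h0, ← hL, PowerSeries.expand_apply]
  have h2 : PowerSeries.map (iterateFrobenius A p h) (PowerSeries.expand (p ^ h) hq L) =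
      L ^ (p ^ h) := MvPowerSeries.map_iterateFrobenius_expand p hp.ne_zero L h
  have h3 := congrArg (PowerSeries.coeff (p ^ h * j)) (h1.trans h2.symm)
  rw [PowerSeries.coeff_expand_mul, PowerSeries.coeff_map, PowerSeries.coeff_expand_mul,
    coeff_subst_range hV0] at h3
  rw [h3, iterateFrobenius_def]

end algebra

section main
variable {K : Type*} [NontriviallyNormedField K] [IsUltrametricDist K] [CompleteSpace K]
  {p : ℕ} [Fact p.Prime] [CharP K p] {h : ℕ} [Fact (0 < h)]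
variable {σ : Type*} [Finite σ] {ρ : ℝ} {δ : ℕ → σ → K}

theorem two_le_Q : 2 ≤ p ^ h := by
  have hp : p.Prime := Fact.out
  have hh : 0 < h := Fact.out
  calc 2 ≤ p := hp.two_le
    _ = p ^ 1 := (pow_one p).symm
    _ ≤ p ^ h := Nat.pow_le_pow_right hp.pos hh

/-- the analytic heart: `d^Q ≈ d v`, `d → 0`, `v → l ≠ 0` imply `d ≈ 0` -/
theorem near_zero_of_pow {Q : ℕ} (hQ : 2 ≤ Q) (hρ0 : 0 < ρ) {N : ℕ} {d v : ℕ → K} {l : K}
    (hl : l ≠ 0) (hd : Tendsto d atTop (𝓝 0)) (hv : Tendsto v atTop (𝓝 l))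
    (h : Near Q ρ N (fun m => d m ^ Q) (fun m => d m * v m)) : Near Q ρ N d (fun _ => 0) := by
  obtain ⟨C, m₁, h⟩ := h
  have hα : 0 < ‖l‖ := norm_pos_iff.2 hl
  have h1 : Tendsto (fun m => ‖v m‖ - ‖d m‖ ^ (Q - 1)) atTop (𝓝 ‖l‖) := by
    have h2 := hv.norm.sub (hd.norm.pow (Q - 1))
    rw [norm_zero, zero_pow (by omega), sub_zero] at h2
    exact h2
  have h3 : ∀ᶠ m in atTop, ‖l‖ / 2 < ‖v m‖ - ‖d m‖ ^ (Q - 1) :=
    h1.eventually (lt_mem_nhds (by linarith))
  obtain ⟨m₂, h4⟩ := eventually_atTop.1 h3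
  refine ⟨2 / ‖l‖ * C, max m₁ m₂, fun m hm => ?_⟩
  have h5 := h m (le_trans (le_max_left _ _) hm)
  have h6 := h4 m (le_trans (le_max_right _ _) hm)
  rw [sub_zero]
  have h7 : ‖d m‖ * (‖v m‖ - ‖d m‖ ^ (Q - 1)) ≤ ‖d m ^ Q - d m * v m‖ := by
    have h8 : ‖d m * v m‖ - ‖d m ^ Q‖ ≤ ‖d m ^ Q - d m * v m‖ := by
      rw [norm_sub_rev]
      exact norm_sub_norm_le _ _
    rw [norm_mul, norm_pow] at h8
    have h9 : ‖d m‖ ^ Q = ‖d m‖ * ‖d m‖ ^ (Q - 1) := by
      rw [← pow_succ', Nat.sub_add_cancel (by omega)]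
    rw [h9] at h8
    linarith [mul_sub ‖d m‖ ‖v m‖ (‖d m‖ ^ (Q - 1))]
  have h10 : ‖d m‖ * (‖l‖ / 2) ≤ C * ρ ^ (N * Q ^ m) :=
    (mul_le_mul_of_nonneg_left h6.le (norm_nonneg _)).trans (h7.trans h5)
  rw [mul_assoc, div_mul_eq_mul_div, le_div_iff₀ hα]
  linarith

theorem isA_pow_coeff {Q : ℕ} (hρ0 : 0 < ρ) (hρ1 : ρ < 1) {m₀ : ℕ}
    (hδ : ∀ m ≥ m₀, ∀ i, ‖δ m i‖ ≤ ρ ^ (Q ^ m)) (N : ℕ)
    (V : PowerSeries (MvPowerSeries σ K)) (Vm : ℕ → PowerSeries (OO K))
    (hV : ∀ l, IsA Q ρ δ N (PowerSeries.coeff l V)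
      (fun m => ((PowerSeries.coeff l (Vm m) : OO K) : K))) (i l : ℕ) :
    IsA Q ρ δ N (PowerSeries.coeff l (V ^ i))
      (fun m => ((PowerSeries.coeff l ((Vm m) ^ i) : OO K) : K)) := by
  induction i generalizing l with
  | zero =>
    simp only [pow_zero, PowerSeries.coeff_one]
    by_cases hl : l = 0
    · simp only [hl, if_true]
      exact IsA.one N
    · simp only [hl, if_false]
      exact IsA.zero N
  | succ i ih =>
    have h1 := IsA.sum (Q := Q) (ρ := ρ) (δ := δ) (N := N)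
      (Finset.HasAntidiagonal.antidiagonal l)
      (f := fun x => PowerSeries.coeff x.1 (V ^ i) * PowerSeries.coeff x.2 V)
      (s := fun x m => ((PowerSeries.coeff x.1 ((Vm m) ^ i) : OO K) : K) *
        ((PowerSeries.coeff x.2 (Vm m) : OO K) : K))
      (fun x _ => (ih x.1).mul hρ0 hρ1 hδ (hV x.2))
    rw [pow_succ, PowerSeries.coeff_mul]
    have h2 : (fun m => ((PowerSeries.coeff l ((Vm m) ^ (i + 1)) : OO K) : K)) =
        fun m => ∑ x ∈ Finset.HasAntidiagonal.antidiagonal l,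
          ((PowerSeries.coeff x.1 ((Vm m) ^ i) : OO K) : K) *
            ((PowerSeries.coeff x.2 (Vm m) : OO K) : K) := by
      funext m
      rw [pow_succ, PowerSeries.coeff_mul]
      simp
    rw [h2]
    exact h1

theorem isA_coeff (hρ0 : 0 < ρ) (hρ1 : ρ < 1) {m₀ : ℕ}
    (hδ : ∀ m ≥ m₀, ∀ i, ‖δ m i‖ ≤ ρ ^ ((p ^ h) ^ m))
    (L W V : PowerSeries (MvPowerSeries σ K))
    (hV0 : PowerSeries.constantCoeff V = 0)
    (hW : W = V.subst (PowerSeries.X ^ (p ^ h) : PowerSeries (MvPowerSeries σ K)))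
    (ha : MvPowerSeries.constantCoeff (PowerSeries.coeff 1 V) ≠ 0)
    (hL : L.subst W = L ^ (p ^ h))
    (mu Wm Vm : ℕ → PowerSeries (OO K))
    (hVm0 : ∀ m, PowerSeries.constantCoeff (Vm m) = 0)
    (hWm : ∀ m, Wm m = (Vm m).subst (PowerSeries.X ^ (p ^ h) : PowerSeries (OO K)))
    (hmuW : ∀ m ≥ m₀, (mu m).subst (Wm m) = (mu m) ^ (p ^ h))
    (N : ℕ)
    (hWapp : ∀ j, IsA (p ^ h) ρ δ N (PowerSeries.coeff j W)
      (fun m => ((PowerSeries.coeff j (Wm m) : OO K) : K)))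
    (hmu : ∀ j, Tendsto (fun m => ((PowerSeries.coeff j (mu m) : OO K) : K)) atTop
      (𝓝 (MvPowerSeries.constantCoeff (PowerSeries.coeff j L)))) (j : ℕ) :
    IsA (p ^ h) ρ δ N (PowerSeries.coeff j L)
      (fun m => ((PowerSeries.coeff j (mu m) : OO K) : K)) := by
  have hp : p.Prime := Fact.out
  have hQ : 2 ≤ p ^ h := two_le_Q
  have hq : p ^ h ≠ 0 := by omega
  have : CharP (MvPowerSeries σ K) p := by
    exact charP_of_injective_ringHom (f := (MvPowerSeries.C : K →+* MvPowerSeries σ K))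
      MvPowerSeries.C_injective p
  have : CharP (OO K) p := (OO K).subtype.charP Subtype.val_injective p
  rcases Nat.eq_zero_or_pos N with rfl | hN
  · refine ⟨1, 0, fun m _ => ?_⟩
    have h0 : trEval 0 (PowerSeries.coeff j L) (δ m) = 0 := by
      have h : truncTotal 0 (PowerSeries.coeff j L : MvPowerSeries σ K) = 0 := by
        ext x
        rw [coeff_truncTotal_eq_zero _ (Nat.zero_le _), MvPolynomial.coeff_zero]
      simp [trEval, h]
    simp only [h0, zero_sub, norm_neg, zero_mul, pow_zero, mul_one]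
    exact norm_le_one _
  -- coefficients of `V`
  have hV : ∀ l, IsA (p ^ h) ρ δ N (PowerSeries.coeff l V)
      (fun m => ((PowerSeries.coeff l (Vm m) : OO K) : K)) := by
    intro l
    have h1 := hWapp (p ^ h * l)
    rw [hW, coeff_expand' hq] at h1
    have h2 : ∀ m, PowerSeries.coeff (p ^ h * l) (Wm m) = PowerSeries.coeff l (Vm m) := by
      intro m
      rw [hWm m, coeff_expand' hq]
    simp only [h2] at h1
    exact h1
  have hVp : ∀ i l, IsA (p ^ h) ρ δ N (PowerSeries.coeff l (V ^ i))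
      (fun m => ((PowerSeries.coeff l ((Vm m) ^ i) : OO K) : K)) :=
    isA_pow_coeff hρ0 hρ1 hδ N V Vm hV
  induction j using Nat.strong_induction_on with
  | _ j ih =>
    set a : ℕ → K := fun m => trEval N (PowerSeries.coeff j L) (δ m) with hadef
    set b : ℕ → K := fun m => ((PowerSeries.coeff j (mu m) : OO K) : K) with hbdef
    set v : ℕ → K := fun m => ((PowerSeries.coeff j ((Vm m) ^ j) : OO K) : K) with hvdef
    set S : ℕ → K := fun m => ∑ i ∈ Finset.range j,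
      ((PowerSeries.coeff i (mu m) : OO K) : K) *
        ((PowerSeries.coeff j ((Vm m) ^ i) : OO K) : K) with hSdef
    have hrelL := coeff_rel (A := MvPowerSeries σ K) (p := p) h hV0 (by rw [← hW]; exact hL) j
    rw [Finset.sum_range_succ] at hrelL
    have h1 : IsA (p ^ h) ρ δ N ((PowerSeries.coeff j L) ^ (p ^ h)) (fun m => a m ^ (p ^ h)) :=
      (IsA.self N _).pow hρ0 hρ1 hδ _
    have h2 : IsA (p ^ h) ρ δ N ((PowerSeries.coeff j L) ^ (p ^ h))
        (fun m => S m + a m * v m) := by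
      rw [hrelL]
      refine IsA.add ?_ ((IsA.self N _).mul hρ0 hρ1 hδ (hVp j j))
      exact IsA.sum (Finset.range j) fun i hi =>
        (ih i (Finset.mem_range.1 hi)).mul hρ0 hρ1 hδ (hVp i j)
    have h3 : Near (p ^ h) ρ N (fun m => a m ^ (p ^ h)) (fun m => S m + a m * v m) :=
      (Near.symm h1).trans h2
    have h4 : ∀ m ≥ m₀, b m ^ (p ^ h) = S m + b m * v m := by
      intro m hm
      have h5 := coeff_rel (A := OO K) (p := p) h (hVm0 m) (by rw [← hWm]; exact hmuW m hm) j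
      rw [Finset.sum_range_succ] at h5
      have h6 := congrArg (fun z : OO K => (z : K)) h5
      simpa using h6
    have h5 : Near (p ^ h) ρ N (fun m => (a m - b m) ^ (p ^ h))
        (fun m => (a m - b m) * v m) := by
      obtain ⟨C, m₁, h6⟩ := h3
      refine ⟨C, max m₀ m₁, fun m hm => ?_⟩
      have h7 := h6 m (le_trans (le_max_right _ _) hm)
      have h8 := h4 m (le_trans (le_max_left _ _) hm)
      have h9 : (a m - b m) ^ (p ^ h) - (a m - b m) * v m =
          a m ^ (p ^ h) - (S m + a m * v m) := by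
        rw [sub_pow_char_pow, h8]
        ring
      simp only [h9]
      exact h7
    have hat : Tendsto a atTop (𝓝 (MvPowerSeries.constantCoeff (PowerSeries.coeff j L))) :=
      trEval_tendsto hQ hρ0 hρ1 hδ hN _
    have hdt : Tendsto (fun m => a m - b m) atTop (𝓝 0) := by
      have := hat.sub (hmu j)
      rwa [sub_self] at this
    have hvt : Tendsto v atTop
        (𝓝 (MvPowerSeries.constantCoeff (PowerSeries.coeff j (V ^ j)))) :=
      Near.tendsto hQ hρ0 hρ1 hN (hVp j j) (trEval_tendsto hQ hρ0 hρ1 hδ hN _)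
    have hl : MvPowerSeries.constantCoeff (PowerSeries.coeff j (V ^ j)) ≠ 0 := by
      rw [coeff_pow_self hV0, map_pow]
      exact pow_ne_zero _ ha
    obtain ⟨C, m₁, h6⟩ := near_zero_of_pow hQ hρ0 hl hdt hvt h5
    refine ⟨C, m₁, fun m hm => ?_⟩
    have := h6 m hm
    simpa using this

theorem norm_tail_le (f : PowerSeries (OO K)) (x : OO K) (hx : ‖(x : K)‖ < 1) (N : ℕ)
    (hf : ∀ j < N, PowerSeries.coeff j f = 0) : ‖((ev1 x f : OO K) : K)‖ ≤ ‖(x : K)‖ ^ N := by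
  have hx' : HasEval (fun _ : Unit => x) := hasEval_OO hx
  refine ev_mem_of_closed hx' f (ballIdeal K (‖(x : K)‖ ^ N) (by positivity))
    (isClosed_ballIdeal _ _) ?_
  intro d
  rw [mem_ballIdeal]
  by_cases hd : d () < N
  · have : (coeff d) f = 0 := by
      have h1 := hf (d ()) hd
      rw [PowerSeries.coeff] at h1
      have h2 : Finsupp.single () (d ()) = d := by
        ext
        simp
      rwa [h2] at h1
    rw [this]; simp
  · have hd' : N ≤ d () := not_lt.1 hd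
    simp only [Finsupp.prod_fintype, Finset.univ_unique, Finset.prod_singleton, pow_zero,
      implies_true, Subring.coe_mul, Subring.coe_pow, norm_mul, norm_pow]
    calc ‖((coeff d f : OO K) : K)‖ * ‖(x : K)‖ ^ d default ≤ 1 * ‖(x : K)‖ ^ N :=
          mul_le_mul (norm_le_one _) (pow_le_pow_of_le_one (norm_nonneg _) hx.le hd')
            (by positivity) zero_le_one
      _ = ‖(x : K)‖ ^ N := one_mul _

theorem ev1_sum (f : PowerSeries (OO K)) (x : OO K) (hx : ‖(x : K)‖ < 1) (N : ℕ) :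
    ev1 x (∑ j ∈ Finset.range N, PowerSeries.C (PowerSeries.coeff j f) * PowerSeries.X ^ j) =
      ∑ j ∈ Finset.range N, PowerSeries.coeff j f * x ^ j := by
  have hx' : HasEval (fun _ : Unit => x) := hasEval_OO hx
  rw [ev1, ← coe_evHom hx', map_sum]
  refine Finset.sum_congr rfl fun j _ => ?_
  rw [map_mul, map_pow, coe_evHom, coe_evHom]
  have h1 : ev (fun _ : Unit => x) (PowerSeries.C (PowerSeries.coeff j f)) =
      PowerSeries.coeff j f := ev_C _ _
  have h2 : ev (fun _ : Unit => x) (PowerSeries.X : PowerSeries (OO K)) = x := ev_X _ _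
  rw [h1, h2]

theorem coeff_sub_sum (f : PowerSeries (OO K)) (N j : ℕ) (hj : j < N) :
    PowerSeries.coeff j (f - ∑ i ∈ Finset.range N,
      PowerSeries.C (PowerSeries.coeff i f) * PowerSeries.X ^ i) = 0 := by
  rw [map_sub, map_sum, Finset.sum_eq_single j]
  · simp
  · intro i _ hij
    rw [PowerSeries.coeff_C_mul, PowerSeries.coeff_X_pow, if_neg (Ne.symm hij), mul_zero]
  · intro h
    exact absurd (Finset.mem_range.2 hj) h

theorem trEval_congr {N : ℕ} {f g : MvPowerSeries σ K}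
    (h : ∀ d : σ →₀ ℕ, d.degree < N → coeff d (f - g) = 0) (a : σ → K) :
    trEval N f a = trEval N g a := by
  have : truncTotal N f = truncTotal N g := by
    ext x
    rw [coeff_truncTotal_eq_ite, coeff_truncTotal_eq_ite]
    split_ifs with hx
    · have := h x hx
      rwa [map_sub, sub_eq_zero] at this
    · rfl
  rw [trEval, this, trEval]

/-- comparison of `λ_u` with `λ_x ∘ t_m` -/
theorem app_lambda_aux (hρ0 : 0 < ρ) (hρ1 : ρ < 1) {m₀ : ℕ}
    (hδ : ∀ m ≥ m₀, ∀ i, ‖δ m i‖ ≤ ρ ^ ((p ^ h) ^ m))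
    (L W V : PowerSeries (MvPowerSeries σ K))
    (hV0 : PowerSeries.constantCoeff V = 0)
    (hW : W = V.subst (PowerSeries.X ^ (p ^ h) : PowerSeries (MvPowerSeries σ K)))
    (ha : MvPowerSeries.constantCoeff (PowerSeries.coeff 1 V) ≠ 0)
    (hL : L.subst W = L ^ (p ^ h))
    (mu Wm Vm : ℕ → PowerSeries (OO K))
    (hVm0 : ∀ m, PowerSeries.constantCoeff (Vm m) = 0)
    (hWm : ∀ m, Wm m = (Vm m).subst (PowerSeries.X ^ (p ^ h) : PowerSeries (OO K)))
    (hmuW : ∀ m ≥ m₀, (mu m).subst (Wm m) = (mu m) ^ (p ^ h))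
    (N : ℕ)
    (hWapp : ∀ j, IsA (p ^ h) ρ δ N (PowerSeries.coeff j W)
      (fun m => ((PowerSeries.coeff j (Wm m) : OO K) : K)))
    (hmu : ∀ j, Tendsto (fun m => ((PowerSeries.coeff j (mu m) : OO K) : K)) atTop
      (𝓝 (MvPowerSeries.constantCoeff (PowerSeries.coeff j L))))
    (e q : MvPowerSeries σ K)
    (hq : ∀ d : σ →₀ ℕ, d.degree < N →
      coeff d (q - ∑ j ∈ Finset.range N, PowerSeries.coeff j L * e ^ j) = 0)
    (em : ℕ → OO K) (hem : ∃ C : ℝ, ∀ m ≥ m₀, ‖(em m : K)‖ ≤ C * ρ ^ ((p ^ h) ^ m))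
    (hem1 : ∀ m, ‖(em m : K)‖ < 1)
    (heapp : IsA (p ^ h) ρ δ N e (fun m => (em m : K))) :
    IsA (p ^ h) ρ δ N q (fun m => ((ev1 (em m) (mu m) : OO K) : K)) := by
  have h1 : IsA (p ^ h) ρ δ N (∑ j ∈ Finset.range N, PowerSeries.coeff j L * e ^ j)
      (fun m => ∑ j ∈ Finset.range N,
        ((PowerSeries.coeff j (mu m) : OO K) : K) * (em m : K) ^ j) :=
    IsA.sum (Finset.range N) fun j _ =>
      (isA_coeff hρ0 hρ1 hδ L W V hV0 hW ha hL mu Wm Vm hVm0 hWm hmuW N hWapp hmu j).mul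
        hρ0 hρ1 hδ (heapp.pow hρ0 hρ1 hδ j)
  have h2 : IsA (p ^ h) ρ δ N q (fun m => ∑ j ∈ Finset.range N,
        ((PowerSeries.coeff j (mu m) : OO K) : K) * (em m : K) ^ j) := by
    unfold IsA at h1 ⊢
    have h3 : ∀ m, trEval N q (δ m) =
        trEval N (∑ j ∈ Finset.range N, PowerSeries.coeff j L * e ^ j) (δ m) := fun m =>
      trEval_congr hq (δ m)
    simp only [h3]
    exact h1
  refine Near.trans h2 ?_
  obtain ⟨C, hC⟩ := hem
  refine ⟨|C| ^ N, m₀, fun m hm => ?_⟩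
  have hx := hem1 m
  have hx' : HasEval (fun _ : Unit => em m) := hasEval_OO hx
  have h3 : ((ev1 (em m) (mu m) : OO K) : K) - ∑ j ∈ Finset.range N,
        ((PowerSeries.coeff j (mu m) : OO K) : K) * (em m : K) ^ j =
      ((ev1 (em m) (mu m - ∑ i ∈ Finset.range N,
        PowerSeries.C (PowerSeries.coeff i (mu m)) * PowerSeries.X ^ i) : OO K) : K) := by
    have h4 : ev1 (em m) (mu m - ∑ i ∈ Finset.range N,
        PowerSeries.C (PowerSeries.coeff i (mu m)) * PowerSeries.X ^ i) =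
        ev1 (em m) (mu m) - ∑ j ∈ Finset.range N, PowerSeries.coeff j (mu m) * em m ^ j := by
      rw [← ev1_sum (mu m) (em m) hx N]
      exact ev_sub hx' _ _
    rw [h4]
    simp
  rw [norm_sub_rev, h3]
  have h5 := norm_tail_le (mu m - ∑ i ∈ Finset.range N,
        PowerSeries.C (PowerSeries.coeff i (mu m)) * PowerSeries.X ^ i) (em m) hx N
        (fun j hj => coeff_sub_sum (mu m) N j hj)
  refine h5.trans ?_
  have h6 : ‖(em m : K)‖ ≤ |C| * ρ ^ ((p ^ h) ^ m) :=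
    (hC m hm).trans (mul_le_mul_of_nonneg_right (le_abs_self _) (by positivity))
  calc ‖(em m : K)‖ ^ N ≤ (|C| * ρ ^ ((p ^ h) ^ m)) ^ N :=
        pow_le_pow_left₀ (norm_nonneg _) h6 N
    _ = |C| ^ N * ρ ^ (N * (p ^ h) ^ m) := by rw [mul_pow, ← pow_mul, mul_comm N]

end main

end Vale.Agent.P217.AL
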