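import Mathlib.RingTheory.MvPolynomial.IrreducibleQuadratic
import Vale.Agent.Lib.P217.Rigid
import Vale.Agent.Lib.P217.Taylor
import Vale.Agent.Lib.P217.AppLambda

/-!
# P217: asymptotic evaluation along a sequence tending to `0` at Frobenius speed (module A14)

`K` complete ultrametric of characteristic `p`, `Q = p^h`, `0 < ρ < 1`, and a sequence of points
`δ m ∈ K^σ` with `‖δ m i‖ ≤ ρ^{Q^m}` for large `m`.
`IsApp Q ρ δ N f s` : the value at `δ m` of (the truncation in degrees `< N` of) `f ∈ K[[Δ]]` is `s m`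
up to `O(ρ^{N Q^m})`.

The relation `IsApp` is compatible with ring operations: one may prove this directly, or as follows:
let `S` be the ring of bounded sequences `ℕ → K`, `𝔫_N` the ideal of sequences which are
`O(ρ^{N Q^m})`. The classes of `δ · i` in the `K`-algebra `S/𝔫_N` have the property that all products of
`N` of them vanish; so there is a unique `K`-algebra homomorphism `T_N : K[[Δ]] → S/𝔫_N`,
`Δ_i ↦ δ_i`, killing series of order `≥ N`, and `IsApp N f s` for bounded `s` means that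
`T_N(f)` is the class of `s` (sequences are only considered for large `m`).

`app_lambda` : proof. Let `L^δ_N ∈ (S/𝔫_N)[[X]]` be the image of `L`, and `μ ∈ S[[X]]` the series with coefficients
`coeff j (mu m)`; `W^δ` is the class of `Wm` by `hWapp`. Both `L^δ` and (the class of) `μ` satisfy
`Y(W^δ(X)) = Y(X)^Q`. Since `p = 0` the difference `D = L^δ - μ` satisfies the same equation. Claim `D = 0`:
let `j` be minimal with `D_j ≠ 0`; comparing coefficients of `X^{jQ}` (recall `W^δ(X) = a X^Q + …` in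
powers of `X^Q`, `a = (coeff Q (Wm m))_m`) gives `a^j D_j = D_j^Q`. Choose the representative
`d_m = trEval N (L_j) (δ m) - coeff j (mu m)` of `D_j`; `d_m → 0` by `hmu` (both terms tend to the constant
coefficient of `L_j`), and `‖a_m‖ = ‖a‖ ≠ 0` is constant for large `m` (it tends to the constant coefficient of
`coeff Q W`, which is nonzero). So for large `m`, `‖d_m‖^{Q-1} < ‖a‖^j`, so
`‖a_m^j d_m - d_m^Q‖ = ‖a‖^j ‖d_m‖`, and this is `O(ρ^{N Q^m})`. So `d ∈ 𝔫_N`.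
Finally `T_N(q) = ∑_{j < N} T_N(L_j) T_N(e)^j = ∑_{j<N} μ_j (em)^j` which is `mu m (em m)` up to
`O(ρ^{N Q^m})` as `‖em m‖ ≤ C ρ^{Q^m}` and `mu m` has coefficients in `OO K`.
(If `C > 1` use `‖em m‖^N ≤ C^N ρ^{N Q^m}`, and `‖em m‖ < 1`, so `‖∑_{j ≥ N} ..‖ ≤ ‖em m‖^N`.)
-/

set_option linter.unusedSectionVars false

namespace Vale.Agent.P217

open MvPowerSeries Filter Topology

section
variable {K : Type*} [NontriviallyNormedField K] [IsUltrametricDist K] [CompleteSpace K]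
  {p : ℕ} [Fact p.Prime] [CharP K p] {h : ℕ} [Fact (0 < h)]

/-- `s m` is the value of `f` at `δ m` up to `O(ρ^{N Q^m})`. -/
def IsApp {σ : Type*} [Finite σ] (Q : ℕ) (ρ : ℝ) (δ : ℕ → σ → K) (N : ℕ)
    (f : MvPowerSeries σ K) (s : ℕ → K) : Prop :=
  ∃ C : ℝ, ∃ m₀ : ℕ, ∀ m ≥ m₀, ‖trEval N f (δ m) - s m‖ ≤ C * ρ ^ (N * Q ^ m)

variable {σ : Type*} [Finite σ] {Q : ℕ} {ρ : ℝ} {δ : ℕ → σ → K}

/-- a polynomial all whose monomials have degree `≥ N` has small values at small points -/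
theorem eval_small (N : ℕ) (R : MvPolynomial σ K)
    (hR : ∀ d : σ →₀ ℕ, d.degree < N → R.coeff d = 0) :
    ∃ C : ℝ, 0 ≤ C ∧ ∀ (a : σ → K) (r : ℝ), 0 ≤ r → r ≤ 1 → (∀ i, ‖a i‖ ≤ r) →
      ‖MvPolynomial.eval a R‖ ≤ C * r ^ N := by
  refine ⟨∑ d ∈ R.support, ‖R.coeff d‖, by positivity, fun a r hr0 hr1 ha => ?_⟩
  rw [MvPolynomial.eval_eq, Finset.sum_mul]
  refine (norm_sum_le _ _).trans (Finset.sum_le_sum fun d hd => ?_)
  have hdN : N ≤ d.degree := by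
    by_contra hc
    exact (MvPolynomial.mem_support_iff.mp hd) (hR d (not_le.mp hc))
  rw [norm_mul, norm_prod]
  refine mul_le_mul_of_nonneg_left ?_ (norm_nonneg _)
  have h1 : ∏ i ∈ d.support, ‖a i ^ d i‖ ≤ ∏ i ∈ d.support, r ^ d i :=
    Finset.prod_le_prod (fun _ _ => norm_nonneg _) (fun i _ => by
      rw [norm_pow]; exact pow_le_pow_left₀ (norm_nonneg _) (ha i) _)
  refine h1.trans ?_
  rw [Finset.prod_pow_eq_pow_sum]
  exact pow_le_pow_of_le_one hr0 hr1 hdN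

section ring

theorem trEval_add (N : ℕ) (f g : MvPowerSeries σ K) (a : σ → K) :
    trEval N (f + g) a = trEval N f a + trEval N g a := by
  simp [trEval]

theorem trEval_congr (N : ℕ) {f g : MvPowerSeries σ K}
    (h : ∀ d : σ →₀ ℕ, d.degree < N → coeff d f = coeff d g) (a : σ → K) :
    trEval N f a = trEval N g a := by
  unfold trEval
  congr 1
  ext d
  by_cases hd : d.degree < N
  · rw [coeff_truncTotal _ hd, coeff_truncTotal _ hd, h d hd]
  · rw [coeff_truncTotal_eq_zero _ (not_lt.mp hd), coeff_truncTotal_eq_zero _ (not_lt.mp hd)]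

/-- the truncated values are bounded on the unit ball -/
theorem trEval_bdd (N : ℕ) (f : MvPowerSeries σ K) :
    ∃ C : ℝ, 0 ≤ C ∧ ∀ a : σ → K, (∀ i, ‖a i‖ ≤ 1) → ‖trEval N f a‖ ≤ C := by
  obtain ⟨C, hC, h⟩ := eval_small 0 (truncTotal N f) (fun d hd => absurd hd (Nat.not_lt_zero _))
  exact ⟨C, hC, fun a ha => by simpa [trEval] using h a 1 zero_le_one le_rfl ha⟩

/-- truncated values are multiplicative up to small quantities -/
theorem trEval_mul (N : ℕ) (f g : MvPowerSeries σ K) :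
    ∃ C : ℝ, 0 ≤ C ∧ ∀ (a : σ → K) (r : ℝ), 0 ≤ r → r ≤ 1 → (∀ i, ‖a i‖ ≤ r) →
      ‖trEval N (f * g) a - trEval N f a * trEval N g a‖ ≤ C * r ^ N := by
  obtain ⟨C, hC, h⟩ := eval_small N (truncTotal N (f * g) - truncTotal N f * truncTotal N g)
    (fun d hd => by
      rw [MvPolynomial.coeff_sub, coeff_truncTotal _ hd,
        coeff_truncTotal_mul_truncTotal_eq_coeff_mul _ _ hd, sub_self])
  refine ⟨C, hC, fun a r hr0 hr1 ha => ?_⟩
  have := h a r hr0 hr1 ha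
  simpa [trEval] using this

/-- a truncated value of a series starting in degree `k` -/
theorem trEval_small (N k : ℕ) (f : MvPowerSeries σ K)
    (hf : ∀ d : σ →₀ ℕ, d.degree < k → coeff d f = 0) :
    ∃ C : ℝ, 0 ≤ C ∧ ∀ (a : σ → K) (r : ℝ), 0 ≤ r → r ≤ 1 → (∀ i, ‖a i‖ ≤ r) →
      ‖trEval N f a‖ ≤ C * r ^ k :=
  eval_small k (truncTotal N f) (fun d hd => by
    by_cases hd' : d.degree < N
    · rw [coeff_truncTotal _ hd', hf d hd]
    · rw [coeff_truncTotal_eq_zero _ (not_lt.mp hd')])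

theorem IsApp.congr {N : ℕ} {f g : MvPowerSeries σ K} {s t : ℕ → K} {m₀ : ℕ}
    (h : ∀ d : σ →₀ ℕ, d.degree < N → coeff d f = coeff d g) (hst : ∀ m ≥ m₀, s m = t m)
    (hf : IsApp Q ρ δ N f s) : IsApp Q ρ δ N g t := by
  obtain ⟨C, m₁, h1⟩ := hf
  refine ⟨C, max m₀ m₁, fun m hm => ?_⟩
  rw [← trEval_congr N h, ← hst m (le_of_max_le_left hm)]
  exact h1 m (le_of_max_le_right hm)

theorem IsApp.add {N : ℕ} {f g : MvPowerSeries σ K} {s t : ℕ → K}
    (hf : IsApp Q ρ δ N f s) (hg : IsApp Q ρ δ N g t) :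
    IsApp Q ρ δ N (f + g) (fun m => s m + t m) := by
  obtain ⟨C, m₁, h1⟩ := hf
  obtain ⟨D, m₂, h2⟩ := hg
  refine ⟨C + D, max m₁ m₂, fun m hm => ?_⟩
  have e : trEval N (f + g) (δ m) - (s m + t m) =
      (trEval N f (δ m) - s m) + (trEval N g (δ m) - t m) := by
    rw [trEval_add]; ring
  rw [e, add_mul]
  exact (norm_add_le _ _).trans
    (add_le_add (h1 m (le_of_max_le_left hm)) (h2 m (le_of_max_le_right hm)))

theorem IsApp.neg {N : ℕ} {f : MvPowerSeries σ K} {s : ℕ → K}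
    (hf : IsApp Q ρ δ N f s) : IsApp Q ρ δ N (-f) (fun m => -s m) := by
  obtain ⟨C, m₁, h1⟩ := hf
  refine ⟨C, m₁, fun m hm => ?_⟩
  have e : trEval N (-f) (δ m) - (-s m) = -(trEval N f (δ m) - s m) := by
    simp [trEval]; ring
  rw [e, norm_neg]
  exact h1 m hm

theorem IsApp.sub {N : ℕ} {f g : MvPowerSeries σ K} {s t : ℕ → K}
    (hf : IsApp Q ρ δ N f s) (hg : IsApp Q ρ δ N g t) :
    IsApp Q ρ δ N (f - g) (fun m => s m - t m) := by
  have := hf.add hg.neg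
  simpa only [← sub_eq_add_neg] using this

theorem isApp_zero (N : ℕ) : IsApp Q ρ δ N (0 : MvPowerSeries σ K) (fun _ => 0) :=
  ⟨0, 0, fun m _ => by simp [trEval]⟩

theorem isApp_C (N : ℕ) (c : K) : IsApp Q ρ δ N (C c : MvPowerSeries σ K) (fun _ => c) := by
  rcases Nat.eq_zero_or_pos N with hN | hN
  · subst hN
    refine ⟨‖c‖, 0, fun m _ => ?_⟩
    have h0 : truncTotal 0 (C c : MvPowerSeries σ K) = 0 := by
      ext d; rw [coeff_truncTotal_eq_zero _ (Nat.zero_le _), MvPolynomial.coeff_zero]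
    rw [trEval, h0]
    simp
  · refine ⟨0, 0, fun m _ => ?_⟩
    have h0 : truncTotal N (C c : MvPowerSeries σ K) = MvPolynomial.C c := by
      classical
      ext d
      rw [coeff_truncTotal_eq_ite, MvPowerSeries.coeff_C, MvPolynomial.coeff_C]
      by_cases hd : d = 0
      · subst hd; simp [hN]
      · have hd' : (0 : σ →₀ ℕ) ≠ d := fun h => hd h.symm
        simp only [if_neg hd, if_neg hd', ite_self]
    rw [trEval, h0]
    simp

theorem pow_Q_le_one (hρ0 : 0 < ρ) (hρ1 : ρ < 1) (m : ℕ) : ρ ^ (Q ^ m) ≤ 1 :=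
  pow_le_one₀ hρ0.le hρ1.le

theorem IsApp.bdd (hρ0 : 0 < ρ) (hρ1 : ρ < 1) {m₀ : ℕ}
    (hδ : ∀ m ≥ m₀, ∀ i, ‖δ m i‖ ≤ ρ ^ (Q ^ m)) {N : ℕ} {f : MvPowerSeries σ K} {s : ℕ → K}
    (hf : IsApp Q ρ δ N f s) : ∃ C : ℝ, 0 ≤ C ∧ ∃ m₁ : ℕ, ∀ m ≥ m₁, ‖s m‖ ≤ C := by
  obtain ⟨C, m₁, h1⟩ := hf
  obtain ⟨D, hD, h2⟩ := trEval_bdd N f
  refine ⟨D + |C|, by positivity, max m₀ m₁, fun m hm => ?_⟩
  have e : s m = trEval N f (δ m) - (trEval N f (δ m) - s m) := by ring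
  rw [e]
  refine (norm_sub_le _ _).trans (add_le_add ?_ ?_)
  · exact h2 _ (fun i => (hδ m (le_of_max_le_left hm) i).trans (pow_Q_le_one hρ0 hρ1 m))
  · refine (h1 m (le_of_max_le_right hm)).trans ?_
    have h3 : ρ ^ (N * Q ^ m) ≤ 1 := pow_le_one₀ hρ0.le hρ1.le
    have h4 : 0 ≤ ρ ^ (N * Q ^ m) := by positivity
    calc C * ρ ^ (N * Q ^ m) ≤ |C| * ρ ^ (N * Q ^ m) :=
          mul_le_mul_of_nonneg_right (le_abs_self C) h4
      _ ≤ |C| * 1 := mul_le_mul_of_nonneg_left h3 (abs_nonneg C)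
      _ = |C| := mul_one _

theorem IsApp.mul (hρ0 : 0 < ρ) (hρ1 : ρ < 1) {m₀ : ℕ}
    (hδ : ∀ m ≥ m₀, ∀ i, ‖δ m i‖ ≤ ρ ^ (Q ^ m)) {N : ℕ} {f g : MvPowerSeries σ K} {s t : ℕ → K}
    (hf : IsApp Q ρ δ N f s) (hg : IsApp Q ρ δ N g t) :
    IsApp Q ρ δ N (f * g) (fun m => s m * t m) := by
  obtain ⟨B, hB, m₃, h3⟩ := hg.bdd hρ0 hρ1 hδ
  obtain ⟨C, m₁, h1⟩ := hf
  obtain ⟨D, m₂, h2⟩ := hg
  obtain ⟨A, hA, h4⟩ := trEval_bdd N f
  obtain ⟨E, hE, h5⟩ := trEval_mul N f g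
  refine ⟨E + A * |D| + |C| * B, max (max m₀ m₁) (max m₂ m₃), fun m hm => ?_⟩
  have hm0 : m ≥ m₀ := (le_max_left _ _).trans ((le_max_left _ _).trans hm)
  have hm1 : m ≥ m₁ := (le_max_right _ _).trans ((le_max_left _ _).trans hm)
  have hm2 : m ≥ m₂ := (le_max_left _ _).trans ((le_max_right _ _).trans hm)
  have hm3 : m ≥ m₃ := (le_max_right _ _).trans ((le_max_right _ _).trans hm)
  have hr0 : 0 ≤ ρ ^ (Q ^ m) := by positivity
  have hR : 0 ≤ ρ ^ (N * Q ^ m) := by positivity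
  have e : trEval N (f * g) (δ m) - s m * t m =
      (trEval N (f * g) (δ m) - trEval N f (δ m) * trEval N g (δ m)) +
      trEval N f (δ m) * (trEval N g (δ m) - t m) + (trEval N f (δ m) - s m) * t m := by ring
  rw [e]
  have b1 : ‖trEval N (f * g) (δ m) - trEval N f (δ m) * trEval N g (δ m)‖ ≤
      E * ρ ^ (N * Q ^ m) := by
    have := h5 (δ m) _ hr0 (pow_Q_le_one hρ0 hρ1 m) (hδ m hm0)
    rwa [← pow_mul, mul_comm (Q ^ m) N] at this
  have b2 : ‖trEval N f (δ m) * (trEval N g (δ m) - t m)‖ ≤ A * |D| * ρ ^ (N * Q ^ m) := by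
    rw [norm_mul, mul_assoc]
    exact mul_le_mul (h4 _ (fun i => (hδ m hm0 i).trans (pow_Q_le_one hρ0 hρ1 m)))
      ((h2 m hm2).trans (mul_le_mul_of_nonneg_right (le_abs_self D) hR)) (norm_nonneg _) hA
  have b3 : ‖(trEval N f (δ m) - s m) * t m‖ ≤ |C| * B * ρ ^ (N * Q ^ m) := by
    rw [norm_mul, mul_assoc, mul_comm B, ← mul_assoc]
    exact mul_le_mul ((h1 m hm1).trans (mul_le_mul_of_nonneg_right (le_abs_self C) hR))
      (h3 m hm3) (norm_nonneg _) (mul_nonneg (abs_nonneg C) hR)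
  rw [add_mul, add_mul]
  exact (norm_add_le _ _).trans (add_le_add ((norm_add_le _ _).trans (add_le_add b1 b2)) b3)

theorem IsApp.sum {N : ℕ} {ι : Type*} (I : Finset ι) {f : ι → MvPowerSeries σ K}
    {s : ι → ℕ → K} (hf : ∀ i ∈ I, IsApp Q ρ δ N (f i) (s i)) :
    IsApp Q ρ δ N (∑ i ∈ I, f i) (fun m => ∑ i ∈ I, s i m) := by
  classical
  induction I using Finset.induction_on with
  | empty => simpa using isApp_zero N
  | insert a I ha ih =>
    simp only [Finset.sum_insert ha]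
    exact (hf a (Finset.mem_insert_self a I)).add
      (ih (fun i hi => hf i (Finset.mem_insert_of_mem hi)))

theorem IsApp.pow (hρ0 : 0 < ρ) (hρ1 : ρ < 1) {m₀ : ℕ}
    (hδ : ∀ m ≥ m₀, ∀ i, ‖δ m i‖ ≤ ρ ^ (Q ^ m)) {N : ℕ} {f : MvPowerSeries σ K} {s : ℕ → K}
    (hf : IsApp Q ρ δ N f s) (n : ℕ) : IsApp Q ρ δ N (f ^ n) (fun m => s m ^ n) := by
  induction n with
  | zero =>
    have := isApp_C (Q := Q) (ρ := ρ) (δ := δ) N (1 : K)
    simpa using this
  | succ n ih =>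
    simp only [pow_succ]
    exact ih.mul hρ0 hρ1 hδ hf

end ring

/-- series over `OO K` can be evaluated exactly -/
theorem isApp_of_OO {r : ℕ} (hQ : 2 ≤ Q) (hρ0 : 0 < ρ) (hρ1 : ρ < 1) {δ : ℕ → Fin r → OO K}
    {m₀ : ℕ} (hδ : ∀ m ≥ m₀, ∀ i, ‖(δ m i : K)‖ ≤ ρ ^ (Q ^ m)) (N : ℕ)
    (g : MvPowerSeries (Fin r) (OO K)) :
    IsApp Q ρ (fun m i => (δ m i : K)) N (g.map (OO K).subtype)
      (fun m => ((ev (δ m) g : OO K) : K)) := by
  refine ⟨1, m₀, fun m hm => ?_⟩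
  have hQm : Q ^ m ≠ 0 := pow_ne_zero _ (by omega)
  have hlt : ρ ^ (Q ^ m) < 1 := pow_lt_one₀ hρ0.le hρ1 hQm
  have hr0 : 0 ≤ ρ ^ (Q ^ m) := by positivity
  have hE : HasEval (δ m) :=
    hasEval_of_finite (fun i => tn_iff.mpr ((hδ m hm i).trans_lt hlt))
  -- the truncation
  have h1 : trEval N (g.map (OO K).subtype) (fun i => (δ m i : K)) =
      ((ev (δ m) ((truncTotal N g : MvPolynomial (Fin r) (OO K)) :
        MvPowerSeries (Fin r) (OO K)) : OO K) : K) := by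
    have h2 : truncTotal N (g.map (OO K).subtype) =
        MvPolynomial.map (OO K).subtype (truncTotal N g) := by
      ext d
      rw [MvPolynomial.coeff_map]
      by_cases hd : d.degree < N
      · rw [coeff_truncTotal _ hd, coeff_truncTotal _ hd, MvPowerSeries.coeff_map]
      · rw [coeff_truncTotal_eq_zero _ (not_lt.mp hd), coeff_truncTotal_eq_zero _ (not_lt.mp hd),
          map_zero]
    have h3 : ev (δ m) ((truncTotal N g : MvPolynomial (Fin r) (OO K)) :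
        MvPowerSeries (Fin r) (OO K)) = MvPolynomial.eval (δ m) (truncTotal N g) := by
      unfold ev evR
      have := @MvPowerSeries.eval₂_coe (Fin r) (OO K) _ ⊥ (OO K) _ _
        (algebraMap (OO K) (OO K)) (δ m) (truncTotal N g)
      exact this
    rw [trEval, h2, h3, MvPolynomial.eval_map]
    exact (MvPolynomial.eval₂_comp_left (OO K).subtype (RingHom.id _) (δ m) (truncTotal N g)).symm
  have h4 : ∀ x y : OO K, (x : K) - (y : K) = ((x - y : OO K) : K) := fun _ _ => rfl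
  simp only
  rw [h1, h4, ← ev_sub hE, one_mul, mul_comm N, pow_mul]
  refine norm_ev_le hlt hr0 (hδ m hm) _ N (fun d hd => ?_)
  rw [map_sub, MvPolynomial.coeff_coe, coeff_truncTotal _ hd, sub_self]

/-- composition with a power series `Ψ` -/
theorem isApp_subst (hQ : 2 ≤ Q) (hρ0 : 0 < ρ) (hρ1 : ρ < 1) {m₀ : ℕ}
    (hδ : ∀ m ≥ m₀, ∀ i, ‖δ m i‖ ≤ ρ ^ (Q ^ m)) {τ : Type*} [Finite τ] (N : ℕ)
    (q : τ → MvPowerSeries σ K) (hq0 : ∀ i, constantCoeff (q i) = 0) (s : τ → ℕ → K)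
    (hs : ∀ i, ∃ C : ℝ, ∀ m ≥ m₀, ‖s i m‖ ≤ C * ρ ^ (Q ^ m))
    (hq : ∀ i, IsApp Q ρ δ N (q i) (s i)) (Ψ : MvPowerSeries τ K) :
    IsApp Q ρ δ N (subst q Ψ) (fun m => trEval N Ψ (fun i => s i m)) := by
  have key : ∀ P : MvPolynomial τ K,
      IsApp Q ρ δ N (subst q (P : MvPowerSeries τ K))
        (fun m => MvPolynomial.eval (fun i => s i m) P) := by
    intro P
    rw [subst_coe]
    induction P using MvPolynomial.induction_on with
    | C a =>
      rw [MvPolynomial.aeval_C]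
      simp only [MvPolynomial.eval_C]
      exact isApp_C N a
    | add P R hP hR =>
      simp only [map_add]
      exact hP.add hR
    | mul_X P i hP =>
      simp only [map_mul, MvPolynomial.aeval_X, MvPolynomial.eval_X]
      exact hP.mul hρ0 hρ1 hδ (hq i)
  have h1 := key (truncTotal N Ψ)
  refine IsApp.congr (m₀ := 0) (fun d hd => ?_) (fun m _ => rfl) h1
  have h2 := truncTotal_subst_eq_truncTotal_truncTotal_subst (k := N) (f := Ψ) hq0
  rw [← coeff_truncTotal _ hd, ← coeff_truncTotal (subst q Ψ) hd, h2]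

/-- comparison of `λ_u` with `λ_x ∘ t_m` -/
theorem app_lambda (hρ0 : 0 < ρ) (hρ1 : ρ < 1) {m₀ : ℕ}
    (hδ : ∀ m ≥ m₀, ∀ i, ‖δ m i‖ ≤ ρ ^ ((p ^ h) ^ m))
    (L W V : PowerSeries (MvPowerSeries σ K))
    (hV0 : PowerSeries.constantCoeff V = 0)
    (hW : W = V.subst (PowerSeries.X ^ (p ^ h) : PowerSeries (MvPowerSeries σ K)))
    (ha : MvPowerSeries.constantCoeff (PowerSeries.coeff 1 V) ≠ 0)
    (hL0 : PowerSeries.constantCoeff L = 0) (hL : L.subst W = L ^ (p ^ h))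
    (mu Wm Vm : ℕ → PowerSeries (OO K))
    (hVm0 : ∀ m, PowerSeries.constantCoeff (Vm m) = 0)
    (hWm : ∀ m, Wm m = (Vm m).subst (PowerSeries.X ^ (p ^ h) : PowerSeries (OO K)))
    (hmu0 : ∀ m, PowerSeries.constantCoeff (mu m) = 0)
    (hmuW : ∀ m ≥ m₀, (mu m).subst (Wm m) = (mu m) ^ (p ^ h))
    (hWapp : ∀ N j, IsApp (p ^ h) ρ δ N (PowerSeries.coeff j W)
      (fun m => ((PowerSeries.coeff j (Wm m) : OO K) : K)))
    (hmu : ∀ j, Tendsto (fun m => ((PowerSeries.coeff j (mu m) : OO K) : K)) atTop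
      (𝓝 (MvPowerSeries.constantCoeff (PowerSeries.coeff j L))))
    (e q : MvPowerSeries σ K) (he0 : constantCoeff e = 0)
    (hq : ∀ N, ∀ d : σ →₀ ℕ, d.degree < N →
      coeff d (q - ∑ j ∈ Finset.range N, PowerSeries.coeff j L * e ^ j) = 0)
    (em : ℕ → OO K) (hem : ∃ C : ℝ, ∀ m ≥ m₀, ‖(em m : K)‖ ≤ C * ρ ^ ((p ^ h) ^ m))
    (hem1 : ∀ m, ‖(em m : K)‖ < 1)
    (heapp : ∀ N, IsApp (p ^ h) ρ δ N e (fun m => (em m : K))) (N : ℕ) :
    IsApp (p ^ h) ρ δ N q (fun m => ((ev1 (em m) (mu m) : OO K) : K)) :=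
  AL.app_lambda_aux hρ0 hρ1 hδ L W V hV0 hW ha hL mu Wm Vm hVm0 hWm hmuW N (hWapp N) hmu e q
    (hq N) em hem hem1 (heapp N)

end
end Vale.Agent.P217
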