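import Mathlib.Data.Int.ConditionallyCompleteOrder
import Mathlib.Data.Int.Star
import Mathlib.Order.CompletePartialOrder
import Mathlib.RingTheory.MvPowerSeries.Expand
import Vale.Agent.Lib.P217.Formal

/-!
# P217: existence of the Honda formal group law over `ℤ`
-/

set_option linter.unusedSectionVars false

namespace Vale.Agent.P217.HondaEx

open MvPowerSeries

/-- the logarithm `∑_k X^{p^{nk}} / p^k` -/
noncomputable def hl (p n : ℕ) : PowerSeries ℚ :=
  PowerSeries.mk fun i => ∑ k ∈ Finset.range (i + 1), if i = p ^ (n * k) then ((p : ℚ) ^ k)⁻¹ else 0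

variable {p n : ℕ} [Fact p.Prime] (hn : 0 < n)

include hn in
theorem lt_Q (k : ℕ) : k < p ^ (n * k) := by
  have hp := (Fact.out : p.Prime).one_lt
  calc k < p ^ k := Nat.lt_pow_self hp
    _ ≤ p ^ (n * k) := Nat.pow_le_pow_right (by omega) (Nat.le_mul_of_pos_left k hn)

include hn in
theorem Q_inj {k l : ℕ} (h : p ^ (n * k) = p ^ (n * l)) : k = l := by
  have hp := (Fact.out : p.Prime).one_lt
  have := Nat.pow_right_injective hp h
  exact Nat.eq_of_mul_eq_mul_left hn this

include hn in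
theorem coeff_hl_Q (k : ℕ) : PowerSeries.coeff (p ^ (n * k)) (hl p n) = ((p : ℚ) ^ k)⁻¹ := by
  rw [hl, PowerSeries.coeff_mk, Finset.sum_eq_single k]
  · simp
  · intro l _ hl
    rw [if_neg]
    intro h
    exact hl (Q_inj hn h).symm
  · intro h
    exfalso
    apply h
    rw [Finset.mem_range]
    have := lt_Q (p := p) hn k
    omega

theorem coeff_hl_ne {i : ℕ} (h : PowerSeries.coeff i (hl p n) ≠ 0) : ∃ k, i = p ^ (n * k) := by
  rw [hl, PowerSeries.coeff_mk] at h
  obtain ⟨k, _, hk⟩ := Finset.exists_ne_zero_of_sum_ne_zero h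
  refine ⟨k, ?_⟩
  by_contra hcon
  rw [if_neg hcon] at hk
  exact hk rfl

theorem constantCoeff_hl : PowerSeries.constantCoeff (hl p n) = 0 := by
  rw [← PowerSeries.coeff_zero_eq_constantCoeff_apply]
  by_contra h
  obtain ⟨k, hk⟩ := coeff_hl_ne h
  have : 0 < p ^ (n * k) := pow_pos (Fact.out : p.Prime).pos _
  omega

variable {σ : Type*}

theorem hs {A : MvPowerSeries σ ℚ} (hA : constantCoeff A = 0) : PowerSeries.HasSubst A :=
  PowerSeries.HasSubst.of_constantCoeff_zero hA

include hn in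
/-- coefficients of `f(A)` -/
theorem coeff_f {A : MvPowerSeries σ ℚ} (hA : constantCoeff A = 0) (e : σ →₀ ℕ) :
    coeff e ((hl p n).subst A) =
      ∑ k ∈ Finset.range (e.degree + 1), coeff e (A ^ (p ^ (n * k))) / (p : ℚ) ^ k := by
  classical
  rw [PowerSeries.coeff_subst (hs hA)]
  rw [finsum_eq_sum_of_support_subset (s := (Finset.range (e.degree + 1)).image
    (fun k => p ^ (n * k)))]
  · rw [Finset.sum_image (fun k _ l _ h => Q_inj hn h)]
    apply Finset.sum_congr rfl
    intro k _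
    rw [coeff_hl_Q hn, smul_eq_mul]
    ring
  · intro d hd
    rw [Function.mem_support] at hd
    have h1 : PowerSeries.coeff d (hl p n) ≠ 0 := by
      intro h; apply hd; rw [h, zero_smul]
    have h2 : coeff e (A ^ d) ≠ 0 := by
      intro h; apply hd; rw [h, smul_zero]
    obtain ⟨k, rfl⟩ := coeff_hl_ne h1
    have h3 : (p ^ (n * k) : ℕ) ≤ e.degree := by
      have h4 := le_order_pow_of_constantCoeff_eq_zero (f := A) (p ^ (n * k)) hA
      have h5 := order_le h2
      exact_mod_cast h4.trans h5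
    have h4 := lt_Q (p := p) hn k
    simp only [Finset.coe_image, Set.mem_image, Finset.mem_coe, Finset.mem_range]
    exact ⟨k, by omega, rfl⟩

theorem coeff_pow_eq_zero {A : MvPowerSeries σ ℚ} (hA : constantCoeff A = 0) {e : σ →₀ ℕ} {m : ℕ}
    (hm : e.degree < m) : coeff e (A ^ m) = 0 := by
  by_contra h
  have h4 := le_order_pow_of_constantCoeff_eq_zero (f := A) m hA
  have h5 := order_le h
  have h6 : m ≤ e.degree := by exact_mod_cast h4.trans h5
  omega

theorem const_pow {R : Type*} [CommRing R] {A : MvPowerSeries σ R} (hA : constantCoeff A = 0)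
    {m : ℕ} (hm : m ≠ 0) : constantCoeff (A ^ m) = 0 := by
  rw [map_pow, hA, zero_pow hm]

theorem q_ne : p ^ n ≠ 0 := pow_ne_zero n (Fact.out : p.Prime).ne_zero

include hn in
theorem two_le_q : 2 ≤ p ^ n := by
  have hp := (Fact.out : p.Prime).two_le
  calc 2 ≤ p := hp
    _ = p ^ 1 := (pow_one p).symm
    _ ≤ p ^ n := Nat.pow_le_pow_right (by omega) hn

include hn in
/-- `f(A) = A + f(A^q)/p` -/
theorem f_eq {A : MvPowerSeries σ ℚ} (hA : constantCoeff A = 0) :
    (hl p n).subst A = A + (p : ℚ)⁻¹ • (hl p n).subst (A ^ (p ^ n)) := by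
  ext e
  have hp0 : (p : ℚ) ≠ 0 := by exact_mod_cast (Fact.out : p.Prime).ne_zero
  rw [map_add, coeff_smul, coeff_f hn hA, coeff_f hn (const_pow hA q_ne),
    Finset.sum_range_succ', Finset.sum_range_succ]
  have h1 : coeff e ((A ^ p ^ n) ^ p ^ (n * e.degree)) = 0 := by
    apply coeff_pow_eq_zero (const_pow hA q_ne)
    exact lt_Q hn _
  rw [h1, zero_div, add_zero, mul_zero, pow_zero, pow_one, pow_zero, div_one, add_comm]
  congr 1
  rw [Finset.mul_sum]
  apply Finset.sum_congr rfl
  intro k _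
  rw [← pow_mul, ← pow_add, show n * (k + 1) = n + n * k by ring, pow_succ]
  field_simp

/-- `f(A)` and expansion -/
theorem f_expand {A : MvPowerSeries σ ℚ} (hA : constantCoeff A = 0) :
    expand (p ^ n) q_ne ((hl p n).subst A) = (hl p n).subst (expand (p ^ n) q_ne A) :=
  expand_subst (p ^ n) q_ne (hs hA).const

theorem const_expand {R : Type*} [CommRing R] {A : MvPowerSeries σ R}
    (hA : constantCoeff A = 0) : constantCoeff (expand (p ^ n) q_ne A) = 0 := by
  rw [constantCoeff_expand, hA]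

theorem geom_const {R : Type*} [CommRing R] {A B : MvPowerSeries σ R}
    (hA : constantCoeff A = 0) (hB : constantCoeff B = 0) {m : ℕ} (hm : 2 ≤ m) :
    constantCoeff (∑ i ∈ Finset.range m, A ^ i * B ^ (m - 1 - i)) = 0 := by
  rw [map_sum]
  apply Finset.sum_eq_zero
  intro i hi
  rw [map_mul, map_pow, map_pow, hA, hB]
  by_cases h : i = 0
  · subst h
    rw [zero_pow (by omega : m - 1 - 0 ≠ 0), mul_zero]
  · rw [zero_pow h, zero_mul]

theorem pow_sub_order {A B : MvPowerSeries σ ℚ}
    (hA : constantCoeff A = 0) (hB : constantCoeff B = 0) {m : ℕ} (hm : 2 ≤ m) {d : ℕ}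
    (hd : (d : ℕ∞) ≤ (A - B).order) : ((d + 1 : ℕ) : ℕ∞) ≤ (A ^ m - B ^ m).order := by
  rw [← geom_sum₂_mul]
  have h1 : (1 : ℕ∞) ≤ (∑ i ∈ Finset.range m, A ^ i * B ^ (m - 1 - i)).order :=
    one_le_order_iff_constCoeff_eq_zero.2 (geom_const hA hB hm)
  refine le_trans ?_ le_order_mul
  push_cast
  rw [add_comm]
  exact add_le_add h1 hd

include hn in
/-- `f(A) - f(B) = A - B` up to terms of higher degree -/
theorem f_sub_order {A B : MvPowerSeries σ ℚ}
    (hA : constantCoeff A = 0) (hB : constantCoeff B = 0) {d : ℕ}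
    (hd : (d : ℕ∞) ≤ (A - B).order) :
    ((d + 1 : ℕ) : ℕ∞) ≤ ((hl p n).subst A - (hl p n).subst B - (A - B)).order := by
  apply nat_le_order
  intro e he
  rw [map_sub, map_sub, coeff_f hn hA, coeff_f hn hB, ← Finset.sum_sub_distrib,
    Finset.sum_range_succ']
  have h1 : ∀ k ∈ Finset.range e.degree, coeff e (A ^ p ^ (n * (k + 1))) / (p : ℚ) ^ (k + 1) -
      coeff e (B ^ p ^ (n * (k + 1))) / (p : ℚ) ^ (k + 1) = 0 := by
    intro k _
    rw [← sub_div, ← map_sub]
    have h2 : 2 ≤ p ^ (n * (k + 1)) := by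
      have := lt_Q (p := p) hn (k + 1)
      omega
    have h3 := pow_sub_order hA hB h2 hd
    rw [coeff_of_lt_order (lt_of_lt_of_le (by exact_mod_cast he) h3), zero_div]
  rw [Finset.sum_eq_zero h1]
  simp

include hn in
theorem f_sub_order' {A B : MvPowerSeries σ ℚ}
    (hA : constantCoeff A = 0) (hB : constantCoeff B = 0) {d : ℕ}
    (hd : (d : ℕ∞) ≤ (A - B).order) :
    (d : ℕ∞) ≤ ((hl p n).subst A - (hl p n).subst B).order := by
  have h1 := f_sub_order (p := p) hn hA hB hd
  have h2 : (hl p n).subst A - (hl p n).subst B =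
      ((hl p n).subst A - (hl p n).subst B - (A - B)) + (A - B) := by ring
  rw [h2]
  refine le_trans (le_min ?_ hd) min_order_le_add
  exact le_trans (by exact_mod_cast Nat.le_succ d) h1

/-- divisibility by an integer, coefficientwise -/
theorem natCast_dvd_iff {A : MvPowerSeries σ ℤ} {m : ℕ} :
    ((m : ℕ) : MvPowerSeries σ ℤ) ∣ A ↔ ∀ e, (m : ℤ) ∣ coeff e A := by
  have hC : ((m : ℕ) : MvPowerSeries σ ℤ) = C (m : ℤ) := by simp
  rw [hC]
  constructor
  · rintro ⟨B, rfl⟩ e
    rw [coeff_C_mul]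
    exact dvd_mul_right _ _
  · intro h
    choose b hb using h
    let B : MvPowerSeries σ ℤ := fun e => b e
    have hB : ∀ e, coeff e B = b e := fun _ => rfl
    refine ⟨B, ?_⟩
    ext e
    rw [coeff_C_mul, hB, hb]

/-- the ring homomorphism to `ℚ` -/
noncomputable abbrev toQ : MvPowerSeries σ ℤ →+* MvPowerSeries σ ℚ :=
  MvPowerSeries.map (Int.castRingHom ℚ)

theorem toQ_injective : Function.Injective (toQ : MvPowerSeries σ ℤ → MvPowerSeries σ ℚ) := by
  intro A B h
  ext e
  have := congrArg (coeff e) h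
  rw [coeff_map, coeff_map] at this
  simpa using this

include hn in
/-- the congruence lemma: `A ≡ B` modulo `p` implies `f(A) ≡ f(B)` modulo `p` -/
theorem f_congr {A B : MvPowerSeries σ ℤ} (hA : constantCoeff A = 0) (hB : constantCoeff B = 0)
    (h : ((p : ℕ) : MvPowerSeries σ ℤ) ∣ A - B) (e : σ →₀ ℕ) :
    ∃ z : ℤ, coeff e ((hl p n).subst (toQ A) - (hl p n).subst (toQ B)) = p * z := by
  have hp0 : (p : ℚ) ≠ 0 := by exact_mod_cast (Fact.out : p.Prime).ne_zero
  have hA' : constantCoeff (toQ A) = 0 := by simp [constantCoeff_map, hA]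
  have hB' : constantCoeff (toQ B) = 0 := by simp [constantCoeff_map, hB]
  rw [map_sub, coeff_f hn hA', coeff_f hn hB', ← Finset.sum_sub_distrib]
  have h1 : ∀ k, ∃ z : ℤ, coeff e ((toQ A) ^ p ^ (n * k)) / (p : ℚ) ^ k -
      coeff e ((toQ B) ^ p ^ (n * k)) / (p : ℚ) ^ k = p * z := by
    intro k
    have h2 : ((p : MvPowerSeries σ ℤ) ^ (n * k + 1)) ∣ A ^ p ^ (n * k) - B ^ p ^ (n * k) :=
      dvd_sub_pow_of_dvd_sub h (n * k)
    have h3 : ((p : MvPowerSeries σ ℤ) ^ (k + 1)) ∣ A ^ p ^ (n * k) - B ^ p ^ (n * k) :=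
      (pow_dvd_pow _ (by have := Nat.le_mul_of_pos_left k hn; omega)).trans h2
    have h4 : (((p ^ (k + 1) : ℕ)) : MvPowerSeries σ ℤ) ∣ A ^ p ^ (n * k) - B ^ p ^ (n * k) := by
      rw [Nat.cast_pow]; exact h3
    obtain ⟨z, hz⟩ := natCast_dvd_iff.1 h4 e
    refine ⟨z, ?_⟩
    rw [← sub_div, ← map_sub, ← map_pow, ← map_pow, ← map_sub, coeff_map, hz]
    have : (Int.castRingHom ℚ) (((p ^ (k + 1) : ℕ) : ℤ) * z) = (p : ℚ) ^ (k + 1) * z := by
      simp
    rw [this, pow_succ]
    field_simp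
  choose z hz using h1
  refine ⟨∑ k ∈ Finset.range (e.degree + 1), z k, ?_⟩
  rw [Finset.sum_congr rfl (fun k _ => hz k), ← Finset.mul_sum]
  push_cast
  rfl

/-- Frobenius congruence -/
theorem expand_congr (A : MvPowerSeries σ ℤ) :
    ((p : ℕ) : MvPowerSeries σ ℤ) ∣ expand (p ^ n) q_ne A - A ^ (p ^ n) := by
  have hp := (Fact.out : p.Prime)
  rw [natCast_dvd_iff]
  intro e
  rw [← ZMod.intCast_zmod_eq_zero_iff_dvd]
  have h1 : coeff e (MvPowerSeries.map (Int.castRingHom (ZMod p))
      (expand (p ^ n) q_ne A - A ^ (p ^ n))) = 0 := by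
    rw [map_sub (MvPowerSeries.map (Int.castRingHom (ZMod p))), map_expand, map_pow,
      ← map_iterateFrobenius_expand p hp.ne_zero _ n]
    have : iterateFrobenius (ZMod p) p n = RingHom.id (ZMod p) := Subsingleton.elim _ _
    rw [this, map_id]
    simp
  rw [coeff_map] at h1
  simpa using h1

/-- induction principle for fixed points of contracting operators -/
theorem contr_ind (P : (σ →₀ ℕ) → ℚ → Prop) (hP0 : ∀ e, P e 0)
    (U : MvPowerSeries σ ℚ → MvPowerSeries σ ℚ) (Φ : MvPowerSeries σ ℚ)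
    (hΦ : constantCoeff Φ = 0) (hU : U Φ = Φ)
    (hc : ∀ (d : ℕ) (A B : MvPowerSeries σ ℚ), 1 ≤ d → constantCoeff A = 0 → constantCoeff B = 0 →
      (d : ℕ∞) ≤ (A - B).order → ((d + 1 : ℕ) : ℕ∞) ≤ (U A - U B).order)
    (hI : ∀ A : MvPowerSeries σ ℚ, constantCoeff A = 0 → (∀ e, P e (coeff e A)) →
      ∀ e, P e (coeff e (U A))) : ∀ e, P e (coeff e Φ) := by
  have key : ∀ N : ℕ, 1 ≤ N → ∀ e : σ →₀ ℕ, e.degree < N → P e (coeff e Φ) := by
    intro N hN
    induction N, hN using Nat.le_induction with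
    | base =>
      intro e he
      have : e = 0 := by
        rw [← Finsupp.degree_eq_zero_iff]; omega
      subst this
      rw [coeff_zero_eq_constantCoeff_apply, hΦ]
      exact hP0 0
    | succ N hN ih =>
      intro e he
      let A : MvPowerSeries σ ℚ := fun e => if e.degree < N then coeff e Φ else 0
      have hAe : ∀ e, coeff e A = if e.degree < N then coeff e Φ else 0 := fun e => rfl
      have hA0 : constantCoeff A = 0 := by
        rw [← coeff_zero_eq_constantCoeff_apply, hAe, coeff_zero_eq_constantCoeff_apply, hΦ]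
        simp
      have hPA : ∀ e, P e (coeff e A) := by
        intro e
        rw [hAe]
        split_ifs with h
        · exact ih e h
        · exact hP0 e
      have h1 : (N : ℕ∞) ≤ (Φ - A).order := by
        apply nat_le_order
        intro e he
        rw [map_sub, hAe, if_pos he, sub_self]
      have h2 := hc N Φ A hN hΦ hA0 h1
      have h3 : coeff e (U Φ - U A) = 0 :=
        coeff_of_lt_order (lt_of_lt_of_le (by exact_mod_cast he) h2)
      rw [map_sub, hU, sub_eq_zero] at h3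
      rw [h3]
      exact hI A hA0 hPA e
  intro e
  exact key (e.degree + 1) (by omega) e (by omega)

/-! ### The formal group law over `ℚ` -/

include hn in
theorem coeff_one_hl : PowerSeries.coeff 1 (hl p n) = 1 := by
  have := coeff_hl_Q (p := p) hn 0
  simpa using this

include hn in
theorem isUnit_one : IsUnit (PowerSeries.coeff 1 (hl p n)) := by
  rw [coeff_one_hl hn]
  exact _root_.isUnit_one

/-- the inverse of the logarithm -/
noncomputable def ex (p n : ℕ) [Fact p.Prime] (hn : 0 < n) : PowerSeries ℚ :=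
  (hl p n).substInvOfIsUnit (isUnit_one hn)

theorem constantCoeff_ex : PowerSeries.constantCoeff (ex p n hn) = 0 :=
  PowerSeries.constantCoeff_substInvOfIsUnit _ _

theorem hs_ex : PowerSeries.HasSubst (ex p n hn) :=
  PowerSeries.HasSubst.of_constantCoeff_zero' (constantCoeff_ex hn)

theorem hs_hl : PowerSeries.HasSubst (hl p n) :=
  PowerSeries.HasSubst.of_constantCoeff_zero' constantCoeff_hl

theorem f_ex {A : MvPowerSeries σ ℚ} (hA : constantCoeff A = 0) :
    (hl p n).subst ((ex p n hn).subst A) = A := by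
  rw [← PowerSeries.subst_comp_subst_apply (hs_ex hn) (hs hA), ex,
    PowerSeries.subst_substInvOfIsUnit_right _ constantCoeff_hl, PowerSeries.subst_X (hs hA)]

theorem ex_f {A : MvPowerSeries σ ℚ} (hA : constantCoeff A = 0) :
    (ex p n hn).subst ((hl p n).subst A) = A := by
  rw [← PowerSeries.subst_comp_subst_apply hs_hl (hs hA), ex,
    PowerSeries.subst_substInvOfIsUnit_left _ constantCoeff_hl, PowerSeries.subst_X (hs hA)]

include hn in
theorem f_inj {A B : MvPowerSeries σ ℚ} (hA : constantCoeff A = 0) (hB : constantCoeff B = 0)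
    (h : (hl p n).subst A = (hl p n).subst B) : A = B := by
  rw [← ex_f (p := p) hn hA, h, ex_f (p := p) hn hB]

theorem const_subst {A : MvPowerSeries σ ℚ} (hA : constantCoeff A = 0) {g : PowerSeries ℚ}
    (hg : PowerSeries.constantCoeff g = 0) : constantCoeff (g.subst A) = 0 :=
  PowerSeries.constantCoeff_subst_eq_zero hA _ hg

/-- the sum of the logarithms -/
noncomputable def L2 (p n : ℕ) : MvPowerSeries (Fin 2) ℚ :=
  (hl p n).subst (X 0 : MvPowerSeries (Fin 2) ℚ) + (hl p n).subst (X 1 : MvPowerSeries (Fin 2) ℚ)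

theorem const_L2 : constantCoeff (L2 p n) = 0 := by
  rw [L2, map_add, const_subst (constantCoeff_X _) constantCoeff_hl,
    const_subst (constantCoeff_X _) constantCoeff_hl, add_zero]

/-- the formal group law over `ℚ` -/
noncomputable def Phi (p n : ℕ) [Fact p.Prime] (hn : 0 < n) : MvPowerSeries (Fin 2) ℚ :=
  (ex p n hn).subst (L2 p n)

theorem const_Phi : constantCoeff (Phi p n hn) = 0 := const_subst const_L2 (constantCoeff_ex hn)

theorem f_Phi : (hl p n).subst (Phi p n hn) = L2 p n := f_ex hn const_L2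

/-- the contracting operator -/
noncomputable def UU (p n : ℕ) [Fact p.Prime] (A : MvPowerSeries (Fin 2) ℚ) :
    MvPowerSeries (Fin 2) ℚ :=
  X 0 + X 1 + (p : ℚ)⁻¹ • ((hl p n).subst (expand (p ^ n) q_ne A) - (hl p n).subst (A ^ (p ^ n)))

theorem UU_Phi : UU p n (Phi p n hn) = Phi p n hn := by
  have h1 := f_eq (p := p) hn (const_Phi (p := p) hn)
  have h2 : ∀ s : Fin 2, (hl p n).subst (X s : MvPowerSeries (Fin 2) ℚ) =
      X s + (p : ℚ)⁻¹ • expand (p ^ n) q_ne ((hl p n).subst (X s)) := by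
    intro s
    rw [f_expand (constantCoeff_X s), expand_X]
    exact f_eq (p := p) hn (constantCoeff_X s)
  have h3 : (hl p n).subst (expand (p ^ n) q_ne (Phi p n hn)) =
      expand (p ^ n) q_ne ((hl p n).subst (X 0)) + expand (p ^ n) q_ne ((hl p n).subst (X 1)) := by
    rw [← f_expand (const_Phi (p := p) hn), f_Phi, L2, map_add]
  have h4 := f_Phi (p := p) hn
  rw [h1, L2, h2 0, h2 1] at h4
  rw [UU, h3, smul_sub, smul_add]
  linear_combination (exp := 1) -h4

include hn in
theorem UU_contr {d : ℕ} {A B : MvPowerSeries (Fin 2) ℚ} (hd : 1 ≤ d)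
    (hA : constantCoeff A = 0) (hB : constantCoeff B = 0) (h : (d : ℕ∞) ≤ (A - B).order) :
    ((d + 1 : ℕ) : ℕ∞) ≤ (UU p n A - UU p n B).order := by
  have hq := two_le_q (p := p) hn
  have h1 : UU p n A - UU p n B = (p : ℚ)⁻¹ •
      (((hl p n).subst (expand (p ^ n) q_ne A) - (hl p n).subst (expand (p ^ n) q_ne B)) -
      ((hl p n).subst (A ^ (p ^ n)) - (hl p n).subst (B ^ (p ^ n)))) := by
    rw [UU, UU]
    simp only [smul_sub]
    ring
  rw [h1]
  refine le_trans ?_ le_order_smul
  have h2 : ((d + 1 : ℕ) : ℕ∞) ≤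
      ((hl p n).subst (expand (p ^ n) q_ne A) - (hl p n).subst (expand (p ^ n) q_ne B)).order := by
    apply f_sub_order' hn (const_expand hA) (const_expand hB)
    rw [← map_sub, order_expand]
    calc ((d + 1 : ℕ) : ℕ∞) ≤ ((p ^ n * d : ℕ) : ℕ∞) := by
          have : d + 1 ≤ p ^ n * d := by nlinarith
          exact_mod_cast this
      _ = p ^ n • (d : ℕ∞) := by rw [nsmul_eq_mul]; push_cast; rfl
      _ ≤ p ^ n • (A - B).order := by gcongr
  have h3 : ((d + 1 : ℕ) : ℕ∞) ≤
      ((hl p n).subst (A ^ (p ^ n)) - (hl p n).subst (B ^ (p ^ n))).order := by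
    apply f_sub_order' hn (const_pow hA q_ne) (const_pow hB q_ne)
    exact pow_sub_order hA hB hq h
  rw [sub_eq_add_neg]
  refine le_trans (le_min h2 ?_) min_order_le_add
  rw [order_neg]
  exact h3

theorem exists_int {σ : Type*} {A : MvPowerSeries σ ℚ}
    (h : ∀ e, ∃ z : ℤ, coeff e A = z) : ∃ A' : MvPowerSeries σ ℤ, toQ A' = A := by
  choose z hz using h
  let B : MvPowerSeries σ ℤ := fun e => z e
  have hB : ∀ e, coeff e B = z e := fun _ => rfl
  refine ⟨B, ?_⟩
  ext e
  rw [coeff_map, hB, hz]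
  rfl

theorem const_of_toQ {A : MvPowerSeries σ ℤ} (h : constantCoeff (toQ A) = 0) :
    constantCoeff A = 0 := by
  rw [constantCoeff_map] at h
  simpa using h

theorem Phi_int (e : Fin 2 →₀ ℕ) : ∃ z : ℤ, coeff e (Phi p n hn) = z := by
  have hp0 : (p : ℚ) ≠ 0 := by exact_mod_cast (Fact.out : p.Prime).ne_zero
  refine contr_ind (fun _ x => ∃ z : ℤ, x = z) (fun _ => ⟨0, by simp⟩) (UU p n) (Phi p n hn)
    (const_Phi hn) (UU_Phi hn) (fun d A B hd hA hB h => UU_contr hn hd hA hB h) ?_ e
  intro A hA hAi e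
  obtain ⟨A', rfl⟩ := exists_int hAi
  have hA' := const_of_toQ hA
  obtain ⟨z, hz⟩ := f_congr hn (const_expand (p := p) (n := n) hA') (const_pow hA' q_ne)
    (expand_congr A') e
  have h1 : toQ (expand (p ^ n) q_ne A') = expand (p ^ n) q_ne (toQ A') := map_expand _ _ _ _
  rw [h1, map_pow] at hz
  refine ⟨coeff e (X 0 + X 1 : MvPowerSeries (Fin 2) ℤ) + z, ?_⟩
  rw [UU, map_add, coeff_smul, hz, inv_mul_cancel_left₀ hp0]
  push_cast
  congr 1
  have h2 : (X 0 + X 1 : MvPowerSeries (Fin 2) ℚ) = toQ (X 0 + X 1) := by simp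
  rw [h2, coeff_map]
  rfl

/-- degrees of the nonzero coefficients -/
def Hom (a m : ℕ) (A : MvPowerSeries σ ℚ) : Prop := ∀ e, coeff e A ≠ 0 → e.degree ≡ a [MOD m]

theorem Hom.mul {a b m : ℕ} {A B : MvPowerSeries σ ℚ} (hA : Hom a m A) (hB : Hom b m B) :
    Hom (a + b) m (A * B) := by
  classical
  intro e he
  rw [coeff_mul] at he
  obtain ⟨⟨x, y⟩, hxy, h⟩ := Finset.exists_ne_zero_of_sum_ne_zero he
  rw [Finset.HasAntidiagonal.mem_antidiagonal] at hxy
  have h1 := hA x (left_ne_zero_of_mul h)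
  have h2 := hB y (right_ne_zero_of_mul h)
  simp only at hxy
  rw [← hxy, map_add]
  exact h1.add h2

theorem Hom.pow {m : ℕ} {A : MvPowerSeries σ ℚ} (hA : Hom 1 m A) (k : ℕ) : Hom k m (A ^ k) := by
  classical
  induction k with
  | zero =>
    intro e he
    rw [pow_zero, coeff_one] at he
    have : e = 0 := by
      by_contra h
      rw [if_neg h] at he
      exact he rfl
    subst this
    simp only [map_zero]
    rfl
  | succ k ih =>
    rw [pow_succ]
    exact ih.mul hA

theorem pow_modEq (k : ℕ) : p ^ (n * k) ≡ 1 [MOD p ^ n - 1] := by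
  have h0 : 1 ≤ p ^ n := Nat.one_le_pow _ _ (Fact.out : p.Prime).pos
  have h1 : p ^ n ≡ 1 [MOD p ^ n - 1] := by
    have := Nat.modEq_sub h0
    exact this
  rw [pow_mul]
  have := h1.pow k
  rwa [one_pow] at this

include hn in
theorem Hom.f {A : MvPowerSeries σ ℚ} (hA0 : constantCoeff A = 0) (hA : Hom 1 (p ^ n - 1) A) :
    Hom 1 (p ^ n - 1) ((hl p n).subst A) := by
  intro e he
  rw [coeff_f hn hA0] at he
  obtain ⟨k, _, h⟩ := Finset.exists_ne_zero_of_sum_ne_zero he
  have h1 : coeff e (A ^ p ^ (n * k)) ≠ 0 := by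
    intro h0
    rw [h0, zero_div] at h
    exact h rfl
  exact ((hA.pow _) e h1).trans (pow_modEq k)

theorem Hom.expand {A : MvPowerSeries σ ℚ} (hA : Hom 1 (p ^ n - 1) A) :
    Hom 1 (p ^ n - 1) (expand (p ^ n) q_ne A) := by
  intro e he
  by_cases hd : ∃ m : σ →₀ ℕ, e = p ^ n • m
  · obtain ⟨m, rfl⟩ := hd
    rw [coeff_expand_smul] at he
    have h1 := hA m he
    have h2 : (p ^ n • m).degree = p ^ n * m.degree := by
      rw [map_nsmul, smul_eq_mul]
    rw [h2]
    have h3 := (pow_modEq (p := p) (n := n) 1).mul h1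
    rw [mul_one] at h3
    exact h3
  · exfalso
    have : ∃ i, ¬ (p ^ n ∣ e i) := by
      by_contra hcon
      push Not at hcon
      apply hd
      refine ⟨e.mapRange (fun x => x / p ^ n) (by simp), ?_⟩
      ext i
      simp only [Finsupp.smul_apply, Finsupp.mapRange_apply, smul_eq_mul]
      exact (Nat.mul_div_cancel' (hcon i)).symm
    obtain ⟨i, hi⟩ := this
    rw [coeff_expand_of_not_dvd _ _ _ hi] at he
    exact he rfl

theorem Phi_hom : Hom 1 (p ^ n - 1) (Phi p n hn) := by
  refine contr_ind (fun e x => x ≠ 0 → e.degree ≡ 1 [MOD p ^ n - 1])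
    (fun _ h => absurd rfl h) (UU p n) (Phi p n hn)
    (const_Phi hn) (UU_Phi hn) (fun d A B hd hA hB h => UU_contr hn hd hA hB h) ?_
  intro A hA0 hA e he
  change Hom 1 (p ^ n - 1) A at hA
  rw [UU, map_add, coeff_smul, map_sub] at he
  by_cases h1 : coeff e (X 0 + X 1 : MvPowerSeries (Fin 2) ℚ) = 0
  · rw [h1, zero_add] at he
    have h2 := right_ne_zero_of_mul he
    by_cases h3 : coeff e ((hl p n).subst (MvPowerSeries.expand (p ^ n) q_ne A)) = 0
    · rw [h3, zero_sub, neg_ne_zero] at h2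
      refine Hom.f hn (const_pow hA0 q_ne) ?_ e h2
      intro e' he'
      have h4 := hA.pow _ e' he'
      have h5 := pow_modEq (p := p) (n := n) 1
      rw [mul_one] at h5
      exact h4.trans h5
    · exact Hom.f hn (const_expand hA0) hA.expand e h3
  · classical
    rw [map_add, coeff_X, coeff_X] at h1
    have h2 : e = Finsupp.single 0 1 ∨ e = Finsupp.single 1 1 := by
      by_contra hcon
      push Not at hcon
      rw [if_neg hcon.1, if_neg hcon.2] at h1
      simp at h1
    rcases h2 with rfl | rfl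
    · rw [Finsupp.degree_single]
    · rw [Finsupp.degree_single]

/-- `f(Φ(A,B)) = f(A) + f(B)` -/
theorem f_Phi_pair {A B : MvPowerSeries σ ℚ} (hA : constantCoeff A = 0)
    (hB : constantCoeff B = 0) :
    (hl p n).subst (subst ![A, B] (Phi p n hn)) = (hl p n).subst A + (hl p n).subst B := by
  have hAB := hasSubst_pair (hs hA) (hs hB)
  have h1 := congrArg (subst ![A, B]) (f_Phi (p := p) hn)
  rw [subst_psubst (hs (const_Phi hn)) hAB, L2, subst_add hAB,
    subst_psubst (hasSubst_X 0) hAB, subst_psubst (hasSubst_X 1) hAB, subst_X hAB,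
    subst_X hAB] at h1
  exact h1

theorem const_pair {A B : MvPowerSeries σ ℚ} (hA : constantCoeff A = 0)
    (hB : constantCoeff B = 0) : constantCoeff (subst ![A, B] (Phi p n hn)) = 0 := by
  have h1 : ∀ s, constantCoeff ((![A, B] : Fin 2 → MvPowerSeries σ ℚ) s) = 0 := by
    intro s
    fin_cases s
    · exact hA
    · exact hB
  exact constantCoeff_subst_eq_zero (hasSubst_pair (hs hA) (hs hB)) h1 (const_Phi hn)

/-- the integral series -/
noncomputable def H0 (p n : ℕ) [Fact p.Prime] (hn : 0 < n) : MvPowerSeries (Fin 2) ℤ :=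
  Classical.choose (exists_int (Phi_int (p := p) hn))

theorem toQ_H0 : toQ (H0 p n hn) = Phi p n hn :=
  Classical.choose_spec (exists_int (Phi_int (p := p) hn))

theorem const_H0 : constantCoeff (H0 p n hn) = 0 := const_of_toQ (by rw [toQ_H0, const_Phi])

theorem coeff_Phi_single (s : Fin 2) : coeff (Finsupp.single s 1) (Phi p n hn) = 1 := by
  classical
  have h1 : ((1 : ℕ) : ℕ∞) ≤ (Phi p n hn - 0).order := by
    rw [sub_zero, Nat.cast_one]
    exact one_le_order_iff_constCoeff_eq_zero.2 (const_Phi hn)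
  have h2 := UU_contr (p := p) hn le_rfl (const_Phi hn) (map_zero _) h1
  have h3 : coeff (Finsupp.single s 1) (UU p n (Phi p n hn) - UU p n 0) = 0 := by
    apply coeff_of_lt_order (lt_of_lt_of_le _ h2)
    rw [Finsupp.degree_single]
    exact_mod_cast one_lt_two
  have h4 : UU p n 0 = X 0 + X 1 := by
    rw [UU, map_zero, zero_pow q_ne, sub_self, smul_zero, add_zero]
  rw [UU_Phi, h4, map_sub, sub_eq_zero] at h3
  rw [h3, map_add, coeff_X, coeff_X]
  fin_cases s
  · have : ¬ (Finsupp.single (0 : Fin 2) 1 = Finsupp.single 1 1) := by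
      intro h
      have := DFunLike.congr_fun h 0
      simp at this
    simp [this]
  · have : ¬ (Finsupp.single (1 : Fin 2) 1 = Finsupp.single 0 1) := by
      intro h
      have := DFunLike.congr_fun h 1
      simp at this
    simp [this]

theorem const_pairZ {σ : Type*} {A B : MvPowerSeries σ ℤ} (hA : constantCoeff A = 0)
    (hB : constantCoeff B = 0) : constantCoeff (subst ![A, B] (H0 p n hn)) = 0 := by
  have h1 : ∀ s, constantCoeff ((![A, B] : Fin 2 → MvPowerSeries σ ℤ) s) = 0 := by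
    intro s
    fin_cases s
    · exact hA
    · exact hB
  exact constantCoeff_subst_eq_zero (hasSubst_pair
    (PowerSeries.HasSubst.of_constantCoeff_zero hA)
    (PowerSeries.HasSubst.of_constantCoeff_zero hB)) h1 (const_H0 hn)

theorem toQ_pair {σ : Type*} {A B : MvPowerSeries σ ℤ} (hA : constantCoeff A = 0)
    (hB : constantCoeff B = 0) :
    toQ (subst ![A, B] (H0 p n hn)) = subst ![toQ A, toQ B] (Phi p n hn) := by
  have h := map_subst_pair (Int.castRingHom ℚ) (PowerSeries.HasSubst.of_constantCoeff_zero hA)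
    (PowerSeries.HasSubst.of_constantCoeff_zero hB) (H0 p n hn)
  rw [← toQ_H0]
  exact h

/-- the formal group law over `ℤ` -/
noncomputable def HZ (p n : ℕ) [Fact p.Prime] (hn : 0 < n) : FormalGroup ℤ where
  toPowerSeries := H0 p n hn
  zero_constantCoeff := const_H0 hn
  lin_coeff_X := by
    have h := coeff_Phi_single (p := p) hn 0
    rw [← toQ_H0, coeff_map] at h
    simpa using h
  lin_coeff_Y := by
    have h := coeff_Phi_single (p := p) hn 1
    rw [← toQ_H0, coeff_map] at h
    simpa using h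
  assoc := by
    have hX : ∀ s : Fin 3, constantCoeff (X s : MvPowerSeries (Fin 3) ℤ) = 0 :=
      fun s => constantCoeff_X s
    have hXQ : ∀ s : Fin 3, constantCoeff (X s : MvPowerSeries (Fin 3) ℚ) = 0 :=
      fun s => constantCoeff_X s
    apply toQ_injective
    rw [toQ_pair hn (const_pairZ hn (hX 0) (hX 1)) (hX 2), toQ_pair hn (hX 0) (hX 1),
      toQ_pair hn (hX 0) (const_pairZ hn (hX 1) (hX 2)), toQ_pair hn (hX 1) (hX 2)]
    simp only [map_X]
    apply f_inj (p := p) hn (const_pair hn (const_pair hn (hXQ 0) (hXQ 1)) (hXQ 2))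
      (const_pair hn (hXQ 0) (const_pair hn (hXQ 1) (hXQ 2)))
    rw [f_Phi_pair hn (const_pair hn (hXQ 0) (hXQ 1)) (hXQ 2), f_Phi_pair hn (hXQ 0) (hXQ 1),
      f_Phi_pair hn (hXQ 0) (const_pair hn (hXQ 1) (hXQ 2)), f_Phi_pair hn (hXQ 1) (hXQ 2),
      add_assoc]

theorem HZ_comm : (HZ p n hn).IsComm where
  comm := by
    have hX : ∀ s : Fin 2, constantCoeff (X s : MvPowerSeries (Fin 2) ℤ) = 0 :=
      fun s => constantCoeff_X s
    have hXQ : ∀ s : Fin 2, constantCoeff (X s : MvPowerSeries (Fin 2) ℚ) = 0 :=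
      fun s => constantCoeff_X s
    apply toQ_injective
    change toQ (H0 p n hn) = toQ (subst ![X 1, X 0] (H0 p n hn))
    rw [toQ_pair hn (hX 1) (hX 0), toQ_H0]
    simp only [map_X]
    apply f_inj (p := p) hn (const_Phi hn) (const_pair hn (hXQ 1) (hXQ 0))
    rw [f_Phi_pair hn (hXQ 1) (hXQ 0), f_Phi, L2, add_comm]

/-! ### multiplication by `p` -/

theorem f_mulSeries (m : ℕ) : (hl p n).subst (toQ (mulSeries (HZ p n hn) m)) =
    (m : ℚ) • (hl p n).subst (PowerSeries.X : PowerSeries ℚ) := by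
  have hX : constantCoeff (PowerSeries.X : PowerSeries ℤ) = 0 := constantCoeff_X ()
  have hXQ : constantCoeff (PowerSeries.X : PowerSeries ℚ) = 0 := constantCoeff_X ()
  induction m with
  | zero =>
    rw [mulSeries_zero, map_zero, Nat.cast_zero, zero_smul]
    exact PowerSeries.subst_zero_of_constantCoeff_zero constantCoeff_hl
  | succ m ih =>
    have h0 : constantCoeff (mulSeries (HZ p n hn) m) = 0 := mulSeries_constantCoeff _ m
    have h0' : constantCoeff (toQ (mulSeries (HZ p n hn) m)) = 0 := by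
      rw [constantCoeff_map, h0, map_zero]
    have h1 : mulSeries (HZ p n hn) (m + 1) =
        subst ![mulSeries (HZ p n hn) m, PowerSeries.X] (H0 p n hn) := mulSeries_succ _ m
    have hXm : toQ (PowerSeries.X : PowerSeries ℤ) = (PowerSeries.X : PowerSeries ℚ) :=
      PowerSeries.map_X _
    rw [h1, toQ_pair hn h0 hX, hXm, f_Phi_pair hn h0' hXQ, ih, Nat.cast_succ, add_smul, one_smul]

theorem mulp_sub (e : Unit →₀ ℕ) :
    ∃ z : ℤ, (coeff e (toQ (mulSeries (HZ p n hn) p) - toQ (PowerSeries.X ^ (p ^ n)) :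
      MvPowerSeries Unit ℚ) : ℚ) = p * z := by
  have hp0 : (p : ℚ) ≠ 0 := by exact_mod_cast (Fact.out : p.Prime).ne_zero
  have hXQ : constantCoeff (PowerSeries.X : PowerSeries ℚ) = 0 := constantCoeff_X ()
  have hX : constantCoeff (PowerSeries.X : PowerSeries ℤ) = 0 := constantCoeff_X ()
  set B : PowerSeries ℤ := PowerSeries.X ^ (p ^ n) with hB
  have hB0 : constantCoeff B = 0 := const_pow hX q_ne
  have hB0' : constantCoeff (toQ B) = 0 := by rw [constantCoeff_map, hB0, map_zero]
  set A := mulSeries (HZ p n hn) p with hA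
  have hA0 : constantCoeff A = 0 := mulSeries_constantCoeff _ p
  have hA0' : constantCoeff (toQ A) = 0 := by rw [constantCoeff_map, hA0, map_zero]
  have hBQ : toQ B = (PowerSeries.X : PowerSeries ℚ) ^ (p ^ n) := by
    rw [hB, map_pow]
    congr 1
    exact PowerSeries.map_X _
  have hf : (hl p n).subst (toQ A) - (hl p n).subst (toQ B) =
      (p : ℚ) • (PowerSeries.X : PowerSeries ℚ) := by
    rw [hA, f_mulSeries, hBQ]
    have h1 := f_eq (p := p) hn hXQ
    rw [h1, smul_add, smul_smul, mul_inv_cancel₀ hp0, one_smul]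
    ring
  refine contr_ind (fun _ x => ∃ z : ℤ, x = p * z) (fun _ => ⟨0, by simp⟩)
    (fun D => (p : ℚ) • (PowerSeries.X : PowerSeries ℚ) -
      ((hl p n).subst (toQ B + D) - (hl p n).subst (toQ B)) + D)
    (toQ A - toQ B) (by rw [map_sub, hA0', hB0', sub_zero]) ?_ ?_ ?_ e
  · simp only [add_sub_cancel]
    rw [hf, sub_self, zero_add]
  · intro d D D' _ hD hD' h
    have h1 : ((d + 1 : ℕ) : ℕ∞) ≤ ((hl p n).subst (toQ B + D) - (hl p n).subst (toQ B + D') -
        ((toQ B + D) - (toQ B + D'))).order := by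
      apply f_sub_order hn
      · rw [map_add, hB0', hD, add_zero]
      · rw [map_add, hB0', hD', add_zero]
      · rw [add_sub_add_left_eq_sub]; exact h
    have h2 : ((p : ℚ) • (PowerSeries.X : PowerSeries ℚ) -
        ((hl p n).subst (toQ B + D) - (hl p n).subst (toQ B)) + D) -
        ((p : ℚ) • (PowerSeries.X : PowerSeries ℚ) -
        ((hl p n).subst (toQ B + D') - (hl p n).subst (toQ B)) + D') =
        -((hl p n).subst (toQ B + D) - (hl p n).subst (toQ B + D') -
        ((toQ B + D) - (toQ B + D'))) := by ring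
    rw [h2, order_neg]
    exact h1
  · intro D hD hDp e'
    -- `D` is `p` times an integral series
    have hDint : ∀ e, ∃ z : ℤ, coeff e D = z := by
      intro e
      obtain ⟨z, hz⟩ := hDp e
      exact ⟨p * z, by rw [hz]; push_cast; rfl⟩
    obtain ⟨D', rfl⟩ := exists_int hDint
    have hdvd : ((p : ℕ) : MvPowerSeries Unit ℤ) ∣ D' := by
      rw [natCast_dvd_iff]
      intro e
      obtain ⟨z, hz⟩ := hDp e
      refine ⟨z, ?_⟩
      rw [coeff_map] at hz
      have : ((coeff e D' : ℤ) : ℚ) = ((p * z : ℤ) : ℚ) := by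
        push_cast
        exact hz
      exact_mod_cast this
    have hD0 : constantCoeff D' = 0 := const_of_toQ hD
    obtain ⟨z, hz⟩ := f_congr (p := p) (n := n) hn (A := B + D') (B := B)
      (by rw [map_add, hB0, hD0, add_zero]) hB0 (by rw [add_sub_cancel_left]; exact hdvd) e'
    obtain ⟨w, hw⟩ := hDp e'
    rw [map_add toQ] at hz
    refine ⟨coeff e' (PowerSeries.X : PowerSeries ℤ) - z + w, ?_⟩
    rw [map_add, map_sub, hz, hw, coeff_smul]
    have hXm : toQ (PowerSeries.X : PowerSeries ℤ) = (PowerSeries.X : PowerSeries ℚ) :=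
      PowerSeries.map_X _
    rw [← hXm, coeff_map]
    push_cast
    simp only [Int.coe_castRingHom]
    ring

theorem mulp_modp :
    mulSeries ((HZ p n hn).map (Int.castRingHom (ZMod p))) p = PowerSeries.X ^ (p ^ n) := by
  rw [mulSeries_map]
  have h1 : MvPowerSeries.map (Int.castRingHom (ZMod p))
      (mulSeries (HZ p n hn) p - PowerSeries.X ^ (p ^ n)) = 0 := by
    refine MvPowerSeries.ext fun e => ?_
    rw [coeff_map]
    obtain ⟨z, hz⟩ := mulp_sub (p := p) hn e
    rw [← map_sub, coeff_map] at hz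
    have h2 : coeff e (mulSeries (HZ p n hn) p - PowerSeries.X ^ (p ^ n)) = p * z := by
      have : ((coeff e (mulSeries (HZ p n hn) p - PowerSeries.X ^ (p ^ n)) : ℤ) : ℚ) =
          ((p * z : ℤ) : ℚ) := by
        push_cast
        exact hz
      exact_mod_cast this
    rw [h2]
    simp
  rw [map_sub, sub_eq_zero] at h1
  have h3 : MvPowerSeries.map (Int.castRingHom (ZMod p))
      ((PowerSeries.X : PowerSeries ℤ) ^ (p ^ n)) =
      (PowerSeries.X : PowerSeries (ZMod p)) ^ (p ^ n) := by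
    rw [map_pow]
    congr 1
    exact PowerSeries.map_X _
  rw [h3] at h1
  exact h1

/-- the main result -/
theorem exists_honda_raw (p : ℕ) [Fact p.Prime] (n : ℕ) (hn : 0 < n) :
    ∃ H : FormalGroup ℤ, H.IsComm ∧
      (hl p n).subst (H.map (Int.castRingHom ℚ)).toPowerSeries =
        (hl p n).subst (X 0 : MvPowerSeries (Fin 2) ℚ) +
          (hl p n).subst (X 1 : MvPowerSeries (Fin 2) ℚ) ∧
      mulSeries (H.map (Int.castRingHom (ZMod p))) p = PowerSeries.X ^ (p ^ n) ∧
      ∀ d : Fin 2 →₀ ℕ, coeff d H.toPowerSeries ≠ 0 → d.degree ≡ 1 [MOD p ^ n - 1] := by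
  refine ⟨HZ p n hn, HZ_comm hn, ?_, mulp_modp hn, ?_⟩
  · have h1 : ((HZ p n hn).map (Int.castRingHom ℚ)).toPowerSeries = Phi p n hn := toQ_H0 hn
    rw [h1, f_Phi]
    rfl
  · intro d hd
    apply Phi_hom (p := p) hn d
    rw [← toQ_H0, coeff_map]
    intro h
    apply hd
    have h2 : ((coeff d (H0 p n hn) : ℤ) : ℚ) = 0 := h
    exact_mod_cast h2

end Vale.Agent.P217.HondaEx
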