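import Mathlib.Analysis.CStarAlgebra.Classes
import Mathlib.RingTheory.Polynomial.Cyclotomic.Roots
import Vale.Agent.Lib.P217.Pt
import Vale.Agent.Lib.P217.HondaEx

/-!
# P217: the Honda formal group law of height `n` over `ℤ`

Logarithm `f(X) = ∑_k X^{q^k} / p^k`, `q = p^n`, over `ℚ`.

`exists_honda`. Let `Φ = f^{-1}(f(X) + f(Y)) ∈ ℚ[[X,Y]]` (a commutative formal group law over `ℚ`: compositional inverse
`PowerSeries.substInv`).  Since `f(X) - f(X^q)/p = X`,
`Φ = X + Y + p^{-1} (f(Φ(X^q,Y^q)) - f(Φ(X,Y)^q))`.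
Integrality by induction on the degree: if the coefficients of `Φ` in degrees `< d` are integers, let `Φ'` be the truncation of `Φ`
in degrees `< d`; the right side in degree `d` only depends on `Φ'` (as `q ≥ 2` and `Φ` has no constant term), and
`Φ'(X^q,Y^q) ≡ Φ'(X,Y)^q` modulo `p`, and `A ≡ B` modulo `p` implies
`A^{q^k} ≡ B^{q^k}` modulo `p^{k+1}`, so `f(A) ≡ f(B)` modulo `p`.
`[p]_H ≡ X^q` modulo `p`: `f([p]X) = p f(X) = p X + f(X^q)`, so `[p] X = Φ(f^{-1}(pX), X^q)` and
`f^{-1}(p X) ≡ 0` modulo `p` since: similarly by induction `g = f^{-1}(pX)` satisfies `g = pX - ∑_{k≥1} g^{q^k}/p^k`, and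
`g ∈ p ℤ[[X]]` : `g^{q^k}/p^k` has coefficients in `p^{q^k - k} ℤ ⊆ p ℤ`.
Homogeneity: `f` only has terms of degree `≡ 1` modulo `q - 1`, so does `Φ`.
`honda_sum_roots`: it suffices to show that the formal sum `∑_i (ζ^i T)` vanishes over a suitable ring: let
`R = ℤ[x]/(1 + x + ... + x^{ℓ-1})` (a domain of characteristic zero), over `R[[T]]` the logarithm of `∑_{i<ℓ} (x^i T)` is
`∑_k (∑_i x^{i q^k}) T^{q^k}/p^k = 0`, as `ℓ` does not divide `q^k`; so the sum is zero over `R` and specializes to `OO K`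
through `x ↦ ζ`.
-/

set_option linter.unusedSectionVars false

namespace Vale.Agent.P217

open MvPowerSeries Filter Topology

/-- the logarithm `∑_k X^{p^{nk}} / p^k` -/
noncomputable def hlog (p n : ℕ) : PowerSeries ℚ :=
  PowerSeries.mk fun i => ∑ k ∈ Finset.range (i + 1), if i = p ^ (n * k) then ((p : ℚ) ^ k)⁻¹ else 0

/-- `H` is the Honda formal group law -/
structure IsHonda (p n : ℕ) (H : FormalGroup ℤ) : Prop where
  comm : H.IsComm
  log : (hlog p n).subst (H.map (Int.castRingHom ℚ)).toPowerSeries =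
    (hlog p n).subst (X 0 : MvPowerSeries (Fin 2) ℚ) +
      (hlog p n).subst (X 1 : MvPowerSeries (Fin 2) ℚ)
  mulp : mulSeries (H.map (Int.castRingHom (ZMod p))) p = PowerSeries.X ^ (p ^ n)
  deg : ∀ d : Fin 2 →₀ ℕ, coeff d H.toPowerSeries ≠ 0 → d.degree ≡ 1 [MOD p ^ n - 1]

theorem exists_honda (p : ℕ) [Fact p.Prime] (n : ℕ) (hn : 0 < n) :
    ∃ H : FormalGroup ℤ, IsHonda p n H := by
  obtain ⟨H, h1, h2, h3, h4⟩ := HondaEx.exists_honda_raw p n hn
  exact ⟨H, ⟨h1, h2, h3, h4⟩⟩

/-- the Honda formal group law of height `n` over `ℤ` -/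
noncomputable def hondaZ (p : ℕ) [Fact p.Prime] (n : ℕ) (hn : 0 < n) : FormalGroup ℤ :=
  Classical.choose (exists_honda p n hn)

theorem hondaZ_spec (p : ℕ) [Fact p.Prime] (n : ℕ) (hn : 0 < n) :
    IsHonda p n (hondaZ p n hn) := Classical.choose_spec (exists_honda p n hn)

instance (p : ℕ) [Fact p.Prime] (n : ℕ) (hn : 0 < n) : (hondaZ p n hn).IsComm :=
  (hondaZ_spec p n hn).comm

/-- base change of the Honda formal group law to an arbitrary commutative ring -/
noncomputable abbrev honda (R : Type*) [CommRing R] (p : ℕ) [Fact p.Prime] (n : ℕ) (hn : 0 < n) :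
    FormalGroup R := (hondaZ p n hn).map (Int.castRingHom R)

theorem mulSeries_honda (R : Type*) [CommRing R] (p : ℕ) [Fact p.Prime] [CharP R p] (n : ℕ)
    (hn : 0 < n) : mulSeries (honda R p n hn) p = PowerSeries.X ^ (p ^ n) := by
  have h1 := (hondaZ_spec p n hn).mulp
  rw [mulSeries_map] at h1
  rw [mulSeries_map]
  have h2 : (Int.castRingHom R) = (ZMod.castHom (dvd_refl p) R).comp (Int.castRingHom (ZMod p)) :=
    RingHom.ext_int _ _
  have h3 : (mulSeries (hondaZ p n hn) p).map (Int.castRingHom R)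
      = ((mulSeries (hondaZ p n hn) p).map (Int.castRingHom (ZMod p))).map
        (ZMod.castHom (dvd_refl p) R) := by
    rw [h2]
    rfl
  rw [h3, h1, map_pow, PowerSeries.map_X]

/-- `X ↦ aX` is an endomorphism of the Honda law when `a^{p^n} = a` -/
theorem isHom_honda_scale (R : Type*) [CommRing R] (p : ℕ) [Fact p.Prime] (n : ℕ) (hn : 0 < n)
    (a : R) (ha : a ^ (p ^ n) = a) :
    IsHom (honda R p n hn) (honda R p n hn) (PowerSeries.C a * PowerSeries.X) := by
  refine ⟨by simp, ?_⟩
  have hCX : (PowerSeries.C a * PowerSeries.X : PowerSeries R) = a • PowerSeries.X := by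
    rw [PowerSeries.smul_eq_C_mul]
  have hX : ∀ i : Fin 2, PowerSeries.subst (X i : MvPowerSeries (Fin 2) R)
      (PowerSeries.C a * PowerSeries.X : PowerSeries R) = a • X i := by
    intro i
    rw [hCX, PowerSeries.subst_smul (hasSubst_X i), PowerSeries.subst_X (hasSubst_X i)]
  rw [hX 0, hX 1, hCX, PowerSeries.subst_smul (hasSubst_F _), PowerSeries.subst_X (hasSubst_F _)]
  have hpair : (![a • X 0, a • X 1] : Fin 2 → MvPowerSeries (Fin 2) R)
      = (fun _ : Fin 2 => a) • X := by
    funext i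
    fin_cases i <;> rfl
  rw [hpair, ← rescale_eq_subst]
  ext d
  rw [coeff_rescale, map_smul, smul_eq_mul]
  have hcoef : coeff d (honda R p n hn).toPowerSeries
      = ((coeff d (hondaZ p n hn).toPowerSeries : ℤ) : R) := by
    rw [FormalGroup.map_toPowerSeries, coeff_map]
    rfl
  rw [hcoef]
  by_cases h0 : coeff d (hondaZ p n hn).toPowerSeries = 0
  · rw [h0]; simp
  · congr 1
    have h1 := (hondaZ_spec p n hn).deg d h0
    have hd0 : d ≠ 0 := by
      rintro rfl
      exact h0 (hondaZ p n hn).zero_constantCoeff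
    have hdeg : 1 ≤ d.degree := by
      rw [Nat.one_le_iff_ne_zero, Ne, Finsupp.degree_eq_zero_iff]
      exact hd0
    have hq : 1 ≤ p ^ n := Nat.one_le_pow _ _ (Fact.out : p.Prime).pos
    obtain ⟨m, hm⟩ := (Nat.modEq_iff_dvd' hdeg).1 h1.symm
    have hdd : d.degree = 1 + (p ^ n - 1) * m := by omega
    have hprod : (d.prod fun _ e => a ^ e) = a ^ d.degree := by
      rw [Finsupp.prod_fintype _ _ (fun _ => pow_zero _), Finset.prod_pow_eq_pow_sum,
        Finsupp.degree_eq_sum]
    have key : ∀ m : ℕ, a ^ (1 + (p ^ n - 1) * m) = a := by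
      intro m
      induction m with
      | zero => simp
      | succ m ih =>
        have : 1 + (p ^ n - 1) * (m + 1) = (1 + (p ^ n - 1) * m) + (p ^ n - 1) := by ring
        rw [this, pow_add, ih, ← pow_succ']
        have h2 : p ^ n - 1 + 1 = p ^ n := by omega
        rw [h2, ha]
    rw [hprod, hdd, key]

/-- Frobenius is an endomorphism of the Honda law -/
theorem isHom_honda_frob (R : Type*) [CommRing R] (p : ℕ) [Fact p.Prime] [CharP R p] (n : ℕ)
    (hn : 0 < n) (e : ℕ) :
    IsHom (honda R p n hn) (honda R p n hn) (PowerSeries.X ^ (p ^ e)) := by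
  have hp : p.Prime := Fact.out
  have hpe : p ^ e ≠ 0 := pow_ne_zero e hp.ne_zero
  refine ⟨by rw [map_pow, PowerSeries.constantCoeff_X, zero_pow hpe], ?_⟩
  have hX : ∀ i : Fin 2, PowerSeries.subst (X i : MvPowerSeries (Fin 2) R)
      (PowerSeries.X ^ (p ^ e) : PowerSeries R) = X i ^ (p ^ e) := by
    intro i
    rw [PowerSeries.subst_pow (hasSubst_X i), PowerSeries.subst_X (hasSubst_X i)]
  rw [hX 0, hX 1, PowerSeries.subst_pow (hasSubst_F _), PowerSeries.subst_X (hasSubst_F _)]
  have hpair : (![X 0 ^ (p ^ e), X 1 ^ (p ^ e)] : Fin 2 → MvPowerSeries (Fin 2) R)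
      = fun i => X i ^ (p ^ e) := by
    funext i
    fin_cases i <;> rfl
  have h1 := map_iterateFrobenius_expand p hp.ne_zero (honda R p n hn).toPowerSeries e
  rw [hpair, ← h1]
  have h2 : (MvPowerSeries.map (iterateFrobenius R p e))
      (expand (p ^ e) (pow_ne_zero e hp.ne_zero) (honda R p n hn).toPowerSeries)
      = expand (p ^ e) (pow_ne_zero e hp.ne_zero)
        ((honda R p n hn).toPowerSeries.map (iterateFrobenius R p e)) := map_expand _ _ _ _
  have h3 : (honda R p n hn).toPowerSeries.map (iterateFrobenius R p e)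
      = (honda R p n hn).toPowerSeries := by
    ext d
    rw [coeff_map, FormalGroup.map_toPowerSeries, coeff_map]
    exact map_intCast (iterateFrobenius R p e) _
  rw [h2, h3, expand, substAlgHom_apply]

/-- the formal sum of `a^i T`, `i < m` -/
noncomputable def hsum {A : Type*} [CommRing A] (F : FormalGroup A) (a : A) : ℕ → PowerSeries A
  | 0 => 0
  | m + 1 => MvPowerSeries.subst
      (![hsum F a m, PowerSeries.C (a ^ m) * PowerSeries.X] : Fin 2 → PowerSeries A)
      F.toPowerSeries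

theorem hasSubst_CX {A : Type*} [CommRing A] (a : A) :
    PowerSeries.HasSubst (PowerSeries.C a * PowerSeries.X : PowerSeries A) :=
  PowerSeries.HasSubst.of_constantCoeff_zero' (by simp)

theorem hsum_hasSubst {A : Type*} [CommRing A] (F : FormalGroup A) (a : A) (m : ℕ) :
    PowerSeries.HasSubst (hsum F a m) := by
  induction m with
  | zero => exact PowerSeries.HasSubst.zero
  | succ m ih => exact hasSubst_subst (hasSubst_pair ih (hasSubst_CX _)) (hasSubst_F F)

theorem hsum_map {A B : Type*} [CommRing A] [CommRing B] (φ : A →+* B) (F : FormalGroup A)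
    (a : A) (m : ℕ) : (hsum F a m).map φ = hsum (F.map φ) (φ a) m := by
  induction m with
  | zero => exact map_zero _
  | succ m ih =>
    have h := map_subst_pair φ (hsum_hasSubst F a m) (hasSubst_CX (a ^ m)) F.toPowerSeries
    have h2 : MvPowerSeries.map φ (PowerSeries.C (a ^ m) * PowerSeries.X : PowerSeries A)
        = PowerSeries.C (φ a ^ m) * PowerSeries.X := by
      have h3 : (PowerSeries.map φ) (PowerSeries.C (a ^ m) * PowerSeries.X : PowerSeries A)
        = PowerSeries.C (φ a ^ m) * PowerSeries.X := by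
        rw [map_mul, PowerSeries.map_C, PowerSeries.map_X, map_pow]
      exact h3
    rw [h2] at h
    have h4 : MvPowerSeries.map φ (hsum F a m) = hsum (F.map φ) (φ a) m := ih
    rw [h4] at h
    exact h

theorem honda_map {A B : Type*} [CommRing A] [CommRing B] (φ : A →+* B) (p : ℕ)
    [Fact p.Prime] (n : ℕ) (hn : 0 < n) : (honda A p n hn).map φ = honda B p n hn := by
  ext d
  simp only [FormalGroup.map_toPowerSeries, coeff_map]
  exact map_intCast φ _

/-- the logarithm of a formal sum, over `ℂ` -/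
theorem hlog_pair (p : ℕ) [Fact p.Prime] (n : ℕ) (hn : 0 < n) {f g : PowerSeries ℂ}
    (hf : PowerSeries.HasSubst f) (hg : PowerSeries.HasSubst g) :
    ((hlog p n).map (algebraMap ℚ ℂ)).subst
        (MvPowerSeries.subst (![f, g] : Fin 2 → PowerSeries ℂ) (honda ℂ p n hn).toPowerSeries)
      = ((hlog p n).map (algebraMap ℚ ℂ)).subst f + ((hlog p n).map (algebraMap ℚ ℂ)).subst g := by
  have h1 := congrArg (MvPowerSeries.map (algebraMap ℚ ℂ)) (hondaZ_spec p n hn).log
  have hF : ((hondaZ p n hn).map (Int.castRingHom ℚ)).map (algebraMap ℚ ℂ)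
      = honda ℂ p n hn := honda_map (algebraMap ℚ ℂ) p n hn
  have hF' : MvPowerSeries.map (algebraMap ℚ ℂ) ((hondaZ p n hn).map
      (Int.castRingHom ℚ)).toPowerSeries = (honda ℂ p n hn).toPowerSeries := by
    rw [← hF]
    rfl
  rw [map_add, PowerSeries.map_subst (hasSubst_F _), PowerSeries.map_subst (hasSubst_X 0),
    PowerSeries.map_subst (hasSubst_X 1), map_X, map_X, hF'] at h1
  have hfg := hasSubst_pair hf hg
  have h2 := congrArg (MvPowerSeries.subst (![f, g] : Fin 2 → PowerSeries ℂ)) h1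
  rw [subst_psubst (hasSubst_F _) hfg, subst_add hfg, subst_psubst (hasSubst_X 0) hfg,
    subst_psubst (hasSubst_X 1) hfg, subst_X hfg, subst_X hfg] at h2
  exact h2

theorem hlog_hsum (p : ℕ) [Fact p.Prime] (n : ℕ) (hn : 0 < n) (a : ℂ) (m : ℕ) :
    ((hlog p n).map (algebraMap ℚ ℂ)).subst (hsum (honda ℂ p n hn) a m)
      = ∑ i ∈ Finset.range m, PowerSeries.rescale (a ^ i) ((hlog p n).map (algebraMap ℚ ℂ)) := by
  induction m with
  | zero =>
    rw [Finset.range_zero, Finset.sum_empty, hsum]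
    refine PowerSeries.subst_zero_of_constantCoeff_zero ?_
    rw [← PowerSeries.coeff_zero_eq_constantCoeff_apply, PowerSeries.coeff_map]
    simp [hlog]
  | succ m ih =>
    rw [Finset.sum_range_succ, ← ih, hsum, hlog_pair p n hn (hsum_hasSubst _ _ _) (hasSubst_CX _)]
    congr 1
    rw [PowerSeries.rescale_eq_subst, PowerSeries.smul_eq_C_mul]

theorem coeff_hlog_eq_zero (p n i : ℕ) (hi : ∀ k, i ≠ p ^ (n * k)) :
    PowerSeries.coeff i (hlog p n) = 0 := by
  rw [hlog, PowerSeries.coeff_mk]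
  exact Finset.sum_eq_zero fun k _ => if_neg (hi k)

theorem coeff_one_hlog (p n : ℕ) (hp : 2 ≤ p) (hn : 0 < n) :
    PowerSeries.coeff 1 (hlog p n) = 1 := by
  rw [hlog, PowerSeries.coeff_mk, Finset.sum_range_succ, Finset.sum_range_one]
  have h1 : ¬ (1 = p ^ (n * 1)) := by
    rw [mul_one]
    have := Nat.one_lt_pow hn.ne' hp
    omega
  rw [if_neg h1]
  simp

theorem hsum_complex_eq_zero (p : ℕ) [Fact p.Prime] (n : ℕ) (hn : 0 < n) (l : ℕ)
    (hl : l.Prime) (hlp : l ≠ p) (a : ℂ) (ha : IsPrimitiveRoot a l) :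
    hsum (honda ℂ p n hn) a l = 0 := by
  have hp : p.Prime := Fact.out
  set L : PowerSeries ℂ := (hlog p n).map (algebraMap ℚ ℂ) with hL
  set s := hsum (honda ℂ p n hn) a l with hs
  have hss : PowerSeries.HasSubst s := hsum_hasSubst _ _ _
  have h1 : L.subst s = 0 := by
    rw [hlog_hsum]
    ext j
    rw [map_sum, map_zero]
    simp only [PowerSeries.coeff_rescale]
    rw [← Finset.sum_mul]
    by_cases hj : ∃ k, j = p ^ (n * k)
    · obtain ⟨k, rfl⟩ := hj
      have hcop : Nat.Coprime (p ^ (n * k)) l :=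
        Nat.Coprime.pow_left _ ((Nat.coprime_primes hp hl).2 (Ne.symm hlp))
      have hprim := ha.pow_of_coprime _ hcop
      have h2 := hprim.geom_sum_eq_zero hl.one_lt
      have h3 : ∑ i ∈ Finset.range l, (a ^ i) ^ p ^ (n * k)
          = ∑ i ∈ Finset.range l, (a ^ p ^ (n * k)) ^ i :=
        Finset.sum_congr rfl fun i _ => by rw [← pow_mul, ← pow_mul, mul_comm]
      rw [h3, h2, zero_mul]
    · rw [PowerSeries.coeff_map, coeff_hlog_eq_zero p n j (fun k hk => hj ⟨k, hk⟩), map_zero,
        mul_zero]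
  have h0 : PowerSeries.constantCoeff L = 0 := by
    rw [← PowerSeries.coeff_zero_eq_constantCoeff_apply, PowerSeries.coeff_map,
      coeff_hlog_eq_zero p n 0 (fun k hk => (pow_ne_zero (n * k) hp.ne_zero) hk.symm), map_zero]
  obtain ⟨U, hU⟩ := PowerSeries.X_dvd_iff.2 h0
  have hU1 : PowerSeries.constantCoeff U = 1 := by
    have h2 : PowerSeries.coeff 1 L = 1 := by
      rw [PowerSeries.coeff_map, coeff_one_hlog p n hp.two_le hn, map_one]
    rw [hU, show (1 : ℕ) = 0 + 1 from rfl, PowerSeries.coeff_succ_X_mul,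
      PowerSeries.coeff_zero_eq_constantCoeff_apply] at h2
    exact h2
  have hUu : IsUnit U := by
    rw [PowerSeries.isUnit_iff_constantCoeff, hU1]
    exact isUnit_one
  have hUs : IsUnit (U.subst s) := by
    rw [← PowerSeries.coe_substAlgHom hss]
    exact hUu.map _
  rw [hU, PowerSeries.subst_mul hss, PowerSeries.subst_X hss] at h1
  exact (mul_eq_zero.1 h1).resolve_right hUs.ne_zero

theorem hsum_eq_zero {A : Type*} [CommRing A] [IsDomain A] (p : ℕ) [Fact p.Prime] (n : ℕ)
    (hn : 0 < n) (l : ℕ) (hl : l.Prime) (hlp : l ≠ p) (ζ : A) (hζ : IsPrimitiveRoot ζ l) :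
    hsum (honda A p n hn) ζ l = 0 := by
  have hω : IsPrimitiveRoot (Complex.exp (2 * Real.pi * Complex.I / l)) l :=
    Complex.isPrimitiveRoot_exp l hl.ne_zero
  set ω := Complex.exp (2 * Real.pi * Complex.I / l)
  set S := hsum (honda (Polynomial ℤ) p n hn) Polynomial.X l with hS
  let φ : Polynomial ℤ →+* ℂ := (Polynomial.aeval ω).toRingHom
  let ψ : Polynomial ℤ →+* A := (Polynomial.aeval ζ).toRingHom
  have hφX : φ Polynomial.X = ω := Polynomial.aeval_X ω
  have hψX : ψ Polynomial.X = ζ := Polynomial.aeval_X ζ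
  have h1 : S.map φ = 0 := by
    rw [hS, hsum_map, honda_map, hφX]
    exact hsum_complex_eq_zero p n hn l hl hlp ω hω
  have h2 : S.map ψ = 0 := by
    ext j
    have h3 : φ (PowerSeries.coeff j S) = 0 := by
      rw [← PowerSeries.coeff_map, h1, map_zero]
    have h4 : minpoly ℤ ω ∣ PowerSeries.coeff j S :=
      minpoly.isIntegrallyClosed_dvd (hω.isIntegral hl.pos) h3
    rw [← Polynomial.cyclotomic_eq_minpoly hω hl.pos] at h4
    obtain ⟨R, hR⟩ := h4
    rw [PowerSeries.coeff_map, hR, map_mul, map_zero]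
    have h5 : ψ (Polynomial.cyclotomic l ℤ) = 0 := by
      change Polynomial.aeval ζ (Polynomial.cyclotomic l ℤ) = 0
      rw [Polynomial.aeval_def, ← Polynomial.eval_map, Polynomial.map_cyclotomic]
      exact hζ.isRoot_cyclotomic hl.pos
    rw [h5, zero_mul]
  rw [hS, hsum_map, honda_map, hψX] at h2
  exact h2

/-- the sum of `ζ w` over the `ℓ`-th roots of unity `ζ` is zero -/
theorem honda_sum_roots {K : Type*} [NontriviallyNormedField K] [IsUltrametricDist K]
    [CompleteSpace K] (p : ℕ) [Fact p.Prime] (n : ℕ) (hn : 0 < n) (l : ℕ)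
    (hl : l.Prime) (hlp : l ≠ p) (ζ : OO K) (hζ : IsPrimitiveRoot ζ l)
    (w : ℕ → Pt (honda (OO K) p n hn)) (w0 : OO K) (hw : ∀ i, (w i).val = ζ ^ i * w0) :
    ∑ i ∈ Finset.range l, w i = 0 := by
  have hw0 : IsTopologicallyNilpotent w0 := by
    have h1 := hw 0
    rw [pow_zero, one_mul] at h1
    rw [← h1]
    exact (w 0).tn
  have hb := hasEval_unit hw0
  have hc0 : ∀ m, PowerSeries.constantCoeff (hsum (honda (OO K) p n hn) ζ m) = 0 := by
    intro m
    have h1 := hsum_hasSubst (honda (OO K) p n hn) ζ m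
    have h2 : IsNilpotent (PowerSeries.constantCoeff (hsum (honda (OO K) p n hn) ζ m)) := h1
    exact h2.eq_zero
  have key : ∀ m, ev1 w0 (hsum (honda (OO K) p n hn) ζ m)
      = (∑ i ∈ Finset.range m, w i).val := by
    intro m
    induction m with
    | zero =>
      rw [Finset.range_zero, Finset.sum_empty]
      exact ev_zero hb
    | succ m ih =>
      rw [Finset.sum_range_succ, Pt.add_val, ← ih, hw m]
      have hcx : PowerSeries.constantCoeff (PowerSeries.C (ζ ^ m) * PowerSeries.X :
          PowerSeries (OO K)) = 0 := by simp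
      have h1 := ev_subst_pair hb (hasSubst_pair_of_zero (hc0 m) hcx)
        (honda (OO K) p n hn).toPowerSeries
      have h2 : ev (fun _ : Unit => w0) (PowerSeries.C (ζ ^ m) * PowerSeries.X :
          PowerSeries (OO K)) = ζ ^ m * w0 := by
        have h3 := ev_mul hb (C (ζ ^ m)) (X () : MvPowerSeries Unit (OO K))
        rw [ev_C, ev_X] at h3
        exact h3
      rw [h2] at h1
      exact h1
  have h := key l
  rw [hsum_eq_zero p n hn l hl hlp ζ hζ] at h
  apply Pt.ext
  rw [← h]
  exact ev_zero hb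

end Vale.Agent.P217
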