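import Mathlib.Algebra.CharP.Subring
import Mathlib.Algebra.Ring.IsFormallyReal
import Mathlib.Analysis.SpecialFunctions.Pow.Continuity
import Mathlib.FieldTheory.IsAlgClosed.Basic
import Vale.Agent.Lib.P217.OK

/-!
# P217: integral powers of Frobenius on `OO K` (`K` algebraically closed of characteristic `p`)

`Fr e` (`e : ℤ`) is the ring automorphism `x ↦ x ^ (p ^ e)` of `OO K`.
-/

set_option linter.unusedSectionVars false

namespace Vale.Agent.P217

section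
variable {K : Type*} [NontriviallyNormedField K] [IsUltrametricDist K] [CompleteSpace K]
  [IsAlgClosed K] (p : ℕ) [Fact p.Prime] [CharP K p]

instance instPerfect_OO : PerfectRing (OO K) p := by
  have hp : p.Prime := Fact.out
  apply PerfectRing.ofSurjective
  rintro ⟨x, hx⟩
  obtain ⟨y, hy⟩ := IsAlgClosed.exists_pow_nat_eq x hp.pos
  have hy1 : ‖y‖ ≤ 1 := by
    have h1 : ‖y‖ ^ p ≤ 1 := by
      rw [← norm_pow, hy]
      exact hx
    exact (pow_le_one_iff_of_nonneg (norm_nonneg y) hp.ne_zero).1 h1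
  refine ⟨⟨y, hy1⟩, ?_⟩
  apply Subtype.ext
  rw [frobenius_def]
  exact hy

/-- the `e`-th power of Frobenius, `e : ℤ` -/
noncomputable def Fr (e : ℤ) : OO K ≃+* OO K :=
  ((frobeniusEquiv (OO K) p : RingAut (OO K)) ^ e : RingAut (OO K))

theorem Fr_zero (x : OO K) : Fr p 0 x = x := by
  unfold Fr
  rw [zpow_zero]
  rfl

theorem Fr_add (e f : ℤ) (x : OO K) : Fr p (e + f) x = Fr p e (Fr p f x) := by
  unfold Fr
  rw [zpow_add]
  rfl

theorem Fr_natCast (e : ℕ) (x : OO K) : Fr p (e : ℤ) x = x ^ (p ^ e) := by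
  unfold Fr
  rw [zpow_natCast, ← iterateFrobeniusEquiv_eq_pow, iterateFrobeniusEquiv_def]

theorem Fr_neg_pow (e : ℕ) (x : OO K) : (Fr p (-(e : ℤ)) x) ^ (p ^ e) = x := by
  rw [← Fr_natCast, ← Fr_add, add_neg_cancel, Fr_zero]

/-- `‖Fr e x‖ = ‖x‖ ^ (p ^ e)` (real power) -/
theorem norm_Fr (e : ℤ) (x : OO K) : ‖((Fr p e x : OO K) : K)‖ = ‖(x : K)‖ ^ ((p : ℝ) ^ e) := by
  have hp : p.Prime := Fact.out
  have hp0 : (p : ℝ) ≠ 0 := by exact_mod_cast hp.ne_zero
  have hnat : ∀ (n : ℕ) (y : OO K), ‖((y ^ (p ^ n) : OO K) : K)‖ = ‖(y : K)‖ ^ ((p : ℝ) ^ n) := by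
    intro n y
    rw [Subring.coe_pow, norm_pow, ← Real.rpow_natCast, Nat.cast_pow]
  obtain ⟨n, rfl | rfl⟩ := e.eq_nat_or_neg
  · rw [Fr_natCast, hnat, zpow_natCast]
  · have h1 := hnat n (Fr p (-(n : ℤ)) x)
    rw [Fr_neg_pow] at h1
    rw [h1, ← Real.rpow_mul (norm_nonneg _), zpow_neg, zpow_natCast,
      mul_inv_cancel₀ (pow_ne_zero n hp0), Real.rpow_one]

theorem norm_Fr_lt_one (e : ℤ) {x : OO K} (hx : ‖(x : K)‖ < 1) :
    ‖((Fr p e x : OO K) : K)‖ < 1 := by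
  have hp : p.Prime := Fact.out
  have hp0 : (0 : ℝ) < p := by exact_mod_cast hp.pos
  rw [norm_Fr]
  exact Real.rpow_lt_one (norm_nonneg _) hx (zpow_pos hp0 e)

theorem continuous_Fr (e : ℤ) : Continuous (Fr p e : OO K → OO K) := by
  have hp : p.Prime := Fact.out
  have hp0 : (0 : ℝ) < p := by exact_mod_cast hp.pos
  have h : ContinuousAt ((Fr p e : OO K ≃+* OO K) : OO K →+ OO K) 0 := by
    rw [ContinuousAt, map_zero, tendsto_zero_iff_norm_tendsto_zero]
    have h1 : Filter.Tendsto (fun x : OO K => ‖x‖ ^ ((p : ℝ) ^ e)) (nhds 0)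
        (nhds (‖(0 : OO K)‖ ^ ((p : ℝ) ^ e))) :=
      (continuous_norm.tendsto (0 : OO K)).rpow_const (Or.inr (zpow_pos hp0 e).le)
    rw [norm_zero, Real.zero_rpow (zpow_pos hp0 e).ne'] at h1
    exact h1.congr fun x => (norm_Fr p e x).symm
  exact continuous_of_continuousAt_zero ((Fr p e : OO K ≃+* OO K) : OO K →+ OO K) h

end
end Vale.Agent.P217
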