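import Mathlib.Analysis.Normed.Group.Ultra
import Mathlib.Analysis.Normed.Module.Completion
import Mathlib.Analysis.Normed.Unbundled.RingSeminorm
import Mathlib.RingTheory.Localization.Away.Basic

/-!
# P217: inverting `p` in a seminormed ring and completing

If `N` is an ultrametric submultiplicative seminorm on a commutative ring `W` with `N (p x) = ρ N x`, `ρ > 0`, then there
are a complete ultrametric normed commutative ring `B` in which `p` is a unit and a ring homomorphism `θ : W → B` with
`‖θ x‖ = N x`; elements of `W` which are multiplicative for `N` stay multiplicative in `B`.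
-/

namespace Vale.Agent.P217.TBAlg

open UniformSpace

universe u

section
variable {W : Type u} [CommRing W] (p : ℕ) (N : W → ℝ) (ρ : ℝ)

/-- the localisation `W[1/p]` -/
abbrev LA (W : Type u) [CommRing W] (p : ℕ) : Type u := Localization.Away (p : W)

theorem exists_rep (z : LA W p) : ∃ (x : W) (k : ℕ), z * (p : LA W p) ^ k = algebraMap W (LA W p) x := by
  obtain ⟨⟨x, s⟩, hx⟩ := IsLocalization.surj (Submonoid.powers (p : W)) z
  obtain ⟨k, hk⟩ := s.2
  refine ⟨x, k, ?_⟩
  simp only at hx hk
  rw [← hx, ← hk]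
  simp

theorem rep_unique (hρ0 : 0 < ρ) (hp : ∀ x, N (p * x) = ρ * N x) {z : LA W p} {x y : W} {k l : ℕ}
    (hx : z * (p : LA W p) ^ k = algebraMap W (LA W p) x)
    (hy : z * (p : LA W p) ^ l = algebraMap W (LA W p) y) : N x / ρ ^ k = N y / ρ ^ l := by
  have hpk : ∀ (n : ℕ) (x : W), N ((p : W) ^ n * x) = ρ ^ n * N x := by
    intro n
    induction n with
    | zero => intro x; simp
    | succ n ih => intro x; rw [pow_succ', mul_assoc, hp, ih]; ring
  have h1 : algebraMap W (LA W p) ((p : W) ^ l * x) = algebraMap W (LA W p) ((p : W) ^ k * y) := by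
    simp only [map_mul, map_pow, map_natCast]
    rw [← hx, ← hy]; ring
  obtain ⟨⟨c, hc⟩, hc'⟩ := (IsLocalization.eq_iff_exists (Submonoid.powers (p : W)) (LA W p)).1 h1
  obtain ⟨m, rfl⟩ := hc
  simp only at hc'
  have h2 := congrArg N hc'
  rw [hpk, hpk, hpk, hpk] at h2
  have h3 : ρ ^ l * N x = ρ ^ k * N y := mul_left_cancel₀ (pow_pos hρ0 m).ne' h2
  have hk := (pow_pos hρ0 k).ne'
  have hl := (pow_pos hρ0 l).ne'
  field_simp
  linarith

/-- the extension of the seminorm -/
noncomputable def NL (z : LA W p) : ℝ :=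
  N (exists_rep p z).choose / ρ ^ (exists_rep p z).choose_spec.choose

theorem NL_eq (hρ0 : 0 < ρ) (hp : ∀ x, N (p * x) = ρ * N x) {z : LA W p} {x : W} {k : ℕ}
    (hx : z * (p : LA W p) ^ k = algebraMap W (LA W p) x) : NL p N ρ z = N x / ρ ^ k :=
  rep_unique p N ρ hρ0 hp (exists_rep p z).choose_spec.choose_spec hx

theorem NL_algebraMap (hρ0 : 0 < ρ) (hp : ∀ x, N (p * x) = ρ * N x) (x : W) :
    NL p N ρ (algebraMap W (LA W p) x) = N x := by
  rw [NL_eq p N ρ hρ0 hp (k := 0) (x := x) (by simp)]; simp

theorem exists_ring (hρ0 : 0 < ρ) (h0 : N 0 = 0) (hadd : ∀ x y, N (x + y) ≤ max (N x) (N y))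
    (hnn : ∀ x, 0 ≤ N x)
    (hneg : ∀ x, N (-x) = N x) (hmul : ∀ x y, N (x * y) ≤ N x * N y) (hone : N 1 = 1)
    (hp : ∀ x, N (p * x) = ρ * N x) :
    ∃ (B : Type u) (_ : NormedCommRing B) (_ : CompleteSpace B) (_ : IsUltrametricDist B)
      (θ : W →+* B) (pu : Bˣ), (pu : B) = (p : B) ∧ ‖(1 : B)‖ = 1 ∧ (∀ b : B, ‖(p : B) * b‖ = ρ * ‖b‖) ∧
        (∀ x, ‖θ x‖ = N x) ∧
        (∀ y c, (∀ x, N (y * x) = c * N x) → ∀ b : B, ‖θ y * b‖ = c * ‖b‖) := by
  classical
  have hNL := @NL_eq W _ p N ρ hρ0 hp
  have hcomm : ∀ z w : LA W p, ∃ (x y : W) (k : ℕ), z * (p : LA W p) ^ k = algebraMap W (LA W p) x ∧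
      w * (p : LA W p) ^ k = algebraMap W (LA W p) y := by
    intro z w
    obtain ⟨x, k, hx⟩ := exists_rep p z
    obtain ⟨y, l, hy⟩ := exists_rep p w
    refine ⟨x * (p : W) ^ l, y * (p : W) ^ k, k + l, ?_, ?_⟩
    · rw [pow_add, ← mul_assoc, hx]; simp
    · rw [pow_add, mul_comm ((p : LA W p) ^ k), ← mul_assoc, hy]; simp
  have hmax : ∀ z w : LA W p, NL p N ρ (z + w) ≤ max (NL p N ρ z) (NL p N ρ w) := by
    intro z w
    obtain ⟨x, y, k, hx, hy⟩ := hcomm z w
    have hxy : (z + w) * (p : LA W p) ^ k = algebraMap W (LA W p) (x + y) := by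
      rw [add_mul, hx, hy, map_add]
    rw [hNL hx, hNL hy, hNL hxy, max_div_div_right (pow_pos hρ0 k).le]
    exact div_le_div_of_nonneg_right (hadd x y) (pow_pos hρ0 k).le
  have hLnn : ∀ z : LA W p, 0 ≤ NL p N ρ z := fun z => div_nonneg (hnn _) (pow_pos hρ0 _).le
  have hL0 : NL p N ρ (0 : LA W p) = 0 := by
    rw [hNL (z := (0 : LA W p)) (x := 0) (k := 0) (by simp), h0]; simp
  let S : RingSeminorm (LA W p) :=
    { toFun := NL p N ρ
      map_zero' := hL0
      add_le' := fun z w => (hmax z w).trans (max_le_add_of_nonneg (hLnn z) (hLnn w))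
      neg' := fun z => by
        obtain ⟨x, k, hx⟩ := exists_rep p z
        have hx' : (-z) * (p : LA W p) ^ k = algebraMap W (LA W p) (-x) := by rw [neg_mul, hx, map_neg]
        rw [hNL hx, hNL hx', hneg]
      mul_le' := fun z w => by
        obtain ⟨x, y, k, hx, hy⟩ := hcomm z w
        have hxy : (z * w) * (p : LA W p) ^ (k + k) = algebraMap W (LA W p) (x * y) := by
          rw [map_mul, ← hx, ← hy]; ring
        rw [hNL hx, hNL hy, hNL hxy, pow_add, div_mul_div_comm]
        exact div_le_div_of_nonneg_right (hmul x y) (mul_pos (pow_pos hρ0 k) (pow_pos hρ0 k)).le }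
  let inst : SeminormedCommRing (LA W p) := { S.toSeminormedRing with mul_comm := mul_comm }
  have hnorm : ∀ z : LA W p, ‖z‖ = NL p N ρ z := fun z => rfl
  have hpA : ∀ z : LA W p, ‖(p : LA W p) * z‖ = ρ * ‖z‖ := by
    intro z
    obtain ⟨x, k, hx⟩ := exists_rep p z
    have hx' : ((p : LA W p) * z) * (p : LA W p) ^ k = algebraMap W (LA W p) (p * x) := by
      rw [mul_assoc, hx, map_mul, map_natCast]
    rw [hnorm, hnorm, hNL hx, hNL hx', hp, mul_div_assoc]
  have hyA : ∀ y c, (∀ x, N (y * x) = c * N x) → ∀ z : LA W p,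
      ‖algebraMap W (LA W p) y * z‖ = c * ‖z‖ := by
    intro y c hyc z
    obtain ⟨x, k, hx⟩ := exists_rep p z
    have hx' : (algebraMap W (LA W p) y * z) * (p : LA W p) ^ k = algebraMap W (LA W p) (y * x) := by
      rw [mul_assoc, hx, map_mul]
    rw [hnorm, hnorm, hNL hx, hNL hx', hyc, mul_div_assoc]
  have hunit : IsUnit (p : LA W p) := by
    have := IsLocalization.Away.algebraMap_isUnit (S := LA W p) (p : W)
    simpa using this
  obtain ⟨u, hu⟩ := hunit
  refine ⟨Completion (LA W p), inferInstance, inferInstance, ?_,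
    (Completion.coeRingHom).comp (algebraMap W (LA W p)),
    Units.map (Completion.coeRingHom : LA W p →+* Completion (LA W p)).toMonoidHom u, ?_, ?_, ?_, ?_, ?_⟩
  · refine IsUltrametricDist.isUltrametricDist_of_forall_norm_add_le_max_norm ?_
    intro x y
    induction x, y using Completion.induction_on₂ with
    | hp => exact isClosed_le (by fun_prop) (by fun_prop)
    | ih z w =>
      rw [← Completion.coe_add, Completion.norm_coe, Completion.norm_coe, Completion.norm_coe]
      exact hmax z w
  · simp [hu]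
  · rw [← Completion.coe_one, Completion.norm_coe, hnorm, ← map_one (algebraMap W (LA W p)),
      NL_algebraMap p N ρ hρ0 hp, hone]
  · intro b
    induction b using Completion.induction_on with
    | hp => exact isClosed_eq (by fun_prop) (by fun_prop)
    | ih z =>
      have : ((p : Completion (LA W p))) * (z : Completion (LA W p)) =
          (((p : LA W p) * z : LA W p) : Completion (LA W p)) := by
        have h1 : (p : Completion (LA W p)) = ((p : LA W p) : Completion (LA W p)) := by
          have := map_natCast (Completion.coeRingHom : LA W p →+* Completion (LA W p)) p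
          exact this.symm
        rw [h1, Completion.coe_mul]
      rw [this, Completion.norm_coe, Completion.norm_coe]
      exact hpA z
  · intro x
    rw [RingHom.comp_apply]
    change ‖((algebraMap W (LA W p) x : LA W p) : Completion (LA W p))‖ = _
    rw [Completion.norm_coe, hnorm, NL_algebraMap p N ρ hρ0 hp]
  · intro y c hyc b
    rw [RingHom.comp_apply]
    change ‖((algebraMap W (LA W p) y : LA W p) : Completion (LA W p)) * b‖ = _
    induction b using Completion.induction_on with
    | hp => exact isClosed_eq (by fun_prop) (by fun_prop)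
    | ih z =>
      rw [← Completion.coe_mul, Completion.norm_coe, Completion.norm_coe]
      exact hyA y c hyc z

end
end Vale.Agent.P217.TBAlg
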