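import Mathlib.RingTheory.WittVector.TeichmullerSeries
import Vale.Agent.Lib.P217.Frob
import Vale.Agent.Lib.P217.TBAlg

/-!
# P217: the Gauss norm on Witt vectors of the valuation ring

`NN ρ x = sup_n ρ^n ‖x'_n‖`, where `x = ∑ p^n [x'_n]`.
-/

set_option linter.unusedSectionVars false

namespace Vale.Agent.P217.TBNorm

open WittVector

theorem expand_mul {W : Type*} [CommRing W] (x y u P : W) (t : ℕ → W) (n : ℕ)
    (hu : x - ∑ i ∈ Finset.Iic n, t i * P ^ i = P ^ (n + 1) * u) :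
    x * y = (∑ i ∈ Finset.Iic n, P ^ i * (t i * y)) + P ^ (n + 1) * (u * y) := by
  have h1 : x = (∑ i ∈ Finset.Iic n, t i * P ^ i) + P ^ (n + 1) * u := by rw [← hu]; ring
  have h2 : ∑ i ∈ Finset.Iic n, P ^ i * (t i * y) = (∑ i ∈ Finset.Iic n, t i * P ^ i) * y := by
    rw [Finset.sum_mul]
    exact Finset.sum_congr rfl fun i _ => by ring
  rw [h2]
  conv_lhs => rw [h1]
  ring

section
variable {K : Type*} [NontriviallyNormedField K] [IsUltrametricDist K] [CompleteSpace K]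
  [IsAlgClosed K] {p : ℕ} [hp : Fact p.Prime] [CharP K p]

/-- the `n`-th coefficient of the Teichmüller expansion -/
noncomputable def ti (x : WittVector p (OO K)) (n : ℕ) : OO K :=
  ((_root_.frobeniusEquiv (OO K) p).symm ^ n) (x.coeff n)

theorem symm_pow_apply_pow (n : ℕ) (y : OO K) :
    ((_root_.frobeniusEquiv (OO K) p).symm ^ n) (y ^ p ^ n) = y := by
  induction n generalizing y with
  | zero => simp
  | succ n ih =>
    rw [pow_succ' ((_root_.frobeniusEquiv (OO K) p).symm), RingAut.mul_apply, pow_succ p n, pow_mul,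
      map_pow, ih, map_pow, frobeniusEquiv_symm_pow_p]

theorem ti_of_dvd {x : WittVector p (OO K)} {n : ℕ} {c : ℕ → OO K}
    (h : (p : WittVector p (OO K)) ^ (n + 1) ∣ x - ∑ i ∈ Finset.Iic n, teichmuller p (c i) * (p : WittVector p (OO K)) ^ i) :
    ∀ i ≤ n, ti x i = c i := by
  intro i hi
  rw [← Ideal.mem_span_singleton, mem_span_p_pow_iff_le_coeff_eq_zero,
      ← le_coeff_eq_iff_le_sub_coeff_eq_zero] at h
  have h1 := h i (Nat.lt_succ_of_le hi)
  rw [WittVector.sum_coeff_eq_coeff_sum] at h1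
  · have h2 : ∑ s ∈ Finset.Iic n, (teichmuller p (c s) * (p : WittVector p (OO K)) ^ s).coeff i = c i ^ p ^ i := by
      rw [Finset.sum_eq_single i]
      · exact teichmuller_mul_pow_coeff i (c i)
      · intro b _ hb
        exact teichmuller_mul_pow_coeff_of_ne _ hb.symm
      · intro hi'; exact absurd (Finset.mem_Iic.2 hi) hi'
    rw [h2] at h1
    rw [ti, h1, symm_pow_apply_pow]
  · refine fun n ↦ ⟨fun ⟨a, _, ha⟩ ⟨b, _, hb⟩ ↦ ?_⟩
    ext
    dsimp only [ne_eq, Set.mem_ofPred_eq]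
    rw [← Not.imp_symm (teichmuller_mul_pow_coeff_of_ne _) ha]
    exact Not.imp_symm (teichmuller_mul_pow_coeff_of_ne _) hb

theorem dvd_ti (x : WittVector p (OO K)) (n : ℕ) :
    (p : WittVector p (OO K)) ^ (n + 1) ∣
      x - ∑ i ∈ Finset.Iic n, teichmuller p (ti x i) * (p : WittVector p (OO K)) ^ i :=
  dvd_sub_sum_teichmuller_iterateFrobeniusEquiv_coeff x n

theorem ti_mul_p_zero (x : WittVector p (OO K)) : ti ((p : WittVector p (OO K)) * x) 0 = 0 := by
  rw [ti, mul_comm, mul_charP_coeff_zero, map_zero]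

theorem ti_mul_p_succ (x : WittVector p (OO K)) (n : ℕ) :
    ti ((p : WittVector p (OO K)) * x) (n + 1) = ti x n := by
  rw [ti, mul_comm, mul_charP_coeff_succ, ti, pow_succ ((_root_.frobeniusEquiv (OO K) p).symm),
    RingAut.mul_apply, frobeniusEquiv_symm_pow]

theorem ti_teichmuller_mul (y : OO K) (x : WittVector p (OO K)) (n : ℕ) :
    ti (teichmuller p y * x) n = y * ti x n := by
  refine ti_of_dvd (n := n) (c := fun i => y * ti x i) ?_ n le_rfl
  obtain ⟨u, hu⟩ := dvd_ti x n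
  refine ⟨teichmuller p y * u, ?_⟩
  have : ∑ i ∈ Finset.Iic n, teichmuller p (y * ti x i) * (p : WittVector p (OO K)) ^ i =
      teichmuller p y * ∑ i ∈ Finset.Iic n, teichmuller p (ti x i) * (p : WittVector p (OO K)) ^ i := by
    rw [Finset.mul_sum]
    refine Finset.sum_congr rfl fun i _ => ?_
    rw [map_mul]; ring
  rw [this, ← mul_sub, hu]; ring

/-- congruent Witt vectors -/
theorem ti_congr {x y : WittVector p (OO K)} {n : ℕ} (h : (p : WittVector p (OO K)) ^ (n + 1) ∣ x - y) :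
    ∀ i ≤ n, ti x i = ti y i := by
  refine ti_of_dvd (c := fun i => ti y i) ?_
  have := dvd_add h (dvd_ti y n)
  simpa using this

/-- division in the valuation ring -/
theorem exists_div {a b : OO K} (h : ‖(a : K)‖ ≤ ‖(b : K)‖) : ∃ c : OO K, a = b * c := by
  by_cases hb : (b : K) = 0
  · refine ⟨0, ?_⟩
    rw [hb, norm_zero] at h
    have : (a : K) = 0 := norm_le_zero_iff.1 h
    ext; simpa using this
  · have hb' : 0 < ‖(b : K)‖ := norm_pos_iff.2 hb
    refine ⟨⟨(a : K) / b, ?_⟩, ?_⟩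
    · rw [mem_OO, norm_div]; exact div_le_one_of_le₀ h hb'.le
    · ext; simp only [Subring.coe_mul]; field_simp

/-- the key estimate -/
theorem norm_ti_add_le (x y : WittVector p (OO K)) (n : ℕ) :
    ∃ k ≤ n, ‖(ti (x + y) n : K)‖ ≤ max ‖(ti x k : K)‖ ‖(ti y k : K)‖ := by
  obtain ⟨k, hk, hmax⟩ := Finset.exists_max_image (Finset.Iic n)
    (fun k => max ‖(ti x k : K)‖ ‖(ti y k : K)‖) ⟨0, Finset.mem_Iic.2 (Nat.zero_le n)⟩
  refine ⟨k, Finset.mem_Iic.1 hk, ?_⟩
  obtain ⟨γ, hγ⟩ : ∃ γ : OO K, ‖(γ : K)‖ = max ‖(ti x k : K)‖ ‖(ti y k : K)‖ := by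
    rcases max_choice ‖(ti x k : K)‖ ‖(ti y k : K)‖ with h | h
    · exact ⟨_, h.symm⟩
    · exact ⟨_, h.symm⟩
  rw [← hγ] at hmax ⊢
  have hu : ∀ i : ℕ, ∃ u : OO K, i ≤ n → ti x i = γ * u := by
    intro i
    by_cases hi : i ≤ n
    · obtain ⟨u, hu⟩ := exists_div ((le_max_left _ _).trans (hmax i (Finset.mem_Iic.2 hi)))
      exact ⟨u, fun _ => hu⟩
    · exact ⟨0, fun h => absurd h hi⟩
  have hv : ∀ i : ℕ, ∃ u : OO K, i ≤ n → ti y i = γ * u := by
    intro i
    by_cases hi : i ≤ n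
    · obtain ⟨u, hu⟩ := exists_div ((le_max_right _ _).trans (hmax i (Finset.mem_Iic.2 hi)))
      exact ⟨u, fun _ => hu⟩
    · exact ⟨0, fun h => absurd h hi⟩
  choose u hu using hu
  choose v hv using hv
  obtain ⟨a, ha⟩ := dvd_ti x n
  obtain ⟨b, hb⟩ := dvd_ti y n
  set X : WittVector p (OO K) := ∑ i ∈ Finset.Iic n, teichmuller p (u i) * (p : WittVector p (OO K)) ^ i with hX
  set Y : WittVector p (OO K) := ∑ i ∈ Finset.Iic n, teichmuller p (v i) * (p : WittVector p (OO K)) ^ i with hY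
  have h1 : ∑ i ∈ Finset.Iic n, teichmuller p (ti x i) * (p : WittVector p (OO K)) ^ i = teichmuller p γ * X := by
    rw [hX, Finset.mul_sum]
    refine Finset.sum_congr rfl fun i hi => ?_
    rw [hu i (Finset.mem_Iic.1 hi), map_mul]; ring
  have h2 : ∑ i ∈ Finset.Iic n, teichmuller p (ti y i) * (p : WittVector p (OO K)) ^ i = teichmuller p γ * Y := by
    rw [hY, Finset.mul_sum]
    refine Finset.sum_congr rfl fun i hi => ?_
    rw [hv i (Finset.mem_Iic.1 hi), map_mul]; ring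
  have h3 : ti (x + y) n = ti (teichmuller p γ * (X + Y)) n := by
    refine ti_congr (n := n) ?_ n le_rfl
    refine ⟨a + b, ?_⟩
    rw [h1] at ha
    rw [h2] at hb
    rw [mul_add, mul_add, ← ha, ← hb]; ring
  rw [h3, ti_teichmuller_mul, Subring.coe_mul, norm_mul]
  exact mul_le_of_le_one_right (norm_nonneg _) (norm_le_one _)

variable (ρ : ℝ)

/-- the Gauss norm -/
noncomputable def NN (x : WittVector p (OO K)) : ℝ := ⨆ n, ρ ^ n * ‖(ti x n : K)‖

variable {ρ} (h0 : 0 < ρ) (h1 : ρ < 1)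
include h0 h1

theorem term_le_one (x : WittVector p (OO K)) (n : ℕ) : ρ ^ n * ‖(ti x n : K)‖ ≤ 1 :=
  mul_le_one₀ (pow_le_one₀ h0.le h1.le) (norm_nonneg _) (norm_le_one _)

theorem bddAbove (x : WittVector p (OO K)) :
    BddAbove (Set.range fun n => ρ ^ n * ‖(ti x n : K)‖) :=
  ⟨1, by rintro _ ⟨n, rfl⟩; exact term_le_one h0 h1 x n⟩

theorem le_NN (x : WittVector p (OO K)) (n : ℕ) : ρ ^ n * ‖(ti x n : K)‖ ≤ NN ρ x :=
  le_ciSup (bddAbove h0 h1 x) n

theorem NN_le_one (x : WittVector p (OO K)) : NN ρ x ≤ 1 := ciSup_le (term_le_one h0 h1 x)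

theorem NN_nonneg (x : WittVector p (OO K)) : 0 ≤ NN ρ x :=
  (mul_nonneg (pow_pos h0 0).le (norm_nonneg _)).trans (le_NN h0 h1 x 0)

omit h0 h1 in
theorem NN_zero : NN ρ (0 : WittVector p (OO K)) = 0 := by
  have : ∀ n, ti (0 : WittVector p (OO K)) n = 0 := fun n => by
    rw [ti, WittVector.zero_coeff, map_zero]
  simp [NN, this]

theorem NN_one : NN ρ (1 : WittVector p (OO K)) = 1 := by
  refine le_antisymm (NN_le_one h0 h1 _) ?_
  have := le_NN h0 h1 (1 : WittVector p (OO K)) 0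
  simpa [ti] using this

theorem NN_add (x y : WittVector p (OO K)) : NN ρ (x + y) ≤ max (NN ρ x) (NN ρ y) := by
  refine ciSup_le fun n => ?_
  obtain ⟨k, hk, h⟩ := norm_ti_add_le x y n
  have hρ : ρ ^ n ≤ ρ ^ k := pow_le_pow_of_le_one h0.le h1.le hk
  calc ρ ^ n * ‖(ti (x + y) n : K)‖ ≤ ρ ^ k * max ‖(ti x k : K)‖ ‖(ti y k : K)‖ :=
        mul_le_mul hρ h (norm_nonneg _) (pow_pos h0 k).le
    _ = max (ρ ^ k * ‖(ti x k : K)‖) (ρ ^ k * ‖(ti y k : K)‖) :=
        mul_max_of_nonneg _ _ (pow_pos h0 k).le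
    _ ≤ _ := max_le_max (le_NN h0 h1 x k) (le_NN h0 h1 y k)

theorem NN_p_mul (x : WittVector p (OO K)) : NN ρ ((p : WittVector p (OO K)) * x) = ρ * NN ρ x := by
  refine le_antisymm (ciSup_le fun n => ?_) ?_
  · cases n with
    | zero => rw [ti_mul_p_zero]; simpa using mul_nonneg h0.le (NN_nonneg h0 h1 x)
    | succ n =>
      rw [ti_mul_p_succ, pow_succ', mul_assoc]
      exact mul_le_mul_of_nonneg_left (le_NN h0 h1 x n) h0.le
  · rw [NN, Real.mul_iSup_of_nonneg h0.le]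
    refine ciSup_le fun n => ?_
    have := le_NN h0 h1 ((p : WittVector p (OO K)) * x) (n + 1)
    rw [ti_mul_p_succ, pow_succ', mul_assoc] at this
    exact this

omit h1 in
theorem NN_teichmuller_mul (y : OO K) (x : WittVector p (OO K)) :
    NN ρ (teichmuller p y * x) = ‖(y : K)‖ * NN ρ x := by
  rw [NN, NN, Real.mul_iSup_of_nonneg (norm_nonneg _)]
  refine congrArg _ (funext fun n => ?_)
  rw [ti_teichmuller_mul, Subring.coe_mul, norm_mul]; ring

theorem NN_p_pow_mul (n : ℕ) (x : WittVector p (OO K)) :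
    NN ρ ((p : WittVector p (OO K)) ^ n * x) = ρ ^ n * NN ρ x := by
  induction n with
  | zero => simp
  | succ n ih => rw [pow_succ', mul_assoc, NN_p_mul h0 h1, ih]; ring

theorem NN_sum_le {ι : Type*} (s : Finset ι) (f : ι → WittVector p (OO K)) (C : ℝ) (hC : 0 ≤ C)
    (h : ∀ i ∈ s, NN ρ (f i) ≤ C) : NN ρ (∑ i ∈ s, f i) ≤ C := by
  classical
  induction s using Finset.induction_on with
  | empty => rw [Finset.sum_empty, NN_zero]; exact hC
  | insert a s ha ih =>
    rw [Finset.sum_insert ha]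
    exact (NN_add h0 h1 _ _).trans (max_le (h a (Finset.mem_insert_self a s))
      (ih fun i hi => h i (Finset.mem_insert_of_mem hi)))

theorem NN_mul (x y : WittVector p (OO K)) : NN ρ (x * y) ≤ NN ρ x * NN ρ y := by
  have hC : 0 ≤ NN ρ x * NN ρ y := mul_nonneg (NN_nonneg h0 h1 x) (NN_nonneg h0 h1 y)
  have key : ∀ n : ℕ, NN ρ (x * y) ≤ NN ρ x * NN ρ y + ρ ^ (n + 1) := by
    intro n
    obtain ⟨u, hu⟩ := dvd_ti x n
    have hx : x * y = (∑ i ∈ Finset.Iic n, (p : WittVector p (OO K)) ^ i * (teichmuller p (ti x i) * y)) +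
        (p : WittVector p (OO K)) ^ (n + 1) * (u * y) :=
      expand_mul x y u (p : WittVector p (OO K)) (fun i => teichmuller p (ti x i)) n hu
    rw [hx]
    refine (NN_add h0 h1 _ _).trans (max_le ?_ ?_)
    · refine (NN_sum_le h0 h1 _ _ (NN ρ x * NN ρ y) hC fun i _ => ?_).trans
        (le_add_of_nonneg_right (pow_pos h0 _).le)
      rw [NN_p_pow_mul h0 h1, NN_teichmuller_mul h0, ← mul_assoc]
      exact mul_le_mul_of_nonneg_right (le_NN h0 h1 x i) (NN_nonneg h0 h1 y)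
    · rw [NN_p_pow_mul h0 h1]
      have : ρ ^ (n + 1) * NN ρ (u * y) ≤ ρ ^ (n + 1) :=
        mul_le_of_le_one_right (pow_pos h0 _).le (NN_le_one h0 h1 _)
      linarith
  have hlim : Filter.Tendsto (fun n : ℕ => NN ρ x * NN ρ y + ρ ^ (n + 1)) Filter.atTop
      (nhds (NN ρ x * NN ρ y + 0)) :=
    tendsto_const_nhds.add ((tendsto_pow_atTop_nhds_zero_of_lt_one h0.le h1).comp
      (Filter.tendsto_add_atTop_nat 1))
  rw [add_zero] at hlim
  exact ge_of_tendsto' hlim key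

theorem NN_neg (x : WittVector p (OO K)) : NN ρ (-x) = NN ρ x := by
  have h : ∀ z : WittVector p (OO K), NN ρ (-z) ≤ NN ρ z := by
    intro z
    rw [← neg_one_mul]
    refine (NN_mul h0 h1 _ _).trans ?_
    exact mul_le_of_le_one_left (NN_nonneg h0 h1 z) (NN_le_one h0 h1 _)
  refine le_antisymm (h x) ?_
  have := h (-x)
  rwa [neg_neg] at this

end
end Vale.Agent.P217.TBNorm
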