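import Mathlib.FieldTheory.PrimeField
import Mathlib.RingTheory.Henselian
import Vale.Agent.Lib.P217.Frob
import Vale.Agent.Lib.P217.TBNorm

/-!
# P217: a characteristic zero ring with Teichmüller elements (module W1)

`TB K p B`: `B` is a complete ultrametric commutative normed ring in which `p` is invertible, with a ring
homomorphism `θ : W(OO K) → B` such that multiplication by `θ [y]` multiplies norms by `‖y‖` and multiplication by `p`
multiplies norms by a constant `ρ < 1`.

`exists_TB`: existence.  Choose `ϖ : K` with `0 < ‖ϖ‖ = ρ < 1`.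
On `W(OO K)` put `N(x) = sup_k ρ^k ‖x_k‖^{1/p^k}`, where `x_k = x.coeff k` (if `x = ∑ p^k [y_k]` then
`y_k^{p^k} = x_k`; so `N(x) = sup ρ^k ‖y_k‖`).
* `N([y] x) = ‖y‖ N(x)`, `N(p x) = ρ N(x)` from the formulas for the coefficients (`p = VF`).
* `N(x + y) ≤ max(N x, N y)`: it suffices to see that `‖x_k‖, ‖y_k‖ ≤ ‖γ‖^{p^k} ρ^{-k p^k}` for all `k` implies the same for
  `x + y`, `γ ∈ K^×`; dividing by `[γ]` in `W(K)` we may take `γ = 1`. For each `M`, the coefficients of `[ϖ^M] x` and
  `[ϖ^M] y` with index `≤ M` have norm `≤ 1`; since the coefficients of a sum with index `≤ M` only depend on the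
  coefficients of index `≤ M` of the terms, through integral polynomials, the coefficient of index `M` of
  `[ϖ^M](x + y)`, which is `ϖ^{M p^M} (x+y)_M`, has norm `≤ 1`.
* `N(x y) ≤ N(x) N(y)`: expand `x = ∑_{i<M} p^i [x'_i] + p^M (..)`.
So `N` is a norm on the domain `W(OO K)`; it extends to `W(OO K)[1/p]` by `N(x / p^k) = ρ^{-k} N(x)`; `B` is the completion.
-/

set_option linter.unusedSectionVars false

namespace Vale.Agent.P217

section
variable (K : Type*) [NontriviallyNormedField K] [IsUltrametricDist K] [CompleteSpace K]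
  [IsAlgClosed K] (p : ℕ) [Fact p.Prime] [CharP K p]

/-- see the module docstring -/
structure TB (B : Type*) [NormedCommRing B] where
  /-- the homomorphism from Witt vectors -/
  θ : WittVector p (OO K) →+* B
  /-- the norm of `p` -/
  ρ : ℝ
  ρ_pos : 0 < ρ
  ρ_lt : ρ < 1
  /-- `p` as a unit -/
  pu : Bˣ
  pu_eq : (pu : B) = (p : B)
  norm_one' : ‖(1 : B)‖ = 1
  norm_p : ∀ b : B, ‖(p : B) * b‖ = ρ * ‖b‖
  norm_T : ∀ (y : OO K) (b : B), ‖θ (WittVector.teichmuller p y) * b‖ = ‖(y : K)‖ * ‖b‖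
  norm_θ : ∀ x, ‖θ x‖ ≤ 1

end

theorem exists_TB.{u} (K : Type u) [NontriviallyNormedField K] [IsUltrametricDist K] [CompleteSpace K]
    [IsAlgClosed K] (p : ℕ) [Fact p.Prime] [CharP K p] :
    ∃ (B : Type u) (_ : NormedCommRing B) (_ : CompleteSpace B)
    (_ : IsUltrametricDist B), Nonempty (TB K p B) := by
  obtain ⟨ϖ, hϖ0, hϖ1⟩ := NormedField.exists_norm_lt_one K
  obtain ⟨B, i1, i2, i3, θ, pu, hpu, h1, hp, hθ, hy⟩ := TBAlg.exists_ring p (W := WittVector p (OO K))
    (TBNorm.NN ‖ϖ‖) ‖ϖ‖ hϖ0 TBNorm.NN_zero (TBNorm.NN_add hϖ0 hϖ1) (TBNorm.NN_nonneg hϖ0 hϖ1)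
    (TBNorm.NN_neg hϖ0 hϖ1) (TBNorm.NN_mul hϖ0 hϖ1) (TBNorm.NN_one hϖ0 hϖ1) (TBNorm.NN_p_mul hϖ0 hϖ1)
  exact ⟨B, i1, i2, i3, ⟨{
    θ := θ
    ρ := ‖ϖ‖
    ρ_pos := hϖ0
    ρ_lt := hϖ1
    pu := pu
    pu_eq := hpu
    norm_one' := h1
    norm_p := hp
    norm_T := fun y b => hy _ _ (TBNorm.NN_teichmuller_mul hϖ0 y) b
    norm_θ := fun x => by rw [hθ]; exact TBNorm.NN_le_one hϖ0 hϖ1 x }⟩⟩

/-- elements of `OO K` fixed by Frobenius are natural numbers -/
theorem exists_natCast_of_pow_eq {K : Type*} [NontriviallyNormedField K] [IsUltrametricDist K]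
    {p : ℕ} [Fact p.Prime] [CharP K p] (c : OO K) (hc : c ^ p = c) : ∃ a : ℕ, c = (a : OO K) := by
  have h1 : (c : K) ^ p = c := by
    have := congrArg (Subtype.val) hc
    simpa using this
  have h2 := (Subfield.mem_bot_iff_pow_eq_self K p).mpr h1
  let _ : Algebra (ZMod p) K := ZMod.algebra K p
  rw [Subfield.bot_eq_of_zMod_algebra (p := p)] at h2
  obtain ⟨n, hn⟩ := h2
  refine ⟨n.val, ?_⟩
  apply Subtype.ext
  rw [← hn]
  conv_lhs => rw [← ZMod.natCast_zmod_val n]
  rw [map_natCast]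
  rfl

/-- Witt vectors with zero constant coefficient are divisible by `p` -/
theorem exists_eq_mul_p {K : Type*} [NontriviallyNormedField K] [IsUltrametricDist K]
    [CompleteSpace K] [IsAlgClosed K] {p : ℕ} [Fact p.Prime] [CharP K p]
    (z : WittVector p (OO K)) (hz : z.coeff 0 = 0) : ∃ w : WittVector p (OO K), z = w * p := by
  have h1 := WittVector.verschiebung_shift z 0 (fun i hi => by
    have : i = 0 := by omega
    rw [this, hz])
  obtain ⟨w, hw⟩ := (WittVector.frobenius_bijective p (OO K)).2 (z.shift 1)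
  refine ⟨w, ?_⟩
  rw [← WittVector.verschiebung_frobenius, hw]
  have h2 : z.shift 0 = z := by
    ext i
    rw [WittVector.shift_coeff, zero_add]
  rw [h2] at h1
  exact h1.symm

namespace TB
variable {K : Type*} [NontriviallyNormedField K] [IsUltrametricDist K] [CompleteSpace K]
  [IsAlgClosed K] {p : ℕ} [Fact p.Prime] [CharP K p]
  {B : Type*} [NormedCommRing B] [CompleteSpace B] [IsUltrametricDist B] (D : TB K p B)

/-- Teichmüller element -/
noncomputable def T (y : OO K) : B := D.θ (WittVector.teichmuller p y)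

theorem T_mul (x y : OO K) : D.T (x * y) = D.T x * D.T y := by
  unfold T
  rw [map_mul, map_mul]

theorem T_one : D.T 1 = 1 := by
  unfold T
  rw [map_one, map_one]

theorem T_zero : D.T 0 = 0 := by
  unfold T
  rw [WittVector.teichmuller_zero, map_zero]

theorem norm_T_eq (y : OO K) : ‖D.T y‖ = ‖(y : K)‖ := by
  have h := D.norm_T y 1
  rw [mul_one, D.norm_one', mul_one] at h
  exact h

/-- norms of monomials -/
theorem norm_zpow_mul (k : ℤ) (b : B) : ‖((D.pu ^ k : Bˣ) : B) * b‖ = D.ρ ^ k * ‖b‖ := by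
  have hnat : ∀ (n : ℕ) (b : B), ‖((D.pu ^ n : Bˣ) : B) * b‖ = D.ρ ^ n * ‖b‖ := by
    intro n
    induction n with
    | zero => intro b; simp
    | succ n ih =>
      intro b
      rw [pow_succ, Units.val_mul, mul_assoc, ih, D.pu_eq, D.norm_p, pow_succ]
      ring
  have hρ := D.ρ_pos
  obtain ⟨n, rfl | rfl⟩ := k.eq_nat_or_neg
  · rw [zpow_natCast, zpow_natCast]
    exact hnat n b
  · have h := hnat n (((D.pu ^ (-(n : ℤ)) : Bˣ) : B) * b)
    rw [← mul_assoc, ← Units.val_mul, ← zpow_natCast, ← zpow_add, add_neg_cancel, zpow_zero,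
      Units.val_one, one_mul] at h
    rw [h, ← mul_assoc, ← zpow_natCast, ← zpow_add₀ hρ.ne', neg_add_cancel, zpow_zero, one_mul]

/-- The Witt vectors congruent modulo `p` have close images. -/
theorem norm_θ_sub_le {x y : WittVector p (OO K)} (h : x.coeff 0 = y.coeff 0) :
    ‖D.θ x - D.θ y‖ ≤ D.ρ := by
  have h0 : (x - y).coeff 0 = 0 := by
    have := map_sub (WittVector.constantCoeff (p := p) (R := OO K)) x y
    change (x - y).coeff 0 = x.coeff 0 - y.coeff 0 at this
    rw [this, h, sub_self]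
  obtain ⟨w, hw⟩ := exists_eq_mul_p (x - y) h0
  rw [← map_sub, hw, mul_comm, map_mul, map_natCast, D.norm_p]
  have := D.norm_θ w
  have hρ := D.ρ_pos
  nlinarith

/-- A Witt vector fixed by Frobenius is close to an integer. -/
theorem exists_nat_close (x : WittVector p (OO K))
    (hx : WittVector.frobenius x = x) (M : ℕ) : ∃ a : ℕ, ‖D.θ x - (a : B)‖ ≤ D.ρ ^ M := by
  induction M generalizing x with
  | zero =>
    refine ⟨0, ?_⟩
    rw [Nat.cast_zero, sub_zero, pow_zero]
    exact D.norm_θ x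
  | succ M ih =>
    have h1 : x.coeff 0 ^ p = x.coeff 0 := by
      rw [← WittVector.coeff_frobenius_charP, hx]
    obtain ⟨a0, ha0⟩ := exists_natCast_of_pow_eq (p := p) _ h1
    have h0 : (x - (a0 : WittVector p (OO K))).coeff 0 = 0 := by
      have := map_sub (WittVector.constantCoeff (p := p) (R := OO K)) x a0
      rw [map_natCast] at this
      change (x - (a0 : WittVector p (OO K))).coeff 0 = x.coeff 0 - (a0 : OO K) at this
      rw [this, ha0, sub_self]
    obtain ⟨w, hw⟩ := exists_eq_mul_p _ h0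
    have h2 : WittVector.frobenius w = w := by
      have h3 : WittVector.frobenius (w * (p : WittVector p (OO K))) = w * p := by
        rw [← hw, map_sub, hx, map_natCast]
      rw [map_mul, map_natCast] at h3
      exact mul_right_cancel₀ (WittVector.p_nonzero p (OO K)) h3
    obtain ⟨a1, ha1⟩ := ih w h2
    refine ⟨a0 + p * a1, ?_⟩
    have h4 : D.θ x - ((a0 + p * a1 : ℕ) : B) = (p : B) * (D.θ w - (a1 : B)) := by
      have h5 : x = a0 + w * p := by
        rw [← hw]
        ring
      conv_lhs => rw [h5]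
      rw [map_add, map_mul, map_natCast, map_natCast]
      push_cast
      ring
    rw [h4, D.norm_p, pow_succ']
    exact mul_le_mul_of_nonneg_left ha1 D.ρ_pos.le

end TB
end Vale.Agent.P217
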