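import Mathlib.Data.Finset.Functor
import Vale.Agent.Lib.P217.TB
import Vale.Agent.Lib.P217.Honda

/-!
# P217: additivity of `L_n` on points of the Honda group (proof of `Lq_add` of `Lq.lean`)
-/

set_option linter.unusedSectionVars false

namespace Vale.Agent.P217

open MvPowerSeries Filter Topology

namespace LqAdd

section poly
variable {p : ℕ} [Fact p.Prime] {n : ℕ} (hn : 0 < n)

/-- truncation of the Honda law -/
noncomputable def HN (p : ℕ) [Fact p.Prime] (n : ℕ) (hn : 0 < n) (N : ℕ) :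
    MvPolynomial (Fin 2) ℤ :=
  trunc' ℤ (Finsupp.single 0 N + Finsupp.single 1 N) (hondaZ p n hn).toPowerSeries

theorem HN_coeff_sub {N : ℕ} {e : Fin 2 →₀ ℕ} (he : e.degree ≤ N) :
    coeff e ((hondaZ p n hn).toPowerSeries - (HN p n hn N : MvPowerSeries (Fin 2) ℤ)) = 0 := by
  have h1 : e ≤ Finsupp.single 0 N + Finsupp.single 1 N := by
    intro i
    have h2 : e i ≤ e.degree := Finsupp.le_degree i e
    fin_cases i
    · simp only [Finsupp.add_apply]
      simp
      have h2 : e 0 ≤ e.degree := Finsupp.le_degree 0 e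
      omega
    · simp only [Finsupp.add_apply]
      simp
      have h2 : e 1 ≤ e.degree := Finsupp.le_degree 1 e
      omega
  rw [map_sub, MvPolynomial.coeff_coe, HN, coeff_trunc', if_pos h1, sub_self]

theorem HN_order (N : ℕ) : ((N + 1 : ℕ) : ℕ∞) ≤
    ((hondaZ p n hn).toPowerSeries - (HN p n hn N : MvPowerSeries (Fin 2) ℤ)).order := by
  apply nat_le_order
  intro e he
  exact HN_coeff_sub hn (by omega)

/-- the polynomial `p^m (f_m(H_N) - f_m(X) - f_m(Y))` -/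
noncomputable def PP (p : ℕ) [Fact p.Prime] (n : ℕ) (hn : 0 < n) (N m : ℕ) :
    MvPolynomial (Fin 2) ℤ :=
  ∑ k ∈ Finset.range (m + 1), (p : MvPolynomial (Fin 2) ℤ) ^ (m - k) *
    ((HN p n hn N) ^ (p ^ (n * k)) - (MvPolynomial.X 0) ^ (p ^ (n * k)) -
      (MvPolynomial.X 1) ^ (p ^ (n * k)))

open HondaEx in
include hn in
/-- truncated logarithm -/
theorem trunc_f {σ : Type*} {A : MvPowerSeries σ ℚ} (hA : constantCoeff A = 0) {e : σ →₀ ℕ}
    {m : ℕ} (he : e.degree < p ^ (n * (m + 1))) :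
    coeff e ((hl p n).subst A) =
      ∑ k ∈ Finset.range (m + 1), coeff e (A ^ (p ^ (n * k))) / (p : ℚ) ^ k := by
  rw [coeff_f hn hA]
  have hz : ∀ k, e.degree < p ^ (n * k) → coeff e (A ^ (p ^ (n * k))) / (p : ℚ) ^ k = 0 := by
    intro k hk
    rw [coeff_pow_eq_zero hA hk, zero_div]
  have hp := (Fact.out : p.Prime).pos
  rcases le_total m e.degree with h | h
  · symm
    apply Finset.sum_subset
    · intro k hk
      rw [Finset.mem_range] at hk ⊢
      omega
    · intro k _ hk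
      rw [Finset.mem_range, not_lt] at hk
      apply hz
      exact he.trans_le (Nat.pow_le_pow_right hp (Nat.mul_le_mul_left n hk))
  · apply Finset.sum_subset
    · intro k hk
      rw [Finset.mem_range] at hk ⊢
      omega
    · intro k _ hk
      rw [Finset.mem_range, not_lt] at hk
      apply hz
      exact lt_of_lt_of_le (lt_of_lt_of_le (Nat.lt_succ_self _) hk) (lt_Q hn k).le

theorem order_pow_sub {σ : Type*} {A B : MvPowerSeries σ ℚ} {d : ℕ∞} (h : d ≤ (A - B).order)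
    (m : ℕ) : d ≤ (A ^ m - B ^ m).order := by
  obtain ⟨c, hc⟩ := sub_dvd_pow_sub_pow A B m
  rw [hc]
  exact (h.trans le_self_add).trans le_order_mul

open HondaEx in
theorem PP_coeff {N m : ℕ} (hN : p ^ (n * (m + 1)) ≤ N + 1) {e : Fin 2 →₀ ℕ}
    (he : e.degree < p ^ (n * (m + 1))) : MvPolynomial.coeff e (PP p n hn N m) = 0 := by
  have hp0 : (p : ℚ) ≠ 0 := by exact_mod_cast (Fact.out : p.Prime).ne_zero
  set Φ : MvPowerSeries (Fin 2) ℚ := ((hondaZ p n hn).map (Int.castRingHom ℚ)).toPowerSeries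
    with hΦ
  set HQ : MvPowerSeries (Fin 2) ℚ := toQ (HN p n hn N : MvPowerSeries (Fin 2) ℤ) with hHQ
  have hΦ0 : constantCoeff Φ = 0 := ((hondaZ p n hn).map (Int.castRingHom ℚ)).zero_constantCoeff
  have hlog : (hl p n).subst Φ = (hl p n).subst (X 0 : MvPowerSeries (Fin 2) ℚ) +
      (hl p n).subst (X 1 : MvPowerSeries (Fin 2) ℚ) := (hondaZ_spec p n hn).log
  have hord : ((N + 1 : ℕ) : ℕ∞) ≤ (Φ - HQ).order := by
    have h1 : Φ - HQ = toQ ((hondaZ p n hn).toPowerSeries -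
        (HN p n hn N : MvPowerSeries (Fin 2) ℤ)) := by
      rw [map_sub]; rfl
    rw [h1]
    exact (HN_order hn N).trans (le_order_map _)
  have hcoef : ∀ k, coeff e (HQ ^ (p ^ (n * k))) = coeff e (Φ ^ (p ^ (n * k))) := by
    intro k
    have h1 := order_pow_sub hord (p ^ (n * k))
    have h2 : coeff e (Φ ^ (p ^ (n * k)) - HQ ^ (p ^ (n * k))) = 0 := by
      apply coeff_of_lt_order (lt_of_lt_of_le _ h1)
      exact_mod_cast he.trans_le hN
    rw [map_sub, sub_eq_zero] at h2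
    exact h2.symm
  have h3 := congrArg (coeff e) hlog
  rw [map_add, trunc_f hn hΦ0 he, trunc_f hn (constantCoeff_X 0) he,
    trunc_f hn (constantCoeff_X 1) he] at h3
  have h4 : ((MvPolynomial.coeff e (PP p n hn N m) : ℤ) : ℚ) =
      coeff e (toQ (PP p n hn N m : MvPowerSeries (Fin 2) ℤ)) := by
    rw [coeff_map, MvPolynomial.coeff_coe]
    rfl
  have h5 : toQ (PP p n hn N m : MvPowerSeries (Fin 2) ℤ) =
      ∑ k ∈ Finset.range (m + 1), (p : MvPowerSeries (Fin 2) ℚ) ^ (m - k) *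
        (HQ ^ (p ^ (n * k)) - (X 0) ^ (p ^ (n * k)) - (X 1) ^ (p ^ (n * k))) := by
    rw [PP, ← MvPolynomial.coeToMvPowerSeries.ringHom_apply, map_sum, map_sum]
    apply Finset.sum_congr rfl
    intro k _
    simp only [map_mul, map_sub, map_pow, map_natCast, MvPolynomial.coeToMvPowerSeries.ringHom_apply,
      MvPolynomial.coe_X, map_X]
    rfl
  have h6 : ∀ k ∈ Finset.range (m + 1), coeff e ((p : MvPowerSeries (Fin 2) ℚ) ^ (m - k) *
        (HQ ^ (p ^ (n * k)) - (X 0) ^ (p ^ (n * k)) - (X 1) ^ (p ^ (n * k)))) =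
      (p : ℚ) ^ m * (coeff e (Φ ^ (p ^ (n * k))) / (p : ℚ) ^ k -
        coeff e ((X 0 : MvPowerSeries (Fin 2) ℚ) ^ (p ^ (n * k))) / (p : ℚ) ^ k -
        coeff e ((X 1 : MvPowerSeries (Fin 2) ℚ) ^ (p ^ (n * k))) / (p : ℚ) ^ k) := by
    intro k hk
    have hk' := Finset.mem_range.1 hk
    have h7 : (p : MvPowerSeries (Fin 2) ℚ) ^ (m - k) = C ((p : ℚ) ^ (m - k)) := by
      rw [map_pow]; simp
    rw [h7, coeff_C_mul, map_sub, map_sub, hcoef, ← sub_div, ← sub_div, ← mul_div_assoc,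
      eq_div_iff (pow_ne_zero k hp0)]
    have h8 : (p : ℚ) ^ m = (p : ℚ) ^ (m - k) * (p : ℚ) ^ k := by
      rw [← pow_add]; congr 1; omega
    rw [h8]
    ring
  have h9 : ((MvPolynomial.coeff e (PP p n hn N m) : ℤ) : ℚ) = 0 := by
    rw [h4, h5, map_sum, Finset.sum_congr rfl h6, ← Finset.mul_sum, Finset.sum_sub_distrib,
      Finset.sum_sub_distrib, h3]
    ring
  exact_mod_cast h9

end poly

section main
variable {K : Type*} [NontriviallyNormedField K] [IsUltrametricDist K] [CompleteSpace K]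
  [IsAlgClosed K] {p : ℕ} [Fact p.Prime] [CharP K p]
  {B : Type*} [NormedCommRing B] [CompleteSpace B] [IsUltrametricDist B] (D : TB K p B)

/-- closed unit ball of `B` -/
def ball (D : TB K p B) : Subring B where
  carrier := {b | ‖b‖ ≤ 1}
  mul_mem' {a b} ha hb := (norm_mul_le a b).trans (mul_le_one₀ ha (norm_nonneg _) hb)
  one_mem' := D.norm_one'.le
  add_mem' {a b} ha hb := (IsUltrametricDist.norm_add_le_max a b).trans (max_le ha hb)
  zero_mem' := by simp
  neg_mem' {a} ha := by simpa using ha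

theorem mem_ball {b : B} : b ∈ ball D ↔ ‖b‖ ≤ 1 := Iff.rfl

theorem norm_p_pow (k : ℕ) (b : B) : ‖(p : B) ^ k * b‖ = D.ρ ^ k * ‖b‖ := by
  have h := D.norm_zpow_mul (k : ℤ) b
  rw [zpow_natCast, zpow_natCast, Units.val_pow_eq_pow_val, D.pu_eq] at h
  exact h

theorem pow_close {u v : B} (hu : ‖u‖ ≤ 1) (hv : ‖v‖ ≤ 1) (h : ‖u - v‖ ≤ D.ρ) (j : ℕ) :
    ‖u ^ (p ^ j) - v ^ (p ^ j)‖ ≤ D.ρ ^ (j + 1) := by
  have hρ := D.ρ_pos
  set w : B := ((D.pu ^ (-1 : ℤ) : Bˣ) : B) * (u - v) with hw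
  have hw1 : ‖w‖ ≤ 1 := by
    rw [hw, D.norm_zpow_mul, zpow_neg_one, inv_mul_le_iff₀ hρ, mul_one]
    exact h
  have hpw : u - v = (p : B) * w := by
    rw [hw, ← D.pu_eq, ← mul_assoc, ← Units.val_mul, zpow_neg_one, mul_inv_cancel, Units.val_one,
      one_mul]
  let u' : ball D := ⟨u, hu⟩
  let v' : ball D := ⟨v, hv⟩
  let w' : ball D := ⟨w, hw1⟩
  have h1 : ((p : ℕ) : ball D) ∣ u' - v' := by
    refine ⟨w', ?_⟩
    apply Subtype.ext
    exact hpw
  obtain ⟨c, hc⟩ := dvd_sub_pow_of_dvd_sub h1 j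
  have h2 : u ^ (p ^ j) - v ^ (p ^ j) = (p : B) ^ (j + 1) * (c : B) := by
    have := congrArg (Subtype.val) hc
    exact this
  rw [h2, norm_p_pow D]
  have h3 : ‖(c : B)‖ ≤ 1 := c.2
  have := pow_pos hρ (j + 1)
  nlinarith

/-- `‖T a - T b‖ ≤ max (‖a - b‖, ρ)` -/
theorem T_sub_le (a b : OO K) : ‖D.T a - D.T b‖ ≤ max ‖((a : K) - b)‖ D.ρ := by
  have h1 : D.T a - D.T b = (D.T a - D.T b - D.T (a - b)) + D.T (a - b) := by ring
  rw [h1]
  refine (IsUltrametricDist.norm_add_le_max _ _).trans ?_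
  rw [max_comm]
  refine max_le_max ?_ ?_
  · rw [D.norm_T_eq]
    exact le_rfl
  · have h2 : D.T a - D.T b - D.T (a - b) =
        D.θ (WittVector.teichmuller p a - WittVector.teichmuller p b) -
          D.θ (WittVector.teichmuller p (a - b)) := by
      rw [map_sub]; rfl
    rw [h2]
    apply D.norm_θ_sub_le
    have h3 := map_sub (WittVector.constantCoeff (p := p) (R := OO K))
      (WittVector.teichmuller p a) (WittVector.teichmuller p b)
    have h4 : ∀ x : OO K, (WittVector.constantCoeff (p := p) (R := OO K))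
        (WittVector.teichmuller p x) = x := fun x => WittVector.teichmuller_coeff_zero p x
    rw [h4, h4] at h3
    rw [WittVector.teichmuller_coeff_zero]
    exact h3

include D in
theorem norm_intCast_le (c : ℤ) : ‖(c : B)‖ ≤ 1 := by
  have := D.norm_θ (c : WittVector p (OO K))
  rwa [map_intCast] at this

include D in
/-- values of polynomials of high order -/
theorem norm_eval_le {P : MvPolynomial (Fin 2) ℤ} {m : ℕ}
    (hP : ∀ e : Fin 2 →₀ ℕ, e.degree < m → MvPolynomial.coeff e P = 0) {s t : B} {c : ℝ}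
    (hc0 : 0 ≤ c) (hc1 : c ≤ 1) (hs : ‖s‖ ≤ c) (ht : ‖t‖ ≤ c) :
    ‖MvPolynomial.eval₂ (Int.castRingHom B) ![s, t] P‖ ≤ c ^ m := by
  rw [MvPolynomial.eval₂_eq']
  apply IsUltrametricDist.norm_sum_le_of_forall_le_of_nonneg (pow_nonneg hc0 m)
  intro e he
  have hdeg : m ≤ e.degree := by
    by_contra hcon
    rw [MvPolynomial.mem_support_iff] at he
    exact he (hP e (not_le.1 hcon))
  have h1 : ‖∏ i : Fin 2, (![s, t] : Fin 2 → B) i ^ e i‖ ≤ c ^ e.degree := by
    rw [Fin.prod_univ_two]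
    have h2 : e.degree = e 0 + e 1 := by
      rw [Finsupp.degree_eq_sum, Fin.sum_univ_two]
    rw [h2, pow_add]
    have hpow : ∀ (b : B) (k : ℕ), ‖b‖ ≤ c → ‖b ^ k‖ ≤ c ^ k := by
      intro b k hb
      induction k with
      | zero => rw [pow_zero, pow_zero]; exact D.norm_one'.le
      | succ k ih =>
        rw [pow_succ, pow_succ]
        exact (norm_mul_le _ _).trans (mul_le_mul ih hb (norm_nonneg _) (pow_nonneg hc0 k))
    exact (norm_mul_le _ _).trans (mul_le_mul (hpow s _ hs) (hpow t _ ht) (norm_nonneg _)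
      (pow_nonneg hc0 _))
  calc ‖(Int.castRingHom B) (MvPolynomial.coeff e P) * ∏ i : Fin 2, (![s, t] : Fin 2 → B) i ^ e i‖
      ≤ ‖(Int.castRingHom B) (MvPolynomial.coeff e P)‖ *
        ‖∏ i : Fin 2, (![s, t] : Fin 2 → B) i ^ e i‖ := norm_mul_le _ _
    _ ≤ 1 * c ^ e.degree := by
        refine mul_le_mul (norm_intCast_le D _) h1 (norm_nonneg _) zero_le_one
    _ ≤ c ^ m := by
        rw [one_mul]
        exact pow_le_pow_of_le_one hc0 hc1 hdeg

/-- the value of the truncated law at Teichmüller elements is close to the Teichmüller element of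
the sum -/
theorem T_add_close {n : ℕ} (hn : 0 < n) (x y : Pt (honda (OO K) p n hn)) {c : ℝ} (hc1 : c < 1)
    (hx : ‖(x.val : K)‖ ≤ c) (hy : ‖(y.val : K)‖ ≤ c) {N : ℕ} (hN : c ^ (N + 1) ≤ D.ρ) :
    ‖D.T (x + y).val - MvPolynomial.eval₂ (Int.castRingHom B) ![D.T x.val, D.T y.val]
      (HN p n hn N)‖ ≤ D.ρ := by
  have hc0 : 0 ≤ c := (norm_nonneg _).trans hx
  have hev : HasEval ![x.val, y.val] := hasEval_pair x.tn y.tn
  set z' : OO K := MvPolynomial.eval₂ (Int.castRingHom (OO K)) ![x.val, y.val] (HN p n hn N)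
    with hz'
  -- the tail
  have h1 : (x + y).val - z' = ev ![x.val, y.val] (((hondaZ p n hn).toPowerSeries -
      (HN p n hn N : MvPowerSeries (Fin 2) ℤ)).map (Int.castRingHom (OO K))) := by
    rw [map_sub, ev_sub hev]
    congr 1
    have h2 : (HN p n hn N : MvPowerSeries (Fin 2) ℤ).map (Int.castRingHom (OO K)) =
        ((HN p n hn N).map (Int.castRingHom (OO K)) : MvPolynomial (Fin 2) (OO K)) := by
      ext e
      rw [coeff_map, MvPolynomial.coeff_coe, MvPolynomial.coeff_coe, MvPolynomial.coeff_map]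
    rw [h2]
    have h3 : ev ![x.val, y.val] (((HN p n hn N).map (Int.castRingHom (OO K)) :
        MvPolynomial (Fin 2) (OO K)) : MvPowerSeries (Fin 2) (OO K)) =
        MvPolynomial.eval₂ (RingHom.id (OO K)) ![x.val, y.val]
          ((HN p n hn N).map (Int.castRingHom (OO K))) :=
      @MvPowerSeries.eval₂_coe (Fin 2) (OO K) _ ⊥ (OO K) _ _ (RingHom.id (OO K)) _ _
    rw [h3, MvPolynomial.eval₂_map, hz']
    rfl
  have h4 : ‖((x + y).val : K) - z'‖ ≤ c ^ (N + 1) := by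
    have h5 : ev ![x.val, y.val] (((hondaZ p n hn).toPowerSeries -
      (HN p n hn N : MvPowerSeries (Fin 2) ℤ)).map (Int.castRingHom (OO K))) ∈
        ballIdeal K (c ^ (N + 1)) (pow_nonneg hc0 _) := by
      apply ev_mem_of_closed hev _ _ (isClosed_ballIdeal _ _)
      intro e
      by_cases he : e.degree ≤ N
      · rw [coeff_map, HN_coeff_sub hn he, map_zero, zero_mul]
        exact Ideal.zero_mem _
      · apply Ideal.mul_mem_left
        rw [mem_ballIdeal]
        rw [Finsupp.prod_fintype _ _ (by simp), Fin.prod_univ_two]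
        have h6 : e.degree = e 0 + e 1 := by
          rw [Finsupp.degree_eq_sum, Fin.sum_univ_two]
        simp only [Matrix.cons_val_zero, Matrix.cons_val_one, Subring.coe_mul, Subring.coe_pow,
          norm_mul, norm_pow, Matrix.cons_val_fin_one]
        calc ‖(x.val : K)‖ ^ e 0 * ‖(y.val : K)‖ ^ e 1 ≤ c ^ e 0 * c ^ e 1 := by gcongr
          _ = c ^ e.degree := by rw [h6, pow_add]
          _ ≤ c ^ (N + 1) := pow_le_pow_of_le_one hc0 hc1.le (by omega)
    rw [← h1] at h5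
    exact h5
  have h7 : ‖D.T (x + y).val - D.T z'‖ ≤ D.ρ := by
    refine (T_sub_le D _ _).trans (max_le (h4.trans hN) le_rfl)
  -- the Witt vector
  set w : WittVector p (OO K) := MvPolynomial.eval₂ (Int.castRingHom (WittVector p (OO K)))
    ![WittVector.teichmuller p x.val, WittVector.teichmuller p y.val] (HN p n hn N) with hw
  have h8 : D.θ w = MvPolynomial.eval₂ (Int.castRingHom B) ![D.T x.val, D.T y.val]
      (HN p n hn N) := by
    rw [hw, MvPolynomial.eval₂_comp_left D.θ]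
    congr 1
    · exact RingHom.ext_int _ _
    · funext i
      fin_cases i <;> rfl
  have h9 : w.coeff 0 = z' := by
    change WittVector.constantCoeff w = z'
    rw [hw, MvPolynomial.eval₂_comp_left (WittVector.constantCoeff (p := p) (R := OO K)), hz']
    congr 1
    · exact RingHom.ext_int _ _
    · funext i
      fin_cases i
      · exact WittVector.teichmuller_coeff_zero p _
      · exact WittVector.teichmuller_coeff_zero p _
  have h10 : ‖D.T z' - D.θ w‖ ≤ D.ρ := by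
    apply D.norm_θ_sub_le
    rw [h9, WittVector.teichmuller_coeff_zero]
  rw [← h8]
  have h11 : D.T (x + y).val - D.θ w = (D.T (x + y).val - D.T z') + (D.T z' - D.θ w) := by ring
  rw [h11]
  exact (IsUltrametricDist.norm_add_le_max _ _).trans (max_le h7 h10)

/-- truncated logarithm in `B` -/
noncomputable def fm (D : TB K p B) (n m : ℕ) (u : B) : B :=
  ∑ k ∈ Finset.range (m + 1), ((D.pu ^ (-(k : ℤ)) : Bˣ) : B) * u ^ (p ^ (n * k))

/-- `f_m(H_N(s,t)) - f_m(s) - f_m(t)` is small -/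
theorem fm_HN {n : ℕ} (hn : 0 < n) {s t : B} {c : ℝ}
    (hc0 : 0 ≤ c) (hc1 : c ≤ 1) (hs : ‖s‖ ≤ c) (ht : ‖t‖ ≤ c) {N m : ℕ}
    (hN : p ^ (n * (m + 1)) ≤ N + 1) :
    ‖fm D n m (MvPolynomial.eval₂ (Int.castRingHom B) ![s, t] (HN p n hn N)) - fm D n m s -
      fm D n m t‖ ≤ (D.ρ ^ m)⁻¹ * c ^ (p ^ (n * (m + 1))) := by
  set u := MvPolynomial.eval₂ (Int.castRingHom B) ![s, t] (HN p n hn N) with hu
  have h1 := norm_eval_le D (P := PP p n hn N m) (fun e he => PP_coeff hn hN he) hc0 hc1 hs ht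
  have h2 : MvPolynomial.eval₂ (Int.castRingHom B) ![s, t] (PP p n hn N m) =
      ∑ k ∈ Finset.range (m + 1), (p : B) ^ (m - k) *
        (u ^ (p ^ (n * k)) - s ^ (p ^ (n * k)) - t ^ (p ^ (n * k))) := by
    rw [PP, ← MvPolynomial.coe_eval₂Hom, map_sum]
    apply Finset.sum_congr rfl
    intro k _
    simp only [map_mul, map_sub, map_pow, map_natCast, MvPolynomial.eval₂Hom_X',
      MvPolynomial.coe_eval₂Hom, Matrix.cons_val_zero, Matrix.cons_val_one,
      Matrix.cons_val_fin_one]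
    rfl
  have h3 : fm D n m u - fm D n m s - fm D n m t =
      ((D.pu ^ (-(m : ℤ)) : Bˣ) : B) * MvPolynomial.eval₂ (Int.castRingHom B) ![s, t]
        (PP p n hn N m) := by
    rw [h2, fm, fm, fm, ← Finset.sum_sub_distrib, ← Finset.sum_sub_distrib, Finset.mul_sum]
    apply Finset.sum_congr rfl
    intro k hk
    have hk' := Finset.mem_range.1 hk
    have h4 : ((D.pu ^ (-(k : ℤ)) : Bˣ) : B) =
        ((D.pu ^ (-(m : ℤ)) : Bˣ) : B) * (p : B) ^ (m - k) := by
      rw [← D.pu_eq, ← Units.val_pow_eq_pow_val, ← Units.val_mul, ← zpow_natCast, ← zpow_add]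
      congr 2
      omega
    rw [h4]
    ring
  rw [h3, D.norm_zpow_mul, zpow_neg, zpow_natCast]
  exact mul_le_mul_of_nonneg_left h1 (inv_nonneg.2 (pow_nonneg D.ρ_pos.le m))

theorem fm_close {n : ℕ} (hn : 0 < n) {u v : B} (hu : ‖u‖ ≤ 1) (hv : ‖v‖ ≤ 1)
    (h : ‖u - v‖ ≤ D.ρ) (m : ℕ) : ‖fm D n m u - fm D n m v‖ ≤ D.ρ := by
  rw [fm, fm, ← Finset.sum_sub_distrib]
  apply IsUltrametricDist.norm_sum_le_of_forall_le_of_nonneg D.ρ_pos.le
  intro k _
  rw [← mul_sub, D.norm_zpow_mul, zpow_neg, zpow_natCast]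
  have h1 := pow_close D hu hv h (n * k)
  have h2 : D.ρ ^ (n * k + 1) ≤ D.ρ ^ (k + 1) := by
    apply pow_le_pow_of_le_one D.ρ_pos.le D.ρ_lt.le
    have := Nat.le_mul_of_pos_left k hn
    omega
  have h3 : 0 < D.ρ ^ k := pow_pos D.ρ_pos k
  rw [inv_mul_le_iff₀ h3, ← pow_succ]
  exact h1.trans h2

theorem T_pow (y : OO K) (m : ℕ) : D.T (y ^ m) = D.T y ^ m := by
  induction m with
  | zero => rw [pow_zero, pow_zero, D.T_one]
  | succ m ih => rw [pow_succ, pow_succ, D.T_mul, ih]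

/-- Frobenius on points of the Honda law -/
noncomputable def FrPt {n : ℕ} (hn : 0 < n) (e : ℤ) (x : Pt (honda (OO K) p n hn)) :
    Pt (honda (OO K) p n hn) :=
  ⟨Fr p e x.val, tn_iff.2 (norm_Fr_lt_one p e (tn_iff.1 x.tn))⟩

theorem FrPt_add {n : ℕ} (hn : 0 < n) (e : ℤ) (x y : Pt (honda (OO K) p n hn)) :
    (FrPt hn e x + FrPt hn e y).val = Fr p e (x + y).val := by
  have hev : HasEval ![x.val, y.val] := hasEval_pair x.tn y.tn
  have h1 := map_ev (ψ := ((Fr p e : OO K ≃+* OO K) : OO K →+* OO K)) (continuous_Fr p e) hev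
    (honda (OO K) p n hn).toPowerSeries
  have h2 : (honda (OO K) p n hn).toPowerSeries.map ((Fr p e : OO K ≃+* OO K) : OO K →+* OO K) =
      (honda (OO K) p n hn).toPowerSeries := by
    refine MvPowerSeries.ext fun d => ?_
    rw [coeff_map]
    change ((Fr p e : OO K ≃+* OO K) : OO K →+* OO K) (coeff d
      ((hondaZ p n hn).toPowerSeries.map (Int.castRingHom (OO K)))) = coeff d
      ((hondaZ p n hn).toPowerSeries.map (Int.castRingHom (OO K)))
    rw [coeff_map]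
    simp
  rw [h2] at h1
  have h3 : (fun s => ((Fr p e : OO K ≃+* OO K) : OO K →+* OO K) ((![x.val, y.val] :
      Fin 2 → OO K) s)) = ![Fr p e x.val, Fr p e y.val] := by
    funext s
    fin_cases s <;> rfl
  rw [h3] at h1
  exact h1.symm

theorem partial_eq (n l M : ℕ) (y : OO K) :
    ∑ k ∈ Finset.Icc (-(l : ℤ)) (M : ℤ),
      ((D.pu ^ (-k) : Bˣ) : B) * D.T (Fr p ((n : ℤ) * k) y) =
    ((D.pu ^ (l : ℤ) : Bˣ) : B) * fm D n (M + l) (D.T (Fr p (-((n : ℤ) * l)) y)) := by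
  rw [fm, Finset.mul_sum]
  symm
  refine Finset.sum_nbij' (fun k : ℕ => (k : ℤ) - l) (fun k : ℤ => (k + l).toNat) ?_ ?_ ?_ ?_ ?_
  · intro k hk
    rw [Finset.mem_range] at hk
    rw [Finset.mem_Icc]
    constructor <;> omega
  · intro k hk
    rw [Finset.mem_Icc] at hk
    rw [Finset.mem_range]
    omega
  · intro k hk
    simp
  · intro k hk
    rw [Finset.mem_Icc] at hk
    omega
  · intro k _
    rw [← T_pow, ← Fr_natCast, ← Fr_add, ← mul_assoc, ← Units.val_mul, ← zpow_add]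
    congr 3
    · ring
    · congr 1
      push_cast
      ring

theorem sq_le_two_pow {k : ℕ} (hk : 4 ≤ k) : k * k ≤ 2 ^ k := by
  induction k, hk using Nat.le_induction with
  | base => norm_num
  | succ k hk ih =>
    rw [pow_succ]
    nlinarith

theorem exists_small {ρ c : ℝ} (hρ0 : 0 < ρ) (hc0 : 0 ≤ c) (hc1 : c < 1)
    {n : ℕ} (hn : 0 < n) :
    ∃ m₀ : ℕ, ∀ m ≥ m₀, c ^ (p ^ (n * (m + 1))) ≤ ρ ^ m * ρ := by
  obtain ⟨a, ha⟩ := exists_pow_lt_of_lt_one hρ0 hc1
  refine ⟨max a 4, fun m hm => ?_⟩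
  have ha' : a ≤ m := (le_max_left _ _).trans hm
  have h4 : 4 ≤ m := (le_max_right _ _).trans hm
  have h1 : a * (m + 1) ≤ p ^ (n * (m + 1)) := by
    calc a * (m + 1) ≤ (m + 1) * (m + 1) := Nat.mul_le_mul_right _ (by omega)
      _ ≤ 2 ^ (m + 1) := sq_le_two_pow (by omega)
      _ ≤ p ^ (m + 1) := Nat.pow_le_pow_left (Fact.out : p.Prime).two_le _
      _ ≤ p ^ (n * (m + 1)) := Nat.pow_le_pow_right (Fact.out : p.Prime).pos
          (Nat.le_mul_of_pos_left _ hn)
  calc c ^ (p ^ (n * (m + 1))) ≤ c ^ (a * (m + 1)) := pow_le_pow_of_le_one hc0 hc1.le h1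
    _ = (c ^ a) ^ (m + 1) := by rw [pow_mul]
    _ ≤ ρ ^ (m + 1) := by gcongr
    _ = ρ ^ m * ρ := pow_succ _ _

/-- the key estimate -/
theorem fm_add {n : ℕ} (hn : 0 < n) (x y : Pt (honda (OO K) p n hn)) :
    ∃ m₀ : ℕ, ∀ m ≥ m₀, ‖fm D n m (D.T (x + y).val) - fm D n m (D.T x.val) -
      fm D n m (D.T y.val)‖ ≤ D.ρ := by
  have hρ := D.ρ_pos
  set c : ℝ := max ‖(x.val : K)‖ ‖(y.val : K)‖ with hc
  have hx : ‖(x.val : K)‖ ≤ c := le_max_left _ _
  have hy : ‖(y.val : K)‖ ≤ c := le_max_right _ _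
  have hc1 : c < 1 := max_lt x.norm_lt y.norm_lt
  have hc0 : 0 ≤ c := (norm_nonneg _).trans hx
  obtain ⟨m₀, hm₀⟩ := exists_small (p := p) hρ hc0 hc1 hn
  refine ⟨m₀, fun m hm => ?_⟩
  have h1 := hm₀ m hm
  have hρm : D.ρ ^ m ≤ 1 := pow_le_one₀ hρ.le D.ρ_lt.le
  have hρm0 : 0 < D.ρ ^ m := pow_pos hρ m
  have h2 : c ^ (p ^ (n * (m + 1)) + 1) ≤ D.ρ := by
    calc c ^ (p ^ (n * (m + 1)) + 1) ≤ c ^ (p ^ (n * (m + 1))) :=
          pow_le_pow_of_le_one hc0 hc1.le (Nat.le_succ _)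
      _ ≤ D.ρ ^ m * D.ρ := h1
      _ ≤ D.ρ := by nlinarith
  set u := MvPolynomial.eval₂ (Int.castRingHom B) ![D.T x.val, D.T y.val]
    (HN p n hn (p ^ (n * (m + 1)))) with hu
  have h3 : ‖D.T (x + y).val - u‖ ≤ D.ρ := T_add_close D hn x y hc1 hx hy h2
  have hTx : ‖D.T x.val‖ ≤ c := by rw [D.norm_T_eq]; exact hx
  have hTy : ‖D.T y.val‖ ≤ c := by rw [D.norm_T_eq]; exact hy
  have hu1 : ‖u‖ ≤ 1 := by
    have := norm_eval_le D (P := HN p n hn (p ^ (n * (m + 1)))) (m := 0)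
      (fun e he => absurd he (Nat.not_lt_zero _)) hc0 hc1.le hTx hTy
    rwa [pow_zero] at this
  have h4 : ‖fm D n m (D.T (x + y).val) - fm D n m u‖ ≤ D.ρ := by
    apply fm_close D hn _ hu1 h3
    rw [D.norm_T_eq]
    exact norm_le_one _
  have h5 : ‖fm D n m u - fm D n m (D.T x.val) - fm D n m (D.T y.val)‖ ≤ D.ρ := by
    refine (fm_HN D hn hc0 hc1.le hTx hTy (m := m) (Nat.le_succ _)).trans ?_
    rw [inv_mul_le_iff₀ hρm0]
    exact h1
  have h6 : fm D n m (D.T (x + y).val) - fm D n m (D.T x.val) - fm D n m (D.T y.val) =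
      (fm D n m (D.T (x + y).val) - fm D n m u) +
      (fm D n m u - fm D n m (D.T x.val) - fm D n m (D.T y.val)) := by ring
  rw [h6]
  exact (IsUltrametricDist.norm_add_le_max _ _).trans (max_le h4 h5)

/-- additivity, at the level of sums -/
theorem add_of_hasSum {n : ℕ} (hn : 0 < n) (x y : Pt (honda (OO K) p n hn)) {Lx Ly Lz : B}
    (hx : HasSum (fun k : ℤ => ((D.pu ^ (-k) : Bˣ) : B) * D.T (Fr p ((n : ℤ) * k) x.val)) Lx)
    (hy : HasSum (fun k : ℤ => ((D.pu ^ (-k) : Bˣ) : B) * D.T (Fr p ((n : ℤ) * k) y.val)) Ly)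
    (hz : HasSum (fun k : ℤ => ((D.pu ^ (-k) : Bˣ) : B) * D.T (Fr p ((n : ℤ) * k) (x + y).val)) Lz) :
    Lz = Lx + Ly := by
  classical
  have hρ := D.ρ_pos
  have hd := (hz.sub hx).sub hy
  have hbound : ∀ ε > 0, ‖Lz - Lx - Ly‖ ≤ ε := by
    intro ε hε
    -- finite sets of indices
    have hd' : Tendsto (fun s : Finset ℤ => ∑ k ∈ s,
        (((D.pu ^ (-k) : Bˣ) : B) * D.T (Fr p ((n : ℤ) * k) (x + y).val) -
          ((D.pu ^ (-k) : Bˣ) : B) * D.T (Fr p ((n : ℤ) * k) x.val) -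
          ((D.pu ^ (-k) : Bˣ) : B) * D.T (Fr p ((n : ℤ) * k) y.val))) atTop
        (𝓝 (Lz - Lx - Ly)) := by
      have := hd
      rw [HasSum, SummationFilter.unconditional_filter] at this
      exact this
    obtain ⟨s₀, hs₀⟩ := Metric.tendsto_atTop.1 hd' ε hε
    obtain ⟨l₁, hl₁⟩ := exists_pow_lt_of_lt_one hε D.ρ_lt
    set b : ℕ := s₀.sup Int.natAbs with hb
    have hbs : ∀ k ∈ s₀, k.natAbs ≤ b := fun k hk => Finset.le_sup (f := Int.natAbs) hk
    set l : ℕ := max b l₁ with hl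
    obtain ⟨m₀, hm₀⟩ := fm_add D hn (FrPt hn (-((n : ℤ) * l)) x) (FrPt hn (-((n : ℤ) * l)) y)
    rw [FrPt_add] at hm₀
    set M : ℕ := max b m₀ with hM
    have hsub : s₀ ⊆ Finset.Icc (-(l : ℤ)) (M : ℤ) := by
      intro k hk
      have h1 := hbs k hk
      have h2 : b ≤ l := le_max_left _ _
      have h3 : b ≤ M := le_max_left _ _
      rw [Finset.mem_Icc]
      omega
    have h1 := hs₀ _ hsub
    rw [Finset.sum_sub_distrib, Finset.sum_sub_distrib, partial_eq, partial_eq, partial_eq,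
      ← mul_sub, ← mul_sub, dist_eq_norm] at h1
    have h2 := hm₀ (M + l) (le_trans (le_max_right _ _) (Nat.le_add_right _ _))
    set E := fm D n (M + l) (D.T (Fr p (-((n : ℤ) * l)) (x + y).val)) -
      fm D n (M + l) (D.T (Fr p (-((n : ℤ) * l)) x.val)) -
      fm D n (M + l) (D.T (Fr p (-((n : ℤ) * l)) y.val)) with hE
    have h3 : ‖((D.pu ^ (l : ℤ) : Bˣ) : B) * E‖ ≤ ε := by
      rw [D.norm_zpow_mul, zpow_natCast]
      have h4 : D.ρ ^ l ≤ D.ρ ^ l₁ := pow_le_pow_of_le_one hρ.le D.ρ_lt.le (le_max_right _ _)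
      have h5 : ‖E‖ ≤ 1 := h2.trans D.ρ_lt.le
      calc D.ρ ^ l * ‖E‖ ≤ D.ρ ^ l * 1 := by
            apply mul_le_mul_of_nonneg_left h5 (pow_nonneg hρ.le l)
        _ ≤ ε := by rw [mul_one]; exact h4.trans hl₁.le
    have h6 : Lz - Lx - Ly = -(((D.pu ^ (l : ℤ) : Bˣ) : B) * E - (Lz - Lx - Ly)) +
        ((D.pu ^ (l : ℤ) : Bˣ) : B) * E := by ring
    rw [h6]
    refine (IsUltrametricDist.norm_add_le_max _ _).trans (max_le ?_ h3)
    rw [norm_neg]
    exact h1.le
  have h0 : Lz - Lx - Ly = 0 := by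
    rw [← norm_le_zero_iff]
    exact le_of_forall_pos_le_add (fun ε hε => by rw [zero_add]; exact hbound ε hε)
  linear_combination (exp := 1) h0

end main

end LqAdd
end Vale.Agent.P217
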