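import Mathlib.Algebra.Order.Star.Real
import Mathlib.Algebra.Ring.IsFormallyReal
import Mathlib.Analysis.Normed.Group.Ultra
import Mathlib.Analysis.SpecialFunctions.Log.Base

/-!
# P217: real-analysis and ultrametric lemmas for the norm of the function `L_n`

The sequence `G k = ρ ^ (-k) * s ^ (q ^ k)` (`0 < ρ, s < 1 < q`) is log-concave; unless
`s ^ ((q - 1) q ^ k) = ρ` for some `k`, its maximum is attained exactly once.
-/

namespace Vale.Agent.P217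

open Filter Topology

/-- the norms of the terms of `L_n` -/
noncomputable def Gseq (ρ q s : ℝ) (k : ℤ) : ℝ := ρ ^ (-k) * s ^ (q ^ k)

theorem Gseq_pos {ρ q s : ℝ} (hρ0 : 0 < ρ) (hs0 : 0 < s) (k : ℤ) : 0 < Gseq ρ q s k := by
  unfold Gseq
  exact mul_pos (zpow_pos hρ0 _) (Real.rpow_pos_of_pos hs0 _)

theorem Gseq_zero {ρ q s : ℝ} : Gseq ρ q s 0 = s := by
  unfold Gseq; simp

theorem Gseq_succ {ρ q s : ℝ} (hρ0 : 0 < ρ) (hs0 : 0 < s) (hq : 1 < q) (k : ℤ) :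
    Gseq ρ q s (k + 1) * ρ = Gseq ρ q s k * s ^ ((q - 1) * q ^ k) := by
  unfold Gseq
  have hq0 : q ≠ 0 := by linarith
  have e1 : ρ ^ (-(k + 1)) * ρ = ρ ^ (-k) := by
    rw [← zpow_add_one₀ hρ0.ne']
    congr 1; ring
  have e2 : s ^ (q ^ (k + 1)) = s ^ (q ^ k) * s ^ ((q - 1) * q ^ k) := by
    rw [← Real.rpow_add hs0, zpow_add_one₀ hq0]
    congr 1; ring
  rw [e2]
  calc ρ ^ (-(k + 1)) * (s ^ (q ^ k) * s ^ ((q - 1) * q ^ k)) * ρ
      = (ρ ^ (-(k + 1)) * ρ) * (s ^ (q ^ k) * s ^ ((q - 1) * q ^ k)) := by ring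
    _ = _ := by rw [e1]; ring

theorem Gseq_max {ρ q s : ℝ} (hρ0 : 0 < ρ) (hρ1 : ρ < 1) (hs0 : 0 < s) (hs1 : s < 1) (hq : 1 < q)
    (hno : ∀ k : ℤ, s ^ ((q - 1) * q ^ k) ≠ ρ) :
    ∃ k0 : ℤ, ∃ c : ℝ, c < Gseq ρ q s k0 ∧ ∀ k, k ≠ k0 → Gseq ρ q s k ≤ c := by
  have hq1 : 0 < q - 1 := by linarith
  -- the real number `x` with `s ^ ((q-1) x) = ρ`
  obtain ⟨x, hx0, hx⟩ : ∃ x : ℝ, 0 < x ∧ s ^ ((q - 1) * x) = ρ := by
    refine ⟨Real.logb s ρ / (q - 1), ?_, ?_⟩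
    · apply div_pos _ hq1
      exact Real.logb_pos_of_base_lt_one hs0 hs1 hρ0 hρ1
    · rw [mul_div_cancel₀ _ hq1.ne', Real.rpow_logb hs0 hs1.ne hρ0]
  obtain ⟨m, hm1, hm2⟩ := exists_mem_Ioc_zpow hx0 hq
  have hgt : ∀ j : ℤ, q ^ j < x → ρ < s ^ ((q - 1) * q ^ j) := by
    intro j hj
    rw [← hx]
    exact Real.rpow_lt_rpow_of_exponent_gt hs0 hs1 (mul_lt_mul_of_pos_left hj hq1)
  have hlt : ∀ j : ℤ, x < q ^ j → s ^ ((q - 1) * q ^ j) < ρ := by
    intro j hj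
    conv_rhs => rw [← hx]
    exact Real.rpow_lt_rpow_of_exponent_gt hs0 hs1 (mul_lt_mul_of_pos_left hj hq1)
  have hm3 : x < q ^ (m + 1) := by
    rcases hm2.lt_or_eq with h | h
    · exact h
    · exact absurd (h ▸ hx) (hno (m + 1))
  -- increasing part
  have hinc : ∀ j : ℤ, j ≤ m → Gseq ρ q s j < Gseq ρ q s (j + 1) := by
    intro j hj
    have h1 : q ^ j < x := (zpow_le_zpow_right₀ hq.le hj).trans_lt hm1
    have h2 := hgt j h1
    have h3 := Gseq_succ hρ0 hs0 hq j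
    have h4 := Gseq_pos (q := q) hρ0 hs0 j
    have h5 : Gseq ρ q s j * ρ < Gseq ρ q s (j + 1) * ρ := by
      rw [h3]; exact mul_lt_mul_of_pos_left h2 h4
    exact lt_of_mul_lt_mul_right h5 hρ0.le
  have hdec : ∀ j : ℤ, m + 1 ≤ j → Gseq ρ q s (j + 1) < Gseq ρ q s j := by
    intro j hj
    have h1 : x < q ^ j := hm3.trans_le (zpow_le_zpow_right₀ hq.le hj)
    have h2 := hlt j h1
    have h3 := Gseq_succ hρ0 hs0 hq j
    have h4 := Gseq_pos (q := q) hρ0 hs0 j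
    have h5 : Gseq ρ q s (j + 1) * ρ < Gseq ρ q s j * ρ := by
      rw [h3]; exact mul_lt_mul_of_pos_left h2 h4
    exact lt_of_mul_lt_mul_right h5 hρ0.le
  have hup : ∀ t : ℕ, Gseq ρ q s (m + 2 + t) ≤ Gseq ρ q s (m + 2) := by
    intro t
    induction t with
    | zero => simp
    | succ t ih =>
      have := hdec (m + 2 + t) (by omega)
      refine le_trans (le_of_eq ?_) (this.le.trans ih)
      congr 1; push_cast; ring
  have hdown : ∀ t : ℕ, Gseq ρ q s (m - t) ≤ Gseq ρ q s m := by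
    intro t
    induction t with
    | zero => simp
    | succ t ih =>
      have := hinc (m - (t + 1 : ℕ)) (by omega)
      refine this.le.trans (le_trans (le_of_eq ?_) ih)
      congr 1; push_cast; ring
  refine ⟨m + 1, max (Gseq ρ q s m) (Gseq ρ q s (m + 2)), ?_, ?_⟩
  · refine max_lt (hinc m le_rfl) ?_
    have := hdec (m + 1) le_rfl
    refine lt_of_eq_of_lt ?_ this
    congr 1; ring
  · intro k hk
    rcases lt_or_gt_of_ne hk with h | h
    · refine le_max_of_le_left ?_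
      obtain ⟨t, rfl⟩ : ∃ t : ℕ, k = m - t := ⟨(m - k).toNat, by omega⟩
      exact hdown t
    · refine le_max_of_le_right ?_
      obtain ⟨t, rfl⟩ : ∃ t : ℕ, k = m + 2 + t := ⟨(k - (m + 2)).toNat, by omega⟩
      exact hup t

/-- If a term of a convergent ultrametric sum strictly dominates all others (uniformly), then the
norm of the sum is the norm of this term. -/
theorem norm_hasSum_eq {B : Type*} [NormedAddCommGroup B] [IsUltrametricDist B] {ι : Type*}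
    {f : ι → B} {S : B} (h : HasSum f S) (k0 : ι) {c : ℝ} (hc0 : 0 ≤ c) (hc : c < ‖f k0‖)
    (hk : ∀ k, k ≠ k0 → ‖f k‖ ≤ c) : ‖S‖ = ‖f k0‖ := by
  classical
  have h1 : ‖S - f k0‖ ≤ c := by
    have ht : Tendsto (fun s : Finset ι => ‖∑ k ∈ s, f k - f k0‖) atTop (𝓝 ‖S - f k0‖) :=
      (Filter.Tendsto.sub_const h (f k0)).norm
    refine le_of_tendsto ht ?_
    filter_upwards [eventually_ge_atTop ({k0} : Finset ι)] with s hs
    have hk0 : k0 ∈ s := hs (Finset.mem_singleton_self k0)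
    have e : ∑ k ∈ s, f k - f k0 = ∑ k ∈ s.erase k0, f k := by
      rw [← Finset.add_sum_erase s f hk0]; abel
    rw [e]
    exact IsUltrametricDist.norm_sum_le_of_forall_le_of_nonneg hc0
      fun k hk' => hk k (Finset.ne_of_mem_erase hk')
  have h2 : ‖S - f k0‖ < ‖f k0‖ := h1.trans_lt hc
  have h3 : ‖(S - f k0) + f k0‖ = max ‖S - f k0‖ ‖f k0‖ :=
    IsUltrametricDist.norm_add_eq_max_of_norm_ne_norm h2.ne
  rw [sub_add_cancel, max_eq_right h2.le] at h3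
  exact h3

/-- two ties imply a relation between powers -/
theorem tie_tie {ρ q s : ℝ} (hs0 : 0 < s) (hs1 : s < 1) (hq : 1 < q) {m : ℕ} {k k' : ℤ}
    (h1 : s ^ ((q - 1) * q ^ k) = ρ) (h2 : (s ^ m) ^ ((q - 1) * q ^ k') = ρ) :
    q ^ k = m * q ^ k' := by
  have hq1 : 0 < q - 1 := by linarith
  rw [← Real.rpow_natCast, ← Real.rpow_mul hs0.le, ← h1] at h2
  have h3 : (m : ℝ) * ((q - 1) * q ^ k') = (q - 1) * q ^ k := by
    rcases lt_trichotomy ((m : ℝ) * ((q - 1) * q ^ k')) ((q - 1) * q ^ k) with h | h | h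
    · exact absurd h2 (Real.rpow_lt_rpow_of_exponent_gt hs0 hs1 h).ne'
    · exact h
    · exact absurd h2 (Real.rpow_lt_rpow_of_exponent_gt hs0 hs1 h).ne
  have h4 : (q - 1) * (q ^ k - m * q ^ k') = 0 := by linear_combination -h3
  rcases mul_eq_zero.1 h4 with h | h
  · exact absurd h hq1.ne'
  · linarith

/-- `p ^ (n k) = m p ^ (n k')` with integers `k, k'`: then `m` is a power of `p ^ n` -/
theorem eq_pow_of_zpow {p n m : ℕ} (hp : 1 < p) {k k' : ℤ}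
    (h : ((p : ℝ) ^ n) ^ k = m * ((p : ℝ) ^ n) ^ k') : ∃ t : ℕ, m = (p ^ n) ^ t := by
  have hp0 : (0 : ℝ) < p := by exact_mod_cast (by omega : 0 < p)
  have hq0 : ((p : ℝ) ^ n) ≠ 0 := (pow_pos hp0 n).ne'
  have h1 : (m : ℝ) = ((p : ℝ) ^ n) ^ (k - k') := by
    rw [zpow_sub₀ hq0, h, mul_div_assoc, div_self (zpow_ne_zero _ hq0), mul_one]
  obtain ⟨t, ht | ht⟩ := (k - k').eq_nat_or_neg
  · refine ⟨t, ?_⟩
    rw [ht, zpow_natCast] at h1
    exact_mod_cast h1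
  · rw [ht, zpow_neg, zpow_natCast] at h1
    have h2 : (m : ℝ) * ((p : ℝ) ^ n) ^ t = 1 := by
      rw [h1, inv_mul_cancel₀ (pow_ne_zero _ hq0)]
    have h3 : m * (p ^ n) ^ t = 1 := by exact_mod_cast h2
    have h4 : m = 1 := Nat.eq_one_of_mul_eq_one_right h3
    exact ⟨0, by rw [h4, pow_zero]⟩

end Vale.Agent.P217
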