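import Mathlib.Topology.Algebra.InfiniteSum.Nonarchimedean
import Vale.Agent.Lib.P217.TB
import Vale.Agent.Lib.P217.Honda
import Vale.Agent.Lib.P217.LqAdd
import Vale.Agent.Lib.P217.LqLower

/-!
# P217: the logarithm-like function `L_n(y) = ∑_{k ∈ ℤ} p^{-k} T(y^{p^{nk}})` (module W2)

`D : TB K p B`.  The term of index `k` has norm `ρ^{-k} s^{q^k}` with `s = ‖y‖ < 1`, `q = p^n`, which tends to `0` in both
directions.

* `Lq_frob` (reindexing), `Lq_scale` (`Fr (n k) a = a` when `a^q = a`).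
* `norm_Lq_le` : for `s < 1` there is a uniform bound on `‖y‖ ≤ s`; `Lq_small` : `L_n(y)` tends to `0` uniformly as
  `‖y‖ → 0` (`sup_k ρ^{-k} (s^q)^{q^k} = ρ sup_k ρ^{-k} s^{q^k}`).
* `Lq_add`.  Let `H` be the Honda law over `ℤ`, `f_N(X) = ∑_{k ≤ N} X^{q^k}/p^k`. For `y` in the open disc put
  `y_l = Fr (-n l) y`. Then `p^l f(T(y_l)) = ∑_{k ≥ -l} p^{-k} T(Fr (n k) y) → L_n(y)` where `f = lim f_N` on the open unit disc of `B`.
  (a) The closed unit ball of `B` is an `AdicRing`; for `s, t ∈ B` with norms `< 1`, `H_B(s,t) = ∑ a_{ij} s^i t^j`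
      converges, and `p^N (f_N(H(X,Y)) - f_N(X) - f_N(Y)) ∈ ℤ[[X,Y]]` has order `≥ q^{N+1}` (its terms come from
      `∑_{k > N}`), so
      `‖f_N(H_B(s,t)) - f_N(s) - f_N(t)‖ ≤ ρ^{-N} σ^{q^{N+1}} → 0`, `σ = max(‖s‖,‖t‖)`; so `f(H_B(s,t)) = f(s) + f(t)`.
  (b) `‖H_B(T(x), T(y)) - T(H(x,y))‖ ≤ ρ`: finite partial sums are images under `θ` of Witt vectors congruent modulo `p`
      (`norm_θ_sub_le`), and `‖T(z) - T(z')‖ ≤ max(‖z - z'‖, ρ)` since `[z] - [z'] = [z - z'] + p(…)`.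
  (c) `‖u - v‖ ≤ ρ^j` and `‖u‖,‖v‖ ≤ 1` imply `‖u^p - v^p‖ ≤ ρ^{j+1}` (`j ≥ 1`), so `‖u - v‖ ≤ ρ` implies
      `‖f(u) - f(v)‖ ≤ ρ` (norms of `u`, `v` less than one).
  (d) `z_l = x_l +_H y_l` since Frobenius is compatible with `H`;
      `‖p^l f(T(z_l)) - p^l f(T(x_l)) - p^l f(T(y_l))‖ ≤ ρ^{l+1} → 0`.
* `Lq_lower`: the norms `ρ^{-k} s^{q^k}` for different `k` can be equal only for consecutive `k, k+1` with
  `s^{q^k (q-1)} = ρ` when they are maximal (in general: the sequence `k ↦ ρ^{-k} s^{q^k}` has ratio `ρ^{-1} s^{q^k(q-1)}`, which is decreasing in `k`; so the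
  maximum is attained once or twice, twice exactly when `s^{q^k(q-1)} = ρ` for some `k`).  If it is attained once, the norm of the
  sum is the maximum, which is at least the term `k = 0`, `s`. If this fails for both `s` and `s^p` (the norm of `Fr 1 y`) then
  `q^{k'} p = q^k`, impossible for `n ≥ 2`.
* `Lq_generic`: in the open interval `(s₁, s₂)` there is a norm of an element `y` for which the maximum is attained
  once (dense value group), and then `‖L_n(y) b‖ = max ‖b‖`.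
-/

set_option linter.unusedSectionVars false

namespace Vale.Agent.P217

open MvPowerSeries Filter Topology

namespace TB

section
variable {K : Type*} [NontriviallyNormedField K] [IsUltrametricDist K] [CompleteSpace K]
  [IsAlgClosed K] {p : ℕ} [Fact p.Prime] [CharP K p]
  {B : Type*} [NormedCommRing B] [CompleteSpace B] [IsUltrametricDist B] (D : TB K p B)

/-- `∑_k p^{-k} T(y^{p^{nk}})` -/
noncomputable def Lq (n : ℕ) (y : OO K) : B :=
  ∑' k : ℤ, ((D.pu ^ (-k) : Bˣ) : B) * D.T (Fr p ((n : ℤ) * k) y)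

/-- the term of index `k` -/
noncomputable def tLq (n : ℕ) (y : OO K) (k : ℤ) : B :=
  ((D.pu ^ (-k) : Bˣ) : B) * D.T (Fr p ((n : ℤ) * k) y)

theorem norm_tLq (n : ℕ) (y : OO K) (k : ℤ) :
    ‖D.tLq n y k‖ = D.ρ ^ (-k) * ‖(y : K)‖ ^ ((p : ℝ) ^ ((n : ℤ) * k)) := by
  unfold tLq
  rw [D.norm_zpow_mul, D.norm_T_eq, norm_Fr]

/-- the bounding function of the norms of the terms tends to zero in both directions -/
theorem tendsto_gLq {n : ℕ} (hn : 0 < n) {s : ℝ} (hs0 : 0 ≤ s) (hs : s < 1) :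
    Tendsto (fun k : ℤ => D.ρ ^ (-k) * s ^ ((p : ℝ) ^ ((n : ℤ) * k))) cofinite (𝓝 0) := by
  have hp : p.Prime := Fact.out
  have hp0 : (0 : ℝ) < p := by exact_mod_cast hp.pos
  have hp2 : (2 : ℝ) ≤ p := by exact_mod_cast hp.two_le
  have hρ := D.ρ_pos
  have hρ1 := D.ρ_lt
  rw [Int.cofinite_eq, tendsto_sup]
  constructor
  · -- at -∞
    have h1 : Tendsto (fun k : ℤ => D.ρ ^ (-k)) atBot (𝓝 0) := by
      have h2 : Tendsto (fun m : ℕ => D.ρ ^ m) atTop (𝓝 0) :=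
        tendsto_pow_atTop_nhds_zero_of_lt_one hρ.le hρ1
      have h3 : Tendsto (fun k : ℤ => (-k).toNat) atBot atTop := by
        apply tendsto_atTop.2
        intro b
        filter_upwards [eventually_le_atBot (-(b : ℤ))] with k hk
        omega
      refine (h2.comp h3).congr' ?_
      filter_upwards [eventually_le_atBot (0 : ℤ)] with k hk
      simp only [Function.comp_apply]
      rw [← zpow_natCast, Int.toNat_of_nonneg (by omega)]
    refine squeeze_zero (fun k => ?_) (fun k => ?_) h1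
    · exact mul_nonneg (zpow_nonneg hρ.le _) (Real.rpow_nonneg hs0 _)
    · have h4 : s ^ ((p : ℝ) ^ ((n : ℤ) * k)) ≤ 1 :=
        Real.rpow_le_one hs0 hs.le (zpow_nonneg hp0.le _)
      have h5 : 0 ≤ D.ρ ^ (-k) := zpow_nonneg hρ.le _
      nlinarith
  · -- at +∞
    have h6 : Tendsto (fun m : ℕ => D.ρ⁻¹ * s ^ m) atTop (𝓝 (D.ρ⁻¹ * 0)) :=
      (tendsto_pow_atTop_nhds_zero_of_lt_one hs0 hs).const_mul _
    rw [mul_zero] at h6
    obtain ⟨m, hm⟩ := (h6.eventually (gt_mem_nhds (show (0 : ℝ) < 1 / 2 by norm_num))).exists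
    have hm0 : 0 ≤ D.ρ⁻¹ * s ^ m := mul_nonneg (inv_nonneg.2 hρ.le) (pow_nonneg hs0 _)
    have h7 : Tendsto (fun j : ℕ => (D.ρ⁻¹ * s ^ m) ^ j) atTop (𝓝 0) :=
      tendsto_pow_atTop_nhds_zero_of_lt_one hm0 (by linarith)
    have h8 : ∀ᶠ j : ℕ in atTop, m * j ≤ p ^ (n * j) := by
      have h9 : Tendsto (fun j : ℕ => (j : ℝ) ^ 1 / (2 : ℝ) ^ j) atTop (𝓝 0) :=
        tendsto_pow_const_div_const_pow_of_one_lt 1 (by norm_num)
      have h10 : (0 : ℝ) < 1 / (m + 1) := by positivity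
      filter_upwards [h9.eventually (gt_mem_nhds h10)] with j hj
      rw [pow_one, div_lt_div_iff₀ (by positivity) (by positivity), one_mul] at hj
      have h11 : (m : ℝ) * j ≤ 2 ^ j := by
        have : (0 : ℝ) ≤ j := Nat.cast_nonneg j
        nlinarith
      have h12 : m * j ≤ 2 ^ j := by exact_mod_cast h11
      calc m * j ≤ 2 ^ j := h12
        _ ≤ p ^ j := Nat.pow_le_pow_left hp.two_le _
        _ ≤ p ^ (n * j) := Nat.pow_le_pow_right hp.pos (Nat.le_mul_of_pos_left j hn)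
    have h13 : Tendsto (fun j : ℕ => D.ρ ^ (-(j : ℤ)) * s ^ ((p : ℝ) ^ ((n : ℤ) * (j : ℤ)))) atTop
        (𝓝 0) := by
      refine squeeze_zero' (Eventually.of_forall fun k => ?_) ?_ h7
      · exact mul_nonneg (zpow_nonneg hρ.le _) (Real.rpow_nonneg hs0 _)
      · filter_upwards [h8] with j hj
        have h14 : s ^ ((p : ℝ) ^ ((n : ℤ) * (j : ℤ))) ≤ s ^ (m * j) := by
          have h15 : ((p : ℝ) ^ ((n : ℤ) * (j : ℤ))) = ((p ^ (n * j) : ℕ) : ℝ) := by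
            rw [Nat.cast_pow, ← Nat.cast_mul, zpow_natCast]
          rw [h15, Real.rpow_natCast]
          exact pow_le_pow_of_le_one hs0 hs.le hj
        rw [mul_pow, ← pow_mul, zpow_neg, zpow_natCast, ← inv_pow]
        exact mul_le_mul_of_nonneg_left h14 (pow_nonneg (inv_nonneg.2 hρ.le) _)
    have h16 : Tendsto (fun k : ℤ => k.toNat) atTop atTop := by
      apply tendsto_atTop.2
      intro b
      filter_upwards [eventually_ge_atTop (b : ℤ)] with k hk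
      omega
    refine (h13.comp h16).congr' ?_
    filter_upwards [eventually_ge_atTop (0 : ℤ)] with k hk
    simp only [Function.comp_apply]
    rw [Int.toNat_of_nonneg hk]

theorem summable_tLq {n : ℕ} (hn : 0 < n) {y : OO K} (hy : ‖(y : K)‖ < 1) :
    Summable (D.tLq n y) := by
  apply NonarchimedeanAddGroup.summable_of_tendsto_cofinite_zero
  rw [tendsto_zero_iff_norm_tendsto_zero]
  exact (D.tendsto_gLq hn (norm_nonneg _) hy).congr fun k => (D.norm_tLq n y k).symm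

theorem Lq_hasSum {n : ℕ} (hn : 0 < n) {y : OO K} (hy : ‖(y : K)‖ < 1) :
    HasSum (fun k : ℤ => ((D.pu ^ (-k) : Bˣ) : B) * D.T (Fr p ((n : ℤ) * k) y)) (D.Lq n y) :=
  (D.summable_tLq hn hy).hasSum

theorem Lq_zero (n : ℕ) : D.Lq n 0 = 0 := by
  unfold Lq
  have : ∀ k : ℤ, ((D.pu ^ (-k) : Bˣ) : B) * D.T (Fr p ((n : ℤ) * k) 0) = 0 := by
    intro k
    rw [map_zero, D.T_zero, mul_zero]
  simp only [this, tsum_zero]

theorem Lq_frob {n : ℕ} (hn : 0 < n) {y : OO K} (hy : ‖(y : K)‖ < 1) :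
    D.Lq n (Fr p (n : ℤ) y) = (p : B) * D.Lq n y := by
  have h1 := (D.Lq_hasSum hn hy).mul_left (p : B)
  rw [← (Equiv.addRight (1 : ℤ)).hasSum_iff] at h1
  unfold Lq at h1 ⊢
  rw [← h1.tsum_eq]
  congr 1
  funext k
  simp only [Function.comp_apply, Equiv.coe_addRight]
  rw [← D.pu_eq, ← mul_assoc, ← Units.val_mul, ← zpow_one_add, ← Fr_add]
  have e1 : (1 : ℤ) + -(k + 1) = -k := by ring
  have e2 : (n : ℤ) * k + n = n * (k + 1) := by ring
  rw [e1, e2]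

theorem Fr_fixed {n : ℕ} {a : OO K} (ha : a ^ (p ^ n) = a) (k : ℤ) :
    Fr p ((n : ℤ) * k) a = a := by
  have h1 : Fr p (n : ℤ) a = a := by rw [Fr_natCast, ha]
  have h2 : Fr p (-(n : ℤ)) a = a := by
    conv_lhs => rw [← h1]
    rw [← Fr_add, neg_add_cancel, Fr_zero]
  have h3 : ∀ m : ℕ, Fr p ((n : ℤ) * m) a = a := by
    intro m
    induction m with
    | zero => simp [Fr_zero]
    | succ m ih =>
      have : (n : ℤ) * ((m + 1 : ℕ) : ℤ) = n + n * m := by push_cast; ring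
      rw [this, Fr_add, ih, h1]
  have h4 : ∀ m : ℕ, Fr p ((n : ℤ) * (-(m : ℤ))) a = a := by
    intro m
    induction m with
    | zero => simp [Fr_zero]
    | succ m ih =>
      have : (n : ℤ) * (-((m + 1 : ℕ) : ℤ)) = -n + n * (-m) := by push_cast; ring
      rw [this, Fr_add, ih, h2]
  obtain ⟨m, rfl | rfl⟩ := k.eq_nat_or_neg
  · exact h3 m
  · exact h4 m

theorem Lq_scale {n : ℕ} (hn : 0 < n) (e : ℤ) {y a : OO K} (hy : ‖(y : K)‖ < 1)
    (ha : a ^ (p ^ n) = a) :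
    D.Lq n (Fr p e (a * y)) = D.T (Fr p e a) * D.Lq n (Fr p e y) := by
  have h1 := (D.Lq_hasSum hn (norm_Fr_lt_one p e hy)).mul_left (D.T (Fr p e a))
  unfold Lq at h1 ⊢
  rw [← h1.tsum_eq]
  congr 1
  funext k
  have h2 : Fr p ((n : ℤ) * k) (Fr p e a) = Fr p e a := by
    rw [← Fr_add, add_comm, Fr_add, Fr_fixed ha k]
  rw [map_mul, map_mul, h2, D.T_mul]
  ring

theorem norm_Lq_le {n : ℕ} (hn : 0 < n) {s : ℝ} (hs : s < 1) :
    ∃ M : ℝ, ∀ y : OO K, ‖(y : K)‖ ≤ s → ‖D.Lq n y‖ ≤ M := by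
  have hp : p.Prime := Fact.out
  have hp0 : (0 : ℝ) < p := by exact_mod_cast hp.pos
  have hρ := D.ρ_pos
  rcases lt_or_ge s 0 with h0 | h0
  · exact ⟨0, fun y hy => absurd (lt_of_le_of_lt hy h0) (not_lt.2 (norm_nonneg _))⟩
  · obtain ⟨M, hM⟩ := (D.tendsto_gLq hn h0 hs).bddAbove_range_of_cofinite
    refine ⟨M, fun y hy => ?_⟩
    apply IsUltrametricDist.norm_tsum_le_of_forall_le
    intro k
    have h1 := D.norm_tLq n y k
    unfold tLq at h1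
    rw [h1]
    refine le_trans ?_ (hM ⟨k, rfl⟩)
    apply mul_le_mul_of_nonneg_left _ (zpow_nonneg hρ.le _)
    exact Real.rpow_le_rpow (norm_nonneg _) hy (zpow_nonneg hp0.le _)

theorem Lq_small {n : ℕ} (hn : 0 < n) {ε : ℝ} (hε : 0 < ε) :
    ∃ δ : ℝ, 0 < δ ∧ ∀ y : OO K, ‖(y : K)‖ ≤ δ → ‖D.Lq n y‖ ≤ ε := by
  have hp : p.Prime := Fact.out
  have hp0 : (0 : ℝ) < p := by exact_mod_cast hp.pos
  have hρ := D.ρ_pos
  obtain ⟨M, hM⟩ := D.norm_Lq_le hn (show (1 / 2 : ℝ) < 1 by norm_num)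
  have hM0 : 0 ≤ M := le_trans (norm_nonneg _) (hM 0 (by simp))
  have h1 : Tendsto (fun j : ℕ => D.ρ ^ j * M) atTop (𝓝 (0 * M)) :=
    (tendsto_pow_atTop_nhds_zero_of_lt_one hρ.le D.ρ_lt).mul_const _
  rw [zero_mul] at h1
  obtain ⟨j, hj⟩ := (h1.eventually (gt_mem_nhds hε)).exists
  refine ⟨(1 / 2 : ℝ) ^ ((p : ℝ) ^ ((n : ℤ) * j)), by positivity, fun y hy => ?_⟩
  have key : ∀ (j : ℕ) (y : OO K), ‖(y : K)‖ ≤ (1 / 2 : ℝ) ^ ((p : ℝ) ^ ((n : ℤ) * j)) →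
      ‖D.Lq n y‖ ≤ D.ρ ^ j * M := by
    intro j
    induction j with
    | zero =>
      intro y hy
      rw [pow_zero, one_mul]
      apply hM y
      simpa using hy
    | succ j ih =>
      intro y hy
      set z := Fr p (-(n : ℤ)) y with hz
      have hyz : y = Fr p (n : ℤ) z := by
        rw [hz, ← Fr_add, add_neg_cancel, Fr_zero]
      have hz1 : ‖(z : K)‖ ≤ (1 / 2 : ℝ) ^ ((p : ℝ) ^ ((n : ℤ) * j)) := by
        rw [hz, norm_Fr]
        refine le_trans (Real.rpow_le_rpow (norm_nonneg _) hy (zpow_nonneg hp0.le _)) ?_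
        rw [← Real.rpow_mul (by norm_num), ← zpow_add₀ hp0.ne']
        have : (n : ℤ) * ((j + 1 : ℕ) : ℤ) + -(n : ℤ) = n * j := by push_cast; ring
        rw [this]
      have hz2 : ‖(z : K)‖ < 1 := by
        refine lt_of_le_of_lt hz1 ?_
        exact Real.rpow_lt_one (by norm_num) (by norm_num) (zpow_pos hp0 _)
      rw [hyz, D.Lq_frob hn hz2, D.norm_p, pow_succ']
      rw [mul_assoc]
      exact mul_le_mul_of_nonneg_left (ih z hz1) hρ.le
  exact le_trans (key j y hy) hj.le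

theorem Lq_add {n : ℕ} (hn : 0 < n) (e : ℤ) (x y : Pt (honda (OO K) p n hn)) :
    D.Lq n (Fr p e (x + y).val) = D.Lq n (Fr p e x.val) + D.Lq n (Fr p e y.val) := by
  have hz := LqAdd.FrPt_add (p := p) hn e x y
  have h := LqAdd.add_of_hasSum D hn (LqAdd.FrPt hn e x) (LqAdd.FrPt hn e y)
    (D.Lq_hasSum hn (LqAdd.FrPt hn e x).norm_lt) (D.Lq_hasSum hn (LqAdd.FrPt hn e y).norm_lt)
    (D.Lq_hasSum hn (LqAdd.FrPt hn e x + LqAdd.FrPt hn e y).norm_lt)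
  rw [hz] at h
  exact h

/-- norms of the terms of the series for `L_n` -/
theorem norm_Lq_term (n : ℕ) {y : OO K} (k : ℤ) (b : B) :
    ‖((D.pu ^ (-k) : Bˣ) : B) * D.T (Fr p ((n : ℤ) * k) y) * b‖
      = Gseq D.ρ ((p : ℝ) ^ n) ‖(y : K)‖ k * ‖b‖ := by
  have h := D.norm_T (Fr p ((n : ℤ) * k) y) b
  change ‖D.T (Fr p ((n : ℤ) * k) y) * b‖ = _ at h
  rw [mul_assoc, D.norm_zpow_mul, h, norm_Fr, zpow_mul, zpow_natCast]
  unfold Gseq
  ring

/-- If no two terms of `L_n(y)` tie, then multiplication by `L_n(y)` multiplies norms by a constant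
`M ≥ ‖y‖`. -/
theorem norm_Lq_of_no_tie {n : ℕ} (hn : 0 < n) {y : OO K} (hy0 : 0 < ‖(y : K)‖)
    (hy : ‖(y : K)‖ < 1)
    (hno : ∀ k : ℤ, ‖(y : K)‖ ^ (((p : ℝ) ^ n - 1) * ((p : ℝ) ^ n) ^ k) ≠ D.ρ) :
    ∃ M : ℝ, ‖(y : K)‖ ≤ M ∧ ∀ b : B, ‖D.Lq n y * b‖ = M * ‖b‖ := by
  have hp : p.Prime := Fact.out
  have hq : (1 : ℝ) < (p : ℝ) ^ n := one_lt_pow₀ (by exact_mod_cast hp.one_lt) hn.ne'
  obtain ⟨k0, c, hc, hk⟩ := Gseq_max D.ρ_pos D.ρ_lt hy0 hy hq hno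
  have hc0 : 0 ≤ c := by
    have h1 : k0 + 1 ≠ k0 := by omega
    exact (Gseq_pos D.ρ_pos hy0 _).le.trans (hk (k0 + 1) h1)
  refine ⟨Gseq D.ρ ((p : ℝ) ^ n) ‖(y : K)‖ k0, ?_, fun b => ?_⟩
  · by_cases h : (0 : ℤ) = k0
    · rw [← h, Gseq_zero]
    · have := hk 0 h
      rw [Gseq_zero] at this
      exact this.trans hc.le
  · by_cases hb : b = 0
    · simp [hb]
    have hb' : 0 < ‖b‖ := norm_pos_iff.2 hb
    have h := (D.Lq_hasSum hn hy).mul_right b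
    rw [← D.norm_Lq_term n k0 b]
    refine norm_hasSum_eq h k0 (c := c * ‖b‖) (by positivity) ?_ fun k hkk => ?_
    · rw [D.norm_Lq_term n k0 b]
      exact mul_lt_mul_of_pos_right hc hb'
    · rw [D.norm_Lq_term n k b]
      exact mul_le_mul_of_nonneg_right (hk k hkk) hb'.le

theorem Lq_lower {n : ℕ} (hn : 2 ≤ n) {s₀ : ℝ} (hs₀ : 0 < s₀) {y : OO K} (hy : ‖(y : K)‖ < 1)
    (hy0 : s₀ ≤ ‖(y : K)‖) :
    s₀ ^ p ≤ ‖D.Lq n y‖ ∨ s₀ ^ p ≤ ‖D.Lq n (y ^ p)‖ := by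
  have hp : p.Prime := Fact.out
  have hn0 : 0 < n := by omega
  have hq : (1 : ℝ) < (p : ℝ) ^ n := one_lt_pow₀ (by exact_mod_cast hp.one_lt) hn0.ne'
  have hpos : 0 < ‖(y : K)‖ := hs₀.trans_le hy0
  by_cases h1 : ∀ k : ℤ, ‖(y : K)‖ ^ (((p : ℝ) ^ n - 1) * ((p : ℝ) ^ n) ^ k) ≠ D.ρ
  · obtain ⟨M, hM, hb⟩ := D.norm_Lq_of_no_tie hn0 hpos hy h1
    have h2 := hb 1
    rw [mul_one, D.norm_one', mul_one] at h2
    left
    rw [h2]
    have h3 : s₀ ^ p ≤ s₀ := pow_le_of_le_one hs₀.le (hy0.trans hy.le) hp.ne_zero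
    exact h3.trans (hy0.trans hM)
  · push Not at h1
    obtain ⟨k, hk⟩ := h1
    have hnp : ‖((y ^ p : OO K) : K)‖ = ‖(y : K)‖ ^ p := by
      rw [Subring.coe_pow, norm_pow]
    have hlt : ‖((y ^ p : OO K) : K)‖ < 1 := by
      rw [hnp]; exact pow_lt_one₀ hpos.le hy hp.ne_zero
    have hpos' : 0 < ‖((y ^ p : OO K) : K)‖ := by
      rw [hnp]; exact pow_pos hpos p
    have h2 : ∀ k' : ℤ,
        ‖((y ^ p : OO K) : K)‖ ^ (((p : ℝ) ^ n - 1) * ((p : ℝ) ^ n) ^ k') ≠ D.ρ := by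
      intro k' hk'
      rw [hnp] at hk'
      have h3 := tie_tie hpos hy hq hk hk'
      obtain ⟨t, ht⟩ := eq_pow_of_zpow hp.one_lt h3
      rw [← pow_mul] at ht
      have h4 : 1 = n * t := by
        apply Nat.pow_right_injective hp.two_le
        simpa using ht
      have h5 : n = 1 := Nat.eq_one_of_mul_eq_one_right h4.symm
      omega
    obtain ⟨M, hM, hb⟩ := D.norm_Lq_of_no_tie hn0 hpos' hlt h2
    have h3 := hb 1
    rw [mul_one, D.norm_one', mul_one] at h3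
    right
    rw [h3]
    refine le_trans ?_ hM
    rw [hnp]
    exact pow_le_pow_left₀ hs₀.le hy0 p

theorem Lq_generic {n : ℕ} (hn : 0 < n) : ∃ y : OO K, ‖(y : K)‖ < 1 ∧
    ∃ M : ℝ, 0 < M ∧ ∀ b : B, ‖D.Lq n y * b‖ = M * ‖b‖ := by
  have hp : p.Prime := Fact.out
  have hq : (1 : ℝ) < (p : ℝ) ^ n := one_lt_pow₀ (by exact_mod_cast hp.one_lt) hn.ne'
  obtain ⟨ϖ, hϖ0, hϖ1⟩ := NormedField.exists_norm_lt_one K
  obtain ⟨z, hz⟩ : ∃ z : OO K, (z : K) = ϖ := ⟨⟨ϖ, hϖ1.le⟩, rfl⟩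
  rw [← hz] at hϖ0 hϖ1
  by_cases h1 : ∀ k : ℤ, ‖(z : K)‖ ^ (((p : ℝ) ^ n - 1) * ((p : ℝ) ^ n) ^ k) ≠ D.ρ
  · obtain ⟨M, hM, hb⟩ := D.norm_Lq_of_no_tie hn hϖ0 hϖ1 h1
    exact ⟨z, hϖ1, M, hϖ0.trans_le hM, hb⟩
  · push Not at h1
    obtain ⟨k, hk⟩ := h1
    have hnp : ‖((z ^ (p + 1) : OO K) : K)‖ = ‖(z : K)‖ ^ (p + 1) := by
      rw [Subring.coe_pow, norm_pow]
    have hlt : ‖((z ^ (p + 1) : OO K) : K)‖ < 1 := by
      rw [hnp]; exact pow_lt_one₀ hϖ0.le hϖ1 (by omega)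
    have hpos' : 0 < ‖((z ^ (p + 1) : OO K) : K)‖ := by
      rw [hnp]; exact pow_pos hϖ0 _
    have h2 : ∀ k' : ℤ,
        ‖((z ^ (p + 1) : OO K) : K)‖ ^ (((p : ℝ) ^ n - 1) * ((p : ℝ) ^ n) ^ k') ≠ D.ρ := by
      intro k' hk'
      rw [hnp] at hk'
      have h3 := tie_tie hϖ0 hϖ1 hq hk hk'
      obtain ⟨t, ht⟩ := eq_pow_of_zpow hp.one_lt h3
      rw [← pow_mul] at ht
      rcases Nat.eq_zero_or_pos (n * t) with h0 | h0
      · rw [h0, pow_zero] at ht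
        have := hp.pos
        omega
      · have h5 : p ∣ p + 1 := by
          rw [ht]; exact dvd_pow_self p h0.ne'
        have h6 : p ∣ 1 := (Nat.dvd_add_right (dvd_refl p)).1 h5
        exact hp.one_lt.ne' (Nat.dvd_one.1 h6)
    obtain ⟨M, hM, hb⟩ := D.norm_Lq_of_no_tie hn hpos' hlt h2
    exact ⟨z ^ (p + 1), hlt, M, hpos'.trans_le hM, hb⟩

end
end TB
end Vale.Agent.P217
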