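import Mathlib.RingTheory.RootsOfUnity.AlgebraicallyClosed
import Mathlib.Topology.UniformSpace.Uniformizable
import Vale.Agent.Lib.P217.Lq

/-!
# P217: functions with an expansion `∑ b_{i,e} T(w^{i p^e})` (module W3)

Index set `JJx p = {i prime to p} × ℤ`; the exponent `i p^e` determines the pair `(i,e)`.

* `norm_mono_mul`.
* `max_modulus`: if `f(w) = ∑_j b_j T(w^{u_j})` and `0 < s' < s < 1`, there is `w` with `s' < ‖w‖ < s` and
  `‖b_j‖ s'^{u_j} ≤ ‖f(w)‖` for all `j`... (stated for one `j`).  Proof: if `b_{j₀} ≠ 0`, only finitely many `j` satisfy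
  `‖b_j‖ s^{u_j} ≥ ‖b_{j₀}‖ s'^{u_{j₀}}`; for these finitely many (nonzero) `b_j` the equality of two norms
  `‖b_j‖ t^{u_j} = ‖b_{j'}‖ t^{u_{j'}}` (`j ≠ j'`) holds for at most one `t > 0`. The set of norms of elements of `K` is dense in the positive reals
  (`K` algebraically closed, nontrivially normed), so choose `w` with `s' < ‖w‖ < s` avoiding these finitely many values of `t`. Then
  the maximum of the `‖b_j‖ ‖w‖^{u_j}` is attained exactly once and is the norm of `f(w)`.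
* `Expandable.unique`: uniqueness of the coefficients (difference of two expansions, `max_modulus`).
* `Expandable.limit`: closure under uniform limits on the discs `‖w‖ ≤ s`. For a Cauchy sequence the coefficients are
  Cauchy for the norms `sup_j ‖b_j‖ s'^{u_j}` by `max_modulus`.
* `Expandable.of_add`: the structure theorem. `f` additive on points of the Honda law of height `n`.
  `p • w = w^{p^n}` (`mulSeries_honda`), so `f(Fr n w) = p f(w)`, and by uniqueness `b_{i,e-n} = p b_{i,e}`.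
  For a prime `ℓ ≠ p` and a primitive `ℓ`-th root of unity `ζ` (`K` is algebraically closed), `∑_{j<ℓ} f(ζ^j w) = 0` (`honda_sum_roots`):
  the coefficient of index `(i,e)` of the left side is `b_{i,e} ∑_j T(Fr e ζ)^{ij}`, which is `ℓ b_{i,e}` if `ℓ ∣ i`. So `b_{i,e} = 0`
  if `ℓ ∣ i` (`ℓ` is not a zero divisor in `B`: there are integers `u ℓ + v p^N = 1` and `‖p^N‖ → 0`). Hence `b_{i,e} = 0` unless `i = 1`, and
  `f(w) = ∑_e b_{1,e} T(Fr e w) = ∑_{s<n} b_{1,s} ∑_k p^{-k} T(Fr (nk) (Fr s w))`.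
-/

set_option linter.unusedSectionVars false

namespace Vale.Agent.P217

open MvPowerSeries Filter Topology

/-- the index set -/
abbrev JJx (p : ℕ) : Type := {i : ℕ // i.Coprime p} × ℤ

/-- the exponent `i p^e` -/
noncomputable def expo (p : ℕ) (j : JJx p) : ℝ := (j.1.1 : ℝ) * (p : ℝ) ^ j.2

namespace TB

section
variable {K : Type*} [NontriviallyNormedField K] [IsUltrametricDist K] [CompleteSpace K]
  [IsAlgClosed K] {p : ℕ} [Fact p.Prime] [CharP K p]
  {B : Type*} [NormedCommRing B] [CompleteSpace B] [IsUltrametricDist B] (D : TB K p B)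

/-- the monomial `T(w^{i p^e})` -/
noncomputable def mono (j : JJx p) (w : OO K) : B := D.T (Fr p j.2 (w ^ j.1.1))

theorem expo_inj_aux {i i' : ℕ} (hi : i.Coprime p) {e e' : ℤ} (hee : e ≤ e')
    (h : (i : ℝ) * (p : ℝ) ^ e = (i' : ℝ) * (p : ℝ) ^ e') : e = e' ∧ i = i' := by
  have hp : p.Prime := Fact.out
  have hp0 : (p : ℝ) ≠ 0 := by exact_mod_cast hp.ne_zero
  obtain ⟨n, rfl⟩ := Int.exists_add_of_le hee
  have h1 : (i : ℝ) = (i' : ℝ) * (p : ℝ) ^ n := by
    rw [zpow_add₀ hp0, zpow_natCast] at h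
    have h2 : (p : ℝ) ^ e ≠ 0 := zpow_ne_zero _ hp0
    apply mul_right_cancel₀ h2
    rw [h]; ring
  have h2 : i = i' * p ^ n := by exact_mod_cast h1
  rcases Nat.eq_zero_or_pos n with rfl | hn
  · simp at h2
    simp [h2]
  · exfalso
    have h3 : p ∣ i := by
      rw [h2]
      exact Dvd.dvd.mul_left (dvd_pow_self p hn.ne') _
    have h4 : p ∣ 1 := by
      have := Nat.dvd_gcd h3 (dvd_refl p)
      rwa [hi] at this
    exact hp.one_lt.ne' (Nat.dvd_one.mp h4)

theorem expo_injective : Function.Injective (expo p) := by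
  rintro ⟨⟨i, hi⟩, e⟩ ⟨⟨i', hi'⟩, e'⟩ h
  simp only [expo] at h
  rcases le_total e e' with hee | hee
  · obtain ⟨rfl, rfl⟩ := expo_inj_aux hi hee h
    rfl
  · obtain ⟨rfl, rfl⟩ := expo_inj_aux hi' hee h.symm
    rfl

theorem expo_pos (j : JJx p) : 0 < expo p j := by
  have hp : p.Prime := Fact.out
  have hp0 : (0 : ℝ) < p := by exact_mod_cast hp.pos
  obtain ⟨⟨i, hi⟩, e⟩ := j
  have hi0 : 0 < i := by
    rcases Nat.eq_zero_or_pos i with rfl | h
    · exfalso
      have : p = 1 := by simpa using hi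
      exact hp.one_lt.ne' this
    · exact h
  have hi0' : (0 : ℝ) < i := by exact_mod_cast hi0
  simp only [expo]
  positivity

theorem norm_mono_mul (j : JJx p) (w : OO K) (b : B) :
    ‖b * D.mono j w‖ = ‖b‖ * ‖(w : K)‖ ^ (expo p j) := by
  rw [mul_comm]
  unfold mono T
  rw [D.norm_T, norm_Fr, mul_comm]
  congr 1
  rw [Subring.coe_pow, norm_pow, ← Real.rpow_natCast, ← Real.rpow_mul (norm_nonneg _)]
  rfl

/-- `b` is the family of coefficients of `f` on the open unit disc -/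
structure Expands (b : JJx p → B) (f : OO K → B) : Prop where
  tendsto : ∀ s : ℝ, 0 < s → s < 1 →
    Tendsto (fun j => ‖b j‖ * s ^ (expo p j)) cofinite (𝓝 0)
  hasSum : ∀ w : OO K, ‖(w : K)‖ < 1 → HasSum (fun j => b j * D.mono j w) (f w)

/-- `f` has an expansion on the open unit disc -/
def Expandable (f : OO K → B) : Prop := ∃ b : JJx p → B, D.Expands b f

/-- the norms of elements of `OO K` are dense -/
theorem exists_norm_between {a b : ℝ} (ha : 0 < a) (hab : a < b) (hb : b ≤ 1) :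
    ∃ w : OO K, a < ‖(w : K)‖ ∧ ‖(w : K)‖ < b := by
  obtain ⟨ϖ, h0, h1⟩ := NormedField.exists_norm_lt_one K
  have hb0 : 0 < b := ha.trans hab
  have hlog : Real.log ‖ϖ‖ < 0 := Real.log_neg h0 h1
  have hlt : Real.log b / Real.log ‖ϖ‖ < Real.log a / Real.log ‖ϖ‖ :=
    div_lt_div_of_neg_of_lt hlog (Real.log_lt_log ha hab)
  have hb' : 0 ≤ Real.log b / Real.log ‖ϖ‖ :=
    div_nonneg_of_nonpos (Real.log_nonpos hb0.le hb) hlog.le
  obtain ⟨q, hq1, hq2⟩ := exists_rat_btwn hlt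
  have hq0 : (0 : ℝ) < q := hb'.trans_lt hq1
  have hq0' : 0 < q := by exact_mod_cast hq0
  have hden : 0 < q.den := q.den_pos
  obtain ⟨z, hz⟩ := IsAlgClosed.exists_pow_nat_eq (ϖ ^ q.num.toNat) hden
  have hnum : ((q.num.toNat : ℕ) : ℝ) = (q : ℝ) * q.den := by
    have h2 : ((q.num.toNat : ℕ) : ℤ) = q.num := Int.toNat_of_nonneg (Rat.num_nonneg.mpr hq0'.le)
    have h3 : ((q.num.toNat : ℕ) : ℝ) = (q.num : ℝ) := by exact_mod_cast h2
    rw [h3]
    have h4 := Rat.mul_den_eq_num q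
    exact_mod_cast h4.symm
  have hzn : ‖z‖ = ‖ϖ‖ ^ (q : ℝ) := by
    have h2 : ‖z‖ ^ q.den = ‖ϖ‖ ^ q.num.toNat := by rw [← norm_pow, hz, norm_pow]
    have h3 : (‖z‖ ^ (q.den : ℝ)) = ‖ϖ‖ ^ ((q : ℝ) * q.den) := by
      rw [Real.rpow_natCast, h2, ← hnum, Real.rpow_natCast]
    have h4 : (q.den : ℝ) ≠ 0 := by exact_mod_cast hden.ne'
    calc ‖z‖ = (‖z‖ ^ (q.den : ℝ)) ^ ((q.den : ℝ)⁻¹) := by
          rw [← Real.rpow_mul (norm_nonneg _), mul_inv_cancel₀ h4, Real.rpow_one]
      _ = ‖ϖ‖ ^ (q : ℝ) := by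
          rw [h3, ← Real.rpow_mul (norm_nonneg _), mul_assoc, mul_inv_cancel₀ h4, mul_one]
  have hza : a < ‖z‖ := by
    rw [hzn, ← Real.log_lt_log_iff ha (Real.rpow_pos_of_pos h0 _), Real.log_rpow h0]
    rwa [lt_div_iff_of_neg hlog] at hq2
  have hzb : ‖z‖ < b := by
    rw [hzn, ← Real.log_lt_log_iff (Real.rpow_pos_of_pos h0 _) hb0, Real.log_rpow h0]
    rwa [div_lt_iff_of_neg hlog] at hq1
  exact ⟨⟨z, mem_OO.mpr (hzb.le.trans hb)⟩, hza, hzb⟩

/-- norms can moreover avoid a finite set -/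
theorem exists_norm_between_avoid {a b : ℝ} (ha : 0 < a) (hab : a < b) (hb : b ≤ 1)
    (E : Set ℝ) (hE : E.Finite) :
    ∃ w : OO K, a < ‖(w : K)‖ ∧ ‖(w : K)‖ < b ∧ ‖(w : K)‖ ∉ E := by
  classical
  let F : Finset ℝ := insert b (hE.toFinset.filter fun x => a < x)
  have hF : F.Nonempty := ⟨b, Finset.mem_insert_self _ _⟩
  have hmin : a < F.min' hF := by
    rw [Finset.lt_min'_iff]
    intro x hx
    rcases Finset.mem_insert.mp hx with rfl | hx
    · exact hab
    · exact (Finset.mem_filter.mp hx).2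
  have hminb : F.min' hF ≤ b := Finset.min'_le _ _ (Finset.mem_insert_self _ _)
  obtain ⟨w, hw1, hw2⟩ := exists_norm_between (K := K) ha hmin (hminb.trans hb)
  refine ⟨w, hw1, hw2.trans_le hminb, fun hwE => ?_⟩
  have : ‖(w : K)‖ ∈ F := Finset.mem_insert_of_mem
    (Finset.mem_filter.mpr ⟨hE.mem_toFinset.mpr hwE, hw1⟩)
  exact absurd (Finset.min'_le _ _ this) (not_le.mpr hw2)

/-- two monomials have the same norm for at most one radius -/
theorem eq_of_mul_rpow_eq {c c' u u' t t' : ℝ} (hc : 0 < c) (hc' : 0 < c') (hu : u ≠ u')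
    (ht : 0 < t) (ht' : 0 < t') (h : c * t ^ u = c' * t ^ u') (h' : c * t' ^ u = c' * t' ^ u') :
    t = t' := by
  have e : ∀ x : ℝ, 0 < x → c * x ^ u = c' * x ^ u' →
      Real.log c + u * Real.log x = Real.log c' + u' * Real.log x := by
    intro x hx hh
    have := congrArg Real.log hh
    rwa [Real.log_mul hc.ne' (Real.rpow_pos_of_pos hx _).ne', Real.log_rpow hx,
      Real.log_mul hc'.ne' (Real.rpow_pos_of_pos hx _).ne', Real.log_rpow hx] at this
  have h1 := e t ht h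
  have h2 := e t' ht' h'
  have h3 : (u - u') * (Real.log t - Real.log t') = 0 := by linarith
  rcases mul_eq_zero.mp h3 with h4 | h4
  · exact absurd (sub_eq_zero.mp h4) hu
  · exact Real.log_injOn_pos (Set.mem_Ioi.mpr ht) (Set.mem_Ioi.mpr ht') (sub_eq_zero.mp h4)

/-- a sum of terms of norm at most `m` -/
theorem norm_hasSum_le {ι : Type*} {f : ι → B} {x : B} (hf : HasSum f x) {m : ℝ} (hm : 0 ≤ m)
    (h : ∀ i, ‖f i‖ ≤ m) : ‖x‖ ≤ m := by
  refine le_of_tendsto hf.norm ?_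
  refine Filter.Eventually.of_forall fun s => ?_
  exact IsUltrametricDist.norm_sum_le_of_forall_le_of_nonneg hm fun i _ => h i

theorem max_modulus {b : JJx p → B} {f : OO K → B} (h : D.Expands b f) (j : JJx p) {s' s : ℝ}
    (h0 : 0 < s') (h1 : s' < s) (h2 : s < 1) :
    ∃ w : OO K, s' < ‖(w : K)‖ ∧ ‖(w : K)‖ < s ∧ ‖b j‖ * s' ^ (expo p j) ≤ ‖f w‖ := by
  classical
  have hs0 : 0 < s := h0.trans h1
  by_cases hbj : b j = 0
  · obtain ⟨w, hw1, hw2⟩ := exists_norm_between (K := K) h0 h1 h2.le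
    refine ⟨w, hw1, hw2, ?_⟩
    rw [hbj, norm_zero, zero_mul]
    exact norm_nonneg _
  have hbj' : 0 < ‖b j‖ := norm_pos_iff.mpr hbj
  set M₀ : ℝ := ‖b j‖ * s' ^ (expo p j) with hM₀
  have hM₀' : 0 < M₀ := mul_pos hbj' (Real.rpow_pos_of_pos h0 _)
  -- the finite set of relevant indices
  have hfin : {i : JJx p | ¬ ‖b i‖ * s ^ (expo p i) < M₀}.Finite := by
    have := (h.tendsto s hs0 h2).eventually (gt_mem_nhds hM₀')
    rwa [Filter.eventually_cofinite] at this
  set J₁ : Finset (JJx p) := hfin.toFinset with hJ₁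
  have hmemJ : ∀ i, i ∉ J₁ → ‖b i‖ * s ^ (expo p i) < M₀ := by
    intro i hi
    by_contra hlt
    exact hi (hfin.mem_toFinset.mpr hlt)
  have hjJ : j ∈ J₁ := by
    rw [hJ₁, hfin.mem_toFinset]
    change ¬ _ < M₀
    rw [not_lt, hM₀]
    exact mul_le_mul_of_nonneg_left
      (Real.rpow_le_rpow h0.le h1.le (expo_pos j).le) hbj'.le
  have hne : ∀ i ∈ J₁, 0 < ‖b i‖ := by
    intro i hi
    rw [hJ₁, hfin.mem_toFinset] at hi
    change ¬ _ < M₀ at hi
    rw [not_lt] at hi
    by_contra hlt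
    have h3 : ‖b i‖ = 0 := le_antisymm (not_lt.mp hlt) (norm_nonneg _)
    rw [h3, zero_mul] at hi
    exact absurd hi (not_le.mpr hM₀')
  -- the finite set of bad radii
  let E : Set ℝ := ⋃ x ∈ J₁.product J₁, {t : ℝ | 0 < t ∧ x.1 ≠ x.2 ∧
    ‖b x.1‖ * t ^ (expo p x.1) = ‖b x.2‖ * t ^ (expo p x.2)}
  have hE : E.Finite := by
    refine Set.Finite.biUnion (J₁.product J₁).finite_toSet fun x hx => ?_
    obtain ⟨hx1, hx2⟩ := Finset.mem_product.mp hx
    refine Set.Subsingleton.finite ?_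
    rintro t ⟨ht, hne', hteq⟩ t' ⟨ht', -, hteq'⟩
    exact eq_of_mul_rpow_eq (hne _ hx1) (hne _ hx2)
      (fun hh => hne' (expo_injective hh)) ht ht' hteq hteq'
  obtain ⟨w, hw1, hw2, hwE⟩ := exists_norm_between_avoid (K := K) h0 h1 h2.le E hE
  have hw0 : 0 < ‖(w : K)‖ := h0.trans hw1
  refine ⟨w, hw1, hw2, ?_⟩
  -- the dominant term
  obtain ⟨i₁, hi₁, hmax⟩ := Finset.exists_max_image J₁
    (fun i => ‖b i‖ * ‖(w : K)‖ ^ (expo p i)) ⟨j, hjJ⟩
  have hstrict : ∀ i ∈ J₁, i ≠ i₁ →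
      ‖b i‖ * ‖(w : K)‖ ^ (expo p i) < ‖b i₁‖ * ‖(w : K)‖ ^ (expo p i₁) := by
    intro i hi hii
    refine lt_of_le_of_ne (hmax i hi) fun heq => hwE ?_
    simp only [E, Set.mem_iUnion]
    exact ⟨(i, i₁), Finset.mem_product.mpr ⟨hi, hi₁⟩, hw0, hii, heq⟩
  have hM₀lt : M₀ < ‖b i₁‖ * ‖(w : K)‖ ^ (expo p i₁) := by
    refine lt_of_lt_of_le ?_ (hmax j hjJ)
    rw [hM₀]
    exact mul_lt_mul_of_pos_left (Real.rpow_lt_rpow h0.le hw1 (expo_pos j)) hbj'
  -- a bound for all other terms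
  obtain ⟨m, hm0, hmlt, hm⟩ : ∃ m : ℝ, 0 ≤ m ∧ m < ‖b i₁‖ * ‖(w : K)‖ ^ (expo p i₁) ∧
      ∀ i, i ≠ i₁ → ‖b i‖ * ‖(w : K)‖ ^ (expo p i) ≤ m := by
    let G : Finset ℝ := insert M₀ ((J₁.erase i₁).image
      fun i => ‖b i‖ * ‖(w : K)‖ ^ (expo p i))
    have hG : G.Nonempty := ⟨M₀, Finset.mem_insert_self _ _⟩
    refine ⟨G.max' hG, ?_, ?_, ?_⟩
    · exact hM₀'.le.trans (Finset.le_max' _ _ (Finset.mem_insert_self _ _))
    · rw [Finset.max'_lt_iff]
      intro x hx
      rcases Finset.mem_insert.mp hx with rfl | hx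
      · exact hM₀lt
      · obtain ⟨i, hi, rfl⟩ := Finset.mem_image.mp hx
        exact hstrict i (Finset.mem_of_mem_erase hi) (Finset.ne_of_mem_erase hi)
    · intro i hi
      by_cases hiJ : i ∈ J₁
      · refine Finset.le_max' G _ (Finset.mem_insert_of_mem ?_)
        exact Finset.mem_image.mpr ⟨i, Finset.mem_erase.mpr ⟨hi, hiJ⟩, rfl⟩
      · refine le_trans ?_ (Finset.le_max' G M₀ (Finset.mem_insert_self _ _))
        refine le_trans ?_ (hmemJ i hiJ).le
        exact mul_le_mul_of_nonneg_left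
          (Real.rpow_le_rpow hw0.le hw2.le (expo_pos i).le) (norm_nonneg _)
  -- the rest of the sum
  have hsum := h.hasSum w (hw2.trans h2)
  have hrest : HasSum (fun i => if i = i₁ then 0 else b i * D.mono i w)
      (f w - b i₁ * D.mono i₁ w) := by
    have h3 : HasSum (fun i => if i = i₁ then b i * D.mono i w else 0)
        (b i₁ * D.mono i₁ w) := by
      have h5 := hasSum_single (f := fun i => if i = i₁ then b i * D.mono i w else 0) i₁
        (fun i hi => if_neg hi)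
      rwa [if_pos rfl] at h5
    have h4 := hsum.sub h3
    refine h4.congr_fun ?_
    intro i
    by_cases hi : i = i₁
    · simp [hi]
    · simp [hi]
  have hrestn : ‖f w - b i₁ * D.mono i₁ w‖ ≤ m := by
    refine norm_hasSum_le hrest hm0 fun i => ?_
    by_cases hi : i = i₁
    · simp [hi, hm0]
    · rw [if_neg hi, norm_mono_mul]
      exact hm i hi
  have hdom : ‖b i₁ * D.mono i₁ w‖ ≤ max ‖f w‖ ‖f w - b i₁ * D.mono i₁ w‖ := by
    have h5 : b i₁ * D.mono i₁ w = f w + -(f w - b i₁ * D.mono i₁ w) := by ring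
    have h6 := IsUltrametricDist.norm_add_le_max (f w) (-(f w - b i₁ * D.mono i₁ w))
    rw [norm_neg, ← h5] at h6
    exact h6
  rw [norm_mono_mul] at hdom
  rcases le_max_iff.mp hdom with h6 | h6
  · exact hM₀lt.le.trans h6
  · exact absurd (h6.trans hrestn) (not_le.mpr hmlt)

theorem Expands.add {b b' : JJx p → B} {f f' : OO K → B} (h : D.Expands b f)
    (h' : D.Expands b' f') : D.Expands (b + b') (f + f') := by
  refine ⟨fun s hs0 hs1 => ?_, fun w hw => ?_⟩
  · have h3 := (h.tendsto s hs0 hs1).add (h'.tendsto s hs0 hs1)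
    rw [add_zero] at h3
    refine squeeze_zero (fun j => by positivity) (fun j => ?_) h3
    rw [← add_mul]
    exact mul_le_mul_of_nonneg_right (norm_add_le _ _) (Real.rpow_nonneg hs0.le _)
  · have h3 := (h.hasSum w hw).add (h'.hasSum w hw)
    refine h3.congr_fun fun j => ?_
    rw [Pi.add_apply, add_mul]

theorem Expands.const_mul {b : JJx p → B} {f : OO K → B} (h : D.Expands b f) (c : B) :
    D.Expands (fun j => c * b j) (fun w => c * f w) := by
  refine ⟨fun s hs0 hs1 => ?_, fun w hw => ?_⟩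
  · have h3 := (h.tendsto s hs0 hs1).const_mul ‖c‖
    rw [mul_zero] at h3
    refine squeeze_zero (fun j => by positivity) (fun j => ?_) h3
    rw [← mul_assoc]
    exact mul_le_mul_of_nonneg_right (norm_mul_le _ _) (Real.rpow_nonneg hs0.le _)
  · have h3 := (h.hasSum w hw).mul_left c
    refine h3.congr_fun fun j => ?_
    rw [mul_assoc]

theorem Expands.unique {b b' : JJx p → B} {f : OO K → B} (h : D.Expands b f)
    (h' : D.Expands b' f) : b = b' := by
  funext j
  have h3 := Expands.add D h (Expands.const_mul D h' (-1))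
  obtain ⟨w, -, -, hw⟩ := D.max_modulus h3 j (s' := 1 / 4) (s := 1 / 2) (by norm_num)
    (by norm_num) (by norm_num)
  have h4 : (f + fun w => -1 * f w) w = 0 := by
    rw [Pi.add_apply]; ring
  rw [h4, norm_zero] at hw
  have h5 : 0 < (1 / 4 : ℝ) ^ (expo p j) := Real.rpow_pos_of_pos (by norm_num) _
  have h6 : ‖(b + fun j => -1 * b' j) j‖ ≤ 0 := by
    by_contra hlt
    have := mul_pos (not_le.mp hlt) h5
    exact absurd hw (not_le.mpr this)
  have h7 := norm_le_zero_iff.mp h6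
  rw [Pi.add_apply] at h7
  have h8 : b j = b' j + (b j + -1 * b' j) := by ring
  rw [h8, h7, add_zero]

theorem Expands.comp_Fr {b : JJx p → B} {f : OO K → B} (h : D.Expands b f) (m : ℤ) :
    D.Expands (fun j => b (j.1, j.2 - m)) (fun w => f (Fr p m w)) := by
  have hp : p.Prime := Fact.out
  have hp0 : (0 : ℝ) < p := by exact_mod_cast hp.pos
  let σ : JJx p ≃ JJx p :=
    { toFun := fun j => (j.1, j.2 - m)
      invFun := fun j => (j.1, j.2 + m)
      left_inv := fun j => by simp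
      right_inv := fun j => by simp }
  refine ⟨fun s hs0 hs1 => ?_, fun w hw => ?_⟩
  · have h3 := h.tendsto (s ^ ((p : ℝ) ^ m)) (Real.rpow_pos_of_pos hs0 _)
      (Real.rpow_lt_one hs0.le hs1 (zpow_pos hp0 m))
    have h4 := h3.comp σ.injective.tendsto_cofinite
    refine h4.congr fun j => ?_
    simp only [Function.comp_apply]
    change ‖b (j.1, j.2 - m)‖ * _ = _
    rw [← Real.rpow_mul hs0.le]
    congr 2
    change (p : ℝ) ^ m * ((j.1.1 : ℝ) * (p : ℝ) ^ (j.2 - m)) = (j.1.1 : ℝ) * (p : ℝ) ^ j.2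
    rw [zpow_sub₀ hp0.ne']
    field_simp
  · have h3 := h.hasSum (Fr p m w) (norm_Fr_lt_one p m hw)
    have h4 := (Equiv.hasSum_iff σ).mpr h3
    refine h4.congr_fun fun j => ?_
    change b (j.1, j.2 - m) * D.mono j w = b (j.1, j.2 - m) * D.mono (j.1, j.2 - m) (Fr p m w)
    congr 1
    unfold mono
    congr 1
    rw [← map_pow, ← Fr_add]
    congr 1
    ring_nf

theorem Expands.congr {b : JJx p → B} {f f' : OO K → B} (h : D.Expands b f)
    (h' : ∀ w : OO K, ‖(w : K)‖ < 1 → f w = f' w) : D.Expands b f' :=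
  ⟨h.tendsto, fun w hw => by rw [← h' w hw]; exact h.hasSum w hw⟩

theorem expands_zero : D.Expands (fun _ => 0) (fun _ => 0) := by
  refine ⟨fun s _ _ => ?_, fun w _ => ?_⟩
  · simp only [norm_zero, zero_mul]
    exact tendsto_const_nhds
  · simp only [zero_mul]
    exact hasSum_zero

theorem Expandable.sum {ι : Type*} (t : Finset ι) (f : ι → OO K → B)
    (h : ∀ i ∈ t, D.Expandable (f i)) : D.Expandable (fun w => ∑ i ∈ t, f i w) := by
  classical
  induction t using Finset.induction_on with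
  | empty => exact ⟨_, by simpa using D.expands_zero⟩
  | insert a t ha ih =>
    obtain ⟨b, hb⟩ := h a (Finset.mem_insert_self a t)
    obtain ⟨b', hb'⟩ := ih fun i hi => h i (Finset.mem_insert_of_mem hi)
    refine ⟨b + b', ?_⟩
    have h3 := Expands.add D hb hb'
    have e : (fun w => ∑ i ∈ insert a t, f i w) = f a + fun w => ∑ i ∈ t, f i w := by
      funext w
      rw [Finset.sum_insert ha]
      rfl
    rw [e]
    exact h3

/-- coefficient bound for the difference of two expandable functions -/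
theorem Expands.norm_sub_le {b b' : JJx p → B} {f f' : OO K → B} (h : D.Expands b f)
    (h' : D.Expands b' f') {s ε : ℝ} (h0 : 0 < s) {s₂ : ℝ} (hs₂ : s < s₂) (hs₂1 : s₂ < 1)
    (hε : ∀ w : OO K, ‖(w : K)‖ ≤ s₂ → ‖f w - f' w‖ ≤ ε) (j : JJx p) :
    ‖b j - b' j‖ * s ^ (expo p j) ≤ ε := by
  have hd : D.Expands (b + fun j => (-1 : B) * b' j) (f + fun w => (-1 : B) * f' w) :=
    Expands.add D h (Expands.const_mul D h' (-1))
  obtain ⟨w, _, hw2, hw3⟩ := max_modulus D hd j h0 hs₂ hs₂1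
  have h2 := hε w hw2.le
  have e1 : (b + fun j => (-1 : B) * b' j) j = b j - b' j := by
    simp [sub_eq_add_neg]
  have e2 : (f + fun w => (-1 : B) * f' w) w = f w - f' w := by
    simp [sub_eq_add_neg]
  rw [e1, e2] at hw3
  exact hw3.trans h2

theorem Expandable.limit {f : ℕ → OO K → B} {g : OO K → B} (h : ∀ N, D.Expandable (f N))
    (hlim : ∀ s : ℝ, s < 1 → ∀ ε : ℝ, 0 < ε → ∃ N₀, ∀ N ≥ N₀, ∀ w : OO K, ‖(w : K)‖ ≤ s →
      ‖f N w - g w‖ ≤ ε) : D.Expandable g := by
  choose b hb using h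
  -- Cauchy estimate
  have key : ∀ s : ℝ, 0 < s → s < 1 → ∀ ε : ℝ, 0 < ε → ∃ N₀, ∀ N ≥ N₀, ∀ M ≥ N₀, ∀ j,
      ‖b N j - b M j‖ * s ^ (expo p j) ≤ ε := by
    intro s hs hs1 ε hε
    obtain ⟨N₀, hN₀⟩ := hlim ((s + 1) / 2) (by linarith) ε hε
    refine ⟨N₀, fun N hN M hM j => ?_⟩
    refine Expands.norm_sub_le D (hb N) (hb M) hs (s₂ := (s + 1) / 2) (by linarith)
      (by linarith) (fun w hw => ?_) j
    have e : f N w - f M w = (f N w - g w) + -(f M w - g w) := by ring
    rw [e]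
    refine (IsUltrametricDist.norm_add_le_max _ _).trans (max_le (hN₀ N hN w hw) ?_)
    rw [norm_neg]
    exact hN₀ M hM w hw
  have hpos : ∀ (s : ℝ), 0 < s → ∀ j : JJx p, 0 < s ^ (expo p j) := fun s hs j =>
    Real.rpow_pos_of_pos hs _
  have hcau : ∀ j, CauchySeq (fun N => b N j) := by
    intro j
    rw [Metric.cauchySeq_iff]
    intro ε hε
    have hp := hpos (1 / 2) (by norm_num) j
    obtain ⟨N₀, hN₀⟩ := key (1 / 2) (by norm_num) (by norm_num) (ε / 2 * (1 / 2 : ℝ) ^ (expo p j))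
      (by positivity)
    refine ⟨N₀, fun N hN M hM => ?_⟩
    have h1 := hN₀ N hN M hM j
    rw [dist_eq_norm]
    have h2 := le_of_mul_le_mul_right h1 hp
    linarith
  choose c hc using fun j => cauchySeq_tendsto_of_complete (hcau j)
  have key2 : ∀ s : ℝ, 0 < s → s < 1 → ∀ ε : ℝ, 0 < ε → ∃ N₀, ∀ N ≥ N₀, ∀ j,
      ‖b N j - c j‖ * s ^ (expo p j) ≤ ε := by
    intro s hs hs1 ε hε
    obtain ⟨N₀, hN₀⟩ := key s hs hs1 ε hε
    refine ⟨N₀, fun N hN j => ?_⟩
    have ht : Tendsto (fun M => ‖b N j - b M j‖ * s ^ (expo p j)) atTop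
        (𝓝 (‖b N j - c j‖ * s ^ (expo p j))) :=
      ((tendsto_const_nhds.sub (hc j)).norm).mul_const _
    exact le_of_tendsto ht (eventually_atTop.2 ⟨N₀, fun M hM => hN₀ N hN M hM j⟩)
  have htend : ∀ s : ℝ, 0 < s → s < 1 →
      Tendsto (fun j => ‖c j‖ * s ^ (expo p j)) cofinite (𝓝 0) := by
    intro s hs hs1
    rw [Metric.tendsto_nhds]
    intro ε hε
    obtain ⟨N, hN⟩ := key2 s hs hs1 (ε / 2) (by positivity)
    have h1 := (Metric.tendsto_nhds.1 ((hb N).tendsto s hs hs1)) (ε / 2) (by positivity)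
    filter_upwards [h1] with j hj
    rw [Real.dist_eq, sub_zero] at hj ⊢
    have hp := (hpos s hs j).le
    rw [abs_of_nonneg (mul_nonneg (norm_nonneg _) hp)] at hj ⊢
    have h2 := hN N le_rfl j
    have h3 : ‖c j‖ ≤ ‖b N j‖ + ‖b N j - c j‖ := by
      have : c j = b N j - (b N j - c j) := by ring
      calc ‖c j‖ = ‖b N j - (b N j - c j)‖ := by rw [← this]
        _ ≤ _ := norm_sub_le _ _
    have h4 := mul_le_mul_of_nonneg_right h3 hp
    rw [add_mul] at h4
    linarith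
  have hle : ∀ (w : OO K) (s : ℝ), ‖(w : K)‖ ≤ s → 0 < s → ∀ j : JJx p,
      ‖(w : K)‖ ^ (expo p j) ≤ s ^ (expo p j) := fun w s hw hs j =>
    Real.rpow_le_rpow (norm_nonneg _) hw (expo_pos j).le
  have hsum : ∀ w : OO K, ‖(w : K)‖ < 1 → Summable (fun j => c j * D.mono j w) := by
    intro w hw
    refine NonarchimedeanAddGroup.summable_of_tendsto_cofinite_zero ?_
    have h1 := htend ((‖(w : K)‖ + 1) / 2) (by positivity) (by linarith)
    rw [tendsto_zero_iff_norm_tendsto_zero]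
    refine squeeze_zero (fun _ => norm_nonneg _) (fun j => ?_) h1
    rw [norm_mono_mul]
    exact mul_le_mul_of_nonneg_left (hle w _ (by linarith) (by positivity) j) (norm_nonneg _)
  refine ⟨c, ⟨htend, fun w hw => ?_⟩⟩
  have hS := (hsum w hw).hasSum
  have hEq : ∑' j, c j * D.mono j w = g w := by
    rw [← sub_eq_zero, ← norm_eq_zero]
    refine le_antisymm (le_of_forall_pos_le_add fun ε hε => ?_) (norm_nonneg _)
    rw [zero_add]
    obtain ⟨N₁, hN₁⟩ := hlim ((‖(w : K)‖ + 1) / 2) (by linarith) ε hε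
    obtain ⟨N₂, hN₂⟩ := key2 ((‖(w : K)‖ + 1) / 2) (by positivity) (by linarith) ε hε
    have h1 := hN₁ (max N₁ N₂) (le_max_left _ _) w (by linarith)
    have h2 := hN₂ (max N₁ N₂) (le_max_right _ _)
    have h3 := hS.sub ((hb (max N₁ N₂)).hasSum w hw)
    have h4 : ‖∑' j, c j * D.mono j w - f (max N₁ N₂) w‖ ≤ ε := by
      rw [← h3.tsum_eq]
      refine IsUltrametricDist.norm_tsum_le_of_forall_le_of_nonneg hε.le fun j => ?_
      rw [← sub_mul, norm_mono_mul, norm_sub_rev]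
      exact (mul_le_mul_of_nonneg_left (hle w _ (by linarith) (by positivity) j)
        (norm_nonneg _)).trans (h2 j)
    have e : ∑' j, c j * D.mono j w - g w =
        (∑' j, c j * D.mono j w - f (max N₁ N₂) w) + (f (max N₁ N₂) w - g w) := by ring
    rw [e]
    exact (IsUltrametricDist.norm_add_le_max _ _).trans (max_le h4 h1)
  rw [← hEq]
  exact hS

theorem Expands.zero : D.Expands (0 : JJx p → B) (0 : OO K → B) := by
  refine ⟨fun s _ _ => ?_, fun w _ => ?_⟩
  · simp only [Pi.zero_apply, norm_zero, zero_mul]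
    exact tendsto_const_nhds
  · simp only [Pi.zero_apply, zero_mul]
    exact hasSum_zero

theorem Expands.sum {ι : Type*} (t : Finset ι) (b : ι → JJx p → B) (f : ι → OO K → B)
    (h : ∀ i ∈ t, D.Expands (b i) (f i)) :
    D.Expands (∑ i ∈ t, b i) (∑ i ∈ t, f i) := by
  classical
  induction t using Finset.induction_on with
  | empty => simpa using Expands.zero D
  | insert a t ha ih =>
    rw [Finset.sum_insert ha, Finset.sum_insert ha]
    exact Expands.add D (h a (Finset.mem_insert_self a t))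
      (ih fun i hi => h i (Finset.mem_insert_of_mem hi))

/-- composition with the multiplication by an element of norm one -/
theorem Expands.comp_mul {b : JJx p → B} {f : OO K → B} (h : D.Expands b f) {c : OO K}
    (hc : ‖(c : K)‖ = 1) :
    D.Expands (fun j => b j * D.T (Fr p j.2 (c ^ j.1.1))) (fun w => f (c * w)) := by
  refine ⟨fun s hs0 hs1 => ?_, fun w hw => ?_⟩
  · refine (h.tendsto s hs0 hs1).congr fun j => ?_
    have h1 : ‖b j * D.T (Fr p j.2 (c ^ j.1.1))‖ = ‖b j‖ := by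
      rw [mul_comm]
      unfold T
      rw [D.norm_T, norm_Fr, Subring.coe_pow, norm_pow, hc, one_pow, Real.one_rpow, one_mul]
    rw [h1]
  · have h1 : ‖((c * w : OO K) : K)‖ < 1 := by
      rw [Subring.coe_mul, norm_mul, hc, one_mul]
      exact hw
    have e : (fun j : JJx p => b j * D.T (Fr p j.2 (c ^ j.1.1)) * D.mono j w)
        = fun j => b j * D.mono j (c * w) := by
      funext j
      unfold mono
      rw [mul_pow, map_mul, D.T_mul, mul_assoc]
    rw [e]
    exact h.hasSum (c * w) h1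

include D in
/-- a prime different from `p` is not a zero divisor in `B` -/
theorem eq_zero_of_prime_mul {l : ℕ} (hl : l.Coprime p) {b : B} (h : (l : B) * b = 0) : b = 0 := by
  have hnorm : ∀ (v : ℤ) (x : B), ‖(v : B) * x‖ ≤ ‖x‖ := by
    intro v x
    rw [← zsmul_eq_mul]
    exact IsUltrametricDist.norm_zsmul_le x v
  have hbz : (1 : ℤ) = (l : ℤ) * l.gcdA p + (p : ℤ) * l.gcdB p := by
    have := Nat.gcd_eq_gcd_ab l p
    rw [hl] at this
    exact_mod_cast this
  have h1 : b = (p : B) * (((l.gcdB p : ℤ) : B) * b) := by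
    have h2 : (1 : B) = (l : B) * ((l.gcdA p : ℤ) : B) + (p : B) * ((l.gcdB p : ℤ) : B) := by
      exact_mod_cast congrArg (Int.cast : ℤ → B) hbz
    calc b = 1 * b := (one_mul b).symm
      _ = ((l : B) * ((l.gcdA p : ℤ) : B) + (p : B) * ((l.gcdB p : ℤ) : B)) * b := by rw [← h2]
      _ = ((l.gcdA p : ℤ) : B) * ((l : B) * b) + (p : B) * (((l.gcdB p : ℤ) : B) * b) := by ring
      _ = (p : B) * (((l.gcdB p : ℤ) : B) * b) := by rw [h, mul_zero, zero_add]
  have h2 := congrArg norm h1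
  rw [D.norm_p] at h2
  have h3 := hnorm (l.gcdB p) b
  have h4 := D.ρ_lt
  have h5 := D.ρ_pos
  have h6 : ‖b‖ ≤ D.ρ * ‖b‖ := h2.le.trans (mul_le_mul_of_nonneg_left h3 h5.le)
  have h7 : ‖b‖ = 0 := by nlinarith [norm_nonneg b]
  exact norm_eq_zero.1 h7

/-- a primitive root of unity of prime order `l ≠ p` in the valuation ring -/
theorem exists_primitiveRoot_OO {l : ℕ} (hl : l.Prime) (hlp : l ≠ p) :
    ∃ ζ : OO K, IsPrimitiveRoot ζ l ∧ ‖(ζ : K)‖ = 1 := by
  have hp : p.Prime := Fact.out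
  have hne : NeZero (l : K) := ⟨by
    intro h0
    rw [CharP.cast_eq_zero_iff K p] at h0
    exact hlp ((Nat.prime_dvd_prime_iff_eq hp hl).1 h0).symm⟩
  obtain ⟨ζ, hζ⟩ := HasEnoughRootsOfUnity.exists_primitiveRoot K l
  have h1 : ‖ζ‖ = 1 := by
    have h2 : ‖ζ‖ ^ l = 1 := by rw [← norm_pow, hζ.pow_eq_one, norm_one]
    exact (pow_eq_one_iff_of_nonneg (norm_nonneg ζ) hl.ne_zero).1 h2
  refine ⟨⟨ζ, h1.le⟩, ?_, h1⟩
  exact IsPrimitiveRoot.of_map_of_injective (f := (OO K).subtype) hζ Subtype.val_injective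

/-- the coefficients of an additive function: the relation with Frobenius -/
theorem coeff_frob {n : ℕ} (hn : 0 < n) (f : Pt (honda (OO K) p n hn) →+ B)
    (g : OO K → B) {b : JJx p → B} (hb : D.Expands b g) (hfg : ∀ w, f w = g w.val) (j : JJx p) :
    b (j.1, j.2 - n) = (p : B) * b j := by
  have h1 := Expands.comp_Fr D hb (n : ℤ)
  have h2 := Expands.const_mul D hb (p : B)
  have h3 : ∀ w : OO K, ‖(w : K)‖ < 1 → (fun w => g (Fr p (n : ℤ) w)) w
      = (fun w => (p : B) * g w) w := by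
    intro w hw
    simp only
    have h4 := hfg (p • Pt.mk' (honda (OO K) p n hn) w hw)
    rw [map_nsmul, hfg, nsmul_eq_mul] at h4
    rw [show (Pt.mk' (honda (OO K) p n hn) w hw).val = w from rfl] at h4
    rw [h4, Pt.nsmul_val, mulSeries_honda (OO K) p n hn, Fr_natCast]
    congr 1
    have hX := ev_pow (hasEval_OO hw) (X () : MvPowerSeries Unit (OO K)) (p ^ n)
    rw [ev_X] at hX
    exact hX.symm
  have h4 := Expands.unique D (Expands.congr D h1 h3) h2
  have h5 := congrFun h4 j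
  exact h5

/-- the coefficients of an additive function: vanishing -/
theorem coeff_zero {n : ℕ} (hn : 0 < n) (f : Pt (honda (OO K) p n hn) →+ B)
    (g : OO K → B) {b : JJx p → B} (hb : D.Expands b g) (hfg : ∀ w, f w = g w.val) (j : JJx p)
    (hj : j.1.1 ≠ 1) : b j = 0 := by
  classical
  have hp : p.Prime := Fact.out
  obtain ⟨l, hl, hlj⟩ := Nat.exists_prime_and_dvd hj
  have hlp : l ≠ p := by
    rintro rfl
    have h1 := j.1.2
    exact hp.ne_one (Nat.eq_one_of_dvd_coprimes h1 hlj (dvd_refl _))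
  obtain ⟨ζ, hζ, hζ1⟩ := exists_primitiveRoot_OO (K := K) hl hlp
  have hζi : ∀ i : ℕ, ‖((ζ ^ i : OO K) : K)‖ = 1 := by
    intro i
    rw [Subring.coe_pow, norm_pow, hζ1, one_pow]
  have h1 := Expands.sum D (Finset.range l)
    (fun i j => b j * D.T (Fr p j.2 ((ζ ^ i) ^ j.1.1))) (fun i w => g (ζ ^ i * w))
    (fun i _ => Expands.comp_mul D hb (hζi i))
  have h2 : ∀ w : OO K, ‖(w : K)‖ < 1 → (∑ i ∈ Finset.range l, fun w => g (ζ ^ i * w)) w
      = (0 : OO K → B) w := by
    intro w hw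
    rw [Finset.sum_apply, Pi.zero_apply]
    have hlt : ∀ i : ℕ, ‖((ζ ^ i * w : OO K) : K)‖ < 1 := by
      intro i
      rw [Subring.coe_mul, norm_mul, hζi, one_mul]
      exact hw
    have h3 := honda_sum_roots (K := K) p n hn l hl hlp ζ hζ
      (fun i => Pt.mk' (honda (OO K) p n hn) (ζ ^ i * w) (hlt i)) w (fun i => rfl)
    have h4 := congrArg f h3
    rw [map_sum, map_zero] at h4
    rw [← h4]
    refine Finset.sum_congr rfl fun i _ => ?_
    rw [hfg]
    rfl
  have h3 := Expands.unique D (Expands.congr D h1 h2) (Expands.zero D)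
  have h4 := congrFun h3 j
  rw [Finset.sum_apply, Pi.zero_apply] at h4
  have h5 : ∀ i ∈ Finset.range l, b j * D.T (Fr p j.2 ((ζ ^ i) ^ j.1.1)) = b j := by
    intro i _
    obtain ⟨c, hc⟩ := hlj
    have : (ζ ^ i) ^ j.1.1 = 1 := by
      rw [hc, ← pow_mul, mul_left_comm, pow_mul, hζ.pow_eq_one, one_pow]
    rw [this, map_one, D.T_one, mul_one]
  rw [Finset.sum_congr rfl h5, Finset.sum_const, Finset.card_range, nsmul_eq_mul] at h4
  refine eq_zero_of_prime_mul D ?_ h4
  exact (Nat.coprime_primes hl hp).2 hlp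

/-- the coefficients of an additive function in terms of the first `n` -/
theorem coeff_shift {n : ℕ} (hn : 0 < n) (f : Pt (honda (OO K) p n hn) →+ B)
    (g : OO K → B) {b : JJx p → B} (hb : D.Expands b g) (hfg : ∀ w, f w = g w.val)
    (i : {i : ℕ // i.Coprime p}) (k s : ℤ) :
    b (i, k * n + s) = ((D.pu ^ (-k) : Bˣ) : B) * b (i, s) := by
  have hstep : ∀ e : ℤ, b (i, e - n) = (p : B) * b (i, e) := fun e =>
    coeff_frob D hn f g hb hfg (i, e)
  have hstep' : ∀ e : ℤ, b (i, e + n) = ((D.pu⁻¹ : Bˣ) : B) * b (i, e) := by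
    intro e
    have h1 := hstep (e + n)
    rw [add_sub_cancel_right] at h1
    rw [h1, ← D.pu_eq, ← mul_assoc, Units.inv_mul, one_mul]
  have hpos : ∀ (m : ℕ) (e : ℤ), b (i, (m : ℤ) * n + e) = ((D.pu ^ (-(m : ℤ)) : Bˣ) : B) * b (i, e) := by
    intro m
    induction m with
    | zero => intro e; simp
    | succ m ih =>
      intro e
      have h1 : (((m + 1 : ℕ) : ℤ) * n + e) = ((m : ℤ) * n + e) + n := by push_cast; ring
      rw [h1, hstep', ih, ← mul_assoc, ← Units.val_mul]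
      congr 2
      rw [← zpow_neg_one, ← zpow_add]
      congr 1
      push_cast
      ring
  obtain ⟨m, rfl | rfl⟩ := k.eq_nat_or_neg
  · exact hpos m s
  · have h1 := hpos m (-(m : ℤ) * n + s)
    have h2 : (m : ℤ) * n + (-(m : ℤ) * n + s) = s := by ring
    rw [h2] at h1
    rw [h1, ← mul_assoc, ← Units.val_mul, ← zpow_add]
    simp

/-- reindexing a sum over the integers modulo `n` -/
theorem hasSum_divMod {n : ℕ} (hn : 0 < n) {F : ℤ → B} {a : B} (h : HasSum F a)
    {G : ℕ → B} (hG : ∀ s < n, HasSum (fun k : ℤ => F (k * n + (s : ℤ))) (G s)) :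
    a = ∑ s ∈ Finset.range n, G s := by
  have hne : NeZero n := ⟨hn.ne'⟩
  have h3 : HasSum (fun q : ℤ × Fin n => F (q.1 * n + ((q.2 : ℕ) : ℤ))) a :=
    (Int.divModEquiv n).symm.hasSum_iff.2 h
  have h4 : HasSum (fun q : Fin n × ℤ => F (q.2 * n + ((q.1 : ℕ) : ℤ))) a :=
    (Equiv.prodComm (Fin n) ℤ).hasSum_iff.2 h3
  have h6 := HasSum.prod_fiberwise h4 (fun s : Fin n => hG s s.2)
  have h7 := hasSum_fintype (fun s : Fin n => G s)
  rw [h6.unique h7, Finset.sum_range]

theorem coeff_hasSum {n : ℕ} (hn : 0 < n) (f : Pt (honda (OO K) p n hn) →+ B)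
    (g : OO K → B) {b : JJx p → B} (hb : D.Expands b g) (hfg : ∀ w, f w = g w.val)
    (w : Pt (honda (OO K) p n hn)) :
    HasSum (fun e : ℤ => b (⟨1, Nat.coprime_one_left p⟩, e) * D.T (Fr p e w.val)) (f w) := by
  have hw : ‖(w.val : K)‖ < 1 := w.norm_lt
  have h1 := hb.hasSum w.val hw
  rw [hfg]
  have hinj : Function.Injective
      (fun e : ℤ => (((⟨1, Nat.coprime_one_left p⟩ : {i : ℕ // i.Coprime p}), e) : JJx p)) :=
    fun e e' h => (Prod.mk.inj h).2
  have h2 := (hinj.hasSum_iff (f := fun j => b j * D.mono j w.val) (a := g w.val) (by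
    intro j hj
    have hj1 : j.1.1 ≠ 1 := by
      intro h
      apply hj
      refine ⟨j.2, ?_⟩
      apply Prod.ext
      · exact Subtype.ext h.symm
      · rfl
    rw [coeff_zero D hn f g hb hfg j hj1, zero_mul])).2 h1
  have e : ((fun j => b j * D.mono j w.val) ∘
      (fun e : ℤ => (((⟨1, Nat.coprime_one_left p⟩ : {i : ℕ // i.Coprime p}), e) : JJx p)))
      = fun e : ℤ => b (⟨1, Nat.coprime_one_left p⟩, e) * D.T (Fr p e w.val) := by
    funext e
    unfold mono
    simp only [Function.comp_apply, pow_one]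
  rw [e] at h2
  exact h2

theorem Expandable.of_add {n : ℕ} (hn : 0 < n) (f : Pt (honda (OO K) p n hn) →+ B)
    (g : OO K → B) (hg : D.Expandable g) (hfg : ∀ w, f w = g w.val) :
    ∃ β : ℕ → B, ∀ w : Pt (honda (OO K) p n hn),
      f w = ∑ s ∈ Finset.range n, β s * D.Lq n (w.val ^ (p ^ s)) := by
  obtain ⟨b, hb⟩ := hg
  refine ⟨fun s => b (⟨1, Nat.coprime_one_left p⟩, (s : ℤ)), fun w => ?_⟩
  have hw : ‖(w.val : K)‖ < 1 := w.norm_lt
  refine hasSum_divMod hn (coeff_hasSum D hn f g hb hfg w) ?_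
  intro s _
  have hws : ‖((w.val ^ (p ^ s) : OO K) : K)‖ < 1 := by
    rw [Subring.coe_pow, norm_pow]
    exact pow_lt_one₀ (norm_nonneg _) hw (pow_pos (Fact.out : p.Prime).pos _).ne'
  have h6 := (D.Lq_hasSum hn hws).mul_left (b (⟨1, Nat.coprime_one_left p⟩, (s : ℤ)))
  have e : (fun k : ℤ => b (⟨1, Nat.coprime_one_left p⟩, k * n + (s : ℤ)) *
      D.T (Fr p (k * n + (s : ℤ)) w.val)) =
      fun k : ℤ => b (⟨1, Nat.coprime_one_left p⟩, (s : ℤ)) *
        (((D.pu ^ (-k) : Bˣ) : B) * D.T (Fr p ((n : ℤ) * k) (w.val ^ (p ^ s)))) := by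
    funext k
    have h7 : Fr p (k * n + (s : ℤ)) w.val = Fr p ((n : ℤ) * k) (w.val ^ (p ^ s)) := by
      rw [Fr_add, Fr_natCast, mul_comm k]
    rw [coeff_shift D hn f g hb hfg, h7, mul_comm (((D.pu ^ (-k) : Bˣ) : B)), mul_assoc]
  rw [e]
  exact h6

end
end TB
end Vale.Agent.P217
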