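import Vale.Agent.Lib.P217.EndHonda
import Vale.Agent.Lib.P217.Expand

/-!
# P217: comparison of coefficients in the key relation (step S4 of module W6)
-/

set_option linter.unusedSectionVars false

namespace Vale.Agent.P217

open MvPowerSeries Filter Topology

section
variable {K : Type*} [NontriviallyNormedField K] [IsUltrametricDist K] [CompleteSpace K]
  [IsAlgClosed K] {p : ℕ} [Fact p.Prime] [CharP K p]
  {B : Type*} [NormedCommRing B] [CompleteSpace B] [IsUltrametricDist B]

namespace TB
variable (D : TB K p B)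

open Classical in
/-- coefficients of `L_h` -/
noncomputable def cLq (h : ℕ) (j : JJx p) : B :=
  if j.1.1 = 1 ∧ (h : ℤ) ∣ j.2 then ((D.pu ^ (-(j.2 / (h : ℤ))) : Bˣ) : B) else 0

/-- the indices of the coefficients of `L_h` -/
def idx1 (p : ℕ) (h : ℕ) (k : ℤ) : JJx p := (⟨1, Nat.coprime_one_left p⟩, (h : ℤ) * k)

theorem idx1_injective {h : ℕ} (hh : 0 < h) : Function.Injective (idx1 p h) := by
  intro k k' hk
  have h1 : (h : ℤ) * k = (h : ℤ) * k' := congrArg Prod.snd hk
  exact mul_left_cancel₀ (by exact_mod_cast hh.ne') h1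

theorem cLq_idx1 {h : ℕ} (hh : 0 < h) (k : ℤ) :
    D.cLq h (idx1 p h k) = ((D.pu ^ (-k) : Bˣ) : B) := by
  unfold cLq idx1
  rw [if_pos ⟨rfl, dvd_mul_right _ _⟩]
  congr 3
  exact Int.mul_ediv_cancel_left k (by exact_mod_cast hh.ne')

theorem cLq_of_notMem {h : ℕ} (j : JJx p) (hj : j ∉ Set.range (idx1 p h)) :
    D.cLq h j = 0 := by
  unfold cLq
  rw [if_neg]
  rintro ⟨h1, h2⟩
  obtain ⟨k, hk⟩ := h2
  apply hj
  refine ⟨k, ?_⟩
  obtain ⟨⟨i, hi⟩, e⟩ := j
  simp only at h1 hk
  subst h1
  subst hk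
  rfl

theorem expands_Lq {h : ℕ} (hh : 0 < h) : D.Expands (D.cLq h) (fun w => D.Lq h w) := by
  refine ⟨?_, ?_⟩
  · intro s hs0 hs1
    have h1 := D.tendsto_gLq hh hs0.le hs1
    rw [Metric.tendsto_nhds] at h1 ⊢
    intro ε hε
    have h2 := h1 ε hε
    rw [eventually_cofinite] at h2 ⊢
    refine (h2.image (idx1 p h)).subset ?_
    intro j hj
    by_cases hjr : j ∈ Set.range (idx1 p h)
    · obtain ⟨k, rfl⟩ := hjr
      refine ⟨k, ?_, rfl⟩
      intro hlt
      apply hj
      have h3 : ‖D.cLq h (idx1 p h k)‖ = D.ρ ^ (-k) := by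
        have h4 := D.norm_zpow_mul (-k) 1
        rw [mul_one, D.norm_one', mul_one] at h4
        rw [D.cLq_idx1 hh, h4]
      have h5 : expo p (idx1 p h k) = (p : ℝ) ^ ((h : ℤ) * k) := by
        unfold expo idx1
        simp
      rw [h3, h5]
      exact hlt
    · exfalso
      apply hj
      rw [D.cLq_of_notMem j hjr]
      simpa using hε
  · intro w hw
    have h1 := D.Lq_hasSum hh hw
    refine (Function.Injective.hasSum_iff (idx1_injective (p := p) hh) ?_).mp ?_
    · intro j hj
      rw [D.cLq_of_notMem j hj, zero_mul]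
    · refine h1.congr_fun fun k => ?_
      rw [Function.comp_apply, D.cLq_idx1 hh]
      unfold mono idx1
      rw [pow_one]

theorem Expands.finset_sum {ι : Type*} (t : Finset ι) (b : ι → JJx p → B) (f : ι → OO K → B)
    (h : ∀ i ∈ t, D.Expands (b i) (f i)) :
    D.Expands (fun j => ∑ i ∈ t, b i j) (fun w => ∑ i ∈ t, f i w) := by
  classical
  induction t using Finset.induction_on with
  | empty => simpa using D.expands_zero
  | insert a t ha ih =>
    have h1 := h a (Finset.mem_insert_self a t)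
    have h2 := ih (fun i hi => h i (Finset.mem_insert_of_mem hi))
    have h3 := Expands.add D h1 h2
    have e1 : (fun j => ∑ i ∈ insert a t, b i j) = b a + fun j => ∑ i ∈ t, b i j := by
      funext j
      rw [Finset.sum_insert ha]
      rfl
    have e2 : (fun w => ∑ i ∈ insert a t, f i w) = f a + fun w => ∑ i ∈ t, f i w := by
      funext w
      rw [Finset.sum_insert ha]
      rfl
    rw [e1, e2]
    exact h3

/-- linear independence of the functions `L_h(y^{p^{t+e}})`, `t < h`, over `B` -/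
theorem Lq_indep {h : ℕ} (hh : 0 < h) (e : ℕ) (g : ℕ → B)
    (hg : ∀ y : OO K, ‖(y : K)‖ < 1 →
      ∑ t ∈ Finset.range h, g t * D.Lq h (y ^ (p ^ (t + e))) = 0) (t₀ : ℕ) (ht₀ : t₀ < h) :
    g t₀ = 0 := by
  classical
  have h1 : ∀ t ∈ Finset.range h, D.Expands
      (fun j => g t * D.cLq h (j.1, j.2 - ((t + e : ℕ) : ℤ)))
      (fun w => g t * D.Lq h (Fr p ((t + e : ℕ) : ℤ) w)) := fun t _ =>
    Expands.const_mul D (Expands.comp_Fr D (D.expands_Lq hh) ((t + e : ℕ) : ℤ)) (g t)
  have h2 := Expands.finset_sum D (Finset.range h) _ _ h1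
  have h3 : D.Expands (fun j : JJx p => ∑ t ∈ Finset.range h,
      g t * D.cLq h (j.1, j.2 - ((t + e : ℕ) : ℤ))) (fun _ => 0) := by
    refine Expands.congr D h2 (fun w hw => ?_)
    rw [← hg w hw]
    refine Finset.sum_congr rfl (fun t _ => ?_)
    rw [Fr_natCast]
  have h4 := congrFun (Expands.unique D h3 D.expands_zero)
    ((⟨1, Nat.coprime_one_left p⟩, ((t₀ + e : ℕ) : ℤ)) : JJx p)
  simp only at h4
  rw [Finset.sum_eq_single t₀] at h4
  · have h5 : D.cLq h ((⟨1, Nat.coprime_one_left p⟩, ((t₀ + e : ℕ) : ℤ) - ((t₀ + e : ℕ) : ℤ)) :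
        JJx p) = 1 := by
      have h6 := D.cLq_idx1 hh 0
      rw [neg_zero, zpow_zero, Units.val_one] at h6
      rw [← h6, sub_self]
      unfold idx1
      rw [mul_zero]
    rw [h5, mul_one] at h4
    exact h4
  · intro t ht hne
    have hth : t < h := Finset.mem_range.mp ht
    have h5 : D.cLq h ((⟨1, Nat.coprime_one_left p⟩, ((t₀ + e : ℕ) : ℤ) - ((t + e : ℕ) : ℤ)) :
        JJx p) = 0 := by
      apply D.cLq_of_notMem
      rintro ⟨k, hk⟩
      have h6 : (h : ℤ) * k = ((t₀ + e : ℕ) : ℤ) - ((t + e : ℕ) : ℤ) := congrArg Prod.snd hk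
      have h7 : (h : ℤ) * k = (t₀ : ℤ) - t := by
        rw [h6]
        push_cast
        ring
      have hk0 : k = 0 := by
        by_contra hk0
        have h8 : (h : ℤ) ≤ |(h : ℤ) * k| := by
          rw [abs_mul, Nat.abs_cast]
          have : 1 ≤ |k| := Int.one_le_abs hk0
          nlinarith [show (0 : ℤ) ≤ h from Int.natCast_nonneg h]
        rw [h7] at h8
        have h9 : |(t₀ : ℤ) - t| < h := by
          rw [abs_lt]
          constructor <;> omega
        omega
      rw [hk0, mul_zero] at h7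
      apply hne
      omega
    rw [h5, mul_zero]
  · intro h5
    exact absurd (Finset.mem_range.mpr ht₀) h5

end TB

theorem witt_natCast_ne_zero (h : ℕ) (hh : 0 < h) : (h : WittVector p (OO K)) ≠ 0 := by
  have hp : p.Prime := Fact.out
  obtain ⟨v, m, hm, rfl⟩ := Nat.exists_eq_pow_mul_and_not_dvd hh.ne' p hp.ne_one
  have h1 : (p : WittVector p (OO K)) ≠ 0 := WittVector.p_nonzero p (OO K)
  have h2 : (m : WittVector p (OO K)) ≠ 0 := by
    intro h0
    have h3 := congrArg (WittVector.constantCoeff (p := p) (R := OO K)) h0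
    rw [map_natCast, map_zero] at h3
    have h4 : ((m : OO K) : K) = 0 := by
      rw [h3]
      rfl
    have h5 : (m : K) = 0 := by
      rw [← h4]
      rfl
    rw [CharP.cast_eq_zero_iff K p] at h5
    exact hm h5
  rw [Nat.cast_mul, Nat.cast_pow]
  exact mul_ne_zero (pow_ne_zero v h1) h2

/-- step S4 -/
theorem const_of_key (D : TB K p B) {h r : ℕ} (hh : 0 < h) (χ : Fin r → PowerSeries (OO K))
    (H : ∀ i, IsEnd p hh (χ i)) (j : Fin r) (A : ℕ → Fin r → B)
    (key : ∀ (e f : ℕ) (y : Pt (honda (OO K) p h hh)),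
      A f j * D.Lq h (y.val ^ (p ^ e)) =
        ∑ i ∈ Finset.univ.erase j, A f i * D.Lq h (((H i).app y).val ^ (p ^ e))) :
    ∃ c : Fin r → WittVector p (OO K), (∀ i, WittVector.frobenius (c i) = c i) ∧ c j ≠ 0 ∧
      ∀ f : ℕ, ∑ i, D.θ (c i) * A f i = 0 := by
  classical
  choose x hx1 hx2 using fun i => end_honda_expand D hh (χ i) (H i)
  set φ := WittVector.frobenius (p := p) (R := OO K) with hφ
  -- comparison of coefficients
  have key1 : ∀ e f : ℕ, A f j = ∑ i ∈ Finset.univ.erase j, A f i * D.θ (φ^[e] (x i 0)) := by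
    intro e f
    have hz := D.Lq_indep hh e (fun t => ∑ i ∈ Finset.univ.erase j, A f i * D.θ (φ^[e] (x i t))
      - if t = 0 then A f j else 0) (fun y hy => ?_) 0 hh
    · simp only [if_true] at hz
      exact (sub_eq_zero.mp hz).symm
    · let P : Pt (honda (OO K) p h hh) := ⟨y, tn_iff.mpr hy⟩
      have h1 := key e f P
      have h2 : ∑ i ∈ Finset.univ.erase j, A f i * D.Lq h (((H i).app P).val ^ (p ^ e))
          = ∑ t ∈ Finset.range h, (∑ i ∈ Finset.univ.erase j, A f i * D.θ (φ^[e] (x i t)))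
            * D.Lq h (y ^ (p ^ (t + e))) := by
        simp_rw [Finset.sum_mul]
        rw [Finset.sum_comm]
        refine Finset.sum_congr rfl (fun i _ => ?_)
        rw [hx2 i e P, Finset.mul_sum]
        refine Finset.sum_congr rfl (fun t _ => ?_)
        rw [mul_assoc]
      have h3 : ∑ t ∈ Finset.range h, (if t = 0 then A f j else 0) * D.Lq h (y ^ (p ^ (t + e)))
          = A f j * D.Lq h (y ^ (p ^ e)) := by
        rw [Finset.sum_eq_single 0]
        · rw [if_pos rfl, zero_add]
        · intro t _ ht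
          rw [if_neg ht, zero_mul]
        · intro h0
          exact absurd (Finset.mem_range.mpr hh) h0
      have h4 : ∑ t ∈ Finset.range h, (∑ i ∈ Finset.univ.erase j, A f i * D.θ (φ^[e] (x i t))
          - if t = 0 then A f j else 0) * D.Lq h (y ^ (p ^ (t + e)))
          = ∑ t ∈ Finset.range h, (∑ i ∈ Finset.univ.erase j, A f i * D.θ (φ^[e] (x i t)))
            * D.Lq h (y ^ (p ^ (t + e)))
            - ∑ t ∈ Finset.range h, (if t = 0 then A f j else 0) *
              D.Lq h (y ^ (p ^ (t + e))) := by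
        rw [← Finset.sum_sub_distrib]
        refine Finset.sum_congr rfl (fun t _ => ?_)
        rw [sub_mul]
      rw [h4, h3, ← h2, ← h1]
      exact sub_self _
  -- the constants
  refine ⟨fun i => if i = j then -(h : WittVector p (OO K)) else
    ∑ e ∈ Finset.range h, φ^[e] (x i 0), ?_, ?_, ?_⟩
  · intro i
    by_cases hi : i = j
    · simp only [if_pos hi]
      rw [map_neg, map_natCast]
    · simp only [if_neg hi]
      rw [map_sum]
      have h1 : ∀ e : ℕ, φ (φ^[e] (x i 0)) = φ^[e + 1] (x i 0) := by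
        intro e
        rw [Function.iterate_succ_apply']
      have h2 : ∑ e ∈ Finset.range h, φ (φ^[e] (x i 0))
          = ∑ e ∈ Finset.range h, φ^[e + 1] (x i 0) :=
        Finset.sum_congr rfl (fun e _ => h1 e)
      have h3 := Finset.sum_range_succ' (fun e => φ^[e] (x i 0)) h
      have h4 := Finset.sum_range_succ (fun e => φ^[e] (x i 0)) h
      rw [h4] at h3
      simp only [Function.iterate_zero, id_eq] at h3
      rw [hx1 i 0] at h3
      have h5 := add_right_cancel h3
      change ∑ e ∈ Finset.range h, φ (φ^[e] (x i 0)) = _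
      rw [h2, ← h5]
  · simp only [if_true]
    exact neg_ne_zero.mpr (witt_natCast_ne_zero h hh)
  · intro f
    rw [← Finset.add_sum_erase _ _ (Finset.mem_univ j)]
    simp only [if_true]
    have h1 : ∑ i ∈ Finset.univ.erase j, D.θ (if i = j then -(h : WittVector p (OO K)) else
        ∑ e ∈ Finset.range h, φ^[e] (x i 0)) * A f i
        = ∑ e ∈ Finset.range h, A f j := by
      have h2 : ∀ e ∈ Finset.range h, A f j
          = ∑ i ∈ Finset.univ.erase j, A f i * D.θ (φ^[e] (x i 0)) := fun e _ => key1 e f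
      rw [Finset.sum_congr rfl h2, Finset.sum_comm]
      refine Finset.sum_congr rfl (fun i hi => ?_)
      rw [if_neg (Finset.ne_of_mem_erase hi), map_sum, Finset.sum_mul]
      refine Finset.sum_congr rfl (fun e _ => mul_comm _ _)
    rw [h1, Finset.sum_const, Finset.card_range, nsmul_eq_mul, map_neg, map_natCast]
    ring

end
end Vale.Agent.P217
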