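import Vale.Agent.Lib.P217.EndHonda

/-!
# P217: the last step (S5) of `core_false`
-/

set_option linter.unusedSectionVars false

namespace Vale.Agent.P217.CoreFalse

open MvPowerSeries Filter Topology

section
variable {K : Type*} [NontriviallyNormedField K] [IsUltrametricDist K] [CompleteSpace K]
  [IsAlgClosed K] {p : ℕ} [Fact p.Prime] [CharP K p]
  {B : Type*} [NormedCommRing B] [CompleteSpace B] [IsUltrametricDist B]

theorem nsub_le_max (x y : B) : ‖x - y‖ ≤ max ‖x‖ ‖y‖ := by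
  rw [sub_eq_add_neg, ← norm_neg y]
  exact IsUltrametricDist.norm_add_le_max x (-y)

theorem norm_nat_le (D : TB K p B) (a : ℕ) : ‖(a : B)‖ ≤ 1 := by
  have := D.norm_θ (a : WittVector p (OO K))
  rwa [map_natCast] at this

theorem norm_nat_of_dvd (D : TB K p B) {a : ℕ} (ha : p ∣ a) : ‖(a : B)‖ ≤ D.ρ := by
  obtain ⟨b, rfl⟩ := ha
  push_cast
  rw [D.norm_p]
  have := norm_nat_le D b
  have hρ := D.ρ_pos
  nlinarith

theorem one_le_norm_nat (D : TB K p B) {a : ℕ} (ha : ¬ p ∣ a) : 1 ≤ ‖(a : B)‖ := by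
  have hp : p.Prime := Fact.out
  have hc : a.Coprime p := ((Nat.Prime.coprime_iff_not_dvd hp).2 ha).symm
  obtain ⟨m, -, hm⟩ := Nat.exists_mul_mod_eq_one_of_coprime hc hp.one_lt
  have h1 : a * m = 1 + p * (a * m / p) := by
    have := Nat.mod_add_div (a * m) p
    omega
  have h2 : (1 : B) = (a : B) * (m : B) - (p : B) * ((a * m / p : ℕ) : B) := by
    have h3 : ((a * m : ℕ) : B) = ((1 + p * (a * m / p) : ℕ) : B) := by rw [← h1]
    push_cast at h3
    rw [h3]
    push_cast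
    ring
  have h4 : ‖(a : B) * (m : B)‖ ≤ ‖(a : B)‖ := by
    calc ‖(a : B) * (m : B)‖ ≤ ‖(a : B)‖ * ‖(m : B)‖ := norm_mul_le _ _
      _ ≤ ‖(a : B)‖ * 1 := by
          gcongr
          exact norm_nat_le D m
      _ = _ := mul_one _
  have h5 : ‖(p : B) * ((a * m / p : ℕ) : B)‖ ≤ D.ρ := by
    rw [D.norm_p]
    have := norm_nat_le D (a * m / p)
    have hρ := D.ρ_pos
    nlinarith
  by_contra hcon
  push Not at hcon
  have h6 : ‖(1 : B)‖ < 1 := by
    rw [h2]
    refine (nsub_le_max _ _).trans_lt (max_lt (h4.trans_lt hcon) ?_)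
    exact h5.trans_lt D.ρ_lt
  rw [D.norm_one'] at h6
  exact lt_irrefl _ h6

/-- divide out the largest power of `p` -/
theorem exists_primitive (D : TB K p B) {r : ℕ} (L : Fin r → ℕ → B) (j : Fin r) (N : ℕ) :
    ∀ c : Fin r → WittVector p (OO K), (∀ i, WittVector.frobenius (c i) = c i) →
      (c j).coeff N ≠ 0 → (∀ f : ℕ, ∑ i, D.θ (c i) * L i f = 0) →
      ∃ c' : Fin r → WittVector p (OO K), (∀ i, WittVector.frobenius (c' i) = c' i) ∧
        (∃ i, (c' i).coeff 0 ≠ 0) ∧ ∀ f : ℕ, ∑ i, D.θ (c' i) * L i f = 0 := by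
  induction N with
  | zero => exact fun c h1 h2 h3 => ⟨c, h1, ⟨j, h2⟩, h3⟩
  | succ N ih =>
    intro c h1 h2 h3
    by_cases h0 : ∃ i, (c i).coeff 0 ≠ 0
    · exact ⟨c, h1, h0, h3⟩
    · push Not at h0
      have h4 : ∀ i, ∃ w : WittVector p (OO K), c i = w * p := fun i => exists_eq_mul_p _ (h0 i)
      choose w hw using h4
      refine ih w (fun i => ?_) ?_ ?_
      · have h5 := h1 i
        rw [hw i, map_mul, map_natCast] at h5
        exact mul_right_cancel₀ (WittVector.p_nonzero p (OO K)) h5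
      · intro h5
        apply h2
        rw [hw j, WittVector.mul_charP_coeff_succ, h5]
        exact zero_pow (Fact.out : p.Prime).ne_zero
      · intro f
        have h5 := h3 f
        have h6 : (p : B) * ∑ i, D.θ (w i) * L i f = 0 := by
          rw [← h5, Finset.mul_sum]
          refine Finset.sum_congr rfl fun i _ => ?_
          rw [hw i, map_mul, map_natCast]
          ring
        have h7 : D.ρ * ‖∑ i, D.θ (w i) * L i f‖ = 0 := by
          rw [← D.norm_p, h6, norm_zero]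
        rcases mul_eq_zero.1 h7 with h8 | h8
        · exact absurd h8 D.ρ_pos.ne'
        · exact norm_eq_zero.1 h8

/-- the additive map `L_n ∘ Fr e` -/
noncomputable def LA (D : TB K p B) {n : ℕ} (hn : 0 < n) (e : ℤ) :
    Pt (honda (OO K) p n hn) →+ B where
  toFun x := D.Lq n (Fr p e x.val)
  map_zero' := by
    rw [Pt.zero_val, map_zero]
    exact D.Lq_zero n
  map_add' x y := D.Lq_add hn e x y

theorem LA_apply (D : TB K p B) {n : ℕ} (hn : 0 < n) (f : ℕ) (x : Pt (honda (OO K) p n hn)) :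
    LA D hn (f : ℤ) x = D.Lq n (x.val ^ (p ^ f)) := by
  change D.Lq n (Fr p (f : ℤ) x.val) = _
  rw [Fr_natCast]

theorem final (D : TB K p B) {n r : ℕ} (hn : 0 < n) (hn2 : 2 ≤ n)
    (w : Fin r → Pt (honda (OO K) p n hn)) (j : Fin r)
    (indep : ∃ s₀ : ℝ, 0 < s₀ ∧ ∀ a : Fin r → ℕ, (∃ i, ¬ p ∣ a i) → s₀ ≤ Pt.nm (∑ i, a i • w i))
    (c : Fin r → WittVector p (OO K)) (hc : ∀ i, WittVector.frobenius (c i) = c i)
    (hj : c j ≠ 0) (hs : ∀ f : ℕ, ∑ i, D.θ (c i) * D.Lq n ((w i).val ^ (p ^ f)) = 0) : False := by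
  have hp : p.Prime := Fact.out
  obtain ⟨N, hN⟩ : ∃ N, (c j).coeff N ≠ 0 := by
    by_contra hcon
    push Not at hcon
    apply hj
    ext N
    rw [hcon N, WittVector.zero_coeff]
  obtain ⟨c', h1, ⟨i₀, h2⟩, h3⟩ :=
    exists_primitive D (fun i f => D.Lq n ((w i).val ^ (p ^ f))) j N c hc hN hs
  obtain ⟨s₀, hs₀, hind⟩ := indep
  -- a bound for the values
  obtain ⟨C₀, hC₀⟩ : ∃ C₀ : ℝ, ∀ i, ∀ f, f < 2 → ‖D.Lq n ((w i).val ^ (p ^ f))‖ ≤ C₀ := by
    refine ⟨∑ i, ∑ f ∈ Finset.range 2, ‖D.Lq n ((w i).val ^ (p ^ f))‖, fun i f hf => ?_⟩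
    refine le_trans ?_ (Finset.single_le_sum (f := fun i => ∑ f ∈ Finset.range 2,
      ‖D.Lq n ((w i).val ^ (p ^ f))‖) (fun i _ => Finset.sum_nonneg fun f _ => norm_nonneg _)
      (Finset.mem_univ i))
    exact Finset.single_le_sum (f := fun f => ‖D.Lq n ((w i).val ^ (p ^ f))‖)
      (fun f _ => norm_nonneg _) (Finset.mem_range.2 hf)
  have hC0 : 0 ≤ C₀ := (norm_nonneg _).trans (hC₀ j 0 (by norm_num))
  -- choose the precision
  have ht : Tendsto (fun M : ℕ => D.ρ ^ (M + 1) * C₀) atTop (𝓝 (0 * C₀)) :=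
    ((tendsto_pow_atTop_nhds_zero_of_lt_one D.ρ_pos.le D.ρ_lt).comp
      (tendsto_add_atTop_nat 1)).mul_const _
  rw [zero_mul] at ht
  obtain ⟨M, hM⟩ := (ht.eventually (gt_mem_nhds (pow_pos hs₀ p))).exists
  choose a ha using fun i => D.exists_nat_close (c' i) (h1 i) (M + 1)
  -- `p` does not divide `a i₀`
  have hnd : ¬ p ∣ a i₀ := by
    intro hd
    have e1 : (c' i₀).coeff 0 ^ p = (c' i₀).coeff 0 := by
      rw [← WittVector.coeff_frobenius_charP, h1]
    obtain ⟨a0, ha0⟩ := exists_natCast_of_pow_eq (p := p) _ e1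
    have e2 : ¬ p ∣ a0 := by
      intro hd0
      apply h2
      rw [ha0]
      obtain ⟨b, rfl⟩ := hd0
      push_cast
      rw [CharP.cast_eq_zero, zero_mul]
    have e3 : ((a0 : WittVector p (OO K))).coeff 0 = (a0 : OO K) := by
      have := map_natCast (WittVector.constantCoeff (p := p) (R := OO K)) a0
      exact this
    have e4 : ‖D.θ (c' i₀) - (a0 : B)‖ ≤ D.ρ := by
      have := D.norm_θ_sub_le (x := c' i₀) (y := (a0 : WittVector p (OO K))) (by rw [ha0, e3])
      rwa [map_natCast] at this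
    have e5 : ‖D.θ (c' i₀) - (a i₀ : B)‖ ≤ D.ρ := by
      refine (ha i₀).trans ?_
      rw [pow_succ]
      have : D.ρ ^ M ≤ 1 := pow_le_one₀ D.ρ_pos.le D.ρ_lt.le
      have hρ := D.ρ_pos
      nlinarith
    have e6 : ‖(a0 : B)‖ ≤ D.ρ := by
      have e7 : (a0 : B) = (a i₀ : B) + ((D.θ (c' i₀) - (a i₀ : B)) - (D.θ (c' i₀) - (a0 : B))) := by
        ring
      rw [e7]
      refine (IsUltrametricDist.norm_add_le_max _ _).trans (max_le (norm_nat_of_dvd D hd) ?_)
      exact (nsub_le_max _ _).trans (max_le e5 e4)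
    have e8 := one_le_norm_nat D e2
    have := D.ρ_lt
    linarith
  have hy := hind a ⟨i₀, hnd⟩
  set y := ∑ i, a i • w i with hydef
  have key : ∀ f, f < 2 → ‖D.Lq n (y.val ^ (p ^ f))‖ ≤ D.ρ ^ (M + 1) * C₀ := by
    intro f hf
    have e1 : D.Lq n (y.val ^ (p ^ f)) =
        ∑ i, ((a i : B) - D.θ (c' i)) * D.Lq n ((w i).val ^ (p ^ f)) := by
      rw [← LA_apply D hn f y, hydef, map_sum]
      have e2 : ∑ i, ((a i : B) - D.θ (c' i)) * D.Lq n ((w i).val ^ (p ^ f)) =
          ∑ i, (a i : B) * D.Lq n ((w i).val ^ (p ^ f)) -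
            ∑ i, D.θ (c' i) * D.Lq n ((w i).val ^ (p ^ f)) := by
        rw [← Finset.sum_sub_distrib]
        exact Finset.sum_congr rfl fun i _ => sub_mul _ _ _
      rw [e2, h3 f, sub_zero]
      refine Finset.sum_congr rfl fun i _ => ?_
      rw [map_nsmul, LA_apply, nsmul_eq_mul]
    rw [e1]
    refine IsUltrametricDist.norm_sum_le_of_forall_le_of_nonneg
      (mul_nonneg (pow_nonneg D.ρ_pos.le _) hC0) fun i _ => ?_
    refine (norm_mul_le _ _).trans ?_
    refine mul_le_mul ?_ (hC₀ i f hf) (norm_nonneg _) (pow_nonneg D.ρ_pos.le _)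
    rw [norm_sub_rev]
    exact ha i
  rcases D.Lq_lower hn2 hs₀ y.norm_lt hy with h4 | h4
  · have := key 0 (by norm_num)
    rw [pow_zero, pow_one] at this
    linarith
  · have := key 1 (by norm_num)
    rw [pow_one] at this
    linarith

end
end Vale.Agent.P217.CoreFalse
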