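import Mathlib.RingTheory.RootsOfUnity.AlgebraicallyClosed
import Vale.Agent.Lib.P217.Lq

/-!
# P217: auxiliary lemmas for `core_fourier`
-/

set_option linter.unusedSectionVars false

namespace Vale.Agent.P217

open Filter Topology

section
variable {K : Type*} [NontriviallyNormedField K] [IsUltrametricDist K] [CompleteSpace K]
  [IsAlgClosed K] {p : ℕ} [Fact p.Prime] [CharP K p]

/-- a nonzero element with `x^{p^n} = x`, `n ≥ 1` has norm one -/
theorem cf_norm_eq_one {n : ℕ} (hn : 0 < n) {x : OO K} (hx : x ^ (p ^ n) = x) (h0 : x ≠ 0) :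
    ‖(x : K)‖ = 1 := by
  have hp : p.Prime := Fact.out
  have h1 : ‖(x : K)‖ ^ (p ^ n) = ‖(x : K)‖ := by
    rw [← norm_pow, ← Subring.coe_pow, hx]
  have h2 : 0 < ‖(x : K)‖ := norm_pos_iff.2 (fun h => h0 (Subtype.ext h))
  have h3 : 1 < p ^ n := Nat.one_lt_pow hn.ne' hp.one_lt
  by_contra hne
  have h4 : ‖(x : K)‖ < 1 := lt_of_le_of_ne (norm_le_one x) hne
  have h5 := pow_lt_pow_right_of_lt_one₀ h2 h4 h3
  rw [h1, pow_one] at h5
  exact lt_irrefl _ h5

/-- an element with distinct Frobenius conjugates -/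
theorem cf_exists_zeta {n : ℕ} (hn : 0 < n) : ∃ ζ : OO K, ζ ^ (p ^ n) = ζ ∧
    ∀ s < n, ∀ s' < n, s ≠ s' → ζ ^ (p ^ s) ≠ ζ ^ (p ^ s') := by
  have hp : p.Prime := Fact.out
  have h1 : 1 < p ^ n := Nat.one_lt_pow hn.ne' hp.one_lt
  have hne : ((p ^ n - 1 : ℕ) : K) ≠ 0 := by
    rw [Nat.cast_sub h1.le, Nat.cast_pow, CharP.cast_eq_zero, zero_pow hn.ne', Nat.cast_one,
      zero_sub, neg_ne_zero]
    exact one_ne_zero
  have : NeZero ((p ^ n - 1 : ℕ) : K) := ⟨hne⟩
  obtain ⟨ζ, hζ⟩ := HasEnoughRootsOfUnity.exists_primitiveRoot K (p ^ n - 1)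
  have hz1 : ζ ^ (p ^ n) = ζ := by
    have h2 : p ^ n = (p ^ n - 1) + 1 := by omega
    rw [h2, pow_succ, hζ.pow_eq_one, one_mul]
  have hnorm : ‖ζ‖ ≤ 1 := by
    have h3 : ‖ζ‖ ^ (p ^ n - 1) = 1 := by rw [← norm_pow, hζ.pow_eq_one, norm_one]
    exact (pow_le_one_iff_of_nonneg (norm_nonneg ζ) (by omega)).1 h3.le
  refine ⟨⟨ζ, hnorm⟩, Subtype.ext hz1, fun s hs s' hs' hne heq => hne ?_⟩
  have h4 : ζ ^ (p ^ s) = ζ ^ (p ^ s') := congrArg Subtype.val heq
  have hn2 : 2 ≤ n := by omega
  have h5 : ∀ t < n, p ^ t < p ^ n - 1 := by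
    intro t ht
    have h6 : p ^ t ≤ p ^ (n - 1) := Nat.pow_le_pow_right hp.pos (by omega)
    have h7 : p ^ n = p ^ (n - 1) * p := by
      rw [← pow_succ]
      congr 1
      omega
    have h8 : 2 ≤ p ^ (n - 1) := hp.two_le.trans (Nat.le_self_pow (by omega) p)
    have h9 : p ^ (n - 1) * 2 ≤ p ^ (n - 1) * p := Nat.mul_le_mul_left _ hp.two_le
    omega
  have h6 := hζ.pow_inj (h5 s hs) (h5 s' hs') h4
  exact Nat.pow_right_injective hp.two_le h6

variable {B : Type*} [NormedCommRing B] [CompleteSpace B] [IsUltrametricDist B]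

/-- multiplication by `T x - T y` is isometric if `‖x - y‖ = 1` -/
theorem cf_norm_T_sub_mul (D : TB K p B) {x y : OO K} (h : ‖((x - y : OO K) : K)‖ = 1) (b : B) :
    ‖(D.T x - D.T y) * b‖ = ‖b‖ := by
  have h0 : (WittVector.teichmuller p x - WittVector.teichmuller p y -
      WittVector.teichmuller p (x - y)).coeff 0 = 0 := by
    have h1 : WittVector.constantCoeff (WittVector.teichmuller p x - WittVector.teichmuller p y -
        WittVector.teichmuller p (x - y)) = WittVector.constantCoeff (WittVector.teichmuller p x) -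
          WittVector.constantCoeff (WittVector.teichmuller p y) -
          WittVector.constantCoeff (WittVector.teichmuller p (x - y)) := by
      rw [map_sub, map_sub]
    change (WittVector.teichmuller p x - WittVector.teichmuller p y -
      WittVector.teichmuller p (x - y)).coeff 0 = (WittVector.teichmuller p x).coeff 0 -
        (WittVector.teichmuller p y).coeff 0 - (WittVector.teichmuller p (x - y)).coeff 0 at h1
    rw [h1, WittVector.teichmuller_coeff_zero, WittVector.teichmuller_coeff_zero,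
      WittVector.teichmuller_coeff_zero, sub_self]
  obtain ⟨w, hw⟩ := exists_eq_mul_p _ h0
  have h2 : D.T x - D.T y = D.T (x - y) + (p : B) * D.θ w := by
    unfold TB.T
    have h3 := congrArg D.θ hw
    rw [map_sub, map_sub, map_mul, map_natCast] at h3
    rw [sub_eq_iff_eq_add] at h3
    rw [h3]
    ring
  rw [h2, add_mul]
  have h4 : ‖D.T (x - y) * b‖ = ‖b‖ := by
    have h5 := D.norm_T (x - y) b
    rw [h, one_mul] at h5
    exact h5
  have h6 : ‖(p : B) * D.θ w * b‖ ≤ D.ρ * ‖b‖ := by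
    rw [mul_assoc, D.norm_p]
    refine mul_le_mul_of_nonneg_left ?_ D.ρ_pos.le
    calc ‖D.θ w * b‖ ≤ ‖D.θ w‖ * ‖b‖ := norm_mul_le _ _
      _ ≤ 1 * ‖b‖ := mul_le_mul_of_nonneg_right (D.norm_θ w) (norm_nonneg _)
      _ = ‖b‖ := one_mul _
  by_cases hb : b = 0
  · simp [hb]
  · have hb' : 0 < ‖b‖ := norm_pos_iff.2 hb
    have h7 : ‖(p : B) * D.θ w * b‖ < ‖D.T (x - y) * b‖ := by
      rw [h4]
      refine h6.trans_lt ?_
      have := D.ρ_lt
      nlinarith
    rw [IsUltrametricDist.norm_add_eq_max_of_norm_ne_norm h7.ne', max_eq_left h7.le, h4]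

/-- Vandermonde argument -/
theorem cf_vandermonde {R : Type*} [CommRing R] (n : ℕ) (v X : ℕ → R)
    (hv : ∀ s < n, ∀ s' < n, s ≠ s' → ∀ b : R, (v s - v s') * b = 0 → b = 0)
    (h : ∀ u : ℕ, ∑ s ∈ Finset.range n, v s ^ u * X s = 0) : ∀ s < n, X s = 0 := by
  intro s hs
  set P : Polynomial R := ∏ s' ∈ (Finset.range n).erase s, (Polynomial.X - Polynomial.C (v s'))
    with hP
  have h1 : ∑ t ∈ Finset.range n, P.eval (v t) * X t = 0 := by
    have h2 : ∀ t, P.eval (v t) * X t =
        ∑ u ∈ Finset.range (P.natDegree + 1), P.coeff u * (v t ^ u * X t) := by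
      intro t
      rw [Polynomial.eval_eq_sum_range, Finset.sum_mul]
      exact Finset.sum_congr rfl fun u _ => by ring
    simp only [h2]
    rw [Finset.sum_comm]
    refine Finset.sum_eq_zero fun u _ => ?_
    rw [← Finset.mul_sum, h u, mul_zero]
  rw [Finset.sum_eq_single s] at h1
  · have h3 : P.eval (v s) = ∏ s' ∈ (Finset.range n).erase s, (v s - v s') := by
      rw [hP, Polynomial.eval_prod]
      simp
    rw [h3] at h1
    have key : ∀ A : Finset ℕ, A ⊆ (Finset.range n).erase s →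
        (∏ s' ∈ A, (v s - v s')) * X s = 0 → X s = 0 := by
      intro A
      induction A using Finset.induction_on with
      | empty =>
        intro _ h4
        rw [Finset.prod_empty, one_mul] at h4
        exact h4
      | insert a A ha ih =>
        intro hA h4
        rw [Finset.prod_insert ha, mul_assoc] at h4
        have h5 := hA (Finset.mem_insert_self a A)
        rw [Finset.mem_erase, Finset.mem_range] at h5
        exact ih ((Finset.subset_insert _ _).trans hA) (hv s hs a h5.2 (Ne.symm h5.1) _ h4)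
    exact key _ (Finset.Subset.refl _) h1
  · intro t ht hts
    have h3 : P.eval (v t) = 0 := by
      rw [hP, Polynomial.eval_prod]
      refine Finset.prod_eq_zero (Finset.mem_erase.2 ⟨hts, ht⟩) ?_
      simp
    rw [h3, zero_mul]
  · intro h4
    exact absurd (Finset.mem_range.2 hs) h4

end
end Vale.Agent.P217
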