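import Vale.Agent.Lib.P217.Expand

/-!
# P217: `L_h` of a power series is expandable (module W5)

* `expands_T_pow`: `v ↦ T(Fr e (v^i))`, `i = p^a i'`, is the monomial of index `(i', e + a)`.
* `expandable_Lq_mono`: `L_h(Fr e (b v^i)) = ∑_k p^{-k} T(Fr (hk+e) b) T(Fr (hk+e) (v^i))`; with `i = p^a i'` the monomial of the
  term `k` has index `(i', hk + e + a)`; all these are different, so this is already an expansion (the condition `tendsto` follows from
  `‖T(Fr (hk+e) b)‖ ≤ 1` and `ρ^{-k} s^{i p^{hk+e}} → 0` in both directions).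
* `hsum_decomp`: for `γ` without constant term over `OO K` and the Honda law `H`, for every `N` there are `B_1, …, B_N` with
  `γ = (B_1 X) +_H … +_H (B_N X^N) +_H (multiple of X^{N+1})` (formal points; induct on `N`: `γ -_H (…)` is a multiple of `X^N`,
  take `B_N` to be its coefficient); evaluate at `v`.
* `expandable_Lq_ev`: `L_h(Fr e (γ(v))) = ∑_{i ≤ N} L_h(Fr e (B_i v^i)) + L_h(Fr e (γ_N(v)))` with `‖γ_N(v)‖ ≤ ‖v‖^{N+1}`; use `Expandable.limit`
  and `Lq_small`.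
-/

set_option linter.unusedSectionVars false

namespace Vale.Agent.P217

open MvPowerSeries Filter Topology

/-- one step of the decomposition: `δ = x +_F m` -/
theorem exists_fsub {R : Type*} [CommRing R] (F : FormalGroup R) [F.IsComm]
    (δ m : PowerSeries R) (hδ : PowerSeries.constantCoeff δ = 0)
    (hm : PowerSeries.constantCoeff m = 0) :
    ∃ x : PowerSeries R, PowerSeries.constantCoeff x = 0 ∧
      (subst ![x, m] F.toPowerSeries : PowerSeries R) = δ ∧
      ∀ N : ℕ, PowerSeries.X ^ N ∣ δ - m → PowerSeries.X ^ N ∣ x := by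
  let P : F.Point Unit := ⟨δ, PowerSeries.HasSubst.of_constantCoeff_zero' hδ⟩
  let Q : F.Point Unit := ⟨m, PowerSeries.HasSubst.of_constantCoeff_zero' hm⟩
  have h1 : (P - Q) + Q = P := sub_add_cancel P Q
  have h2 : (subst ![(P - Q).val, m] F.toPowerSeries : PowerSeries R) = δ :=
    congrArg Subtype.val h1
  obtain ⟨H, hH⟩ := exists_toPowerSeries_eq F
  have h3 := subst_pair_eq hH (P - Q).prop Q.prop
  have h4 : (P - Q).val * (1 + m * (subst ![(P - Q).val, m] H : PowerSeries R)) = δ - m := by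
    have h5 : δ = (P - Q).val + m + (P - Q).val * m *
        (subst ![(P - Q).val, m] H : PowerSeries R) := h2.symm.trans h3
    rw [h5]
    ring
  have hu : IsUnit (1 + m * (subst ![(P - Q).val, m] H : PowerSeries R)) := by
    rw [PowerSeries.isUnit_iff_constantCoeff, map_add, map_mul, hm]
    simp
  have h6 : ∀ N : ℕ, PowerSeries.X ^ N ∣ δ - m → PowerSeries.X ^ N ∣ ((P - Q).val :
      PowerSeries R) := by
    intro N hN
    rw [← h4] at hN
    exact hu.dvd_mul_right.mp hN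
  refine ⟨(P - Q).val, ?_, h2, h6⟩
  have h7 := h6 1 (by rw [pow_one, PowerSeries.X_dvd_iff, map_sub, hδ, hm, sub_zero])
  rw [pow_one, PowerSeries.X_dvd_iff] at h7
  exact h7

/-- formal decomposition -/
theorem exists_fdecomp {R : Type*} [CommRing R] (F : FormalGroup R) [F.IsComm]
    (γ : PowerSeries R) (h0 : PowerSeries.constantCoeff γ = 0) :
    ∃ (b : ℕ → R) (δ : ℕ → PowerSeries R), δ 0 = γ ∧
      (∀ N, PowerSeries.X ^ (N + 1) ∣ δ N) ∧
      ∀ N, (subst ![δ (N + 1), PowerSeries.C (b N) * PowerSeries.X ^ (N + 1)] F.toPowerSeries :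
        PowerSeries R) = δ N := by
  have hm : ∀ (c : R) (N : ℕ), PowerSeries.constantCoeff
      (PowerSeries.C c * PowerSeries.X ^ (N + 1) : PowerSeries R) = 0 := by
    intro c N
    simp
  choose! st hst1 hst2 hst3 using fun (δ : PowerSeries R)
    (hδ : PowerSeries.constantCoeff δ = 0) (N : ℕ) =>
    exists_fsub F δ (PowerSeries.C (PowerSeries.coeff (N + 1) δ) * PowerSeries.X ^ (N + 1))
      hδ (hm _ N)
  let δ : ℕ → PowerSeries R := fun N => Nat.rec γ (fun N x => st x N) N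
  have hδ0 : δ 0 = γ := rfl
  have hδs : ∀ N, δ (N + 1) = st (δ N) N := fun N => rfl
  have hdvd : ∀ N, PowerSeries.X ^ (N + 1) ∣ δ N := by
    intro N
    induction N with
    | zero =>
      rw [hδ0, zero_add, pow_one, PowerSeries.X_dvd_iff]
      exact h0
    | succ N ih =>
      have hc : PowerSeries.constantCoeff (δ N) = 0 := by
        rw [← PowerSeries.coeff_zero_eq_constantCoeff_apply]
        exact PowerSeries.X_pow_dvd_iff.1 ih 0 (by omega)
      rw [hδs]
      apply hst3 _ hc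
      rw [PowerSeries.X_pow_dvd_iff]
      intro k hk
      rw [map_sub, PowerSeries.coeff_C_mul, PowerSeries.coeff_X_pow]
      by_cases hk' : k = N + 1
      · subst hk'
        simp
      · rw [if_neg hk', mul_zero, sub_zero]
        exact PowerSeries.X_pow_dvd_iff.1 ih k (by omega)
  refine ⟨fun N => PowerSeries.coeff (N + 1) (δ N), δ, hδ0, hdvd, fun N => ?_⟩
  have hc : PowerSeries.constantCoeff (δ N) = 0 := by
    rw [← PowerSeries.coeff_zero_eq_constantCoeff_apply]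
    exact PowerSeries.X_pow_dvd_iff.1 (hdvd N) 0 (by omega)
  rw [hδs]
  exact hst2 _ hc N

section
variable {K : Type*} [NontriviallyNormedField K] [IsUltrametricDist K] [CompleteSpace K]
  [IsAlgClosed K] {p : ℕ} [Fact p.Prime] [CharP K p]
  {B : Type*} [NormedCommRing B] [CompleteSpace B] [IsUltrametricDist B] (D : TB K p B)

theorem hsum_decomp {h : ℕ} (hh : 0 < h) (γ : PowerSeries (OO K))
    (h0 : PowerSeries.constantCoeff γ = 0) (N : ℕ) :
    ∃ b : ℕ → OO K, ∀ v : OO K, ‖(v : K)‖ < 1 →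
      ∃ (u : ℕ → Pt (honda (OO K) p h hh)) (g w : Pt (honda (OO K) p h hh)),
        g.val = ev1 v γ ∧ (∀ i, (u i).val = b i * v ^ (i + 1)) ∧
        ‖(w.val : K)‖ ≤ ‖(v : K)‖ ^ (N + 1) ∧ g = ∑ i ∈ Finset.range N, u i + w := by
  obtain ⟨b, δ, hδ0, hdvd, hδ⟩ := exists_fdecomp (honda (OO K) p h hh) γ h0
  refine ⟨b, fun v hv => ?_⟩
  have hv' : IsTopologicallyNilpotent v := tn_iff.mpr hv
  have hE : HasEval (fun _ : Unit => v) := hasEval_unit hv'
  have hc : ∀ N, PowerSeries.constantCoeff (δ N) = 0 := by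
    intro N
    rw [← PowerSeries.coeff_zero_eq_constantCoeff_apply]
    exact PowerSeries.X_pow_dvd_iff.1 (hdvd N) 0 (by omega)
  have hm : ∀ (c : OO K) (N : ℕ), PowerSeries.constantCoeff
      (PowerSeries.C c * PowerSeries.X ^ (N + 1) : PowerSeries (OO K)) = 0 := by
    intro c N
    simp
  have hevm : ∀ (c : OO K) (N : ℕ), ev1 v (PowerSeries.C c * PowerSeries.X ^ (N + 1)) =
      c * v ^ (N + 1) := by
    intro c N
    have h1 := ev_mul hE (C c) ((X () : MvPowerSeries Unit (OO K)) ^ (N + 1))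
    rw [ev_C, ev_pow hE, ev_X] at h1
    exact h1
  let W : ℕ → Pt (honda (OO K) p h hh) := fun N => ⟨ev1 v (δ N), ev1_tn hv' _ (hc N)⟩
  let U : ℕ → Pt (honda (OO K) p h hh) := fun i =>
    ⟨b i * v ^ (i + 1), by rw [← hevm]; exact ev1_tn hv' _ (hm _ i)⟩
  have hstep : ∀ N, W N = W (N + 1) + U N := by
    intro N
    apply Pt.ext
    rw [Pt.add_val]
    change ev1 v (δ N) = ev ![ev1 v (δ (N + 1)), b N * v ^ (N + 1)] _
    rw [← hδ N, ← hevm]
    exact ev_subst_pair hE (hasSubst_pair_of_zero (hc (N + 1)) (hm _ N)) _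
  refine ⟨U, W 0, W N, ?_, fun i => rfl, ?_, ?_⟩
  · change ev1 v (δ 0) = _
    rw [hδ0]
  · change ‖((ev1 v (δ N) : OO K) : K)‖ ≤ _
    obtain ⟨q, hq⟩ := hdvd N
    have h1 : ev1 v (δ N) = v ^ (N + 1) * ev1 v q := by
      rw [hq]
      have h2 := ev_mul hE ((X () : MvPowerSeries Unit (OO K)) ^ (N + 1)) q
      rw [ev_pow hE, ev_X] at h2
      exact h2
    rw [h1, Subring.coe_mul, Subring.coe_pow, norm_mul, norm_pow]
    exact mul_le_of_le_one_right (pow_nonneg (norm_nonneg _) _) (norm_le_one _)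
  · induction N with
    | zero => simp
    | succ N ih =>
      rw [Finset.sum_range_succ, ih, hstep N]
      abel

/-- there are elements of norm close to `1` -/
theorem exists_norm_near_one {r : ℝ} (hr : r < 1) :
    ∃ y : OO K, r ≤ ‖(y : K)‖ ∧ 0 < ‖(y : K)‖ ∧ ‖(y : K)‖ < 1 := by
  obtain ⟨ϖ, hϖ0, hϖ1⟩ := NormedField.exists_norm_lt_one K
  have h1 : Tendsto (fun n : ℕ => ‖ϖ‖ ^ (1 / ((n : ℝ) + 1))) atTop (𝓝 1) := by
    have h2 : Tendsto (fun n : ℕ => 1 / ((n : ℝ) + 1)) atTop (𝓝 0) :=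
      tendsto_one_div_add_atTop_nhds_zero_nat
    have h3 := (Real.continuousAt_const_rpow (b := 0) hϖ0.ne').tendsto.comp h2
    rw [Real.rpow_zero] at h3
    exact h3
  obtain ⟨n, hn⟩ := (h1.eventually (lt_mem_nhds hr)).exists
  obtain ⟨y, hy⟩ := IsAlgClosed.exists_pow_nat_eq ϖ (Nat.succ_pos n)
  have h4 : ‖y‖ ^ (n + 1) = ‖ϖ‖ := by
    rw [← norm_pow, hy]
  have h5 : ‖y‖ = ‖ϖ‖ ^ (1 / ((n : ℝ) + 1)) := by
    rw [← h4, ← Real.rpow_natCast, ← Real.rpow_mul (norm_nonneg _)]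
    push_cast
    rw [mul_one_div_cancel (by positivity), Real.rpow_one]
  have h6 : ‖y‖ < 1 := by
    by_contra hcon
    push Not at hcon
    have := one_le_pow₀ hcon (n := n + 1)
    rw [h4] at this
    exact absurd hϖ1 (not_lt.mpr this)
  have h7 : 0 < ‖y‖ := by
    rw [h5]
    exact Real.rpow_pos_of_pos hϖ0 _
  refine ⟨⟨y, h6.le⟩, ?_, h7, h6⟩
  change r ≤ ‖y‖
  rw [h5]
  exact hn.le

namespace TB

theorem pu_zpow_norm (k : ℤ) (b : B) : ‖((D.pu ^ (-k) : Bˣ) : B) * b‖ = D.ρ ^ (-k) * ‖b‖ :=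
  D.norm_zpow_mul (-k) b

/-- the terms `ρ^{-k} s^{p^{hk}}` tend to zero in both directions -/
theorem tendsto_terms {h : ℕ} (hh : 0 < h) {s : ℝ} (hs0 : 0 < s) (hs : s < 1) :
    Tendsto (fun k : ℤ => D.ρ ^ (-k) * s ^ ((p : ℝ) ^ ((h : ℤ) * k))) cofinite (𝓝 0) := by
  obtain ⟨y, hy1, -, hy3⟩ := exists_norm_near_one (K := K) hs
  have h1 := (D.Lq_hasSum hh hy3).summable.tendsto_cofinite_zero
  rw [tendsto_zero_iff_norm_tendsto_zero] at h1
  refine squeeze_zero (fun k => ?_) (fun k => ?_) h1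
  · exact mul_nonneg (zpow_nonneg D.ρ_pos.le _) (Real.rpow_nonneg hs0.le _)
  · rw [D.norm_zpow_mul, D.norm_T_eq, norm_Fr]
    refine mul_le_mul_of_nonneg_left ?_ (zpow_nonneg D.ρ_pos.le _)
    have hp : p.Prime := Fact.out
    have hp0 : (0 : ℝ) < p := by exact_mod_cast hp.pos
    exact Real.rpow_le_rpow hs0.le hy1 (zpow_pos hp0 _).le

theorem expandable_Lq_mono {h : ℕ} (hh : 0 < h) (e : ℤ) (b : OO K) (i : ℕ) (hi : 0 < i) :
    D.Expandable (fun v => D.Lq h (Fr p e (b * v ^ i))) := by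
  have hp : p.Prime := Fact.out
  have hp0 : (0 : ℝ) < p := by exact_mod_cast hp.pos
  obtain ⟨a, i', hi', hi2⟩ := Nat.exists_eq_pow_mul_and_not_dvd hi.ne' p hp.ne_one
  have hcop : i'.Coprime p := ((Nat.Prime.coprime_iff_not_dvd hp).2 hi').symm
  have hi'0 : 0 < i' := Nat.pos_of_ne_zero fun h0 => hi' (h0 ▸ dvd_zero p)
  let φ : ℤ → JJx p := fun k => (⟨i', hcop⟩, (h : ℤ) * k + e + a)
  have hφ : Function.Injective φ := by
    intro k k' hk
    have h1 : (h : ℤ) * k + e + a = (h : ℤ) * k' + e + a := congrArg Prod.snd hk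
    have h2 : (h : ℤ) * k = (h : ℤ) * k' := by linarith
    exact mul_left_cancel₀ (by exact_mod_cast hh.ne') h2
  let c : ℤ → B := fun k => ((D.pu ^ (-k) : Bˣ) : B) * D.T (Fr p ((h : ℤ) * k + e) b)
  refine ⟨Function.extend φ c 0, ?_, ?_⟩
  · intro s hs0 hs1
    set t : ℝ := s ^ ((i' : ℝ) * (p : ℝ) ^ (e + a : ℤ)) with ht
    have hexp0 : 0 < (i' : ℝ) * (p : ℝ) ^ (e + a : ℤ) :=
      mul_pos (by exact_mod_cast hi'0) (zpow_pos hp0 _)
    have ht0 : 0 < t := Real.rpow_pos_of_pos hs0 _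
    have ht1 : t < 1 := Real.rpow_lt_one hs0.le hs1 hexp0
    have h1 := D.tendsto_terms hh ht0 ht1
    rw [Metric.tendsto_nhds] at h1 ⊢
    intro ε hε
    have h2 := h1 ε hε
    rw [eventually_cofinite] at h2 ⊢
    refine (h2.image φ).subset ?_
    intro j hj
    by_cases hjr : ∃ k, φ k = j
    · obtain ⟨k, rfl⟩ := hjr
      refine ⟨k, ?_, rfl⟩
      intro hlt
      apply hj
      rw [Real.dist_eq, sub_zero] at hlt ⊢
      rw [hφ.extend_apply]
      refine lt_of_le_of_lt ?_ hlt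
      rw [abs_of_nonneg (mul_nonneg (norm_nonneg _) (Real.rpow_nonneg hs0.le _)),
        abs_of_nonneg (mul_nonneg (zpow_nonneg D.ρ_pos.le _) (Real.rpow_nonneg ht0.le _))]
      have h3 : s ^ (expo p (φ k)) = t ^ ((p : ℝ) ^ ((h : ℤ) * k)) := by
        rw [ht, ← Real.rpow_mul hs0.le]
        congr 1
        change (i' : ℝ) * (p : ℝ) ^ ((h : ℤ) * k + e + a) = _
        rw [mul_assoc, ← zpow_add₀ hp0.ne']
        congr 2
        ring
      rw [h3]
      refine mul_le_mul_of_nonneg_right ?_ (Real.rpow_nonneg ht0.le _)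
      change ‖((D.pu ^ (-k) : Bˣ) : B) * D.T (Fr p ((h : ℤ) * k + e) b)‖ ≤ _
      rw [D.norm_zpow_mul, D.norm_T_eq]
      exact mul_le_of_le_one_right (zpow_nonneg D.ρ_pos.le _) (norm_le_one _)
    · exfalso
      apply hj
      rw [Function.extend_apply' _ _ _ hjr]
      simpa using hε
  · intro w hw
    have hbw : ‖((b * w ^ i : OO K) : K)‖ < 1 := by
      rw [Subring.coe_mul, Subring.coe_pow, norm_mul, norm_pow]
      calc ‖(b : K)‖ * ‖(w : K)‖ ^ i ≤ 1 * ‖(w : K)‖ ^ i :=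
            mul_le_mul_of_nonneg_right (norm_le_one b) (pow_nonneg (norm_nonneg _) _)
        _ = ‖(w : K)‖ ^ i := one_mul _
        _ < 1 := pow_lt_one₀ (norm_nonneg _) hw hi.ne'
    have h1 := D.Lq_hasSum hh (norm_Fr_lt_one p e hbw)
    have h2 : (fun k : ℤ => ((D.pu ^ (-k) : Bˣ) : B) *
        D.T (Fr p ((h : ℤ) * k) (Fr p e (b * w ^ i)))) =
        (fun j => Function.extend φ c 0 j * D.mono j w) ∘ φ := by
      funext k
      rw [Function.comp_apply, hφ.extend_apply]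
      change _ = ((D.pu ^ (-k) : Bˣ) : B) * D.T (Fr p ((h : ℤ) * k + e) b) *
        D.T (Fr p ((h : ℤ) * k + e + a) (w ^ i'))
      rw [mul_assoc, ← D.T_mul, ← Fr_add, map_mul]
      congr 3
      rw [Fr_add p ((h : ℤ) * k + e) a, Fr_natCast, ← pow_mul, hi2]
      congr 2
      ring
    rw [h2] at h1
    refine (hφ.hasSum_iff ?_).mp h1
    intro j hj
    rw [Function.extend_apply' _ _ _ hj]
    exact zero_mul _

theorem Lq_Fr_sum {h : ℕ} (hh : 0 < h) (e : ℤ) (u : ℕ → Pt (honda (OO K) p h hh)) (N : ℕ) :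
    D.Lq h (Fr p e (∑ i ∈ Finset.range N, u i).val) =
      ∑ i ∈ Finset.range N, D.Lq h (Fr p e (u i).val) := by
  induction N with
  | zero =>
    rw [Finset.sum_range_zero, Finset.sum_range_zero, Pt.zero_val, map_zero, D.Lq_zero]
  | succ N ih =>
    rw [Finset.sum_range_succ, Finset.sum_range_succ, D.Lq_add hh, ih]

theorem expandable_Lq_ev {h : ℕ} (hh : 0 < h) (e : ℤ) (γ : PowerSeries (OO K))
    (h0 : PowerSeries.constantCoeff γ = 0) :
    D.Expandable (fun v => D.Lq h (Fr p e (ev1 v γ))) := by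
  have hp : p.Prime := Fact.out
  have hp0 : (0 : ℝ) < p := by exact_mod_cast hp.pos
  choose b hb using fun N => hsum_decomp (K := K) (p := p) hh γ h0 N
  refine Expandable.limit (D := D)
    (f := fun N v => ∑ i ∈ Finset.range N, D.Lq h (Fr p e (b N i * v ^ (i + 1)))) ?_ ?_
  · intro N
    exact Expandable.sum (D := D) (Finset.range N) _
      fun i _ => D.expandable_Lq_mono hh e (b N i) (i + 1) (Nat.succ_pos i)
  · intro s hs ε hε
    obtain ⟨δ, hδ0, hδ⟩ := D.Lq_small hh hε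
    have hs' : max s 0 < 1 := max_lt hs one_pos
    have hs0 : 0 ≤ max s 0 := le_max_right _ _
    have hpe : 0 < (p : ℝ) ^ e := zpow_pos hp0 e
    have h1 : Tendsto (fun N : ℕ => ((max s 0) ^ (N + 1)) ^ ((p : ℝ) ^ e)) atTop (𝓝 0) := by
      have h2 : Tendsto (fun N : ℕ => (max s 0) ^ (N + 1)) atTop (𝓝 0) :=
        (tendsto_pow_atTop_nhds_zero_of_lt_one hs0 hs').comp (tendsto_add_atTop_nat 1)
      have h3 := h2.rpow_const (p := (p : ℝ) ^ e) (Or.inr hpe.le)
      rwa [Real.zero_rpow hpe.ne'] at h3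
    obtain ⟨N₀, hN₀⟩ := eventually_atTop.mp (h1.eventually (gt_mem_nhds hδ0))
    refine ⟨N₀, fun N hN v hv => ?_⟩
    have hv1 : ‖(v : K)‖ ≤ max s 0 := hv.trans (le_max_left _ _)
    obtain ⟨u, g, w, hg, hu, hw, hsum⟩ := hb N v (hv1.trans_lt hs')
    have h4 : D.Lq h (Fr p e (ev1 v γ)) =
        ∑ i ∈ Finset.range N, D.Lq h (Fr p e (b N i * v ^ (i + 1))) + D.Lq h (Fr p e w.val) := by
      rw [← hg, hsum, D.Lq_add hh, D.Lq_Fr_sum hh]
      simp only [hu]
    change ‖(∑ i ∈ Finset.range N, D.Lq h (Fr p e (b N i * v ^ (i + 1)))) -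
      D.Lq h (Fr p e (ev1 v γ))‖ ≤ ε
    rw [h4, sub_add_cancel_left, norm_neg]
    apply hδ
    rw [norm_Fr]
    refine le_trans ?_ (hN₀ N hN).le
    refine Real.rpow_le_rpow (norm_nonneg _) ?_ hpe.le
    exact hw.trans (pow_le_pow_left₀ (norm_nonneg _) hv1 _)

end TB
end
end Vale.Agent.P217
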