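import Vale.Agent.Lib.P217.EndHonda
import Vale.Agent.Lib.P217.CoreFour
import Vale.Agent.Lib.P217.CoreConst
import Vale.Agent.Lib.P217.ExpandL
import Vale.Agent.Lib.P217.CoreConst
import Vale.Agent.Lib.P217.CoreFalse

/-!
# P217: no additive relation between points of the Honda law (module W6)

`H_n`, `H_h`: Honda laws of heights `n` and `h`. `CoreData`: a surjective homomorphism `Ψ : H_n → H_h` on points such that
`L_h ∘ χ ∘ Ψ` is expandable for all endomorphisms `χ` of `H_h`, points `w_i` of `H_n` which are independent in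
a strong sense, and a relation `Ψ(y_j) = ∑_{i ≠ j} χ_i(Ψ(y_i))` for all `y_i = a w_i^{p^m}`, `a^{p^n} = a`.
`core_false`: this is impossible if `n ≥ 2`.

* `core_beta` (S1): for `χ` and `e` there are `β_s ∈ B` with `L_h(χ(Ψ w)^{p^e}) = ∑_{s<n} β_s L_n(w^{p^s})`: use
  `Expandable.of_add` for the homomorphism `w ↦ L_h((χ^{p^e})(Ψ w))` (`IsEnd.frob`, `Lq_add` with `e = 0`).
* `core_fourier` (S2): let `β^{i}` be for `χ_i` (`i ≠ j`) and `β^{j}` for the identity, same `e`. The relation gives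
  `∑_s β^j_s T(a)^{p^s} L_n(w_j^{p^{m+s}}) = ∑_{i≠j} ∑_s β^i_s T(a)^{p^s} L_n(w_i^{p^{m+s}})` (`Lq_scale`), for all `a` with `a^{p^n} = a`. Let `ζ ∈ OO K` be
  a primitive `(p^n-1)`-th root of unity; the elements `T(ζ)^{p^s}`, `s < n`, have pairwise differences which are units in `B`
  (images of units of `W(OO K)`, since `ζ^{p^s} - ζ^{p^{s'}}` is a unit of `OO K`); by the Vandermonde determinant for `a = ζ^u`, `u < n`, the terms
  with index `s` are equal: `β^j_s L_n(w_j^{p^{m+s}}) = ∑_{i≠j} β^i_s L_n(w_i^{p^{m+s}})`.  Any `f` can be used instead of `m + s` since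
  `L_n(y^{p^{f+n}}) = p L_n(y^{p^f})` and `p` is invertible.
* `core_key` (S3): `L_n(w_j^{p^f}) L_h(y^{p^e}) = ∑_{i≠j} L_n(w_i^{p^f}) L_h((χ_i y)^{p^e})` for all points `y` of `H_h`:
  write `y = Ψ w` and use S1, S2.
* `core_const` (S4): by `end_honda_expand`, `L_h((χ_i y)^{p^e}) = ∑_{t<h} θ(φ^e x_{i,t}) L_h(y^{p^{t+e}})`. Compare the coefficients of
  `T(y^{p^e})` (`Expands.unique`, the expansion of `L_h(y^{p^{t+e}})` is `∑_k p^{-k} T(Fr (hk+t+e) y)`; or use
  `y ↦ a y` with `a^{p^h} = a`, and `Lq_generic`): for `e < h`,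
  `L_n(w_j^{p^f}) = ∑_{i≠j} L_n(w_i^{p^f}) θ(φ^e x_{i,0})`. Sum over `e < h`: `c_i = ∑_{e<h} φ^e x_{i,0}` is fixed by `φ`
  (`φ^h x_{i,0} = x_{i,0}`), `c_j = -h`.
* `core_false` (S5): let `p^v` be the largest power of `p` dividing all the `c_i` in `W(OO K)` (some `c_j ≠ 0`; `W(OO K)` has no `p`-torsion since `OO K` is
  reduced of characteristic `p`, and `p^k` divides `x` iff the coefficients of index `< k` vanish),
  `c_i = p^v c_i'`, `φ c_i' = c_i'` and some `c_i'` has nonzero coefficient of index zero. So `∑_i θ(c_i') L_n(w_i^{p^f}) = 0` for all `f`.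
  By `exists_nat_close`, for every `M` there are natural numbers `a_i` with `‖θ(c_i') - a_i‖ ≤ ρ^M`, and `p ∤ a_i` for the `i` above (if `M ≥ 1`; as `‖θ(c_i')‖ = 1`:
  a Witt vector with unit coefficient of index zero is a unit). Let `y = ∑ a_i w_i`; `nm y ≥ s₀`;
  `L_n(y^{p^f}) = ∑ a_i L_n(w_i^{p^f}) = ∑ (a_i - θ(c_i')) L_n(w_i^{p^f})` has norm at most `ρ^M C`, for `f = 0, 1`. For `M` large this contradicts `Lq_lower`.
-/

set_option linter.unusedSectionVars false

namespace Vale.Agent.P217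

open MvPowerSeries Filter Topology

section
variable {K : Type*} [NontriviallyNormedField K] [IsUltrametricDist K] [CompleteSpace K]
  [IsAlgClosed K] {p : ℕ} [Fact p.Prime] [CharP K p]
  {B : Type*} [NormedCommRing B] [CompleteSpace B] [IsUltrametricDist B]

/-- see the module docstring -/
structure CoreData (D : TB K p B) {n h r : ℕ} (hn : 0 < n) (hh : 0 < h)
    (Ψ : Pt (honda (OO K) p n hn) →+ Pt (honda (OO K) p h hh))
    (w : Fin r → Pt (honda (OO K) p n hn)) (j : Fin r) (χ : Fin r → PowerSeries (OO K))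
    (H : ∀ i, IsEnd p hh (χ i)) : Prop where
  surj : Function.Surjective Ψ
  expand : ∀ (η : PowerSeries (OO K)) (E : IsEnd p hh η), ∃ g : OO K → B, D.Expandable g ∧
    ∀ y, D.Lq h (E.app (Ψ y)).val = g y.val
  indep : ∃ s₀ : ℝ, 0 < s₀ ∧ ∀ a : Fin r → ℕ, (∃ i, ¬ p ∣ a i) → s₀ ≤ Pt.nm (∑ i, a i • w i)
  rel : ∀ (a : OO K) (m : ℕ) (y : Fin r → Pt (honda (OO K) p n hn)), a ^ (p ^ n) = a →
    (∀ i, (y i).val = a * (w i).val ^ (p ^ m)) →
      Ψ (y j) = ∑ i ∈ Finset.univ.erase j, (H i).app (Ψ (y i))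

variable {D : TB K p B} {n h r : ℕ} {hn : 0 < n} {hh : 0 < h}
  {Ψ : Pt (honda (OO K) p n hn) →+ Pt (honda (OO K) p h hh)}
  {w : Fin r → Pt (honda (OO K) p n hn)} {j : Fin r} {χ : Fin r → PowerSeries (OO K)}
  {H : ∀ i, IsEnd p hh (χ i)}

theorem IsEnd.frob_app_val {η : PowerSeries (OO K)} (E : IsEnd p hh η) (e : ℕ)
    (z : Pt (honda (OO K) p h hh)) : ((E.frob e).app z).val = (E.app z).val ^ (p ^ e) :=
  ev_pow (hasEval_unit z.tn) η (p ^ e)

theorem isEnd_X_app (z : Pt (honda (OO K) p h hh)) : (isEnd_X (p := p) (K := K) hh).app z = z := by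
  apply Pt.ext
  exact ev_X (fun _ : Unit => z.val) ()

theorem core_beta (C : CoreData D hn hh Ψ w j χ H) (η : PowerSeries (OO K)) (E : IsEnd p hh η)
    (e : ℕ) : ∃ β : ℕ → B, ∀ y : Pt (honda (OO K) p n hn),
      D.Lq h ((E.app (Ψ y)).val ^ (p ^ e)) =
        ∑ s ∈ Finset.range n, β s * D.Lq n (y.val ^ (p ^ s)) := by
  obtain ⟨g, hg, hfg⟩ := C.expand (η ^ (p ^ e)) (E.frob e)
  let f : Pt (honda (OO K) p n hn) →+ B :=
    { toFun := fun y => D.Lq h ((E.frob e).app (Ψ y)).val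
      map_zero' := by
        rw [map_zero, map_zero]
        exact D.Lq_zero h
      map_add' := fun x y => by
        have h1 := D.Lq_add hh 0 ((E.frob e).app (Ψ x)) ((E.frob e).app (Ψ y))
        simp only [Fr_zero] at h1
        rw [map_add, map_add]
        exact h1 }
  obtain ⟨β, hβ⟩ := TB.Expandable.of_add D hn f g hg hfg
  refine ⟨β, fun y => ?_⟩
  rw [← IsEnd.frob_app_val E e]
  exact hβ y

theorem core_fourier (C : CoreData D hn hh Ψ w j χ H) (e : ℕ) (β : ℕ → B)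
    (hβ : ∀ y, D.Lq h ((Ψ y).val ^ (p ^ e)) =
      ∑ s ∈ Finset.range n, β s * D.Lq n (y.val ^ (p ^ s)))
    (β' : Fin r → ℕ → B)
    (hβ' : ∀ i, ∀ y, D.Lq h (((H i).app (Ψ y)).val ^ (p ^ e)) =
      ∑ s ∈ Finset.range n, β' i s * D.Lq n (y.val ^ (p ^ s))) (s : ℕ) (hs : s < n) (f : ℕ) :
    β s * D.Lq n ((w j).val ^ (p ^ f)) =
      ∑ i ∈ Finset.univ.erase j, β' i s * D.Lq n ((w i).val ^ (p ^ f)) := by
  have hp : p.Prime := Fact.out
  have hnorm : ∀ i (m : ℕ), ‖(((w i).val ^ (p ^ m) : OO K) : K)‖ < 1 := by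
    intro i m
    rw [Subring.coe_pow, norm_pow]
    exact pow_lt_one₀ (norm_nonneg _) (w i).norm_lt (pow_ne_zero _ hp.ne_zero)
  have hLsum : ∀ (A : Finset (Fin r)) (x : Fin r → Pt (honda (OO K) p h hh)),
      D.Lq h ((∑ i ∈ A, x i).val ^ (p ^ e)) = ∑ i ∈ A, D.Lq h ((x i).val ^ (p ^ e)) := by
    intro A x
    induction A using Finset.induction_on with
    | empty =>
      rw [Finset.sum_empty, Finset.sum_empty, Pt.zero_val, zero_pow (pow_ne_zero _ hp.ne_zero),
        D.Lq_zero]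
    | insert a A ha ih =>
      rw [Finset.sum_insert ha, Finset.sum_insert ha, ← ih]
      have h1 := D.Lq_add hh (e : ℤ) (x a) (∑ i ∈ A, x i)
      rw [Fr_natCast, Fr_natCast, Fr_natCast] at h1
      exact h1
  have hTpow : ∀ (x : OO K) (u : ℕ), D.T (x ^ u) = D.T x ^ u := by
    intro x u
    induction u with
    | zero => rw [pow_zero, pow_zero, D.T_one]
    | succ u ih => rw [pow_succ, pow_succ, D.T_mul, ih]
  have hmain : ∀ (a : OO K), a ^ (p ^ n) = a → ∀ m : ℕ, ∑ s ∈ Finset.range n,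
      D.T (a ^ (p ^ s)) * (β s * D.Lq n ((w j).val ^ (p ^ (m + s))) -
        ∑ i ∈ Finset.univ.erase j, β' i s * D.Lq n ((w i).val ^ (p ^ (m + s)))) = 0 := by
    intro a ha m
    have hyn : ∀ i, ‖((a * (w i).val ^ (p ^ m) : OO K) : K)‖ < 1 := by
      intro i
      rw [Subring.coe_mul, norm_mul]
      exact (mul_le_of_le_one_left (norm_nonneg _) (norm_le_one a)).trans_lt (hnorm i m)
    let y : Fin r → Pt (honda (OO K) p n hn) := fun i => ⟨a * (w i).val ^ (p ^ m),
      tn_iff.mpr (hyn i)⟩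
    have h1 := C.rel a m y ha (fun i => rfl)
    have h2 := congrArg (fun t : Pt (honda (OO K) p h hh) => D.Lq h (t.val ^ (p ^ e))) h1
    simp only [hLsum, hβ, hβ'] at h2
    have h3 : ∀ i s, D.Lq n ((y i).val ^ (p ^ s)) =
        D.T (a ^ (p ^ s)) * D.Lq n ((w i).val ^ (p ^ (m + s))) := by
      intro i s
      have h4 := D.Lq_scale hn (s : ℤ) (y := (w i).val ^ (p ^ m)) (a := a) (hnorm i m) ha
      rw [Fr_natCast, Fr_natCast, Fr_natCast, ← pow_mul, ← pow_add] at h4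
      exact h4
    simp only [h3] at h2
    rw [Finset.sum_comm, ← sub_eq_zero, ← Finset.sum_sub_distrib] at h2
    rw [← h2]
    refine Finset.sum_congr rfl fun s _ => ?_
    rw [mul_sub, Finset.mul_sum]
    congr 1
    · ring
    · exact Finset.sum_congr rfl fun i _ => by ring
  obtain ⟨ζ, hζ, hζd⟩ := cf_exists_zeta (K := K) (p := p) hn
  have hfix : ∀ s : ℕ, (ζ ^ (p ^ s)) ^ (p ^ n) = ζ ^ (p ^ s) := by
    intro s
    rw [← pow_mul, mul_comm, pow_mul, hζ]
  have hX := cf_vandermonde n (fun t => D.T (ζ ^ (p ^ t)))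
    (fun t => β t * D.Lq n ((w j).val ^ (p ^ ((f + n - s) + t))) -
        ∑ i ∈ Finset.univ.erase j, β' i t * D.Lq n ((w i).val ^ (p ^ ((f + n - s) + t))))
    (fun t ht t' ht' hne b hb => by
      have h5 : ‖((ζ ^ (p ^ t) - ζ ^ (p ^ t') : OO K) : K)‖ = 1 := by
        refine cf_norm_eq_one hn ?_ (sub_ne_zero.2 (hζd t ht t' ht' hne))
        have : CharP (OO K) p := (OO K).subtype.charP Subtype.val_injective p
        rw [sub_pow_char_pow, hfix, hfix]
      have h6 := cf_norm_T_sub_mul D h5 b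
      rw [hb, norm_zero] at h6
      exact norm_eq_zero.1 h6.symm)
    (fun u => by
      have h7 := hmain (ζ ^ u) (by rw [← pow_mul, mul_comm, pow_mul, hζ]) (f + n - s)
      rw [← h7]
      refine Finset.sum_congr rfl fun t _ => ?_
      congr 1
      rw [← hTpow, ← pow_mul, ← pow_mul, mul_comm]) s hs
  have h8 : f + n - s + s = f + n := by omega
  beta_reduce at hX
  rw [h8, sub_eq_zero] at hX
  have h9 : ∀ i, D.Lq n ((w i).val ^ (p ^ (f + n))) = (p : B) * D.Lq n ((w i).val ^ (p ^ f)) := by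
    intro i
    have h10 := D.Lq_frob hn (hnorm i f)
    rw [Fr_natCast, ← pow_mul, ← pow_add] at h10
    exact h10
  simp only [h9] at hX
  have h11 : (p : B) * (β s * D.Lq n ((w j).val ^ (p ^ f))) =
      (p : B) * ∑ i ∈ Finset.univ.erase j, β' i s * D.Lq n ((w i).val ^ (p ^ f)) := by
    rw [Finset.mul_sum]
    refine Eq.trans ?_ (hX.trans ?_)
    · ring
    · exact Finset.sum_congr rfl fun i _ => by ring
  rw [← D.pu_eq] at h11
  exact D.pu.isUnit.mul_left_cancel h11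


theorem core_key (C : CoreData D hn hh Ψ w j χ H) (e f : ℕ) (y : Pt (honda (OO K) p h hh)) :
    D.Lq n ((w j).val ^ (p ^ f)) * D.Lq h (y.val ^ (p ^ e)) =
      ∑ i ∈ Finset.univ.erase j,
        D.Lq n ((w i).val ^ (p ^ f)) * D.Lq h (((H i).app y).val ^ (p ^ e)) := by
  obtain ⟨x, rfl⟩ := C.surj y
  obtain ⟨β, hβ⟩ := core_beta C _ (isEnd_X hh) e
  simp only [isEnd_X_app] at hβ
  choose β' hβ' using fun i => core_beta C _ (H i) e
  have hF := core_fourier C e β hβ β' hβ'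
  rw [hβ, Finset.mul_sum]
  have h1 : ∀ i ∈ Finset.univ.erase j,
      D.Lq n ((w i).val ^ (p ^ f)) * D.Lq h (((H i).app (Ψ x)).val ^ (p ^ e)) =
        ∑ s ∈ Finset.range n, β' i s * D.Lq n ((w i).val ^ (p ^ f)) *
          D.Lq n (x.val ^ (p ^ s)) := by
    intro i _
    rw [hβ' i x, Finset.mul_sum]
    exact Finset.sum_congr rfl fun s _ => by ring
  rw [Finset.sum_congr rfl h1, Finset.sum_comm]
  refine Finset.sum_congr rfl fun s hs => ?_
  rw [← Finset.sum_mul, ← hF s (Finset.mem_range.1 hs) f]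
  ring

theorem core_const (C : CoreData D hn hh Ψ w j χ H) :
    ∃ c : Fin r → WittVector p (OO K), (∀ i, WittVector.frobenius (c i) = c i) ∧ c j ≠ 0 ∧
      ∀ f : ℕ, ∑ i, D.θ (c i) * D.Lq n ((w i).val ^ (p ^ f)) = 0 :=
  const_of_key D hh χ H j (fun f i => D.Lq n ((w i).val ^ (p ^ f)))
    (fun e f y => core_key C e f y)

theorem core_false (C : CoreData D hn hh Ψ w j χ H) (hn2 : 2 ≤ n) : False := by
  obtain ⟨c, h1, h2, h3⟩ := core_const C
  exact CoreFalse.final D hn hn2 w j C.indep c h1 h2 h3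

end
end Vale.Agent.P217
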