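import Vale.Agent.Lib.P217.Ot
import Vale.Agent.Lib.P217.FrobFactor

/-!
# P217: approximate homomorphisms of formal group laws and their obstruction cocycles
-/

set_option linter.unusedSectionVars false

namespace Vale.Agent.P217

open MvPowerSeries

section approx
variable {R : Type*} [CommRing R] {σ : Type*}

/-- the error of `φ` as a homomorphism `F → G` -/
noncomputable def herr (F G : FormalGroup R) (φ : PowerSeries R) : MvPowerSeries (Fin 2) R :=
  PowerSeries.subst F.toPowerSeries φ -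
    subst ![PowerSeries.subst (X 0 : MvPowerSeries (Fin 2) R) φ,
      PowerSeries.subst (X 1 : MvPowerSeries (Fin 2) R) φ] G.toPowerSeries

/-- `φ` is a strict homomorphism `F → G` up to degree `d` -/
structure Approx (F G : FormalGroup R) (d : ℕ) (φ : PowerSeries R) : Prop where
  zero : PowerSeries.constantCoeff φ = 0
  one : PowerSeries.coeff 1 φ = 1
  err : herr F G φ ∈ Ot d

theorem herr_apply (F G : FormalGroup R) {φ : PowerSeries R}
    (h0 : PowerSeries.constantCoeff φ = 0) {A B : MvPowerSeries σ R} (hA : A ∈ Ot 1)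
    (hB : B ∈ Ot 1) :
    subst ![A, B] (herr F G φ) = PowerSeries.subst (subst ![A, B] F.toPowerSeries) φ -
      subst ![PowerSeries.subst A φ, PowerSeries.subst B φ] G.toPowerSeries := by
  have hab := hasSubst_pair (hasSubst_of_Ot hA) (hasSubst_of_Ot hB)
  unfold herr
  rw [subst_sub hab, subst_psubst (hasSubst_F F) hab,
    subst_pair_subst (hasSubst_psubst (hasSubst_X 0) h0) (hasSubst_psubst (hasSubst_X 1) h0) hab,
    subst_psubst (hasSubst_X 0) hab, subst_psubst (hasSubst_X 1) hab, subst_X hab, subst_X hab]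
  rfl

variable {F G : FormalGroup R} {d : ℕ} {φ : PowerSeries R} {Δ : MvPolynomial (Fin 2) R}

/-- the homomorphism identity with error term `Δ`, at arbitrary arguments -/
theorem approx_apply (hφ : Approx F G d φ)
    (hΔ : herr F G φ - (Δ : MvPowerSeries (Fin 2) R) ∈ Ot (d + 1))
    {A B : MvPowerSeries σ R} (hA : A ∈ Ot 1) (hB : B ∈ Ot 1) :
    PowerSeries.subst (subst ![A, B] F.toPowerSeries) φ -
      (subst ![PowerSeries.subst A φ, PowerSeries.subst B φ] G.toPowerSeries +
        MvPolynomial.aeval ![A, B] Δ) ∈ Ot (d + 1) := by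
  have hab := hasSubst_pair (hasSubst_of_Ot hA) (hasSubst_of_Ot hB)
  have h1 := subst_pair_mem hA hB hΔ
  rw [subst_sub hab, herr_apply F G hφ.zero hA hB, subst_coe] at h1
  rwa [sub_add_eq_sub_sub]

/-- replace an argument of `G` by an approximation -/
theorem G_approx (hd : 1 ≤ d) {A A' B δ : MvPowerSeries σ R} (hA : A ∈ Ot 1) (hB : B ∈ Ot 1)
    (hδ : δ ∈ Ot d) (h : A' - (A + δ) ∈ Ot (d + 1)) :
    subst ![A', B] G.toPowerSeries - (subst ![A, B] G.toPowerSeries + δ) ∈ Ot (d + 1) := by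
  have h1 : A' - A ∈ Ot d := by
    have e : A' - A = (A' - (A + δ)) + δ := by ring
    rw [e]
    exact (Ot d).add_mem (Ot_mono (Nat.le_succ d) h) hδ
  have h2 := F_pair_add G hd hA hB h1 (Ot d).zero_mem
  rw [add_sub_cancel, add_zero, add_zero] at h2
  have e : subst ![A', B] G.toPowerSeries - (subst ![A, B] G.toPowerSeries + δ) =
      (subst ![A', B] G.toPowerSeries - (subst ![A, B] G.toPowerSeries + (A' - A))) +
      (A' - (A + δ)) := by ring
  rw [e]
  exact (Ot _).add_mem h2 h

theorem G_approx' (hd : 1 ≤ d) {A B B' δ : MvPowerSeries σ R} (hA : A ∈ Ot 1) (hB : B ∈ Ot 1)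
    (hδ : δ ∈ Ot d) (h : B' - (B + δ) ∈ Ot (d + 1)) :
    subst ![A, B'] G.toPowerSeries - (subst ![A, B] G.toPowerSeries + δ) ∈ Ot (d + 1) := by
  have h1 : B' - B ∈ Ot d := by
    have e : B' - B = (B' - (B + δ)) + δ := by ring
    rw [e]
    exact (Ot d).add_mem (Ot_mono (Nat.le_succ d) h) hδ
  have h2 := F_pair_add G hd hA hB (Ot d).zero_mem h1
  rw [add_sub_cancel, add_zero, add_zero] at h2
  have e : subst ![A, B'] G.toPowerSeries - (subst ![A, B] G.toPowerSeries + δ) =
      (subst ![A, B'] G.toPowerSeries - (subst ![A, B] G.toPowerSeries + (B' - B))) +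
      (B' - (B + δ)) := by ring
  rw [e]
  exact (Ot _).add_mem h2 h

/-- the cocycle identity for the error term, for power series arguments -/
theorem cocycle_aux (hd : 1 ≤ d) (hφ : Approx F G d φ) (hΔh : Δ.IsHomogeneous d)
    (hΔ : herr F G φ - (Δ : MvPowerSeries (Fin 2) R) ∈ Ot (d + 1))
    {A B D : MvPowerSeries σ R} (hA : A ∈ Ot 1) (hB : B ∈ Ot 1) (hD : D ∈ Ot 1) :
    (MvPolynomial.aeval ![B, D] Δ + MvPolynomial.aeval ![A, B + D] Δ) -
      (MvPolynomial.aeval ![A + B, D] Δ + MvPolynomial.aeval ![A, B] Δ) ∈ Ot (d + 1) := by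
  have hφA := psubst_mem_one hA hφ.zero
  have hφB := psubst_mem_one hB hφ.zero
  have hφD := psubst_mem_one hD hφ.zero
  have hFAB := F_pair_mem_Ot F hA hB
  have hFBD := F_pair_mem_Ot F hB hD
  -- left bracketing
  have l1 := approx_apply hφ hΔ hFAB hD
  have l2 := approx_apply hφ hΔ hA hB
  have l3 := G_approx (G := G) hd (F_pair_mem_Ot G hφA hφB) hφD (aeval_pair_mem hΔh hA hB) l2
  have l4 := aeval_pair_sub_mem hΔh hFAB hD ((Ot 1).add_mem hA hB) hD (F_pair_sub_mem F hA hB)
    (by rw [sub_self]; exact (Ot 2).zero_mem)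
  -- right bracketing
  have r1 := approx_apply hφ hΔ hA hFBD
  have r2 := approx_apply hφ hΔ hB hD
  have r3 := G_approx' (G := G) hd hφA (F_pair_mem_Ot G hφB hφD) (aeval_pair_mem hΔh hB hD) r2
  have r4 := aeval_pair_sub_mem hΔh hA hFBD hA ((Ot 1).add_mem hB hD)
    (by rw [sub_self]; exact (Ot 2).zero_mem) (F_pair_sub_mem F hB hD)
  have hF := F.assoc' (hasSubst_of_Ot hA) (hasSubst_of_Ot hB) (hasSubst_of_Ot hD)
  have hG := G.assoc' (hasSubst_of_Ot hφA) (hasSubst_of_Ot hφB) (hasSubst_of_Ot hφD)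
  rw [hF] at l1
  rw [hG] at l3
  have hl := (Ot (d + 1)).add_mem ((Ot (d + 1)).add_mem l1 l3) l4
  have hr := (Ot (d + 1)).add_mem ((Ot (d + 1)).add_mem r1 r3) r4
  have hlr := sub_mem hl hr
  convert hlr using 1
  ring

/-- polynomial substitution as power series -/
theorem coe_aeval_pair {τ : Type*} (P : MvPolynomial (Fin 2) R) (p q : MvPolynomial τ R) :
    ((MvPolynomial.aeval ![p, q] P : MvPolynomial τ R) : MvPowerSeries τ R) =
      MvPolynomial.aeval ![(p : MvPowerSeries τ R), (q : MvPowerSeries τ R)] P := by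
  have h := MvPolynomial.comp_aeval_apply (f := ![p, q])
    (MvPolynomial.coeToMvPowerSeries.algHom R (σ := τ) (R := R)) P
  have e : ∀ r : MvPolynomial τ R, (MvPolynomial.coeToMvPowerSeries.algHom R (σ := τ) (R := R)) r =
      (r : MvPowerSeries τ R) := by
    intro r
    rw [MvPolynomial.coeToMvPowerSeries.algHom_apply]
    exact congrFun (congrArg DFunLike.coe (MvPowerSeries.map_id)) _
  rw [e] at h
  rw [h]
  congr 2
  funext i
  fin_cases i
  · exact e p
  · exact e q

theorem isHomogeneous_aeval_pair {τ : Type*} {P : MvPolynomial (Fin 2) R}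
    (hP : P.IsHomogeneous d) {p q : MvPolynomial τ R} (hp : p.IsHomogeneous 1)
    (hq : q.IsHomogeneous 1) : (MvPolynomial.aeval ![p, q] P).IsHomogeneous d := by
  have := hP.aeval (n := 1) ![p, q] (fun i => by fin_cases i <;> assumption)
  rwa [one_mul] at this

/-- the cocycle identity for the error term -/
theorem cocycle (hd : 1 ≤ d) (hφ : Approx F G d φ) (hΔh : Δ.IsHomogeneous d)
    (hΔ : herr F G φ - (Δ : MvPowerSeries (Fin 2) R) ∈ Ot (d + 1)) :
    MvPolynomial.aeval
        ![(MvPolynomial.X 1 : MvPolynomial (Fin 3) R), MvPolynomial.X 2] Δ +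
      MvPolynomial.aeval
        ![(MvPolynomial.X 0 : MvPolynomial (Fin 3) R), MvPolynomial.X 1 + MvPolynomial.X 2] Δ =
      MvPolynomial.aeval
        ![(MvPolynomial.X 0 + MvPolynomial.X 1 : MvPolynomial (Fin 3) R), MvPolynomial.X 2] Δ +
      MvPolynomial.aeval
        ![(MvPolynomial.X 0 : MvPolynomial (Fin 3) R), MvPolynomial.X 1] Δ := by
  have hX : ∀ i : Fin 3, (MvPolynomial.X i : MvPolynomial (Fin 3) R).IsHomogeneous 1 := fun i =>
    MvPolynomial.isHomogeneous_X R i
  rw [← sub_eq_zero]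
  apply homogeneous_eq_zero (d := d)
  · refine MvPolynomial.IsHomogeneous.sub (MvPolynomial.IsHomogeneous.add ?_ ?_)
      (MvPolynomial.IsHomogeneous.add ?_ ?_)
    · exact isHomogeneous_aeval_pair hΔh (hX 1) (hX 2)
    · exact isHomogeneous_aeval_pair hΔh (hX 0) ((hX 1).add (hX 2))
    · exact isHomogeneous_aeval_pair hΔh ((hX 0).add (hX 1)) (hX 2)
    · exact isHomogeneous_aeval_pair hΔh (hX 0) (hX 1)
  · have h := cocycle_aux hd hφ hΔh hΔ (X_mem_Ot (0 : Fin 3)) (X_mem_Ot (1 : Fin 3))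
      (X_mem_Ot (2 : Fin 3))
    have hs : ∀ p q : MvPolynomial (Fin 3) R, ((p - q : MvPolynomial (Fin 3) R) :
        MvPowerSeries (Fin 3) R) = (p : MvPowerSeries (Fin 3) R) - (q : MvPowerSeries (Fin 3) R) :=
      fun p q => map_sub (MvPolynomial.coeToMvPowerSeries.ringHom (σ := Fin 3) (R := R)) p q
    rw [hs, MvPolynomial.coe_add, MvPolynomial.coe_add, coe_aeval_pair, coe_aeval_pair,
      coe_aeval_pair, coe_aeval_pair, MvPolynomial.coe_add, MvPolynomial.coe_add,
      MvPolynomial.coe_X, MvPolynomial.coe_X, MvPolynomial.coe_X]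
    exact h

/-- the error term is symmetric -/
theorem symm_err [F.IsComm] [G.IsComm] (hφ : Approx F G d φ) (hΔh : Δ.IsHomogeneous d)
    (hΔ : herr F G φ - (Δ : MvPowerSeries (Fin 2) R) ∈ Ot (d + 1)) :
    MvPolynomial.aeval ![MvPolynomial.X 1, MvPolynomial.X 0] Δ = Δ := by
  have hX : ∀ i : Fin 2, (MvPolynomial.X i : MvPolynomial (Fin 2) R).IsHomogeneous 1 := fun i =>
    MvPolynomial.isHomogeneous_X R i
  rw [← sub_eq_zero]
  apply homogeneous_eq_zero (d := d)
  · exact (isHomogeneous_aeval_pair hΔh (hX 1) (hX 0)).sub hΔh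
  · have hs : ∀ p q : MvPolynomial (Fin 2) R, ((p - q : MvPolynomial (Fin 2) R) :
        MvPowerSeries (Fin 2) R) = (p : MvPowerSeries (Fin 2) R) - (q : MvPowerSeries (Fin 2) R) :=
      fun p q => map_sub (MvPolynomial.coeToMvPowerSeries.ringHom (σ := Fin 2) (R := R)) p q
    rw [hs, coe_aeval_pair, MvPolynomial.coe_X, MvPolynomial.coe_X]
    have hab : HasSubst ![(X 1 : MvPowerSeries (Fin 2) R), X 0] :=
      hasSubst_pair (hasSubst_X 1) (hasSubst_X 0)
    have h1 := subst_pair_mem (X_mem_Ot (1 : Fin 2)) (X_mem_Ot (0 : Fin 2)) hΔ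
    rw [subst_sub hab, herr_apply F G hφ.zero (X_mem_Ot (1 : Fin 2)) (X_mem_Ot (0 : Fin 2)),
      subst_coe, F.comm' (hasSubst_X 1) (hasSubst_X 0), subst_pair_X,
      G.comm' (hasSubst_psubst (hasSubst_X 1) hφ.zero)
        (hasSubst_psubst (hasSubst_X 0) hφ.zero)] at h1
    have h2 := sub_mem hΔ h1
    convert h2 using 1
    unfold herr
    ring

/-- the sum of the error terms of `[m]` -/
theorem mul_err (hd : 1 ≤ d) (hφ : Approx F G d φ) (hΔh : Δ.IsHomogeneous d)
    (hΔ : herr F G φ - (Δ : MvPowerSeries (Fin 2) R) ∈ Ot (d + 1)) (m : ℕ) :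
    PowerSeries.subst (mulSeries F m) φ - (PowerSeries.subst φ (mulSeries G m) +
      C (∑ i ∈ Finset.range m, MvPolynomial.eval ![(i : R), 1] Δ) *
        (PowerSeries.X : PowerSeries R) ^ d) ∈ (Ot (d + 1) : Ideal (MvPowerSeries Unit R)) := by
  have hX1 : (PowerSeries.X : PowerSeries R) ∈ (Ot 1 : Ideal (MvPowerSeries Unit R)) :=
    X_mem_Ot ()
  have hm1 : ∀ m, (mulSeries F m : PowerSeries R) ∈ (Ot 1 : Ideal (MvPowerSeries Unit R)) :=
    fun m => mem_Ot_one.mpr (mulSeries_constantCoeff F m)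
  have hφs : PowerSeries.HasSubst φ := PowerSeries.HasSubst.of_constantCoeff_zero' hφ.zero
  have hφ1 : (φ : PowerSeries R) ∈ (Ot 1 : Ideal (MvPowerSeries Unit R)) :=
    mem_Ot_one.mpr hφ.zero
  induction m with
  | zero =>
    rw [mulSeries_zero, mulSeries_zero, subst_zero' hφs,
      PowerSeries.subst_zero_of_constantCoeff_zero hφ.zero]
    simp
  | succ m ih =>
    have h1 := approx_apply hφ hΔ (hm1 m) hX1
    have hG1 : PowerSeries.subst φ (mulSeries G m) ∈ (Ot 1 : Ideal (MvPowerSeries Unit R)) :=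
      psubst_mem_one hφ1 (mulSeries_constantCoeff G m)
    have hCX : C (∑ i ∈ Finset.range m, MvPolynomial.eval ![(i : R), 1] Δ) *
        (PowerSeries.X : PowerSeries R) ^ d ∈ (Ot d : Ideal (MvPowerSeries Unit R)) :=
      (Ot d).mul_mem_left _ (Ot_pow hX1 d)
    have h2 := G_approx (G := G) (B := φ) hd hG1 hφ1 hCX ih
    have h3 : mulSeries F m - C (m : R) * (PowerSeries.X : PowerSeries R) ∈
        (Ot 2 : Ideal (MvPowerSeries Unit R)) := by
      intro e he
      have he' : e = Finsupp.single () (e ()) := by ext; simp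
      have hdeg : e.degree = e () := by
        rw [Finsupp.degree_eq_sum]; simp
      rw [hdeg] at he
      rw [he']
      change PowerSeries.coeff (e ()) (mulSeries F m - PowerSeries.C (m : R) * PowerSeries.X) = 0
      rcases (by omega : e () = 0 ∨ e () = 1) with h0 | h0
      · rw [h0, map_sub, PowerSeries.coeff_zero_eq_constantCoeff_apply, mulSeries_constantCoeff]
        simp
      · rw [h0, map_sub, mulSeries_coeff_one]
        simp
    have hmX : C (m : R) * (PowerSeries.X : PowerSeries R) ∈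
        (Ot 1 : Ideal (MvPowerSeries Unit R)) := (Ot 1).mul_mem_left _ hX1
    have h4 := aeval_pair_sub_mem hΔh (hm1 m) hX1 hmX hX1 h3
      (by rw [sub_self]; exact (Ot 2).zero_mem)
    have h5 := aeval_pair_line hΔh (m : R) (PowerSeries.X : MvPowerSeries Unit R)
    rw [h5] at h4
    have e1 : PowerSeries.subst (PowerSeries.X : PowerSeries R) φ = φ := PowerSeries.X_subst φ
    rw [e1] at h1
    have e2 : PowerSeries.subst φ (mulSeries G (m + 1)) =
        subst ![PowerSeries.subst φ (mulSeries G m), φ] G.toPowerSeries := by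
      rw [mulSeries_succ, psubst_pair (hasSubst_mulSeries G m) PowerSeries.HasSubst.X' hφs,
        PowerSeries.subst_X hφs]
    rw [e2, mulSeries_succ, Finset.sum_range_succ, map_add]
    have h6 := (Ot (d + 1)).add_mem ((Ot (d + 1)).add_mem h1 h2) h4
    convert h6 using 1
    ring

theorem psubst_sub' {A : MvPowerSeries σ R} (hA : PowerSeries.HasSubst A) (f g : PowerSeries R) :
    PowerSeries.subst A (f - g) = PowerSeries.subst A f - PowerSeries.subst A g := by
  rw [← PowerSeries.coe_substAlgHom hA, map_sub]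

theorem psubst_C_mul_X_pow {A : MvPowerSeries σ R} (hA : PowerSeries.HasSubst A) (c : R) (d : ℕ) :
    PowerSeries.subst A (PowerSeries.C c * PowerSeries.X ^ d : PowerSeries R) = C c * A ^ d := by
  rw [PowerSeries.subst_mul hA, PowerSeries.subst_pow hA, PowerSeries.subst_X hA]
  congr 1
  rw [← PowerSeries.coe_substAlgHom hA]
  exact AlgHom.commutes (PowerSeries.substAlgHom hA) c

/-- one step of the construction -/
theorem approx_step (hd : 2 ≤ d) (hφ : Approx F G d φ) (c : R)
    (hΔ : herr F G φ - ((MvPolynomial.C c * ((MvPolynomial.X 0 + MvPolynomial.X 1) ^ d -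
      MvPolynomial.X 0 ^ d - MvPolynomial.X 1 ^ d) : MvPolynomial (Fin 2) R) :
      MvPowerSeries (Fin 2) R) ∈ Ot (d + 1)) :
    Approx F G (d + 1) (φ - PowerSeries.C c * PowerSeries.X ^ d) := by
  refine ⟨?_, ?_, ?_⟩
  · rw [map_sub, hφ.zero, map_mul, map_pow, PowerSeries.constantCoeff_X, zero_pow (by omega)]
    simp
  · rw [map_sub, hφ.one, PowerSeries.coeff_C_mul, PowerSeries.coeff_X_pow, if_neg (by omega)]
    simp
  · have hF := hasSubst_F F
    have hX0 := hasSubst_X (R := R) (0 : Fin 2)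
    have hX1 := hasSubst_X (R := R) (1 : Fin 2)
    have o0 := X_mem_Ot (R := R) (0 : Fin 2)
    have o1 := X_mem_Ot (R := R) (1 : Fin 2)
    unfold herr
    rw [psubst_sub' hF, psubst_sub' hX0, psubst_sub' hX1, psubst_C_mul_X_pow hF,
      psubst_C_mul_X_pow hX0, psubst_C_mul_X_pow hX1]
    have h1 : C c * F.toPowerSeries ^ d - C c * (X 0 + X 1) ^ d ∈
        (Ot (d + 1) : Ideal (MvPowerSeries (Fin 2) R)) := by
      rw [← mul_sub]
      refine (Ot _).mul_mem_left _ ?_
      have h2 := F_pair_sub_mem F o0 o1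
      rw [subst_pair_X] at h2
      exact pow_sub_pow_mem (F_mem_Ot F) ((Ot 1).add_mem o0 o1) h2 d
    have h0p : - (C c * (X 0 : MvPowerSeries (Fin 2) R) ^ d) ∈ Ot d :=
      neg_mem ((Ot d).mul_mem_left _ (Ot_pow o0 d))
    have h1p : - (C c * (X 1 : MvPowerSeries (Fin 2) R) ^ d) ∈ Ot d :=
      neg_mem ((Ot d).mul_mem_left _ (Ot_pow o1 d))
    have h3 := F_pair_add G (by omega : 1 ≤ d) (psubst_mem_one o0 hφ.zero)
      (psubst_mem_one o1 hφ.zero) h0p h1p
    have h4 := sub_mem (sub_mem hΔ h1) h3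
    have hs : ∀ p q : MvPolynomial (Fin 2) R, ((p - q : MvPolynomial (Fin 2) R) :
        MvPowerSeries (Fin 2) R) = (p : MvPowerSeries (Fin 2) R) - (q : MvPowerSeries (Fin 2) R) :=
      fun p q => map_sub (MvPolynomial.coeToMvPowerSeries.ringHom (σ := Fin 2) (R := R)) p q
    rw [MvPolynomial.coe_mul, hs, hs, MvPolynomial.coe_pow, MvPolynomial.coe_pow,
      MvPolynomial.coe_pow, MvPolynomial.coe_add, MvPolynomial.coe_X, MvPolynomial.coe_X,
      MvPolynomial.coe_C] at h4
    convert h4 using 1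
    unfold herr
    rw [sub_eq_add_neg (PowerSeries.subst (X 0) φ), sub_eq_add_neg (PowerSeries.subst (X 1) φ)]
    ring

theorem approx_two (F G : FormalGroup R) : Approx F G 2 PowerSeries.X := by
  refine ⟨PowerSeries.constantCoeff_X, PowerSeries.coeff_one_X, ?_⟩
  have o0 := X_mem_Ot (R := R) (0 : Fin 2)
  have o1 := X_mem_Ot (R := R) (1 : Fin 2)
  unfold herr
  rw [PowerSeries.subst_X (hasSubst_F F), PowerSeries.subst_X (hasSubst_X 0),
    PowerSeries.subst_X (hasSubst_X 1)]
  have h1 := F_pair_sub_mem F o0 o1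
  have h2 := F_pair_sub_mem G o0 o1
  rw [subst_pair_X] at h1
  have h3 := sub_mem h1 h2
  convert h3 using 1
  ring

/-- the limit of the construction -/
theorem exists_hom_of_steps (F G : FormalGroup R)
    (hstep : ∀ d, 2 ≤ d → ∀ φ : PowerSeries R, Approx F G d φ →
      ∃ c : R, Approx F G (d + 1) (φ - PowerSeries.C c * PowerSeries.X ^ d)) :
    ∃ f : PowerSeries R, IsHom F G f ∧ PowerSeries.coeff 1 f = 1 := by
  classical
  -- the sequence of approximations
  let seq : (n : ℕ) → {φ : PowerSeries R // Approx F G (n + 2) φ} := fun n =>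
    Nat.rec ⟨PowerSeries.X, approx_two F G⟩ (fun n φ =>
      ⟨φ.1 - PowerSeries.C (Classical.choose (hstep (n + 2) (by omega) φ.1 φ.2)) *
        PowerSeries.X ^ (n + 2),
        Classical.choose_spec (hstep (n + 2) (by omega) φ.1 φ.2)⟩) n
  have hseq : ∀ n, ∃ c : R, (seq (n + 1)).1 =
      (seq n).1 - PowerSeries.C c * PowerSeries.X ^ (n + 2) := fun n => ⟨_, rfl⟩
  have hco : ∀ n m, n ≤ m → ∀ i < n + 2, PowerSeries.coeff i (seq m).1 =
      PowerSeries.coeff i (seq n).1 := by
    intro n m hnm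
    induction m, hnm using Nat.le_induction with
    | base => intro i _; rfl
    | succ m hm ih =>
      intro i hi
      obtain ⟨c, hc⟩ := hseq m
      rw [hc, map_sub, PowerSeries.coeff_C_mul, PowerSeries.coeff_X_pow, if_neg (by omega),
        mul_zero, sub_zero, ih i hi]
  let f : PowerSeries R := PowerSeries.mk fun i => PowerSeries.coeff i (seq i).1
  have hf : ∀ n, ∀ i < n + 2, PowerSeries.coeff i f = PowerSeries.coeff i (seq n).1 := by
    intro n i hi
    change PowerSeries.coeff i (PowerSeries.mk fun i => PowerSeries.coeff i (seq i).1) = _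
    rw [PowerSeries.coeff_mk]
    rcases le_or_gt i n with h | h
    · exact (hco i n h i (by omega)).symm
    · exact hco n i h.le i hi
  have hfO : ∀ n, (f : PowerSeries R) - (seq n).1 ∈
      (Ot (n + 2) : Ideal (MvPowerSeries Unit R)) := by
    intro n e he
    have he' : e = Finsupp.single () (e ()) := by ext; simp
    have hdeg : e.degree = e () := by
      rw [Finsupp.degree_eq_sum]; simp
    rw [hdeg] at he
    rw [he']
    change PowerSeries.coeff (e ()) (f - (seq n).1) = 0
    rw [map_sub, hf n _ he, sub_self]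
  have hf0 : PowerSeries.constantCoeff f = 0 := by
    rw [← PowerSeries.coeff_zero_eq_constantCoeff_apply, hf 0 0 (by omega),
      PowerSeries.coeff_zero_eq_constantCoeff_apply, (seq 0).2.zero]
  refine ⟨f, ⟨hf0, ?_⟩, ?_⟩
  · rw [← sub_eq_zero]
    apply eq_zero_of_Ot
    intro n
    refine Ot_mono (Nat.le_add_right n 2) ?_
    set φ := (seq n).1 with hφd
    have hφ : Approx F G (n + 2) φ := (seq n).2
    have o0 := X_mem_Ot (R := R) (0 : Fin 2)
    have o1 := X_mem_Ot (R := R) (1 : Fin 2)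
    have k : ∀ {A : MvPowerSeries (Fin 2) R}, A ∈ Ot 1 →
        PowerSeries.subst A f - PowerSeries.subst A φ ∈ Ot (n + 2) := by
      intro A hA
      rw [← psubst_sub' (hasSubst_of_Ot hA)]
      exact psubst_mem hA (hfO n)
    have h1 := k (F_mem_Ot F)
    have h2 := subst_pair_sub_mem (psubst_mem_one o0 hf0) (psubst_mem_one o1 hf0)
      (psubst_mem_one o0 hφ.zero) (psubst_mem_one o1 hφ.zero) (k o0) (k o1) G.toPowerSeries
    have h3 := sub_mem (add_mem h1 hφ.err) h2
    convert h3 using 1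
    unfold herr
    ring
  · rw [hf 0 1 (by omega), (seq 0).2.one]

/-- the sum of the error terms vanishes when `[p] = X^q` on both sides and `x^q = x` on the
coefficients -/
theorem sum_err_eq_zero (p : ℕ) [Fact p.Prime] [CharP R p] (h : ℕ)
    (hR : ∀ x : R, x ^ (p ^ h) = x) (hd : 1 ≤ d) (hφ : Approx F G d φ)
    (hΔh : Δ.IsHomogeneous d)
    (hΔ : herr F G φ - (Δ : MvPowerSeries (Fin 2) R) ∈ Ot (d + 1))
    (hF : mulSeries F p = PowerSeries.X ^ (p ^ h)) (hG : mulSeries G p = PowerSeries.X ^ (p ^ h)) :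
    ∑ i ∈ Finset.range p, MvPolynomial.eval ![(i : R), 1] Δ = 0 := by
  have hφs : PowerSeries.HasSubst φ := PowerSeries.HasSubst.of_constantCoeff_zero' hφ.zero
  have h1 := mul_err hd hφ hΔh hΔ p
  have h2 : PowerSeries.subst φ (PowerSeries.X ^ (p ^ h) : PowerSeries R) = φ ^ (p ^ h) := by
    rw [PowerSeries.subst_pow hφs, PowerSeries.subst_X hφs]
  have h3 : φ.map (iterateFrobenius R p h) = φ := by
    ext n
    rw [PowerSeries.coeff_map, iterateFrobenius_def, hR]
  have h4 := pow_eq_subst p φ h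
  rw [h3] at h4
  rw [hF, hG, h2, h4, sub_add_cancel_left] at h1
  have h5 : C (∑ i ∈ Finset.range p, MvPolynomial.eval ![(i : R), 1] Δ) *
      (PowerSeries.X : PowerSeries R) ^ d ∈ (Ot (d + 1) : Ideal (MvPowerSeries Unit R)) := by
    have := neg_mem h1
    rwa [neg_neg] at this
  have h6 := h5 (Finsupp.single () d) (by rw [Finsupp.degree_single]; exact Nat.lt_succ_self d)
  have h7 : PowerSeries.coeff d (PowerSeries.C (∑ i ∈ Finset.range p,
      MvPolynomial.eval ![(i : R), 1] Δ) * (PowerSeries.X : PowerSeries R) ^ d) = 0 := h6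
  rwa [PowerSeries.coeff_C_mul, PowerSeries.coeff_X_pow_self, mul_one] at h7

end approx

end Vale.Agent.P217
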