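import Mathlib.Algebra.MvPolynomial.Monad
import Mathlib.Algebra.Order.Ring.Star
import Mathlib.Data.Int.ConditionallyCompleteOrder
import Mathlib.Data.Int.Star
import Mathlib.Data.Nat.Choose.Dvd
import Mathlib.Data.Nat.Choose.Lucas
import Mathlib.FieldTheory.Finite.Basic
import Mathlib.RingTheory.MvPolynomial.Homogeneous

/-!
# P217: homogeneous symmetric 2-cocycles in characteristic p (proof of `cocycle_coboundary`)
-/

namespace Vale.Agent.P217

/-- the case `p ∤ d` -/
theorem seq_cob_of_not_dvd {κ : Type*} [Field κ] (p : ℕ) [Fact p.Prime] [CharP κ p]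
    (d : ℕ) (hpd : ¬ p ∣ d) (a : ℕ → κ)
    (h1 : ∀ i j k, 1 ≤ i → 1 ≤ k → i + j + k = d →
      ((Nat.choose (j + k) k : ℕ) : κ) * a (j + k) = (Nat.choose (i + j) j : ℕ) * a k)
    (h2 : ∀ k, 1 ≤ k → k < d → a k = a (d - k)) :
    ∃ c : κ, ∀ k, 1 ≤ k → k < d → a k = c * (Nat.choose d k : ℕ) := by
  have hd : (d : κ) ≠ 0 := by
    intro h
    exact hpd ((CharP.cast_eq_zero_iff κ p d).1 h)
  have h3 : ∀ j, 1 ≤ j → j < d → (j : κ) * a j = (Nat.choose (d - 1) (j - 1) : ℕ) * a 1 := by
    intro j hj hjd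
    have := h1 (d - j) (j - 1) 1 (by omega) le_rfl (by omega)
    rw [Nat.choose_one_right, show j - 1 + 1 = j by omega,
      show d - j + (j - 1) = d - 1 by omega] at this
    exact this
  refine ⟨a 1 / d, fun k hk hkd => ?_⟩
  have e1 := h3 k hk hkd
  have e2 := h3 (d - k) (by omega) (by omega)
  rw [← h2 k hk hkd, Nat.cast_sub hkd.le,
    Nat.choose_symm_of_eq_add (show d - 1 = (d - k - 1) + k by omega)] at e2
  have e3 : Nat.choose d k = Nat.choose (d - 1) (k - 1) + Nat.choose (d - 1) k := by
    obtain ⟨d', rfl⟩ : ∃ d', d = d' + 1 := ⟨d - 1, by omega⟩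
    obtain ⟨k', rfl⟩ : ∃ k', k = k' + 1 := ⟨k - 1, by omega⟩
    simp [Nat.choose_succ_succ]
  rw [e3, Nat.cast_add]
  field_simp
  linear_combination e1 + e2

theorem sum_choose_div {κ : Type*} [Field κ] (p : ℕ) [hp : Fact p.Prime] [CharP κ p] :
    ∑ i ∈ Finset.range p, ∑ k ∈ Finset.Ico 1 p, ((Nat.choose p k / p : ℕ) : κ) * (i : κ) ^ (p - k)
      = -1 := by
  have hp1 := hp.out.one_lt
  have hN : p * (∑ i ∈ Finset.range p, ∑ k ∈ Finset.Ico 1 p,
      ((Nat.choose p k / p : ℕ)) * i ^ (p - k)) + p = p ^ p := by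
    have h1 : ∀ i : ℕ, p * (∑ k ∈ Finset.Ico 1 p, ((Nat.choose p k / p : ℕ)) * i ^ (p - k)) + (i ^ p + 1)
        = (i + 1) ^ p := by
      intro i
      rw [add_comm i 1, add_pow, Finset.range_eq_Ico, Finset.sum_Ico_succ_top (by omega),
        Finset.mul_sum, Finset.sum_eq_sum_Ico_succ_bot (a := 0) (b := p) (by omega)]
      have : ∀ k ∈ Finset.Ico 1 p, p * (Nat.choose p k / p * i ^ (p - k)) =
          1 ^ k * i ^ (p - k) * Nat.choose p k := by
        intro k hk
        rw [Finset.mem_Ico] at hk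
        rw [← mul_assoc, Nat.mul_div_cancel' (hp.out.dvd_choose_self (by omega) hk.2)]
        ring
      rw [Finset.sum_congr rfl this]
      simp
      ring
    have h2 : ∀ n : ℕ, p * (∑ i ∈ Finset.range n, ∑ k ∈ Finset.Ico 1 p,
      ((Nat.choose p k / p : ℕ)) * i ^ (p - k)) + n = n ^ p := by
      intro n
      induction n with
      | zero => simp [hp.out.ne_zero]
      | succ n ih =>
        rw [Finset.sum_range_succ, mul_add, ← h1 n, ← ih]
        ring
    exact h2 p
  have hN2 : (∑ i ∈ Finset.range p, ∑ k ∈ Finset.Ico 1 p,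
      ((Nat.choose p k / p : ℕ)) * i ^ (p - k)) + 1 = p ^ (p - 1) := by
    have : p * ((∑ i ∈ Finset.range p, ∑ k ∈ Finset.Ico 1 p,
      ((Nat.choose p k / p : ℕ)) * i ^ (p - k)) + 1) = p * p ^ (p - 1) := by
      rw [← pow_succ', mul_add, mul_one, hN]
      congr 1
      omega
    exact Nat.eq_of_mul_eq_mul_left hp.out.pos this
  have h3 := congrArg (Nat.cast : ℕ → κ) hN2
  push_cast at h3
  rw [CharP.cast_eq_zero κ p, zero_pow (by omega)] at h3
  have := eq_neg_of_add_eq_zero_left h3
  rw [← this]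

theorem seq_cob {κ : Type*} [Field κ] (p : ℕ) [hp : Fact p.Prime] [CharP κ p] :
    ∀ (d : ℕ), 2 ≤ d → ∀ (a : ℕ → κ),
    (∀ i j k, 1 ≤ i → 1 ≤ k → i + j + k = d →
      ((Nat.choose (j + k) k : ℕ) : κ) * a (j + k) = (Nat.choose (i + j) j : ℕ) * a k) →
    (∀ k, 1 ≤ k → k < d → a k = a (d - k)) →
    (∑ i ∈ Finset.range p, ∑ k ∈ Finset.Ico 1 d, a k * (i : κ) ^ (d - k) = 0) →
    ∃ c : κ, ∀ k, 1 ≤ k → k < d → a k = c * (Nat.choose d k : ℕ) := by
  have hp0 := hp.out.pos
  have hp1 := hp.out.one_lt
  intro d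
  induction d using Nat.strong_induction_on with
  | _ d ih =>
  intro hd a h1 h2 h4
  by_cases hpd : p ∣ d
  swap
  · exact seq_cob_of_not_dvd p d hpd a h1 h2
  have h3 : ∀ j, 1 ≤ j → j < d → (j : κ) * a j = (Nat.choose (d - 1) (j - 1) : ℕ) * a 1 := by
    intro j hj hjd
    have := h1 (d - j) (j - 1) 1 (by omega) le_rfl (by omega)
    rw [Nat.choose_one_right, show j - 1 + 1 = j by omega,
      show d - j + (j - 1) = d - 1 by omega] at this
    exact this
  obtain ⟨d', rfl⟩ := hpd
  have hd' : d' ≠ 0 := by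
    rintro rfl
    omega
  by_cases hd1 : d' = 1
  · subst hd1
    rw [mul_one] at *
    have h5 : ∀ j, 1 ≤ j → j < p → a j = a 1 * ((Nat.choose p j / p : ℕ) : κ) := by
      intro j hj hjp
      have hj0 : (j : κ) ≠ 0 := by
        intro h
        have := (CharP.cast_eq_zero_iff κ p j).1 h
        exact absurd (Nat.le_of_dvd (by omega) this) (by omega)
      have e1 : j * (Nat.choose p j / p) = Nat.choose (p - 1) (j - 1) := by
        have e2 : p * (j * (Nat.choose p j / p)) = p * Nat.choose (p - 1) (j - 1) := by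
          rw [mul_left_comm, Nat.mul_div_cancel' (hp.out.dvd_choose_self (by omega) hjp)]
          have := Nat.add_one_mul_choose_eq (p - 1) (j - 1)
          rw [show p - 1 + 1 = p by omega,
            show j - 1 + 1 = j by omega] at this
          rw [this, mul_comm]
        exact Nat.eq_of_mul_eq_mul_left hp0 e2
      have e3 := h3 j hj hjp
      rw [← e1] at e3
      push_cast at e3
      apply mul_left_cancel₀ hj0
      rw [e3]
      ring
    have h6 : a 1 = 0 := by
      have := sum_choose_div (κ := κ) p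
      have h7 : ∑ i ∈ Finset.range p, ∑ k ∈ Finset.Ico 1 p, a k * (i : κ) ^ (p - k) =
          a 1 * ∑ i ∈ Finset.range p, ∑ k ∈ Finset.Ico 1 p,
            ((Nat.choose p k / p : ℕ) : κ) * (i : κ) ^ (p - k) := by
        rw [Finset.mul_sum]
        refine Finset.sum_congr rfl fun i _ => ?_
        rw [Finset.mul_sum]
        refine Finset.sum_congr rfl fun k hk => ?_
        rw [Finset.mem_Ico] at hk
        rw [h5 k hk.1 hk.2]
        ring
      rw [h7, this] at h4
      simpa using h4
    refine ⟨0, fun k hk hkp => ?_⟩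
    rw [h5 k hk hkp, h6]
    simp
  · have hd2 : 2 ≤ d' := by omega
    have hpd' : p < p * d' := by nlinarith
    have ha1 : a 1 = 0 := by
      have e := h3 p (by omega) hpd'
      rw [CharP.cast_eq_zero κ p, zero_mul] at e
      have hL : ((Nat.choose (p * d' - 1) (p - 1) : ℕ) : κ) = 1 := by
        have h := Choose.choose_modEq_choose_mod_mul_choose_div_nat (p := p)
          (n := p * d' - 1) (k := p - 1)
        have e1 : (p * d' - 1) = (p - 1) + p * (d' - 1) := by
          obtain ⟨e, rfl⟩ : ∃ e, d' = e + 1 := ⟨d' - 1, by omega⟩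
          simp only [Nat.add_sub_cancel]
          rw [mul_add]
          omega
        have e2 : (p * d' - 1) % p = p - 1 := by
          rw [e1, Nat.add_mul_mod_self_left, Nat.mod_eq_of_lt (by omega)]
        have e3 : (p - 1) % p = p - 1 := Nat.mod_eq_of_lt (by omega)
        have e4 : (p - 1) / p = 0 := Nat.div_eq_of_lt (by omega)
        rw [e2, e3, e4, Nat.choose_self, Nat.choose_zero_right, mul_one] at h
        have := (CharP.natCast_eq_natCast (R := κ) p).2 h
        rw [this, Nat.cast_one]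
      rw [hL, one_mul] at e
      exact e.symm
    have ha : ∀ j, 1 ≤ j → j < p * d' → ¬ p ∣ j → a j = 0 := by
      intro j hj hjd hpj
      have := h3 j hj hjd
      rw [ha1, mul_zero] at this
      rcases mul_eq_zero.1 this with h | h
      · exact absurd ((CharP.cast_eq_zero_iff κ p j).1 h) hpj
      · exact h
    have hLuc : ∀ m k : ℕ, ((Nat.choose (p * m) (p * k) : ℕ) : κ) = (Nat.choose m k : ℕ) := by
      intro m k
      have h := Choose.choose_modEq_choose_mod_mul_choose_div_nat (p := p)
          (n := p * m) (k := p * k)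
      rw [Nat.mul_mod_right, Nat.mul_mod_right, Nat.mul_div_cancel_left _ hp0,
        Nat.mul_div_cancel_left _ hp0, Nat.choose_self, one_mul] at h
      exact (CharP.natCast_eq_natCast (R := κ) p).2 h
    have hlt : d' < p * d' := by nlinarith
    have hmain : (∃ c : κ, ∀ k, 1 ≤ k → k < d' → a (p * k) = c * (Nat.choose d' k : ℕ)) →
        ∃ c : κ, ∀ k, 1 ≤ k → k < p * d' → a k = c * (Nat.choose (p * d') k : ℕ) := by
      rintro ⟨c, hc⟩
      refine ⟨c, fun k hk hkd => ?_⟩
      by_cases hpk : p ∣ k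
      · obtain ⟨k', rfl⟩ := hpk
        rw [hLuc]
        apply hc k'
        · rcases Nat.eq_zero_or_pos k' with h | h
          · subst h
            omega
          · exact h
        · exact Nat.lt_of_mul_lt_mul_left hkd
      · rw [ha k hk hkd hpk]
        have h := Choose.choose_modEq_choose_mod_mul_choose_div_nat (p := p)
          (n := p * d') (k := k)
        have hk0 : 0 < k % p := Nat.pos_of_ne_zero fun h => hpk (Nat.dvd_of_mod_eq_zero h)
        rw [Nat.mul_mod_right, Nat.choose_eq_zero_of_lt hk0, zero_mul] at h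
        have := (CharP.natCast_eq_natCast (R := κ) p).2 h
        rw [this]
        simp
    refine hmain (ih d' hlt hd2 (fun k => a (p * k)) ?_ ?_ ?_)
    · intro i j k hi hk hijk
      have := h1 (p * i) (p * j) (p * k) (Nat.mul_pos hp0 hi) (Nat.mul_pos hp0 hk)
        (by rw [← hijk]; ring)
      rw [← mul_add, ← mul_add, hLuc, hLuc] at this
      exact this
    · intro k hk hkd
      have := h2 (p * k) (Nat.mul_pos hp0 hk) ((Nat.mul_lt_mul_left hp0).2 hkd)
      rw [← Nat.mul_sub] at this
      exact this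
    · rw [← h4]
      refine Finset.sum_congr rfl fun i _ => ?_
      have hi : ((i : κ)) ^ p = i := by
        have := ZMod.pow_card ((i : ZMod p))
        have h2 := congrArg (ZMod.castHom (dvd_refl p) κ) this
        rw [map_pow, map_natCast] at h2
        exact h2
      have hinj : Function.Injective (fun k : ℕ => p * k) := fun x y h =>
        Nat.eq_of_mul_eq_mul_left hp0 h
      have e0 : ∑ k ∈ Finset.Ico 1 d', a (p * k) * (i : κ) ^ (d' - k) =
          ∑ k ∈ (Finset.Ico 1 d').image (fun k => p * k), a k * (i : κ) ^ (p * d' - k) := by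
        rw [Finset.sum_image (fun x _ y _ h => hinj h)]
        refine Finset.sum_congr rfl fun k hk => ?_
        rw [← Nat.mul_sub, pow_mul, hi]
      rw [e0]
      refine Finset.sum_subset ?_ ?_
      · intro x hx
        rw [Finset.mem_image] at hx
        obtain ⟨k, hk, rfl⟩ := hx
        rw [Finset.mem_Ico] at hk ⊢
        exact ⟨Nat.mul_pos hp0 hk.1, (Nat.mul_lt_mul_left hp0).2 hk.2⟩
      · intro x hx hx'
        rw [Finset.mem_Ico] at hx
        rw [ha x hx.1 hx.2, zero_mul]
        intro hpx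
        obtain ⟨k, rfl⟩ := hpx
        apply hx'
        refine Finset.mem_image.2 ⟨k, ?_, rfl⟩
        rw [Finset.mem_Ico]
        refine ⟨?_, Nat.lt_of_mul_lt_mul_left hx.2⟩
        rcases Nat.eq_zero_or_pos k with h | h
        · subst h
          omega
        · exact h

section cocycle
open MvPolynomial

variable {κ : Type*} [Field κ]

/-- the monomial `X^i Y^j` -/
theorem cob_coeff2 (c : κ) (i j i' j' : ℕ) :
    MvPolynomial.coeff (Finsupp.single 0 i + Finsupp.single 1 j : Fin 2 →₀ ℕ)
      (C c * X 0 ^ i' * X 1 ^ j' : MvPolynomial (Fin 2) κ) = if i = i' ∧ j = j' then c else 0 := by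
  rw [X_pow_eq_monomial, X_pow_eq_monomial, C_mul_monomial, monomial_mul, coeff_monomial]
  have : (Finsupp.single 0 i' + Finsupp.single 1 j' : Fin 2 →₀ ℕ) =
      Finsupp.single 0 i + Finsupp.single 1 j ↔ i = i' ∧ j = j' := by
    constructor
    · intro h
      have h0 := DFunLike.congr_fun h 0
      have h1 := DFunLike.congr_fun h 1
      simp at h0 h1
      exact ⟨h0.symm, h1.symm⟩
    · rintro ⟨rfl, rfl⟩
      rfl
  simp only [this]
  split_ifs <;> simp

theorem cob_coeff3 (c : κ) (i j l i' j' l' : ℕ) :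
    MvPolynomial.coeff (Finsupp.single 0 i + Finsupp.single 1 j + Finsupp.single 2 l : Fin 3 →₀ ℕ)
      (C c * X 0 ^ i' * X 1 ^ j' * X 2 ^ l' : MvPolynomial (Fin 3) κ) =
      if i = i' ∧ j = j' ∧ l = l' then c else 0 := by
  rw [X_pow_eq_monomial, X_pow_eq_monomial, X_pow_eq_monomial, C_mul_monomial, monomial_mul,
    monomial_mul, coeff_monomial]
  have : (Finsupp.single 0 i' + Finsupp.single 1 j' + Finsupp.single 2 l' : Fin 3 →₀ ℕ) =
      Finsupp.single 0 i + Finsupp.single 1 j + Finsupp.single 2 l ↔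
        i = i' ∧ j = j' ∧ l = l' := by
    constructor
    · intro h
      have h0 := DFunLike.congr_fun h 0
      have h1 := DFunLike.congr_fun h 1
      have h2 := DFunLike.congr_fun h 2
      simp at h0 h1 h2
      exact ⟨h0.symm, h1.symm, h2.symm⟩
    · rintro ⟨rfl, rfl, rfl⟩
      rfl
  simp only [this]
  split_ifs <;> simp

theorem cob_hom_eq (f : MvPolynomial (Fin 2) κ) (d : ℕ) (hf : f.IsHomogeneous d) :
    ∃ a : ℕ → κ, f = ∑ k ∈ Finset.range (d + 1), C (a k) * X 0 ^ (d - k) * X 1 ^ k := by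
  refine ⟨fun k => f.coeff (Finsupp.single 0 (d - k) + Finsupp.single 1 k), ?_⟩
  ext m
  obtain ⟨i, j, rfl⟩ : ∃ i j, m = Finsupp.single 0 i + Finsupp.single 1 j := ⟨m 0, m 1, by
    ext s
    fin_cases s <;> simp⟩
  rw [coeff_sum]
  simp only [cob_coeff2]
  by_cases hij : i + j = d
  · rw [Finset.sum_eq_single j]
    · rw [if_pos ⟨by omega, rfl⟩, show d - j = i by omega]
    · intro b _ hb
      rw [if_neg]
      rintro ⟨_, h⟩
      exact hb h.symm
    · intro h
      exact absurd (Finset.mem_range.2 (by omega)) h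
  · rw [Finset.sum_eq_zero, hf.coeff_eq_zero]
    · rw [map_add]
      simpa using hij
    · intro k hk
      rw [Finset.mem_range] at hk
      rw [if_neg]
      rintro ⟨h1, h2⟩
      omega

end cocycle

theorem cocycle_coboundary_main {κ : Type*} [Field κ] (p : ℕ) [Fact p.Prime] [CharP κ p]
    (f : MvPolynomial (Fin 2) κ) (d : ℕ) (hd : 2 ≤ d) (hf : f.IsHomogeneous d)
    (hsymm : MvPolynomial.aeval ![MvPolynomial.X 1, MvPolynomial.X 0] f = f)
    (hcoc : MvPolynomial.aeval
        ![(MvPolynomial.X 1 : MvPolynomial (Fin 3) κ), MvPolynomial.X 2] f +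
      MvPolynomial.aeval
        ![(MvPolynomial.X 0 : MvPolynomial (Fin 3) κ), MvPolynomial.X 1 + MvPolynomial.X 2] f =
      MvPolynomial.aeval
        ![(MvPolynomial.X 0 + MvPolynomial.X 1 : MvPolynomial (Fin 3) κ), MvPolynomial.X 2] f +
      MvPolynomial.aeval
        ![(MvPolynomial.X 0 : MvPolynomial (Fin 3) κ), MvPolynomial.X 1] f)
    (hp : ∑ i ∈ Finset.range p, MvPolynomial.eval ![(i : κ), 1] f = 0) :
    ∃ c : κ, f = MvPolynomial.C c *
      ((MvPolynomial.X 0 + MvPolynomial.X 1) ^ d - MvPolynomial.X 0 ^ d - MvPolynomial.X 1 ^ d) := by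
  obtain ⟨a, ha⟩ := cob_hom_eq f d hf
  -- the cocycle identity in coefficients
  have e1 : MvPolynomial.aeval
        ![(MvPolynomial.X 1 : MvPolynomial (Fin 3) κ), MvPolynomial.X 2] f =
      ∑ k ∈ Finset.range (d + 1), MvPolynomial.C (a k) * MvPolynomial.X 0 ^ 0 *
        MvPolynomial.X 1 ^ (d - k) * MvPolynomial.X 2 ^ k := by
    rw [ha, map_sum]
    refine Finset.sum_congr rfl fun k _ => ?_
    rw [map_mul, map_mul, map_pow, map_pow, MvPolynomial.aeval_X, MvPolynomial.aeval_X]
    simp
  have e2 : MvPolynomial.aeval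
        ![(MvPolynomial.X 0 : MvPolynomial (Fin 3) κ), MvPolynomial.X 1] f =
      ∑ k ∈ Finset.range (d + 1), MvPolynomial.C (a k) * MvPolynomial.X 0 ^ (d - k) *
        MvPolynomial.X 1 ^ k * MvPolynomial.X 2 ^ 0 := by
    rw [ha, map_sum]
    refine Finset.sum_congr rfl fun k _ => ?_
    rw [map_mul, map_mul, map_pow, map_pow, MvPolynomial.aeval_X, MvPolynomial.aeval_X]
    simp
  have e3 : MvPolynomial.aeval
        ![(MvPolynomial.X 0 : MvPolynomial (Fin 3) κ), MvPolynomial.X 1 + MvPolynomial.X 2] f =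
      ∑ k ∈ Finset.range (d + 1), ∑ m ∈ Finset.range (k + 1),
        MvPolynomial.C (a k * (Nat.choose k m : ℕ)) * MvPolynomial.X 0 ^ (d - k) *
        MvPolynomial.X 1 ^ m * MvPolynomial.X 2 ^ (k - m) := by
    rw [ha, map_sum]
    refine Finset.sum_congr rfl fun k _ => ?_
    rw [map_mul, map_mul, map_pow, map_pow, MvPolynomial.aeval_X, MvPolynomial.aeval_X]
    simp only [Matrix.cons_val_zero, Matrix.cons_val_one, Matrix.cons_val_fin_one]
    rw [add_pow, Finset.mul_sum]
    refine Finset.sum_congr rfl fun m _ => ?_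
    rw [MvPolynomial.C_mul, MvPolynomial.algHom_C, map_natCast, MvPolynomial.algebraMap_eq]
    ring
  have e4 : MvPolynomial.aeval
        ![(MvPolynomial.X 0 + MvPolynomial.X 1 : MvPolynomial (Fin 3) κ), MvPolynomial.X 2] f =
      ∑ k ∈ Finset.range (d + 1), ∑ m ∈ Finset.range (d - k + 1),
        MvPolynomial.C (a k * (Nat.choose (d - k) m : ℕ)) * MvPolynomial.X 0 ^ m *
        MvPolynomial.X 1 ^ (d - k - m) * MvPolynomial.X 2 ^ k := by
    rw [ha, map_sum]
    refine Finset.sum_congr rfl fun k _ => ?_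
    rw [map_mul, map_mul, map_pow, map_pow, MvPolynomial.aeval_X, MvPolynomial.aeval_X]
    simp only [Matrix.cons_val_zero, Matrix.cons_val_one, Matrix.cons_val_fin_one]
    rw [add_pow, Finset.mul_sum, Finset.sum_mul]
    refine Finset.sum_congr rfl fun m _ => ?_
    rw [MvPolynomial.C_mul, MvPolynomial.algHom_C, map_natCast, MvPolynomial.algebraMap_eq]
    ring
  rw [e1, e2, e3, e4] at hcoc
  have key : ∀ i j l, i + j + l = d →
      (if i = 0 then a l else 0) + a (j + l) * (Nat.choose (j + l) j : ℕ) =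
        a l * (Nat.choose (i + j) i : ℕ) + (if l = 0 then a j else 0) := by
    intro i j l hijl
    have h := congrArg (MvPolynomial.coeff
      (Finsupp.single 0 i + Finsupp.single 1 j + Finsupp.single 2 l : Fin 3 →₀ ℕ)) hcoc
    simp only [MvPolynomial.coeff_add, MvPolynomial.coeff_sum, cob_coeff3] at h
    rw [Finset.sum_eq_single l, Finset.sum_eq_single (j + l), Finset.sum_eq_single j,
      Finset.sum_eq_single l, Finset.sum_eq_single i, Finset.sum_eq_single j] at h
    · rw [if_pos (⟨by omega, rfl, by omega⟩ : i = d - (j + l) ∧ j = j ∧ l = j + l - j),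
        if_pos (⟨rfl, by omega, rfl⟩ : i = i ∧ j = d - l - i ∧ l = l)] at h
      rw [show d - l = i + j by omega] at h
      have c1 : (i = 0 ∧ j = i + j) ↔ i = 0 := by omega
      have c2 : (i = d - j ∧ l = 0) ↔ l = 0 := by omega
      simp only [true_and, and_true, c1, c2] at h
      exact h
    all_goals first
      | (intro b hb hne
         rw [Finset.mem_range] at hb
         rw [if_neg (by omega)])
      | (intro b hb hne
         refine Finset.sum_eq_zero fun m hm => ?_
         rw [Finset.mem_range] at hb hm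
         rw [if_neg (by omega)])
      | (intro h
         rw [Finset.mem_range] at h
         exact absurd (by omega) h)
  have had : a d = 0 := by
    have h := key 0 0 d (by omega)
    rw [if_pos rfl, if_neg (by omega)] at h
    simpa using h
  have hsym : ∀ k, k ≤ d → a k = a (d - k) := by
    intro k hk
    have h := congrArg (MvPolynomial.coeff
      (Finsupp.single 0 (d - k) + Finsupp.single 1 k : Fin 2 →₀ ℕ)) hsymm
    have e5 : MvPolynomial.aeval ![(MvPolynomial.X 1 : MvPolynomial (Fin 2) κ),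
        MvPolynomial.X 0] f =
      ∑ k ∈ Finset.range (d + 1), MvPolynomial.C (a k) * MvPolynomial.X 0 ^ k *
        MvPolynomial.X 1 ^ (d - k) := by
      rw [ha, map_sum]
      refine Finset.sum_congr rfl fun k _ => ?_
      rw [map_mul, map_mul, map_pow, map_pow, MvPolynomial.aeval_X, MvPolynomial.aeval_X]
      simp only [Matrix.cons_val_zero, Matrix.cons_val_one, Matrix.cons_val_fin_one]
      rw [MvPolynomial.algHom_C, MvPolynomial.algebraMap_eq]
      ring
    rw [e5, ha] at h
    simp only [MvPolynomial.coeff_sum, cob_coeff2] at h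
    rw [Finset.sum_eq_single (d - k), Finset.sum_eq_single k] at h
    · rw [if_pos ⟨rfl, by omega⟩, if_pos ⟨rfl, rfl⟩] at h
      exact h.symm
    all_goals first
      | (intro b hb hne
         rw [Finset.mem_range] at hb
         rw [if_neg (by omega)])
      | (intro h
         rw [Finset.mem_range] at h
         exact absurd (by omega) h)
  have ha0 : a 0 = 0 := by
    rw [hsym 0 (by omega), Nat.sub_zero, had]
  obtain ⟨c, hc⟩ := seq_cob p d hd a (by
    intro i j k hi hk hijk
    have h := key i j k hijk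
    rw [if_neg (by omega), if_neg (by omega), zero_add, add_zero] at h
    rw [Nat.choose_symm_add, Nat.choose_symm_add] at h
    rw [mul_comm, h, mul_comm]) (by
    intro k hk hkd
    exact hsym k hkd.le) (by
    rw [← hp]
    refine Finset.sum_congr rfl fun i _ => ?_
    rw [ha, map_sum, Finset.range_eq_Ico, Finset.sum_Ico_succ_top (by omega),
      Finset.sum_eq_sum_Ico_succ_bot (a := 0) (b := d) (by omega), ha0, had]
    simp)
  refine ⟨c, ?_⟩
  have hbin : (MvPolynomial.X 0 + MvPolynomial.X 1 : MvPolynomial (Fin 2) κ) ^ d -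
      MvPolynomial.X 0 ^ d - MvPolynomial.X 1 ^ d =
      ∑ k ∈ Finset.Ico 1 d, MvPolynomial.C (Nat.choose d k : κ) *
        MvPolynomial.X 0 ^ (d - k) * MvPolynomial.X 1 ^ k := by
    rw [add_comm (MvPolynomial.X 0 : MvPolynomial (Fin 2) κ), add_pow, Finset.range_eq_Ico,
      Finset.sum_Ico_succ_top (by omega),
      Finset.sum_eq_sum_Ico_succ_bot (a := 0) (b := d) (by omega)]
    simp only [pow_zero, Nat.sub_self, Nat.choose_self, Nat.choose_zero_right, Nat.cast_one,
      Nat.sub_zero, mul_one, one_mul, zero_add]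
    have : ∀ x ∈ Finset.Ico 1 d, (MvPolynomial.X 1 ^ x * MvPolynomial.X 0 ^ (d - x) *
        ((Nat.choose d x : ℕ) : MvPolynomial (Fin 2) κ)) =
        MvPolynomial.C (Nat.choose d x : κ) *
        MvPolynomial.X 0 ^ (d - x) * MvPolynomial.X 1 ^ x := by
      intro x _
      rw [map_natCast]
      ring
    rw [Finset.sum_congr rfl this]
    ring
  rw [hbin, ha, Finset.range_eq_Ico, Finset.sum_Ico_succ_top (by omega),
      Finset.sum_eq_sum_Ico_succ_bot (a := 0) (b := d) (by omega), ha0, had, Finset.mul_sum]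
  simp only [map_zero, zero_mul, zero_add, add_zero]
  refine Finset.sum_congr rfl fun k hk => ?_
  rw [Finset.mem_Ico] at hk
  rw [hc k hk.1 hk.2, MvPolynomial.C_mul]
  ring

end Vale.Agent.P217
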