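import Vale.Agent.Lib.P217.Formal
import Vale.Agent.Lib.P217.IsoCocycle
import Vale.Agent.Lib.P217.IsoAux

/-!
# P217: formal group laws with `[p] = X^{p^h}` over the field with `p^h` elements are strictly isomorphic (module ISO)

`cocycle_coboundary`. Let `f(X,Y)` be homogeneous of degree `d ≥ 2`, with the cocycle identity
`f(Y,Z) + f(X,Y+Z) = f(X+Y,Z) + f(X,Y)` and symmetric, over a field of characteristic `p`. (In particular `f(X,0) = 0 = f(0,Y)`.)
Differentiate the identity with respect to `Z` at `Z = 0`: `f_2(Y,0) + f_2(X,Y) = f_2(X+Y,0)`, with `f_2 = ∂f/∂Y` and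
`f_2(Y,0) = a Y^{d-1}`: so `f_2(X,Y) = a((X+Y)^{d-1} - Y^{d-1})`, and symmetrically for `f_1`.
* If `p ∤ d`: Euler's formula gives `d f = X f_1 + Y f_2 = a((X+Y)^d - X^d - Y^d)`.
* If `d = p d'`, `d' > 1`: the coefficient of `Y^{p-1}` in `f_2` is zero and is `a * choose (d-1) (p-1) = a` in characteristic `p` (Lucas);
  so `a = 0`, `f_1 = f_2 = 0`, `f(X,Y) = g(X^p,Y^p)` and `g` is again a symmetric cocycle, homogeneous of degree `d'`, and
  `∑_{i<p} g(i,1) = ∑_{i<p} f(i,1)` since `i^p = i`. If `d' ≥ 2` induct on `d`: `g = c((X+Y)^{d'} - X^{d'} - Y^{d'})` gives the claim for `f`.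
* If `d = p`: `f_2 = a((X+Y)^{p-1} - Y^{p-1})` determines the coefficients `f_j` of `X^{p-j}Y^j`, `0 < j < p`:
  `j f_j = a * choose (p-1) (j-1)`, `f_j = a * (choose p j / p)`; and `∑_{i<p} f(i,1) = a (p^{p-1} - 1) = -a`, by
  telescoping of `((i+1)^p - i^p - 1)/p` over `ℤ`. So `a = 0`, and `f = 0`.

`exists_strict_iso`.  Construct the coefficients of `f` one by one. Suppose `f` (a polynomial `X + …`, coefficients in `κ`) satisfies: `G' = f^{-1}(G(f X, f Y))`
agrees with `F` in degrees `< d`, `d ≥ 2`.  As `x^{p^h} = x` in `κ`, `f(X)^{p^h} = f(X^{p^h})`, so `[p]_{G'} = X^{p^h} = [p]_F`.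
Let `Δ` be the homogeneous part of degree `d` of `F - G'`, a symmetric cocycle (compare the associativity of `F` and `G'` in degree `d`; both are
`X + Y + …`), and `[m+1]_F - [m+1]_{G'} ≡ ([m]_F - [m]_{G'}) + Δ(mX, X)` in degree `d`, so `∑_{i<p} Δ(i,1) = 0`. By the lemma
`Δ = c((X+Y)^d - X^d - Y^d)`; replace `f` by `f ∘ (X + c X^d)` (or `- c`, check the sign). Let `d → ∞`.
-/

set_option linter.unusedSectionVars false

namespace Vale.Agent.P217

theorem cocycle_coboundary {κ : Type*} [Field κ] (p : ℕ) [Fact p.Prime] [CharP κ p]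
    (f : MvPolynomial (Fin 2) κ) (d : ℕ) (hd : 2 ≤ d) (hf : f.IsHomogeneous d)
    (hsymm : MvPolynomial.aeval ![MvPolynomial.X 1, MvPolynomial.X 0] f = f)
    (hcoc : MvPolynomial.aeval
        ![(MvPolynomial.X 1 : MvPolynomial (Fin 3) κ), MvPolynomial.X 2] f +
      MvPolynomial.aeval
        ![(MvPolynomial.X 0 : MvPolynomial (Fin 3) κ), MvPolynomial.X 1 + MvPolynomial.X 2] f =
      MvPolynomial.aeval
        ![(MvPolynomial.X 0 + MvPolynomial.X 1 : MvPolynomial (Fin 3) κ), MvPolynomial.X 2] f +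
      MvPolynomial.aeval
        ![(MvPolynomial.X 0 : MvPolynomial (Fin 3) κ), MvPolynomial.X 1] f)
    (hp : ∑ i ∈ Finset.range p, MvPolynomial.eval ![(i : κ), 1] f = 0) :
    ∃ c : κ, f = MvPolynomial.C c *
      ((MvPolynomial.X 0 + MvPolynomial.X 1) ^ d - MvPolynomial.X 0 ^ d - MvPolynomial.X 1 ^ d) := by
  exact cocycle_coboundary_main p f d hd hf hsymm hcoc hp

theorem exists_strict_iso {κ : Type*} [Field κ] (p : ℕ) [Fact p.Prime] [CharP κ p] (h : ℕ)
    (hh : 0 < h) (hκ : ∀ x : κ, x ^ (p ^ h) = x) (F G : FormalGroup κ) [F.IsComm] [G.IsComm]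
    (hF : mulSeries F p = PowerSeries.X ^ (p ^ h)) (hG : mulSeries G p = PowerSeries.X ^ (p ^ h)) :
    ∃ f : PowerSeries κ, IsHom F G f ∧ PowerSeries.coeff 1 f = 1 := by
  refine exists_hom_of_steps F G fun d hd φ hφ => ?_
  obtain ⟨Δ, hΔh, hΔ⟩ := exists_homogeneous hφ.err
  have hd1 : 1 ≤ d := by omega
  obtain ⟨c, hc⟩ := cocycle_coboundary p Δ d hd hΔh (symm_err hφ hΔh hΔ)
    (cocycle hd1 hφ hΔh hΔ) (sum_err_eq_zero p h hκ hd1 hφ hΔh hΔ hF hG)
  refine ⟨c, approx_step hd hφ c ?_⟩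
  rwa [hc] at hΔ

/-- the compositional inverse of a homomorphism is a homomorphism -/
theorem IsHom.exists_inverse {R : Type*} [CommRing R] {F G : FormalGroup R} {f : PowerSeries R}
    (hf : IsHom F G f) (h1 : IsUnit (PowerSeries.coeff 1 f)) :
    ∃ g : PowerSeries R, IsHom G F g ∧ g.subst f = PowerSeries.X ∧ f.subst g = PowerSeries.X := by
  obtain ⟨u, hu⟩ := h1
  have inv : Invertible (PowerSeries.coeff 1 f) := by
    rw [← hu]
    exact u.invertible
  set g := f.substInv with hg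
  have hg0 : PowerSeries.constantCoeff g = 0 := PowerSeries.constantCoeff_substInv f
  have hl : g.subst f = PowerSeries.X := PowerSeries.subst_substInv_left f hf.1
  have hr : f.subst g = PowerSeries.X := PowerSeries.subst_substInv_right f hf.1
  refine ⟨g, ⟨hg0, ?_⟩, hl, hr⟩
  have hfs := hasSubst_of_isHom hf
  have hgs : PowerSeries.HasSubst g := PowerSeries.HasSubst.of_constantCoeff_zero' hg0
  have hg0X := hasSubst_psubst (hasSubst_X (R := R) (0 : Fin 2)) hg0
  have hg1X := hasSubst_psubst (hasSubst_X (R := R) (1 : Fin 2)) hg0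
  have h2 := hf.apply hg0X hg1X
  have h3 : ∀ s : Fin 2, PowerSeries.subst
      (PowerSeries.subst (MvPowerSeries.X s : MvPowerSeries (Fin 2) R) g) f =
      MvPowerSeries.X s := by
    intro s
    rw [← PowerSeries.subst_comp_subst_apply hgs (hasSubst_X s), hr,
      PowerSeries.subst_X (hasSubst_X s)]
  rw [h3, h3, subst_pair_X] at h2
  have hF := hasSubst_subst (hasSubst_pair hg0X hg1X) (hasSubst_F F)
  rw [← h2, ← PowerSeries.subst_comp_subst_apply hfs hF, hl, PowerSeries.subst_X hF]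

end Vale.Agent.P217
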