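import Mathlib.Algebra.GroupWithZero.Submonoid.CancelMulZero
import Vale.Agent.Lib.P217.Core
import Vale.Agent.Lib.P217.Iso
import Vale.Agent.Lib.P217.MainP

/-!
# P217: auxiliary statements for the assembly `relData_false`
-/

set_option linter.unusedSectionVars false

namespace Vale.Agent.P217

open MvPowerSeries Filter Topology

/-- composition of one-variable series and change of coefficients -/
theorem pmap_subst_aux {R S : Type*} [CommRing R] [CommRing S] (φ : R →+* S)
    {f g : PowerSeries R} (hf : PowerSeries.constantCoeff f = 0) :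
    PowerSeries.map φ (PowerSeries.subst f g) =
      PowerSeries.subst (PowerSeries.map φ f) (PowerSeries.map φ g) :=
  PowerSeries.map_subst (PowerSeries.HasSubst.of_constantCoeff_zero' hf) g

section
variable {B : Type*} [CommRing B] [UniformSpace B] [AdicRing B]

/-- composition of homomorphisms on points -/
theorem Pt.hom_hom {F G H : FormalGroup B} [F.IsComm] [G.IsComm] [H.IsComm] {f g : PowerSeries B}
    (hf : IsHom F G f) (hg : IsHom G H g) (x : Pt F) :
    Pt.hom hg (Pt.hom hf x) = Pt.hom (hf.comp hg) x := by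
  apply Pt.ext
  rw [Pt.hom_val, Pt.hom_val, Pt.hom_val, ev1_comp x.tn _ _ hf.1]

/-- the map on points of a homomorphism depends only on its series -/
theorem Pt.hom_congr {F G : FormalGroup B} [F.IsComm] [G.IsComm] {f g : PowerSeries B}
    (hf : IsHom F G f) (hg : IsHom F G g) (h : f = g) (x : Pt F) :
    Pt.hom hf x = Pt.hom hg x := by
  subst h
  rfl

theorem Pt.hom_of_eq_X {F : FormalGroup B} [F.IsComm] {f : PowerSeries B}
    (hf : IsHom F F f) (h : f = PowerSeries.X) (x : Pt F) :
    Pt.hom hf x = x := by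
  apply Pt.ext
  rw [Pt.hom_val, h]
  exact ev_X _ _

end

section
variable {K : Type*} [NontriviallyNormedField K] [IsUltrametricDist K] [CompleteSpace K]
  [IsAlgClosed K] {p : ℕ} [Fact p.Prime] [CharP K p]

theorem uc_zero_surjective {F : FormalGroup (OO K)} [F.IsComm] {h r : ℕ} {V : PowerSeries (OO K)}
    (H : HtData p F h r V) : Function.Surjective fun z : UC F p => z.1 0 := by
  choose g hg using p_smul_surjective H
  intro y
  refine ⟨⟨fun l => g^[l] y, fun l => ?_⟩, rfl⟩
  change p • g^[l + 1] y = g^[l] y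
  rw [Function.iterate_succ_apply']
  exact hg _

/-- solutions of `a^N = a` come from a field containing a primitive `(N-1)`-th root of unity -/
theorem exists_preimage_of_pow_eq {k : Type*} [Field k] (ι : k →+* OO K) {N : ℕ} (hN : 2 ≤ N)
    (hk' : ∃ ζ : k, IsPrimitiveRoot ζ (N - 1)) (a : OO K) (ha : a ^ N = a) :
    ∃ a₀ : k, ι a₀ = a := by
  obtain ⟨ζ, hζ⟩ := hk'
  by_cases h0 : a = 0
  · exact ⟨0, by rw [map_zero, h0]⟩
  have h1 : a ^ (N - 1) = 1 := by
    have h2 : a ^ (N - 1) * a = 1 * a := by
      rw [← pow_succ, Nat.sub_add_cancel (by omega), ha, one_mul]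
    exact mul_right_cancel₀ h0 h2
  have : NeZero (N - 1) := ⟨by omega⟩
  obtain ⟨i, -, hi⟩ := (hζ.map_of_injective ι.injective).eq_pow_of_pow_eq_one h1
  exact ⟨ζ ^ i, by rw [map_pow, hi]⟩

variable {h : ℕ} [Fact (0 < h)]

instance instCharP_FixF : CharP (FixF K p h) p :=
  (algebraMap (FixF K p h) K).charP (algebraMap (FixF K p h) K).injective p

theorem pow_FixF (x : FixF K p h) : x ^ (p ^ h) = x := Subtype.ext x.2

/-- endomorphisms of the Honda law over `FixF` -/
theorem isEnd_of_FixF (hh : 0 < h) {χ : PowerSeries (FixF K p h)}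
    (hχ : IsHom (honda (FixF K p h) p h hh) (honda (FixF K p h) p h hh) χ) :
    IsEnd p hh (χ.map (algebraMap (FixF K p h) (OO K))) := by
  refine ⟨?_, fun d => ?_⟩
  · have h1 := hχ.map (algebraMap (FixF K p h) (OO K))
    rwa [honda_map] at h1
  · rw [PowerSeries.coeff_map, ← map_pow, pow_FixF]

end
end Vale.Agent.P217
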