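import Vale.Agent.Lib.P217.Pt
import Vale.Agent.Lib.P217.Taylor

/-!
# P217: universal covers (module A6)

`UC F p` is the group of sequences `z` of points of `F` with `p • z (l+1) = z l`.

`existsUnique_lift`: `z l = lim_k p^k • y (l + k)`: the differences
`p^k • (p • y (l+k+1) - y (l+k))` tend to `0` uniformly by `hJ`, and are in `J` (a closed ideal,
`Pt.inIdeal`).  Convergence: Cauchy for the linear topology, using `Pt.sub_val_mem_iff` for open
ideals (open ideals are closed); `p •` is continuous for the same reason.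
Uniqueness: for two solutions `z, z'`, `z l - z' l = p^k • (z (l+k) - z' (l+k)) → 0`.

`uc_lift`, `uc_ext`: the case `B = OO K`, `J = {‖·‖ ≤ c}`: since `[p]_F ≡ X^q` modulo `J`, `q ≥ 2`,
`‖p • y‖ ≤ c ‖y‖` for `‖y‖ ≤ c`.

`exists_ucMap`: `y l = e (z l)`. `ApproxHom c F G e` says that `e` is a homomorphism modulo `c`.
Additivity etc. follow from `uc_ext`.

`exists_uLift`: the case `B = OO K[[Δ]]`, `J = {f : ‖f(0)‖ ≤ c}`. Here `hq'` says that
`[p]_F ≡ X^q` modulo `J`, and the ideals `J_i = {f : ‖coeff_α f‖ ≤ c^{i - |α|}}` (`i ≥ 1`, natural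
subtraction, so no condition for `|α| ≥ i`) are closed, `J_1 = J`, `J_1 J_i ⊆ J_{i+1}` and they
tend to `0`; if `y ∈ J_i` then `p • y ∈ J_{i+1}`.
-/

set_option linter.unusedSectionVars false

namespace Vale.Agent.P217

open MvPowerSeries Filter Topology
open scoped MvPowerSeries.WithPiTopology

section general
variable {B : Type*} [CommRing B] [UniformSpace B] [AdicRing B]

/-- compatible sequences under multiplication by `p` -/
def UC (F : FormalGroup B) [F.IsComm] (p : ℕ) : AddSubgroup (ℕ → Pt F) where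
  carrier := {z | ∀ l, p • z (l + 1) = z l}
  add_mem' := by
    intro a b ha hb l
    simp only [Set.mem_ofPred_eq, Pi.add_apply] at *
    rw [nsmul_add, ha, hb]
  zero_mem' := by
    intro l
    simp
  neg_mem' := by
    intro a ha l
    simp only [Set.mem_ofPred_eq, Pi.neg_apply] at *
    rw [neg_nsmul, ha]

/-- an element of all open ideals is zero -/
theorem eq_zero_of_open_ideals {x : B} (h : ∀ I : Ideal B, IsOpen (I : Set B) → x ∈ I) :
    x = 0 := by
  by_contra hx
  have h1 : {x}ᶜ ∈ 𝓝 (0 : B) := isOpen_compl_singleton.mem_nhds (fun h0 => hx h0.symm)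
  obtain ⟨I, hI, hIx⟩ := (IsLinearTopology.hasBasis_open_ideal (R := B)).mem_iff.mp h1
  exact hIx (h I hI) rfl

theorem isClosed_of_isOpen_ideal {I : Ideal B} (hI : IsOpen (I : Set B)) :
    IsClosed (I : Set B) :=
  AddSubgroup.isClosed_of_isOpen I.toAddSubgroup hI

/-- equality of points from congruences modulo all open ideals -/
theorem Pt.eq_of_open_ideals {F : FormalGroup B} [F.IsComm] {x y : Pt F}
    (h : ∀ I : Ideal B, IsOpen (I : Set B) → (x - y).val ∈ I) : x = y := by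
  have h1 : (x - y).val = 0 := eq_zero_of_open_ideals h
  have h2 : x - y = 0 := by
    ext
    exact h1
  exact sub_eq_zero.mp h2

/-- points of a closed ideal are stable under multiples -/
theorem Pt.nsmul_mem (F : FormalGroup B) [F.IsComm] (J : Ideal B) (hJ : IsClosed (J : Set B))
    (m : ℕ) {x : Pt F} (hx : x.val ∈ J) : (m • x).val ∈ J :=
  (Pt.inIdeal F J hJ).nsmul_mem (x := x) hx m

theorem Pt.sub_mem' (F : FormalGroup B) [F.IsComm] (J : Ideal B) (hJ : IsClosed (J : Set B))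
    {x y : Pt F} (hx : x.val ∈ J) (hy : y.val ∈ J) : (x - y).val ∈ J :=
  (Pt.inIdeal F J hJ).sub_mem (x := x) (y := y) hx hy

theorem Pt.add_mem' (F : FormalGroup B) [F.IsComm] (J : Ideal B) (hJ : IsClosed (J : Set B))
    {x y : Pt F} (hx : x.val ∈ J) (hy : y.val ∈ J) : (x + y).val ∈ J :=
  (Pt.inIdeal F J hJ).add_mem (x := x) (y := y) hx hy

/-- limits of Cauchy sequences of points -/
theorem Pt.exists_limit (F : FormalGroup B) [F.IsComm] (s : ℕ → Pt F)
    (hs : ∀ I : Ideal B, IsOpen (I : Set B) → ∃ k₀, ∀ k ≥ k₀, (s (k + 1) - s k).val ∈ I) :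
    ∃ z : Pt F, ∀ I : Ideal B, IsOpen (I : Set B) → ∃ k₀, ∀ k ≥ k₀, (z - s k).val ∈ I := by
  have hdiff : ∀ I : Ideal B, IsOpen (I : Set B) → ∃ k₀, ∀ k ≥ k₀, ∀ j,
      (s (k + j) - s k).val ∈ I := by
    intro I hI
    obtain ⟨k₀, hk₀⟩ := hs I hI
    refine ⟨k₀, fun k hk j => ?_⟩
    induction j with
    | zero => rw [add_zero, sub_self]; exact I.zero_mem
    | succ j ih =>
      have e : s (k + (j + 1)) - s k = (s (k + j + 1) - s (k + j)) + (s (k + j) - s k) := by
        rw [← add_assoc]; abel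
      rw [e]
      exact Pt.add_mem' F I (isClosed_of_isOpen_ideal hI) (hk₀ (k + j) (by omega)) ih
  have hcauchy : CauchySeq (fun k => (s k).val) := by
    rw [(IsLinearTopology.hasBasis_open_ideal (R := B)).uniformity_of_nhds_zero.cauchySeq_iff]
    intro I hI
    obtain ⟨k₀, hk₀⟩ := hdiff I hI
    have h1 : ∀ k ≥ k₀, (s k).val - (s k₀).val ∈ I := by
      intro k hk
      obtain ⟨j, rfl⟩ := Nat.exists_eq_add_of_le hk
      exact (Pt.sub_val_mem_iff I (isClosed_of_isOpen_ideal hI) _ _).mp (hk₀ k₀ (le_refl _) j)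
    refine ⟨k₀, fun m hm k hk => ?_⟩
    have h2 := I.sub_mem (h1 k hk) (h1 m hm)
    have e : (s k).val - (s k₀).val - ((s m).val - (s k₀).val) = (s k).val - (s m).val := by ring
    rw [e] at h2
    exact h2
  obtain ⟨b, hb⟩ := cauchySeq_tendsto_of_complete hcauchy
  have hlim : ∀ I : Ideal B, IsOpen (I : Set B) → ∃ k₀, ∀ k ≥ k₀, b - (s k).val ∈ I := by
    intro I hI
    have h1 : Tendsto (fun k => b - (s k).val) atTop (𝓝 (b - b)) := tendsto_const_nhds.sub hb
    rw [sub_self] at h1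
    have h2 := h1.eventually (hI.mem_nhds I.zero_mem)
    rw [eventually_atTop] at h2
    exact h2
  have htn : IsTopologicallyNilpotent b := by
    unfold IsTopologicallyNilpotent
    rw [(IsLinearTopology.hasBasis_open_ideal (R := B)).tendsto_right_iff]
    intro I hI
    obtain ⟨k₀, hk₀⟩ := hlim I hI
    have h1 := (s k₀).tn
    unfold IsTopologicallyNilpotent at h1
    rw [(IsLinearTopology.hasBasis_open_ideal (R := B)).tendsto_right_iff] at h1
    refine (h1 I hI).mono fun i hi => ?_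
    have h2 : b ^ i - (s k₀).val ^ i ∈ I :=
      Ideal.mem_of_dvd I (sub_dvd_pow_sub_pow _ _ i) (hk₀ k₀ (le_refl _))
    have h3 := I.add_mem h2 hi
    rwa [sub_add_cancel] at h3
  refine ⟨⟨b, htn⟩, fun I hI => ?_⟩
  obtain ⟨k₀, hk₀⟩ := hlim I hI
  exact ⟨k₀, fun k hk => (Pt.sub_val_mem_iff I (isClosed_of_isOpen_ideal hI) _ _).mpr (hk₀ k hk)⟩

theorem existsUnique_lift (F : FormalGroup B) [F.IsComm] (p : ℕ) (J : Ideal B)
    (hJc : IsClosed (J : Set B))
    (hJ : ∀ U ∈ 𝓝 (0 : B), ∃ k₀, ∀ k ≥ k₀, ∀ y : Pt F, y.val ∈ J → (p ^ k • y).val ∈ U)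
    (y : ℕ → Pt F) (hy : ∀ l, (p • y (l + 1) - y l).val ∈ J) :
    ∃! z : ℕ → Pt F, (∀ l, p • z (l + 1) = z l) ∧ ∀ l, (z l - y l).val ∈ J := by
  -- the approximations
  set s : ℕ → ℕ → Pt F := fun l k => p ^ k • y (l + k) with hs
  have hstep : ∀ l k, s l (k + 1) - s l k = p ^ k • (p • y (l + k + 1) - y (l + k)) := by
    intro l k
    simp only [hs]
    rw [nsmul_sub, smul_smul, ← pow_succ, ← add_assoc]
  have hex : ∀ l, ∃ z : Pt F, ∀ I : Ideal B, IsOpen (I : Set B) →
      ∃ k₀, ∀ k ≥ k₀, (z - s l k).val ∈ I := by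
    intro l
    refine Pt.exists_limit F (s l) fun I hI => ?_
    obtain ⟨k₀, hk₀⟩ := hJ I (hI.mem_nhds I.zero_mem)
    refine ⟨k₀, fun k hk => ?_⟩
    rw [hstep]
    exact hk₀ k hk _ (hy (l + k))
  choose z hz using hex
  have hzJ : ∀ l, (z l - y l).val ∈ J := by
    intro l
    have hsJ : ∀ k, (s l k - y l).val ∈ J := by
      intro k
      induction k with
      | zero =>
        have : s l 0 - y l = 0 := by
          simp only [hs, pow_zero, one_nsmul, add_zero, sub_self]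
        rw [this]; exact J.zero_mem
      | succ k ih =>
        have e : s l (k + 1) - y l = (s l (k + 1) - s l k) + (s l k - y l) := by abel
        rw [e]
        refine Pt.add_mem' F J hJc ?_ ih
        rw [hstep]
        exact Pt.nsmul_mem F J hJc _ (hy (l + k))
    rw [Pt.sub_val_mem_iff J hJc]
    have hlim : Tendsto (fun k => (s l k).val - (y l).val) atTop (𝓝 ((z l).val - (y l).val)) := by
      refine Tendsto.sub ?_ tendsto_const_nhds
      rw [← tendsto_sub_nhds_zero_iff]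
      rw [(IsLinearTopology.hasBasis_open_ideal (R := B)).tendsto_right_iff]
      intro I hI
      obtain ⟨k₀, hk₀⟩ := hz l I hI
      rw [eventually_atTop]
      refine ⟨k₀, fun k hk => ?_⟩
      have h1 := (Pt.sub_val_mem_iff I (isClosed_of_isOpen_ideal hI) _ _).mp (hk₀ k hk)
      have h2 := I.neg_mem h1
      rwa [neg_sub] at h2
    refine hJc.mem_of_tendsto hlim (Eventually.of_forall fun k => ?_)
    exact (Pt.sub_val_mem_iff J hJc _ _).mp (hsJ k)
  have hzp : ∀ l, p • z (l + 1) = z l := by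
    intro l
    refine Pt.eq_of_open_ideals fun I hI => ?_
    obtain ⟨k₁, hk₁⟩ := hz (l + 1) I hI
    obtain ⟨k₂, hk₂⟩ := hz l I hI
    set k := max k₁ k₂
    have h1 := Pt.nsmul_mem F I (isClosed_of_isOpen_ideal hI) p (hk₁ k (le_max_left _ _))
    have h2 := hk₂ (k + 1) (le_trans (le_max_right _ _) (Nat.le_succ _))
    have e : p • z (l + 1) - z l = p • (z (l + 1) - s (l + 1) k) - (z l - s l (k + 1)) := by
      have e1 : p • s (l + 1) k = s l (k + 1) := by
        simp only [hs]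
        rw [smul_smul, ← pow_succ']
        congr 2
        omega
      rw [nsmul_sub, e1]
      abel
    rw [e]
    exact Pt.sub_mem' F I (isClosed_of_isOpen_ideal hI) h1 h2
  refine ⟨z, ⟨hzp, hzJ⟩, ?_⟩
  rintro z' ⟨hz'p, hz'J⟩
  funext l
  refine Pt.eq_of_open_ideals fun I hI => ?_
  obtain ⟨k₀, hk₀⟩ := hJ I (hI.mem_nhds I.zero_mem)
  have hpow : ∀ (w : ℕ → Pt F), (∀ l, p • w (l + 1) = w l) → ∀ k l, p ^ k • w (l + k) = w l := by
    intro w hw k
    induction k with
    | zero => intro l; simp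
    | succ k ih =>
      intro l
      rw [pow_succ, ← smul_smul, ← add_assoc, hw, ih]
  have e : z' l - z l = p ^ k₀ • (z' (l + k₀) - z (l + k₀)) := by
    rw [nsmul_sub, hpow z' hz'p, hpow z hzp]
  rw [e]
  refine hk₀ k₀ (le_refl _) _ ?_
  have e2 : z' (l + k₀) - z (l + k₀) = (z' (l + k₀) - y (l + k₀)) - (z (l + k₀) - y (l + k₀)) := by
    abel
  rw [e2]
  exact Pt.sub_mem' F J hJc (hz'J _) (hzJ _)

end general

section field
variable {K : Type*} [NontriviallyNormedField K] [IsUltrametricDist K] [CompleteSpace K]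
  {p : ℕ}

/-- `[p]_F` is congruent to `X^q` modulo `{‖·‖ ≤ c}` -/
def PCong (p q : ℕ) (c : ℝ) (F : FormalGroup (OO K)) : Prop :=
  ∀ i, ‖((PowerSeries.coeff i (mulSeries F p - PowerSeries.X ^ q) : OO K) : K)‖ ≤ c

/-- `e` is a homomorphism `F → G` modulo `{‖·‖ ≤ c}` -/
def ApproxHom (c : ℝ) (F G : FormalGroup (OO K)) (e : PowerSeries (OO K)) : Prop :=
  PowerSeries.constantCoeff e = 0 ∧
  ∀ d : Fin 2 →₀ ℕ, ‖((coeff d (PowerSeries.subst F.toPowerSeries e -
    MvPowerSeries.subst ![PowerSeries.subst (X 0 : MvPowerSeries (Fin 2) (OO K)) e,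
      PowerSeries.subst (X 1 : MvPowerSeries (Fin 2) (OO K)) e] G.toPowerSeries) : OO K) : K)‖ ≤ c

variable {F G : FormalGroup (OO K)} [F.IsComm] [G.IsComm] {q : ℕ} {c : ℝ}

/-- `[p]_F` contracts the ball of radius `c` -/
theorem uc_nm_p_smul_le (hq2 : 2 ≤ q) (hc0 : 0 ≤ c) (hF : PCong p q c F) (x : Pt F)
    (hx : Pt.nm x ≤ c) : Pt.nm (p • x) ≤ c * Pt.nm x := by
  have hb := hasEval_unit x.tn
  have hnn : 0 ≤ c * Pt.nm x := mul_nonneg hc0 (Pt.nm_nonneg x)
  unfold Pt.nm
  rw [Pt.nsmul_val]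
  have e1 : ev1 x.val (mulSeries F p) =
      ev1 x.val (mulSeries F p - PowerSeries.X ^ q) + x.val ^ q := by
    have h1 := ev_sub hb (mulSeries F p) ((X () : MvPowerSeries Unit (OO K)) ^ q)
    rw [ev_pow hb, ev_X] at h1
    have h2 : ev1 x.val (mulSeries F p - PowerSeries.X ^ q) =
      ev1 x.val (mulSeries F p) - x.val ^ q := h1
    rw [h2]; ring
  have h2 : ev1 x.val (mulSeries F p - PowerSeries.X ^ q) ∈ ballIdeal K (c * Pt.nm x) hnn := by
    refine ev_mem_of_closed hb _ _ (isClosed_ballIdeal _ _) fun d => ?_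
    rw [mem_ballIdeal]
    by_cases hd : d = 0
    · subst hd
      have h0 : (coeff (0 : Unit →₀ ℕ)) (mulSeries F p - PowerSeries.X ^ q) = 0 := by
        have h3 : PowerSeries.constantCoeff (mulSeries F p - PowerSeries.X ^ q) = 0 := by
          rw [map_sub, mulSeries_constantCoeff, map_pow, PowerSeries.constantCoeff_X,
            zero_pow (by omega), sub_zero]
        exact h3
      rw [h0, zero_mul]
      simpa using hnn
    · have hd' : d () ≠ 0 := fun h => hd (by ext; simpa using h)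
      simp only [Finsupp.prod_fintype, Finset.univ_unique, Finset.prod_singleton, pow_zero,
        implies_true, Subring.coe_mul, Subring.coe_pow, norm_mul, norm_pow]
      refine mul_le_mul ?_ ?_ (by positivity) hc0
      · have h4 := hF (d ())
        have h5 : (coeff d) (mulSeries F p - PowerSeries.X ^ q) =
            PowerSeries.coeff (d ()) (mulSeries F p - PowerSeries.X ^ q) := by
          unfold PowerSeries.coeff
          congr 1
          have : Finsupp.single () (d ()) = d := by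
            ext; simp
          rw [this]
        rw [h5]
        exact h4
      · exact pow_le_of_le_one (norm_nonneg _) (norm_le_one _) hd'
  have h3 : x.val ^ q ∈ ballIdeal K (c * Pt.nm x) hnn := by
    rw [mem_ballIdeal]
    push_cast
    rw [norm_pow]
    obtain ⟨j, rfl⟩ := Nat.exists_eq_add_of_le hq2
    rw [pow_add, pow_two]
    calc ‖(x.val : K)‖ * ‖(x.val : K)‖ * ‖(x.val : K)‖ ^ j
        ≤ ‖(x.val : K)‖ * ‖(x.val : K)‖ * 1 := by
          gcongr
          exact pow_le_one₀ (norm_nonneg _) (norm_le_one _)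
      _ ≤ c * Pt.nm x := by
          rw [mul_one]
          exact mul_le_mul_of_nonneg_right hx (norm_nonneg _)
  rw [e1]
  exact (ballIdeal K (c * Pt.nm x) hnn).add_mem h2 h3

theorem uc_nm_pow_smul_le (hq2 : 2 ≤ q) (hc0 : 0 ≤ c) (hc1 : c < 1) (hF : PCong p q c F) (x : Pt F)
    (hx : Pt.nm x ≤ c) (k : ℕ) : Pt.nm (p ^ k • x) ≤ c ^ k := by
  have key : Pt.nm (p ^ k • x) ≤ c ^ k * Pt.nm x := by
    induction k with
    | zero => simp
    | succ k ih =>
      have h1 : Pt.nm (p ^ k • x) ≤ c := (Pt.nm_nsmul_le _ _).trans hx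
      rw [pow_succ', ← smul_smul]
      calc Pt.nm (p • p ^ k • x) ≤ c * Pt.nm (p ^ k • x) := uc_nm_p_smul_le hq2 hc0 hF _ h1
        _ ≤ c * (c ^ k * Pt.nm x) := mul_le_mul_of_nonneg_left ih hc0
        _ = c ^ (k + 1) * Pt.nm x := by ring
  refine key.trans ?_
  exact mul_le_of_le_one_right (pow_nonneg hc0 _) (Pt.nm_lt_one x).le

theorem ball_hJ (hq2 : 2 ≤ q) (hc0 : 0 ≤ c) (hc1 : c < 1) (hF : PCong p q c F) :
    ∀ U ∈ 𝓝 (0 : OO K), ∃ k₀, ∀ k ≥ k₀, ∀ y : Pt F, y.val ∈ ballIdeal K c hc0 →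
      (p ^ k • y).val ∈ U := by
  intro U hU
  obtain ⟨ε, hε, hεU⟩ := Metric.mem_nhds_iff.mp hU
  have h1 := (tendsto_pow_atTop_nhds_zero_of_lt_one hc0 hc1).eventually (gt_mem_nhds hε)
  rw [eventually_atTop] at h1
  obtain ⟨k₀, hk₀⟩ := h1
  refine ⟨k₀, fun k hk y hy => hεU ?_⟩
  rw [mem_ball_zero_iff]
  exact (uc_nm_pow_smul_le hq2 hc0 hc1 hF y hy k).trans_lt (hk₀ k hk)

theorem uc_lift (hq2 : 2 ≤ q) (hc0 : 0 ≤ c) (hc1 : c < 1) (hF : PCong p q c F) (y : ℕ → Pt F)
    (hy : ∀ l, Pt.nm (p • y (l + 1) - y l) ≤ c) :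
    ∃ z : UC F p, ∀ l, Pt.nm (z.1 l - y l) ≤ c := by
  obtain ⟨z, ⟨h1, h2⟩, -⟩ := existsUnique_lift F p (ballIdeal K c hc0) (isClosed_ballIdeal _ _)
    (ball_hJ hq2 hc0 hc1 hF) y hy
  exact ⟨⟨z, h1⟩, h2⟩

theorem uc_ext (hq2 : 2 ≤ q) (hc0 : 0 ≤ c) (hc1 : c < 1) (hF : PCong p q c F) (z z' : UC F p)
    (h : ∀ l, ‖((z.1 l).val : K) - (z'.1 l).val‖ ≤ c) : z = z' := by
  have hz' : ∀ l, (p • z'.1 (l + 1) - z'.1 l).val ∈ ballIdeal K c hc0 := by
    intro l
    rw [z'.2 l, sub_self]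
    exact (ballIdeal K c hc0).zero_mem
  have h1 := (existsUnique_lift F p (ballIdeal K c hc0) (isClosed_ballIdeal _ _)
    (ball_hJ hq2 hc0 hc1 hF) z'.1 hz').unique (y₁ := z.1) (y₂ := z'.1) ⟨z.2, fun l => ?_⟩
    ⟨z'.2, fun l => ?_⟩
  · exact Subtype.ext h1
  · have h2 := h l
    rw [← Pt.nm_sub] at h2
    exact h2
  · rw [sub_self]
    exact (ballIdeal K c hc0).zero_mem

/-- an approximate homomorphism induces a homomorphism of universal covers -/
theorem exists_ucMap (hq2 : 2 ≤ q) (hc0 : 0 ≤ c) (hc1 : c < 1) (hF : PCong p q c F)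
    (hG : PCong p q c G) (e : PowerSeries (OO K)) (he : ApproxHom c F G e) :
    ∃ Φ : UC F p →+ UC G p, ∀ z l,
      ‖((((Φ z).1 l).val : OO K) : K) - ((ev1 (z.1 l).val e : OO K) : K)‖ ≤ c := by
  set E : Pt F → Pt G := fun x => Pt.app G e he.1 x with hE
  have hcl := isClosed_ballIdeal (K := K) c hc0
  -- `E` is additive modulo `c`
  have hadd : ∀ x y : Pt F, (E (x + y) - (E x + E y)).val ∈ ballIdeal K c hc0 := by
    intro x y
    rw [Pt.sub_val_mem_iff _ hcl]
    have hb := hasEval_pair x.tn y.tn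
    have hX : ∀ i : Fin 2, constantCoeff (X i : MvPowerSeries (Fin 2) (OO K)) = 0 := by
      intro i; simp
    have hc : ∀ i : Fin 2, constantCoeff
        (PowerSeries.subst (X i : MvPowerSeries (Fin 2) (OO K)) e) = 0 := by
      intro i
      apply constantCoeff_subst_eq_zero (hasSubst_single_of_zero (hX i))
      · intro _; exact hX i
      · exact he.1
    have e1 : ∀ i : Fin 2, ev ![x.val, y.val]
        (PowerSeries.subst (X i : MvPowerSeries (Fin 2) (OO K)) e) =
          ev1 (![x.val, y.val] i) e := by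
      intro i
      have := ev_subst (hasSubst_single_of_zero (hX i)) hb e
      rw [ev_X] at this
      exact this
    have e2 : ev ![x.val, y.val] (PowerSeries.subst F.toPowerSeries e) =
        ev1 (ev ![x.val, y.val] F.toPowerSeries) e :=
      ev_subst (hasSubst_single_of_zero F.zero_constantCoeff) hb e
    have h1 : ev ![x.val, y.val] (PowerSeries.subst F.toPowerSeries e -
        MvPowerSeries.subst ![PowerSeries.subst (X 0 : MvPowerSeries (Fin 2) (OO K)) e,
        PowerSeries.subst (X 1 : MvPowerSeries (Fin 2) (OO K)) e] G.toPowerSeries) ∈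
        ballIdeal K c hc0 := by
      refine ev_mem_of_closed hb _ _ hcl fun d => ?_
      exact Ideal.mul_mem_right _ _ (he.2 d)
    rw [ev_sub hb, ev_subst_pair hb (hasSubst_pair_of_zero (hc 0) (hc 1)), e1, e1, e2] at h1
    exact h1
  have hzero : (E 0).val ∈ ballIdeal K c hc0 := by
    have h0 : (E 0).val = 0 := ev1_zero e he.1
    rw [h0]
    exact (ballIdeal K c hc0).zero_mem
  have hnsmul : ∀ (m : ℕ) (x : Pt F), (E (m • x) - m • E x).val ∈ ballIdeal K c hc0 := by
    intro m x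
    induction m with
    | zero =>
      rw [zero_nsmul, zero_nsmul, sub_zero]
      exact hzero
    | succ m ih =>
      have e1 : E ((m + 1) • x) - (m + 1) • E x =
          (E (m • x + x) - (E (m • x) + E x)) + (E (m • x) - m • E x) := by
        rw [succ_nsmul, succ_nsmul]; abel
      rw [e1]
      exact Pt.add_mem' G _ hcl (hadd _ _) ih
  have hex : ∀ z : UC F p, ∃ w : UC G p, ∀ l, (w.1 l - E (z.1 l)).val ∈ ballIdeal K c hc0 := by
    intro z
    refine uc_lift hq2 hc0 hc1 hG (fun l => E (z.1 l)) fun l => ?_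
    have h1 := hnsmul p (z.1 (l + 1))
    rw [z.2 l] at h1
    have h2 := (Pt.inIdeal G _ hcl).neg_mem (x := E (z.1 l) - p • E (z.1 (l + 1))) h1
    rw [neg_sub] at h2
    exact h2
  choose Φ hΦ using hex
  have hmod : ∀ (w w' : UC G p), (∀ l, (w.1 l - w'.1 l).val ∈ ballIdeal K c hc0) → w = w' := by
    intro w w' h
    refine uc_ext hq2 hc0 hc1 hG w w' fun l => ?_
    rw [← Pt.nm_sub]
    exact h l
  refine ⟨⟨⟨Φ, ?_⟩, ?_⟩, ?_⟩
  · refine hmod _ _ fun l => ?_
    have h1 := hΦ 0 l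
    have e1 : (Φ 0).1 l - (0 : UC G p).1 l =
        ((Φ 0).1 l - E ((0 : UC F p).1 l)) + E ((0 : UC F p).1 l) := by
      have : (0 : UC G p).1 l = 0 := rfl
      rw [this]; abel
    rw [e1]
    exact Pt.add_mem' G _ hcl h1 hzero
  · intro z w
    refine hmod _ _ fun l => ?_
    have h1 := hΦ (z + w) l
    have h2 := hΦ z l
    have h3 := hΦ w l
    have h4 := hadd (z.1 l) (w.1 l)
    have e1 : (Φ (z + w)).1 l - (Φ z + Φ w).1 l =
        ((Φ (z + w)).1 l - E ((z + w).1 l)) +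
        ((E (z.1 l + w.1 l) - (E (z.1 l) + E (w.1 l))) -
          (((Φ z).1 l - E (z.1 l)) + ((Φ w).1 l - E (w.1 l)))) := by
      have a1 : (Φ z + Φ w).1 l = (Φ z).1 l + (Φ w).1 l := rfl
      have a2 : (z + w).1 l = z.1 l + w.1 l := rfl
      rw [a1, a2]; abel
    rw [e1]
    exact Pt.add_mem' G _ hcl h1 (Pt.sub_mem' G _ hcl h4 (Pt.add_mem' G _ hcl h2 h3))
  · intro z l
    have h1 := hΦ z l
    rw [Pt.sub_val_mem_iff _ hcl] at h1
    exact h1

end field

section formal
variable {K : Type*} [NontriviallyNormedField K] [IsUltrametricDist K] [CompleteSpace K]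
  {p : ℕ} {r : ℕ}

theorem norm_coeff_mul_le {c : ℝ} (hc0 : 0 ≤ c) (hc1 : c ≤ 1) {i j : ℕ}
    {f g : MvPowerSeries (Fin r) (OO K)}
    (hf : ∀ α : Fin r →₀ ℕ, ‖((coeff α f : OO K) : K)‖ ≤ c ^ (i - α.degree))
    (hg : ∀ α : Fin r →₀ ℕ, ‖((coeff α g : OO K) : K)‖ ≤ c ^ (j - α.degree))
    (α : Fin r →₀ ℕ) : ‖((coeff α (f * g) : OO K) : K)‖ ≤ c ^ (i + j - α.degree) := by
  rw [coeff_mul]
  rw [AddSubmonoidClass.coe_finsetSum]
  refine IsUltrametricDist.norm_sum_le_of_forall_le_of_nonneg (pow_nonneg hc0 _) fun x hx => ?_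
  rw [Subring.coe_mul, norm_mul]
  have hd : x.1.degree + x.2.degree = α.degree := by
    rw [← Finset.HasAntidiagonal.mem_antidiagonal.1 hx, map_add]
  calc ‖((coeff x.1 f : OO K) : K)‖ * ‖((coeff x.2 g : OO K) : K)‖
      ≤ c ^ (i - x.1.degree) * c ^ (j - x.2.degree) :=
        mul_le_mul (hf _) (hg _) (norm_nonneg _) (pow_nonneg hc0 _)
    _ = c ^ (i - x.1.degree + (j - x.2.degree)) := (pow_add _ _ _).symm
    _ ≤ c ^ (i + j - α.degree) := pow_le_pow_of_le_one hc0 hc1 (by omega)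

/-- the ideals `J_i = {f : ‖coeff_α f‖ ≤ c^{i - |α|}}` -/
def JJ (K : Type*) [NontriviallyNormedField K] [IsUltrametricDist K] [CompleteSpace K] (r : ℕ)
    (c : ℝ) (hc0 : 0 ≤ c) (hc1 : c ≤ 1) (i : ℕ) : Ideal (MvPowerSeries (Fin r) (OO K)) where
  carrier := {f | ∀ α : Fin r →₀ ℕ, ‖((coeff α f : OO K) : K)‖ ≤ c ^ (i - α.degree)}
  add_mem' {a b} ha hb := by
    intro α
    rw [map_add, Subring.coe_add]
    exact (IsUltrametricDist.norm_add_le_max _ _).trans (max_le (ha α) (hb α))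
  zero_mem' := by
    intro α
    simp [pow_nonneg hc0]
  smul_mem' a b hb := by
    intro α
    rw [smul_eq_mul]
    have := norm_coeff_mul_le hc0 hc1 (i := 0) (j := i) (f := a) (g := b)
      (fun β => by simpa using norm_le_one _) hb α
    rwa [zero_add] at this

theorem mem_JJ {c : ℝ} {hc0 : 0 ≤ c} {hc1 : c ≤ 1} {i : ℕ} {f : MvPowerSeries (Fin r) (OO K)} :
    f ∈ JJ K r c hc0 hc1 i ↔ ∀ α : Fin r →₀ ℕ, ‖((coeff α f : OO K) : K)‖ ≤ c ^ (i - α.degree) :=
  Iff.rfl

theorem isClosed_JJ (c : ℝ) (hc0 : 0 ≤ c) (hc1 : c ≤ 1) (i : ℕ) :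
    IsClosed (JJ K r c hc0 hc1 i : Set (MvPowerSeries (Fin r) (OO K))) := by
  have : (JJ K r c hc0 hc1 i : Set (MvPowerSeries (Fin r) (OO K))) =
      ⋂ α : Fin r →₀ ℕ, (coeff α : MvPowerSeries (Fin r) (OO K) → OO K) ⁻¹'
        (ballIdeal K (c ^ (i - α.degree)) (pow_nonneg hc0 _) : Set (OO K)) := by
    ext f
    simp [mem_JJ]
  rw [this]
  exact isClosed_iInter fun α => (isClosed_ballIdeal _ _).preimage
    (MvPowerSeries.WithPiTopology.continuous_coeff (OO K) α)

theorem mem_JJ_one {c : ℝ} (hc0 : 0 ≤ c) (hc1 : c ≤ 1) (f : MvPowerSeries (Fin r) (OO K)) :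
    f ∈ JJ K r c hc0 hc1 1 ↔ ‖((constantCoeff f : OO K) : K)‖ ≤ c := by
  rw [mem_JJ]
  constructor
  · intro h
    have := h 0
    simpa using this
  · intro h α
    by_cases hα : α = 0
    · subst hα
      simpa using h
    · have : 1 ≤ α.degree := by
        rcases Nat.eq_zero_or_pos α.degree with h0 | h0
        · exact absurd ((Finsupp.degree_eq_zero_iff α).1 h0) hα
        · exact h0
      rw [Nat.sub_eq_zero_of_le this, pow_zero]
      exact norm_le_one _

theorem mul_mem_JJ {c : ℝ} {hc0 : 0 ≤ c} {hc1 : c ≤ 1} {i j : ℕ}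
    {f g : MvPowerSeries (Fin r) (OO K)} (hf : f ∈ JJ K r c hc0 hc1 i)
    (hg : g ∈ JJ K r c hc0 hc1 j) : f * g ∈ JJ K r c hc0 hc1 (i + j) :=
  norm_coeff_mul_le hc0 hc1 hf hg

theorem JJ_anti {c : ℝ} {hc0 : 0 ≤ c} {hc1 : c ≤ 1} {i j : ℕ} (hij : i ≤ j) :
    JJ K r c hc0 hc1 j ≤ JJ K r c hc0 hc1 i := by
  intro f hf α
  exact (hf α).trans (pow_le_pow_of_le_one hc0 hc1 (by omega))

/-- the ideals `J_i` tend to zero -/
theorem exists_JJ_subset {c : ℝ} (hc0 : 0 ≤ c) (hc1 : c < 1)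
    {U : Set (MvPowerSeries (Fin r) (OO K))} (hU : U ∈ 𝓝 (0 : MvPowerSeries (Fin r) (OO K))) :
    ∃ k₀, ∀ k ≥ k₀, ∀ f ∈ JJ K r c hc0 hc1.le k, f ∈ U := by
  have hU' : @Membership.mem (Set ((Fin r →₀ ℕ) → OO K)) (Filter ((Fin r →₀ ℕ) → OO K)) _
      (Filter.pi fun α : Fin r →₀ ℕ => 𝓝 ((0 : (Fin r →₀ ℕ) → OO K) α)) U := by
    have e := nhds_pi (a := (0 : (Fin r →₀ ℕ) → OO K))
    exact e ▸ hU
  obtain ⟨I, hI, t, ht, hsub⟩ := Filter.mem_pi.1 hU'
  have h1 : ∀ α ∈ I, ∀ᶠ k : ℕ in atTop, ∀ x : OO K, ‖(x : K)‖ ≤ c ^ (k - α.degree) → x ∈ t α := by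
    intro α _
    obtain ⟨ε, hε, hb⟩ := Metric.mem_nhds_iff.1 (ht α)
    have h2 : Tendsto (fun k : ℕ => c ^ (k - α.degree)) atTop (𝓝 0) :=
      (tendsto_pow_atTop_nhds_zero_of_lt_one hc0 hc1).comp (tendsto_sub_atTop_nat _)
    filter_upwards [h2.eventually (gt_mem_nhds hε)] with k hk x hx
    apply hb
    rw [Metric.mem_ball]
    change dist x 0 < ε
    rw [dist_zero_right]
    exact lt_of_le_of_lt hx hk
  rw [← Filter.eventually_all_finite hI, eventually_atTop] at h1
  obtain ⟨k₀, hk₀⟩ := h1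
  refine ⟨k₀, fun k hk f hf => hsub fun α hα => hk₀ k hk α hα (f α) (hf α)⟩

/-- multiplication by `p` maps `J_i` to `J_{i+1}` -/
theorem nsmul_mem_JJ (F : FormalGroup (MvPowerSeries (Fin r) (OO K))) [F.IsComm] {q : ℕ} {c : ℝ}
    (hq2 : 2 ≤ q) (hc0 : 0 ≤ c) (hc1 : c ≤ 1)
    (hq' : ∀ i, ‖((constantCoeff (PowerSeries.coeff i (mulSeries F p - PowerSeries.X ^ q)) :
      OO K) : K)‖ ≤ c) {i : ℕ} (hi : 1 ≤ i) (y : Pt F) (hy : y.val ∈ JJ K r c hc0 hc1 i) :
    (p • y).val ∈ JJ K r c hc0 hc1 (i + 1) := by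
  rw [Pt.nsmul_val]
  have hb := hasEval_unit y.tn
  have hsplit : mulSeries F p = (mulSeries F p - PowerSeries.X ^ q) + PowerSeries.X ^ q := by ring
  have h1 : ev1 y.val (mulSeries F p) =
      ev1 y.val (mulSeries F p - PowerSeries.X ^ q) + y.val ^ q := by
    conv_lhs => rw [hsplit]
    have h2 := ev_add hb (mulSeries F p - PowerSeries.X ^ q) (PowerSeries.X ^ q)
    have h3 := ev_pow hb (X () : MvPowerSeries Unit (MvPowerSeries (Fin r) (OO K))) q
    rw [ev_X] at h3
    exact h2.trans (congrArg _ h3)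
  rw [h1]
  refine Ideal.add_mem _ ?_ ?_
  · refine ev_mem_of_closed hb _ _ (isClosed_JJ c hc0 hc1 _) fun d => ?_
    have hc' : (coeff d) (mulSeries F p - PowerSeries.X ^ q) ∈ JJ K r c hc0 hc1 1 := by
      rw [mem_JJ_one]
      have := hq' (d ())
      rwa [PowerSeries.coeff_def (s := d) rfl] at this
    by_cases hd : d () = 0
    · have hd0 : d = 0 := by ext; simpa using hd
      subst hd0
      have h4 : (coeff 0) (mulSeries F p - PowerSeries.X ^ q) = 0 := by
        have h5 : PowerSeries.constantCoeff (mulSeries F p - PowerSeries.X ^ q) = 0 := by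
          rw [map_sub, mulSeries_constantCoeff, map_pow, PowerSeries.constantCoeff_X,
            zero_pow (by omega), sub_zero]
        exact h5
      rw [h4, zero_mul]
      exact Ideal.zero_mem _
    · rw [add_comm i 1]
      refine mul_mem_JJ hc' ?_
      have h6 : d.prod (fun s e => y.val ^ e) = y.val ^ (d ()) := by
        rw [Finsupp.prod_fintype _ _ (by simp)]
        simp
      rw [h6]
      exact Ideal.pow_mem_of_mem _ hy _ (Nat.pos_of_ne_zero hd)
  · obtain ⟨m, rfl⟩ := Nat.exists_eq_add_of_le hq2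
    rw [pow_add, pow_two]
    refine Ideal.mul_mem_right _ _ (JJ_anti (by omega) (mul_mem_JJ hy hy))

/-- lifting of compatible sequences to `OO K[[Δ]]` -/
theorem exists_uLift (F : FormalGroup (MvPowerSeries (Fin r) (OO K))) [F.IsComm] {q : ℕ} {c : ℝ}
    (hq2 : 2 ≤ q) (hc0 : 0 < c) (hc1 : c < 1)
    (hq' : ∀ i, ‖((constantCoeff (PowerSeries.coeff i (mulSeries F p - PowerSeries.X ^ q)) :
      OO K) : K)‖ ≤ c)
    (z : UC (F.map (constantCoeff : MvPowerSeries (Fin r) (OO K) →+* OO K)) p) :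
    ∃ zt : UC F p, ∀ l, constantCoeff (zt.1 l).val = (z.1 l).val := by
  have hcont : Continuous (constantCoeff : MvPowerSeries (Fin r) (OO K) →+* OO K) :=
    MvPowerSeries.WithPiTopology.continuous_constantCoeff (OO K)
  have hcontC : Continuous (C : OO K →+* MvPowerSeries (Fin r) (OO K)) :=
    MvPowerSeries.WithPiTopology.continuous_C
  set y : ℕ → Pt F := fun l => ⟨C (z.1 l).val, (z.1 l).tn.map hcontC⟩ with hy
  have hmap : ∀ l, Pt.map constantCoeff hcont (y l) = z.1 l := by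
    intro l
    ext
    simp [hy]
  obtain ⟨zt, ⟨hz1, hz2⟩, -⟩ := existsUnique_lift F p (JJ K r c hc0.le hc1.le 1)
    (isClosed_JJ c hc0.le hc1.le 1) (by
      intro U hU
      obtain ⟨k₀, hk₀⟩ := exists_JJ_subset hc0.le hc1 hU
      refine ⟨k₀, fun k hk x hx => hk₀ k hk _ ?_⟩
      have key : ∀ k, (p ^ k • x).val ∈ JJ K r c hc0.le hc1.le (k + 1) := by
        intro k
        induction k with
        | zero => simpa using hx
        | succ k ih =>
          rw [pow_succ, mul_nsmul]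
          exact nsmul_mem_JJ F hq2 hc0.le hc1.le hq' (by omega) _ ih
      exact JJ_anti (by omega) (key k)) y (by
      intro l
      rw [mem_JJ_one]
      have h1 : constantCoeff (p • y (l + 1) - y l).val =
          (Pt.map constantCoeff hcont (p • y (l + 1) - y l)).val := rfl
      rw [h1, map_sub, map_nsmul, hmap, hmap, z.2 l, sub_self]
      simpa using hc0.le)
  have hPC : PCong p q c (F.map (constantCoeff : MvPowerSeries (Fin r) (OO K) →+* OO K)) := by
    intro i
    rw [mulSeries_map]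
    have h2 := hq' i
    have h3 : PowerSeries.coeff i (PowerSeries.map constantCoeff (mulSeries F p) -
        PowerSeries.X ^ q) = constantCoeff (PowerSeries.coeff i (mulSeries F p -
          PowerSeries.X ^ q)) := by
      rw [← PowerSeries.coeff_map]
      refine congrArg (PowerSeries.coeff i) ?_
      rw [map_sub, map_pow, PowerSeries.map_X]
    rw [h3]
    exact h2
  let z' : UC (F.map (constantCoeff : MvPowerSeries (Fin r) (OO K) →+* OO K)) p :=
    ⟨fun l => Pt.map constantCoeff hcont (zt l), fun l => by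
      rw [← map_nsmul, hz1]⟩
  have hzz : z' = z := by
    refine uc_ext hq2 hc0.le hc1 hPC z' z fun l => ?_
    have h4 := hz2 l
    rw [mem_JJ_one] at h4
    have h5 : Pt.nm (Pt.map constantCoeff hcont (zt l - y l)) ≤ c := h4
    rw [map_sub, hmap, Pt.nm_sub] at h5
    exact h5
  refine ⟨⟨zt, hz1⟩, fun l => ?_⟩
  have h6 := congrArg (fun w => (w.1 l).val) hzz
  exact h6

end formal

end Vale.Agent.P217
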