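import Vale.Agent.Lib.P217.Torsion
import Vale.Agent.Lib.P217.UC
import Vale.Agent.Lib.P217.Frob
import Vale.Agent.Lib.P217.Honda

/-!
# P217: the independence bound (part of module W7)

The `p`-torsion of `Fx` is finite, so its nonzero elements have norm at least `ε₀ > 0`. With
`y = ∑ a_i w_i` the point `(Z y)_1` is a nonzero `p`-torsion point, and it is
`p^l • (Z y)_{l+1}`, where `(Z y)_{l+1}` is `v(Fr (-n(l+1)) y)` up to `c`.
-/

set_option linter.unusedSectionVars false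

namespace Vale.Agent.P217

open MvPowerSeries Filter Topology

section
variable {K : Type*} [NontriviallyNormedField K] [IsUltrametricDist K] [CompleteSpace K]
  [IsAlgClosed K] {p : ℕ} [Fact p.Prime] [CharP K p]

theorem bi_torsion_bound {h r : ℕ} {Fx : FormalGroup (OO K)} [Fx.IsComm]
    {V : PowerSeries (OO K)} (Ht : HtData p Fx h r V) :
    ∃ ε : ℝ, 0 < ε ∧ ∀ x : Pt Fx, p • x = 0 → x ≠ 0 → ε ≤ Pt.nm x := by
  classical
  have hp : 0 < p := (Fact.out : p.Prime).pos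
  have hcard := card_torsion Ht 1
  have hfin : Finite {y : Pt Fx // p ^ 1 • y = 0} :=
    Nat.finite_of_card_ne_zero (by rw [hcard]; exact (pow_pos hp _).ne')
  have hft := Fintype.ofFinite {y : Pt Fx // p ^ 1 • y = 0}
  let g : {y : Pt Fx // p ^ 1 • y = 0} → ℝ := fun y => if y.1 = 0 then 1 else Pt.nm y.1
  have hne : (Finset.univ : Finset {y : Pt Fx // p ^ 1 • y = 0}).Nonempty :=
    ⟨⟨0, smul_zero _⟩, Finset.mem_univ _⟩
  obtain ⟨y₀, -, hy₀⟩ := Finset.exists_min_image Finset.univ g hne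
  have hpos : ∀ y, 0 < g y := by
    intro y
    change 0 < if y.1 = 0 then (1 : ℝ) else Pt.nm y.1
    split_ifs with h0
    · exact one_pos
    · exact lt_of_le_of_ne (Pt.nm_nonneg _) (fun h => h0 ((Pt.nm_eq_zero _).mp h.symm))
  refine ⟨g y₀, hpos y₀, fun x hx hx0 => ?_⟩
  have h1 := hy₀ ⟨x, by rw [pow_one]; exact hx⟩ (Finset.mem_univ _)
  have h2 : g ⟨x, by rw [pow_one]; exact hx⟩ = Pt.nm x := if_neg hx0
  rwa [h2] at h1

theorem bi_uc_pow {Fx : FormalGroup (OO K)} [Fx.IsComm] (z : UC Fx p) (l : ℕ) :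
    p ^ l • z.1 (l + 1) = z.1 1 := by
  induction l with
  | zero => simp
  | succ l ih =>
    have h1 : p • z.1 (l + 1 + 1) = z.1 (l + 1) := z.2 (l + 1)
    rw [pow_succ, mul_smul, h1, ih]

theorem bi_indep_bound {n h r : ℕ} (hn : 0 < n) (hh : 0 < h) {c : ℝ} (hc0 : 0 < c) (hc1 : c < 1)
    {Fx : FormalGroup (OO K)} [Fx.IsComm] {V : PowerSeries (OO K)} (Ht : HtData p Fx h r V)
    (v : PowerSeries (OO K)) (hv0 : PowerSeries.constantCoeff v = 0)
    (Z : Pt (honda (OO K) p n hn) →+ UC Fx p)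
    (hZ : ∀ y l, ‖((((Z y).1 l).val : OO K) : K) -
      ((ev1 (Fr p (-((n * l : ℕ) : ℤ)) y.val) v : OO K) : K)‖ ≤ c)
    (z : Fin r → UC Fx p) (w : Fin r → Pt (honda (OO K) p n hn)) (hw : ∀ i, Z (w i) = z i)
    (z0 : ∀ i, (z i).1 0 = 0)
    (indep : ∀ a : Fin r → ℤ, ∑ i, a i • (z i).1 1 = 0 → ∀ i, (p : ℤ) ∣ a i) :
    ∃ s₀ : ℝ, 0 < s₀ ∧ ∀ a : Fin r → ℕ, (∃ i, ¬ p ∣ a i) → s₀ ≤ Pt.nm (∑ i, a i • w i) := by
  obtain ⟨ε, hε, htor⟩ := bi_torsion_bound Ht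
  have hp2 : 2 ≤ p := (Fact.out : p.Prime).two_le
  -- choice of `l`
  obtain ⟨l, hl⟩ : ∃ l : ℕ, c ^ ((p ^ h) ^ l) < ε := by
    obtain ⟨N, hN⟩ := exists_pow_lt_of_lt_one hε hc1
    refine ⟨N, lt_of_le_of_lt (pow_le_pow_of_le_one hc0.le hc1.le ?_) hN⟩
    have h1 : 1 < p ^ h := Nat.one_lt_pow hh.ne' (by omega)
    exact (Nat.lt_pow_self h1).le
  set e : ℕ := n * (l + 1) with he
  refine ⟨ε ^ (p ^ e), pow_pos hε _, fun a ha => ?_⟩
  set y : Pt (honda (OO K) p n hn) := ∑ i, a i • w i with hy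
  have hZy : Z y = ∑ i, a i • z i := by
    rw [hy, map_sum]
    exact Finset.sum_congr rfl fun i _ => by rw [map_nsmul, hw]
  have hcoord : ∀ m, (Z y).1 m = ∑ i, a i • (z i).1 m := by
    intro m
    rw [hZy]
    simp [Finset.sum_apply]
  have hx0 : (Z y).1 1 ≠ 0 := by
    intro h0
    obtain ⟨i, hi⟩ := ha
    apply hi
    have h1 := indep (fun i => (a i : ℤ)) (by
      rw [← h0, hcoord 1]
      exact Finset.sum_congr rfl fun i _ => natCast_zsmul _ _) i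
    exact_mod_cast h1
  have hpx : p • (Z y).1 1 = 0 := by
    have h1 : p • (Z y).1 (0 + 1) = (Z y).1 0 := (Z y).2 0
    rw [zero_add] at h1
    rw [h1, hcoord 0]
    exact Finset.sum_eq_zero fun i _ => by rw [z0, smul_zero]
  have hge := htor _ hpx hx0
  -- the point of index `l + 1`
  have hFr : ‖((Fr p (-(e : ℤ)) y.val : OO K) : K)‖ < 1 := norm_Fr_lt_one p _ y.norm_lt
  have hP : Pt.nm ((Z y).1 (l + 1)) ≤ max c ‖((Fr p (-(e : ℤ)) y.val : OO K) : K)‖ := by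
    have h1 := hZ y (l + 1)
    have h2 := norm_ev1_le v (Fr p (-(e : ℤ)) y.val) hFr hv0
    have h3 : (((Z y).1 (l + 1)).val : K) = ((((Z y).1 (l + 1)).val : OO K) : K) -
        ((ev1 (Fr p (-(e : ℤ)) y.val) v : OO K) : K) +
        ((ev1 (Fr p (-(e : ℤ)) y.val) v : OO K) : K) := by ring
    unfold Pt.nm
    rw [h3]
    exact (IsUltrametricDist.norm_add_le_max _ _).trans (max_le_max h1 h2)
  have hQ : (p ^ h) ^ l ≠ 0 := by positivity
  have hle : ε ≤ max c ‖((Fr p (-(e : ℤ)) y.val : OO K) : K)‖ ^ ((p ^ h) ^ l) := by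
    refine hge.trans ?_
    rw [← bi_uc_pow (Z y) l]
    exact (nm_pow_smul_le Ht l _).trans (pow_le_pow_left₀ (Pt.nm_nonneg _) hP _)
  have hlt : c < ‖((Fr p (-(e : ℤ)) y.val : OO K) : K)‖ := by
    by_contra hcon
    push Not at hcon
    rw [max_eq_left hcon] at hle
    exact absurd hl (not_lt.mpr hle)
  rw [max_eq_right hlt.le] at hle
  have hle2 : ε ≤ ‖((Fr p (-(e : ℤ)) y.val : OO K) : K)‖ :=
    hle.trans (pow_le_of_le_one (norm_nonneg _) hFr.le hQ)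
  have h4 := pow_le_pow_left₀ hε.le hle2 (p ^ e)
  refine h4.trans (le_of_eq ?_)
  unfold Pt.nm
  rw [← norm_pow, ← Subring.coe_pow, Fr_neg_pow]

end
end Vale.Agent.P217
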