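import Vale.Agent.Lib.P217.ExpandL
import Vale.Agent.Lib.P217.Torsion
import Vale.Agent.Lib.P217.UC

/-!
# P217: `y ↦ L_h(γ(Z(y)_0))` is expandable (part of module W7)

`‖Z(y)_l - v(Fr (-nl) y)‖ ≤ c`, so `Z(y)_0 = p^l • v(Fr (-nl) y) + p^l • ε_l`, `‖p^l • ε_l‖ ≤ c^{Q^l}`.
-/

set_option linter.unusedSectionVars false

namespace Vale.Agent.P217.BPsi

open MvPowerSeries Filter Topology

section
variable {K : Type*} [NontriviallyNormedField K] [IsUltrametricDist K] [CompleteSpace K]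
  [IsAlgClosed K] {p : ℕ} [Fact p.Prime] [CharP K p]

/-- an element of the universal cover is divisible -/
theorem ucPow {B : Type*} [CommRing B] [UniformSpace B] [AdicRing B]
    {F : FormalGroup B} [F.IsComm] (z : UC F p) (m : ℕ) : p ^ m • z.1 m = z.1 0 := by
  induction m with
  | zero => simp
  | succ m ih =>
    rw [pow_succ, mul_smul]
    have := z.2 m
    rw [this, ih]

/-- the decomposition `Z(y)_0 = p^l • P + ε`, `‖ε‖ ≤ c^{Q^l}` -/
theorem exists_decomp {h r : ℕ} {c : ℝ} {Fx : FormalGroup (OO K)} [Fx.IsComm]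
    {V : PowerSeries (OO K)} (Ht : HtData p Fx h r V) (z : UC Fx p) (l : ℕ) (P : Pt Fx)
    (hP : ‖(((z.1 l).val : OO K) : K) - ((P.val : OO K) : K)‖ ≤ c) :
    ∃ ε : Pt Fx, z.1 0 = p ^ l • P + ε ∧ Pt.nm ε ≤ c ^ ((p ^ h) ^ l) := by
  refine ⟨p ^ l • (z.1 l - P), ?_, ?_⟩
  · rw [← ucPow z l, smul_sub]
    abel
  · refine (nm_pow_smul_le Ht l _).trans ?_
    refine pow_le_pow_left₀ (Pt.nm_nonneg _) ?_ _
    rw [Pt.nm_sub]
    exact hP

variable {B : Type*} [NormedCommRing B] [CompleteSpace B] [IsUltrametricDist B]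

theorem Psi_expandable_aux (D : TB K p B) {n h r : ℕ} (hn : 0 < n) (hh : 0 < h) {c : ℝ}
    (hc0 : 0 < c) (hc1 : c < 1)
    {Fx : FormalGroup (OO K)} [Fx.IsComm] {V : PowerSeries (OO K)} (Ht : HtData p Fx h r V)
    (v : PowerSeries (OO K)) (hv0 : PowerSeries.constantCoeff v = 0)
    (Z : Pt (honda (OO K) p n hn) →+ UC Fx p)
    (hZ : ∀ y l, ‖((((Z y).1 l).val : OO K) : K) -
      ((ev1 (Fr p (-((n * l : ℕ) : ℤ)) y.val) v : OO K) : K)‖ ≤ c)
    (γ : PowerSeries (OO K)) (hγ : IsHom Fx (honda (OO K) p h hh) γ) :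
    ∃ g : OO K → B, D.Expandable g ∧
      ∀ y, D.Lq h (Pt.hom hγ ((Z y).1 0)).val = g y.val := by
  classical
  have hp : p.Prime := Fact.out
  -- the series `γ ∘ [p^l] ∘ v`
  let m : ℕ → PowerSeries (OO K) := fun l => (mulSeries Fx (p ^ l)).subst v
  have hm0 : ∀ l, PowerSeries.constantCoeff (m l) = 0 := by
    intro l
    have hs : HasSubst (fun _ : Unit => v) := hasSubst_single_of_zero hv0
    exact constantCoeff_subst_eq_zero hs (fun _ => hv0) (mulSeries_constantCoeff Fx (p ^ l))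
  let γl : ℕ → PowerSeries (OO K) := fun l => γ.subst (m l)
  have hγ0 : ∀ l, PowerSeries.constantCoeff (γl l) = 0 := by
    intro l
    have hs : HasSubst (fun _ : Unit => m l) := hasSubst_single_of_zero (hm0 l)
    exact constantCoeff_subst_eq_zero hs (fun _ => hm0 l) hγ.1
  let f : ℕ → OO K → B := fun l w => D.Lq h (ev1 (Fr p (-((n * l : ℕ) : ℤ)) w) (γl l))
  let g : OO K → B := fun w => if hw : ‖(w : K)‖ < 1 then
    D.Lq h (Pt.hom hγ ((Z (Pt.mk' (honda (OO K) p n hn) w hw)).1 0)).val else 0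
  have hf : ∀ l, D.Expandable (f l) := by
    intro l
    obtain ⟨b, hb⟩ := D.expandable_Lq_ev hh 0 (γl l) (hγ0 l)
    have h1 := hb.comp_Fr D (-((n * l : ℕ) : ℤ))
    refine ⟨_, h1.congr (D := D) fun w _ => ?_⟩
    rw [Fr_zero]
  refine ⟨g, TB.Expandable.limit (D := D) hf ?_, fun y => ?_⟩
  · intro s hs ε hε
    obtain ⟨δ, hδ0, hδ⟩ := D.Lq_small hh hε
    have hQ : 1 < p ^ h := Nat.one_lt_pow hh.ne' hp.one_lt
    have ht : Tendsto (fun l : ℕ => c ^ ((p ^ h) ^ l)) atTop (𝓝 0) :=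
      (tendsto_pow_atTop_nhds_zero_of_lt_one hc0.le hc1).comp
        (tendsto_pow_atTop_atTop_of_one_lt hQ)
    obtain ⟨N₀, hN₀⟩ := eventually_atTop.mp (ht.eventually (gt_mem_nhds hδ0))
    refine ⟨N₀, fun N hN w hw => ?_⟩
    have hw1 : ‖(w : K)‖ < 1 := hw.trans_lt hs
    have hFw : ‖((Fr p (-((n * N : ℕ) : ℤ)) w : OO K) : K)‖ < 1 := norm_Fr_lt_one p _ hw1
    have htn := tn_iff.mpr hFw
    let y : Pt (honda (OO K) p n hn) := Pt.mk' _ w hw1
    let P : Pt Fx := ⟨ev1 (Fr p (-((n * N : ℕ) : ℤ)) w) v, ev1_tn htn v hv0⟩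
    obtain ⟨e, he1, he2⟩ := exists_decomp (c := c) Ht (Z y) N P (hZ y N)
    have hg : g w = D.Lq h (Pt.hom hγ ((Z y).1 0)).val := dif_pos hw1
    have hfN : f N w = D.Lq h (Pt.hom hγ (p ^ N • P)).val := by
      change D.Lq h (ev1 (Fr p (-((n * N : ℕ) : ℤ)) w) (γ.subst (m N))) = _
      rw [Pt.hom_val, Pt.nsmul_val, ev1_comp htn γ (m N) (hm0 N),
        ev1_comp htn (mulSeries Fx (p ^ N)) v hv0]
    have hadd : D.Lq h (Pt.hom hγ ((Z y).1 0)).val =
        D.Lq h (Pt.hom hγ (p ^ N • P)).val + D.Lq h (Pt.hom hγ e).val := by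
      have h1 := D.Lq_add hh 0 (Pt.hom hγ (p ^ N • P)) (Pt.hom hγ e)
      rw [Fr_zero, Fr_zero, Fr_zero, ← map_add, ← he1] at h1
      exact h1
    rw [hg, hfN, hadd, sub_add_cancel_left, norm_neg]
    apply hδ
    have h2 : ‖(((Pt.hom hγ e).val : OO K) : K)‖ ≤ Pt.nm e := Pt.nm_hom_le hγ e
    exact h2.trans (he2.trans (hN₀ N hN).le)
  · have hy : ‖(y.val : K)‖ < 1 := y.norm_lt
    have hg : g y.val = D.Lq h (Pt.hom hγ ((Z (Pt.mk' (honda (OO K) p n hn) y.val hy)).1 0)).val :=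
      dif_pos hy
    have he : Pt.mk' (honda (OO K) p n hn) y.val hy = y := Pt.ext rfl
    rw [hg, he]

end
end Vale.Agent.P217.BPsi
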