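import Vale.Agent.Lib.P217.MainP
import Vale.Agent.Lib.P217.Lq

/-!
# P217: the universal cover of `Fx` and points of the Honda law (module Bridge-Z)
-/

set_option linter.unusedSectionVars false

namespace Vale.Agent.P217

open MvPowerSeries Filter Topology

section approx
variable {K : Type*} [NontriviallyNormedField K] [IsUltrametricDist K] [CompleteSpace K]
  {p : ℕ} {c : ℝ}

/-- homomorphisms between congruent laws are approximate homomorphisms -/
theorem bz_approxHom (hc0 : 0 ≤ c) {F G F' G' : FormalGroup (OO K)}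
    (hF : ∀ d, ‖((coeff d (F.toPowerSeries - F'.toPowerSeries) : OO K) : K)‖ ≤ c)
    (hG : ∀ d, ‖((coeff d (G.toPowerSeries - G'.toPowerSeries) : OO K) : K)‖ ≤ c)
    {e : PowerSeries (OO K)} (he : IsHom F' G' e) : ApproxHom c F G e := by
  set Qc := Ideal.Quotient.mk (ballIdeal K c hc0) with hQc
  have key : ∀ {A B : FormalGroup (OO K)},
      (∀ d, ‖((coeff d (A.toPowerSeries - B.toPowerSeries) : OO K) : K)‖ ≤ c) →
      A.toPowerSeries.map Qc = (B.map Qc).toPowerSeries := by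
    intro A B h
    ext d
    rw [FormalGroup.map_toPowerSeries, coeff_map, coeff_map, Ideal.Quotient.eq, ← map_sub]
    exact h d
  have hF' := key hF
  have hG' := key hG
  have h1 := (he.map Qc).2
  refine ⟨he.1, fun d => ?_⟩
  rw [← hF', ← hG'] at h1
  have e1 : PowerSeries.subst (F.toPowerSeries.map Qc) (e.map Qc) =
      (PowerSeries.subst F.toPowerSeries e).map Qc := (PowerSeries.map_subst (hasSubst_F _) _).symm
  have e2 : ∀ i : Fin 2, PowerSeries.subst (X i : MvPowerSeries (Fin 2)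
      (OO K ⧸ ballIdeal K c hc0)) (e.map Qc)
      = (PowerSeries.subst (X i : MvPowerSeries (Fin 2) (OO K)) e).map Qc := by
    intro i
    have h3 : (PowerSeries.subst (X i : MvPowerSeries (Fin 2) (OO K)) e).map Qc
        = PowerSeries.subst ((X i : MvPowerSeries (Fin 2) (OO K)).map Qc)
          (e.map Qc) := PowerSeries.map_subst (hasSubst_X i) _
    rw [map_X] at h3
    exact h3.symm
  rw [e1, e2, e2, ← map_subst_pair Qc (hasSubst_psubst (hasSubst_X 0) he.1)
    (hasSubst_psubst (hasSubst_X 1) he.1)] at h1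
  have h2 := congrArg (coeff d) h1
  rw [coeff_map, coeff_map, Ideal.Quotient.eq] at h2
  rw [map_sub]
  exact h2

theorem bz_cong_self (hc0 : 0 ≤ c) (F : FormalGroup (OO K)) :
    ∀ d, ‖((coeff d (F.toPowerSeries - F.toPowerSeries) : OO K) : K)‖ ≤ c := by
  intro d
  rw [sub_self, map_zero]
  simpa using hc0

end approx

section
variable {K : Type*} [NontriviallyNormedField K] [IsUltrametricDist K] [CompleteSpace K]
  [IsAlgClosed K] {p : ℕ} [Fact p.Prime] [CharP K p]

theorem bz_pCong_honda {c : ℝ} (hc0 : 0 ≤ c) {n : ℕ} (hn : 0 < n) :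
    PCong p (p ^ n) c (honda (OO K) p n hn) := by
  intro i
  rw [mulSeries_honda, sub_self, map_zero]
  simpa using hc0

theorem bz_p_smul {n : ℕ} {hn : 0 < n} (y : Pt (honda (OO K) p n hn)) :
    (p • y).val = y.val ^ (p ^ n) := by
  rw [Pt.nsmul_val, mulSeries_honda]
  have h1 := ev_pow (hasEval_unit y.tn) (X () : MvPowerSeries Unit (OO K)) (p ^ n)
  rw [ev_X] at h1
  exact h1

/-- powers of Frobenius on points of the Honda law -/
noncomputable def frPt {n : ℕ} (hn : 0 < n) (e : ℤ) :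
    Pt (honda (OO K) p n hn) →+ Pt (honda (OO K) p n hn) where
  toFun y := ⟨Fr p e y.val, tn_iff.mpr (norm_Fr_lt_one p e y.norm_lt)⟩
  map_zero' := by
    refine Pt.ext ?_
    exact map_zero (Fr p e)
  map_add' x y := by
    refine Pt.ext ?_
    let ψ : OO K →+* OO K := (Fr p e : OO K ≃+* OO K)
    have hψ : Continuous ψ := continuous_Fr p e
    have h := map_ev hψ (hasEval_pair x.tn y.tn) (honda (OO K) p n hn).toPowerSeries
    have e1 : (fun s => ψ (![x.val, y.val] s)) = ![Fr p e x.val, Fr p e y.val] := by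
      funext s; fin_cases s <;> rfl
    have e2 : (honda (OO K) p n hn).toPowerSeries.map ψ =
        (honda (OO K) p n hn).toPowerSeries := by
      rw [← FormalGroup.map_toPowerSeries, honda_map]
    rw [e1, e2] at h
    exact h

theorem frPt_val {n : ℕ} (hn : 0 < n) (e : ℤ) (y : Pt (honda (OO K) p n hn)) :
    (frPt hn e y).val = Fr p e y.val := rfl

/-- the compatible sequence of roots of a point of the Honda law -/
noncomputable def rootUC {n : ℕ} (hn : 0 < n) :
    Pt (honda (OO K) p n hn) →+ UC (honda (OO K) p n hn) p where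
  toFun y := ⟨fun l => frPt hn (-((n * l : ℕ) : ℤ)) y, by
    intro l
    refine Pt.ext ?_
    rw [bz_p_smul, frPt_val, frPt_val, ← Fr_natCast, ← Fr_add]
    congr 2
    push_cast
    ring⟩
  map_zero' := by
    apply Subtype.ext
    funext l
    exact map_zero (frPt hn _)
  map_add' x y := by
    apply Subtype.ext
    funext l
    exact map_add (frPt hn _) x y

theorem rootUC_val {n : ℕ} (hn : 0 < n) (y : Pt (honda (OO K) p n hn)) (l : ℕ) :
    ((rootUC hn y).1 l).val = Fr p (-((n * l : ℕ) : ℤ)) y.val := rfl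

theorem rootUC_surjective {n : ℕ} (hn : 0 < n) :
    Function.Surjective (rootUC hn : Pt (honda (OO K) p n hn) →+ UC (honda (OO K) p n hn) p) := by
  intro z
  refine ⟨z.1 0, ?_⟩
  apply Subtype.ext
  funext l
  refine Pt.ext ?_
  rw [rootUC_val]
  induction l with
  | zero => simp [Fr_zero]
  | succ l ih =>
    have h1 : (z.1 l).val = (z.1 (l + 1)).val ^ (p ^ n) := by
      rw [← bz_p_smul, z.2 l]
    rw [h1, ← Fr_natCast] at ih
    have h2 := congrArg (Fr p (-(n : ℤ))) ih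
    rw [← Fr_add, ← Fr_add, neg_add_cancel, Fr_zero] at h2
    rw [← h2]
    congr 2
    push_cast
    ring

end

section
variable {K : Type} [NontriviallyNormedField K] [IsUltrametricDist K] [CompleteSpace K]
  [IsAlgClosed K] {p : ℕ} [Fact p.Prime] [CharP K p]
  {k : Type} [Field k] [CharP k p] {n : ℕ} (hn : 0 < n)
  {Γ : FormalGroup k} [Γ.IsComm] (hΓp : mulSeries Γ p = PowerSeries.X ^ (p ^ n))
  {ι : k →+* OO K} {c : ℝ} (hc0 : 0 < c) (hc1 : c < 1)
  {Fx : FormalGroup (OO K)} [Fx.IsComm] (hFx : PCong p (p ^ n) c Fx)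
  (hcong : ∀ d, ‖((coeff d (Fx.toPowerSeries - (Γ.map ι).toPowerSeries) : OO K) : K)‖ ≤ c)
  {v vi : PowerSeries k} (hv : IsHom (honda k p n hn) Γ v) (hvi : IsHom Γ (honda k p n hn) vi)
  (hvvi : vi.subst v = PowerSeries.X) (hviv : v.subst vi = PowerSeries.X)

theorem bz_two_le (p : ℕ) [Fact p.Prime] {n : ℕ} (hn : 0 < n) : 2 ≤ p ^ n :=
  (Fact.out : p.Prime).two_le.trans (Nat.le_self_pow hn.ne' p)

theorem bz_map_constantCoeff {f : PowerSeries k} (hf : PowerSeries.constantCoeff f = 0) :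
    PowerSeries.constantCoeff (f.map ι) = 0 := by
  rw [← PowerSeries.coeff_zero_eq_constantCoeff_apply, PowerSeries.coeff_map,
    PowerSeries.coeff_zero_eq_constantCoeff_apply, hf, map_zero]

/-- composition of series over `k`, evaluated at points -/
theorem bz_ev1_comp {f g : PowerSeries k} (hg : PowerSeries.constantCoeff g = 0)
    {x : OO K} (hx : ‖(x : K)‖ < 1) :
    ev1 x (PowerSeries.map ι (f.subst g)) = ev1 (ev1 x (g.map ι)) (f.map ι) := by
  have h1 : PowerSeries.map ι (f.subst g) = (f.map ι).subst (g.map ι) :=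
    PowerSeries.map_subst (PowerSeries.HasSubst.of_constantCoeff_zero' hg) f
  rw [h1]
  exact ev1_comp (tn_iff.mpr hx) _ _ (bz_map_constantCoeff hg)

theorem bz_norm_ev1_lt {f : PowerSeries k} (hf : PowerSeries.constantCoeff f = 0)
    {x : OO K} (hx : ‖(x : K)‖ < 1) : ‖((ev1 x (f.map ι) : OO K) : K)‖ < 1 :=
  (norm_ev1_le _ x hx (bz_map_constantCoeff hf)).trans_lt hx

/-- series map congruent points to congruent points -/
theorem bz_ev1_sub_le (hc0 : 0 ≤ c) {x y : OO K} (hx : ‖(x : K)‖ < 1) (hy : ‖(y : K)‖ < 1)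
    (hxy : ‖(x : K) - (y : K)‖ ≤ c) (f : PowerSeries (OO K)) :
    ‖((ev1 x f : OO K) : K) - ((ev1 y f : OO K) : K)‖ ≤ c := by
  have h := norm_ev1_sub_ev1_le hc0 hx hy hxy f f (fun i => by rw [sub_self]; simpa using hc0)
  exact h

omit [CompleteSpace K] [IsAlgClosed K] in
theorem bz_dist_le {x y z : K} (hxy : ‖x - y‖ ≤ c) (hyz : ‖y - z‖ ≤ c) :
    ‖x - z‖ ≤ c := by
  have : x - z = (x - y) + (y - z) := by ring
  rw [this]
  exact (IsUltrametricDist.norm_add_le_max _ _).trans (max_le hxy hyz)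

include hc0 hc1 hFx hcong hv hvi hviv in
theorem bz_exists_Z : ∃ Z : Pt (honda (OO K) p n hn) →+ UC Fx p, Function.Surjective Z ∧
    ∀ y l, ‖((((Z y).1 l).val : OO K) : K) -
      ((ev1 (Fr p (-((n * l : ℕ) : ℤ)) y.val) (v.map ι) : OO K) : K)‖ ≤ c := by
  have hq2 := bz_two_le p hn
  have hHn : (honda k p n hn).map ι = honda (OO K) p n hn := honda_map ι p n hn
  have hv' : IsHom (honda (OO K) p n hn) (Γ.map ι) (v.map ι) := by
    have := hv.map ι
    rwa [hHn] at this
  have hvi' : IsHom (Γ.map ι) (honda (OO K) p n hn) (vi.map ι) := by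
    have := hvi.map ι
    rwa [hHn] at this
  have hH : PCong p (p ^ n) c (honda (OO K) p n hn) := bz_pCong_honda hc0.le hn
  obtain ⟨Φ, hΦ⟩ := exists_ucMap hq2 hc0.le hc1 hH hFx (v.map ι)
    (bz_approxHom hc0.le (bz_cong_self hc0.le _) hcong hv')
  obtain ⟨Ψ, hΨ⟩ := exists_ucMap hq2 hc0.le hc1 hFx hH (vi.map ι)
    (bz_approxHom hc0.le hcong (bz_cong_self hc0.le _) hvi')
  refine ⟨Φ.comp (rootUC hn), ?_, fun y l => ?_⟩
  · intro w
    obtain ⟨y, hy⟩ := rootUC_surjective hn (Ψ w)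
    refine ⟨y, ?_⟩
    refine uc_ext hq2 hc0.le hc1 hFx _ _ fun l => ?_
    rw [AddMonoidHom.comp_apply, hy]
    refine bz_dist_le (hΦ (Ψ w) l) ?_
    have h1 := bz_ev1_sub_le hc0.le ((Ψ w).1 l).norm_lt (bz_norm_ev1_lt hvi.1 (w.1 l).norm_lt)
      (hΨ w l) (v.map ι)
    rw [← bz_ev1_comp hvi.1 (w.1 l).norm_lt, hviv, PowerSeries.map_X] at h1
    have h2 : ev1 (w.1 l).val (PowerSeries.X : PowerSeries (OO K)) = (w.1 l).val := ev_X _ _
    rw [h2] at h1
    exact h1
  · exact hΦ (rootUC hn y) l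

include hc0 hc1 hFx hcong hv hvi hvvi in
theorem bz_Z_action (hk : ∀ x : k, x ^ (p ^ n) = x) (Z : Pt (honda (OO K) p n hn) →+ UC Fx p)
    (hZ : ∀ y l, ‖((((Z y).1 l).val : OO K) : K) -
      ((ev1 (Fr p (-((n * l : ℕ) : ℤ)) y.val) (v.map ι) : OO K) : K)‖ ≤ c) (a : k) (m : ℕ) :
    ∃ (b : PowerSeries k) (_ : IsHom Γ Γ b) (Φ : UC Fx p →+ UC Fx p) (_ : IsAct c ι b Φ),
      ∀ y y' : Pt (honda (OO K) p n hn), y'.val = ι a * y.val ^ (p ^ m) → Φ (Z y) = Z y' := by
  have hq2 := bz_two_le p hn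
  have hsc := isHom_honda_scale k p n hn a (hk a)
  have hfr := isHom_honda_frob k p n hn m
  -- `e = a X^{p^m}`
  set e : PowerSeries k := (PowerSeries.C a * PowerSeries.X).subst (PowerSeries.X ^ (p ^ m)) with he
  have hehom : IsHom (honda k p n hn) (honda k p n hn) e := hfr.comp hsc
  have hbhom : IsHom Γ Γ (v.subst (e.subst vi)) := (hvi.comp hehom).comp hv
  have happ : ApproxHom c Fx Fx (PowerSeries.map ι (v.subst (e.subst vi))) :=
    bz_approxHom hc0.le hcong hcong (hbhom.map ι)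
  obtain ⟨Φ, hΦ⟩ := exists_ucMap hq2 hc0.le hc1 hFx hFx _ happ
  refine ⟨v.subst (e.subst vi), hbhom, Φ, hΦ, fun y y' hy' => ?_⟩
  refine uc_ext hq2 hc0.le hc1 hFx _ _ fun l => ?_
  set t : OO K := Fr p (-((n * l : ℕ) : ℤ)) y.val with ht
  have htn : ‖(t : K)‖ < 1 := norm_Fr_lt_one p _ y.norm_lt
  have hvt : ‖((ev1 t (v.map ι) : OO K) : K)‖ < 1 := bz_norm_ev1_lt hv.1 htn
  have h1 := hΦ (Z y) l
  have h2 := bz_ev1_sub_le hc0.le ((Z y).1 l).norm_lt hvt (hZ y l)
    (PowerSeries.map ι (v.subst (e.subst vi)))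
  have h3 := hZ y' l
  -- `b (v t) = v (e t)`
  have hcevi : PowerSeries.constantCoeff (e.subst vi) = 0 := (hvi.comp hehom).1
  have h4 : ev1 (ev1 t (v.map ι)) (PowerSeries.map ι (v.subst (e.subst vi))) =
      ev1 (ev1 t (e.map ι)) (v.map ι) := by
    rw [bz_ev1_comp hcevi hvt, bz_ev1_comp hvi.1 hvt, ← bz_ev1_comp hv.1 htn, hvvi,
      PowerSeries.map_X]
    have h5 : ev1 t (PowerSeries.X : PowerSeries (OO K)) = t := ev_X _ _
    rw [h5]
  have h6 : ev1 t (e.map ι) = ι a * t ^ (p ^ m) := by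
    rw [he, bz_ev1_comp hfr.1 htn]
    have h7 : ev1 t ((PowerSeries.X ^ (p ^ m) : PowerSeries k).map ι) = t ^ (p ^ m) := by
      rw [map_pow, PowerSeries.map_X]
      have h8 := ev_pow (hasEval_OO htn) (X () : MvPowerSeries Unit (OO K)) (p ^ m)
      rw [ev_X] at h8
      exact h8
    rw [h7]
    have h9 : (PowerSeries.C a * PowerSeries.X : PowerSeries k).map ι =
        PowerSeries.C (ι a) * PowerSeries.X := by
      rw [map_mul, PowerSeries.map_C, PowerSeries.map_X]
    rw [h9]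
    have htm : ‖((t ^ (p ^ m) : OO K) : K)‖ < 1 := by
      rw [← h7]
      exact bz_norm_ev1_lt hfr.1 htn
    have h10 := ev_mul (hasEval_OO htm) (C (ι a)) (X () : MvPowerSeries Unit (OO K))
    rw [ev_X, ev_C] at h10
    exact h10
  have h11 : Fr p (-((n * l : ℕ) : ℤ)) y'.val = ι a * t ^ (p ^ m) := by
    have ha : (ι a) ^ (p ^ n) = ι a := by rw [← map_pow, hk]
    have h12 := TB.Fr_fixed (p := p) ha (-(l : ℤ))
    have h13 : (n : ℤ) * (-(l : ℤ)) = -((n * l : ℕ) : ℤ) := by push_cast; ring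
    rw [h13] at h12
    rw [hy', map_mul, map_pow, h12]
  rw [h4, h6, ← h11] at h2
  refine bz_dist_le h1 (bz_dist_le h2 ?_)
  rw [norm_sub_rev]
  exact h3

end
end Vale.Agent.P217
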