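import Vale.Agent.Lib.P217.Lambda

/-!
# P217: surjectivity of `λ : F → G` on points

Small points are values of `λ` (`exists_ev1_eq_of_small`: the series `λ(c z) / c^2`, `c = λ_1`, has
linear coefficient `1`); for a general point `c'`, `p^m • c' = c'^{Q^m}` is small for large `m` and
multiplication by `p^m` is surjective on the points of `F`.
-/

set_option linter.unusedSectionVars false

namespace Vale.Agent.P217

open MvPowerSeries Filter Topology

section
variable {K : Type*} [NontriviallyNormedField K] [IsUltrametricDist K] [CompleteSpace K]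
  [IsAlgClosed K] {p : ℕ} [Fact p.Prime] [CharP K p]

/-- values of a series with nonzero linear coefficient cover a small disc -/
theorem exists_ev1_eq_of_small {lam : PowerSeries (OO K)}
    (h0 : PowerSeries.constantCoeff lam = 0) (h1 : PowerSeries.coeff 1 lam ≠ 0) (t : OO K)
    (ht : ‖(t : K)‖ < ‖((PowerSeries.coeff 1 lam : OO K) : K)‖ ^ 2) :
    ∃ y : OO K, ‖(y : K)‖ < 1 ∧ ev1 y lam = t := by
  set c : OO K := PowerSeries.coeff 1 lam with hc
  have hcK : (c : K) ≠ 0 := fun h => h1 (Subtype.ext h)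
  have hcpos : 0 < ‖(c : K)‖ := norm_pos_iff.mpr hcK
  -- `t = c ^ 2 * t'`
  have ht' : ‖(t : K) / (c : K) ^ 2‖ < 1 := by
    rw [norm_div, norm_pow, div_lt_one (by positivity)]
    exact ht
  set t' : OO K := ⟨(t : K) / (c : K) ^ 2, mem_OO.mpr ht'.le⟩ with ht'def
  have htt : t = c ^ 2 * t' := by
    apply Subtype.ext
    rw [Subring.coe_mul, Subring.coe_pow, ht'def]
    field_simp
  -- the rescaled series
  let g : PowerSeries (OO K) := PowerSeries.mk fun j =>
    if j = 0 then 0 else if j = 1 then 1 else PowerSeries.coeff j lam * c ^ (j - 2)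
  have hg : PowerSeries.rescale c lam = PowerSeries.C (c ^ 2) * g := by
    ext j
    rw [PowerSeries.coeff_rescale, PowerSeries.coeff_C_mul, PowerSeries.coeff_mk]
    rcases j with _ | _ | j
    · simp [h0]
    · simp only [zero_add, pow_one, ← hc]
      simp [sq]
    · have e : ¬ (j + 1 + 1 = 0) := by omega
      have e' : ¬ (j + 1 + 1 = 1) := by omega
      rw [if_neg e, if_neg e']
      have e2 : j + 1 + 1 - 2 = j := by omega
      rw [e2]
      generalize PowerSeries.coeff (j + 1 + 1) lam = a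
      rw [pow_succ, pow_succ]
      ring_nf
  obtain ⟨z, hz1, hz2⟩ := exists_zero (g - PowerSeries.C t') 1 one_pos
    (by
      intro i hi
      have hi0 : i = 0 := by omega
      subst hi0
      have : PowerSeries.coeff 0 (g - PowerSeries.C t') = - t' := by
        rw [map_sub, PowerSeries.coeff_zero_C, PowerSeries.coeff_mk, if_pos rfl, zero_sub]
      rw [this, Subring.coe_neg, norm_neg]
      exact ht')
    (by
      have : PowerSeries.coeff 1 (g - PowerSeries.C t') = 1 := by
        rw [map_sub, PowerSeries.coeff_C, if_neg one_ne_zero, sub_zero, PowerSeries.coeff_mk,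
          if_neg one_ne_zero, if_pos rfl]
      rw [this]; simp)
  have hz3 : ev1 z g = t' := by
    rw [ev1_sub_C hz1] at hz2
    exact sub_eq_zero.mp hz2
  have hcz : ‖((c * z : OO K) : K)‖ < 1 := by
    rw [Subring.coe_mul, norm_mul]
    calc ‖(c : K)‖ * ‖(z : K)‖ ≤ 1 * ‖(z : K)‖ := by gcongr; exact norm_le_one c
      _ < 1 := by rw [one_mul]; exact hz1
  refine ⟨c * z, hcz, ?_⟩
  have htn : IsTopologicallyNilpotent z := tn_iff.mpr hz1
  have hX0 : PowerSeries.constantCoeff (c • (PowerSeries.X : PowerSeries (OO K))) = 0 := by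
    rw [PowerSeries.smul_eq_C_mul, map_mul, PowerSeries.constantCoeff_X, mul_zero]
  have e1 : ev1 z (PowerSeries.rescale c lam) = ev1 (c * z) lam := by
    rw [PowerSeries.rescale_eq_subst, ev1_comp htn _ _ hX0]
    congr 1
    rw [PowerSeries.smul_eq_C_mul, ev1_mul hz1, ev1_C, ev1_X]
  have e2 : ev1 z (PowerSeries.C (c ^ 2) * g) = c ^ 2 * t' := by
    rw [ev1_mul hz1, ev1_C, hz3]
  rw [← e1, hg, e2, htt]

/-- multiplication by `p ^ m` on points of a law with `[p] = X ^ Q` -/
theorem pow_smul_val_of_mulSeries_eq {G : FormalGroup (OO K)} [G.IsComm] {Q : ℕ} (hQ : 0 < Q)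
    (hG : mulSeries G p = PowerSeries.X ^ Q) (m : ℕ) (x : Pt G) :
    (p ^ m • x).val = x.val ^ (Q ^ m) := by
  induction m with
  | zero => rw [pow_zero, one_smul, pow_zero, pow_one]
  | succ m ih =>
    have h1 : p ^ (m + 1) • x = p • (p ^ m • x) := by
      rw [← mul_smul, ← pow_succ']
    rw [h1, Pt.nsmul_val, hG, ih]
    have h2 : ‖((x.val ^ (Q ^ m) : OO K) : K)‖ < 1 :=
      norm_pow_lt_one x.norm_lt (pow_pos hQ m).ne'
    have h3 : ev1 (x.val ^ (Q ^ m)) (PowerSeries.X ^ Q : PowerSeries (OO K)) =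
        (x.val ^ (Q ^ m)) ^ Q := by
      have h4 := ev_pow (hasEval_OO h2) (X () : MvPowerSeries Unit (OO K)) Q
      rw [ev_X] at h4
      exact h4
    rw [h3, ← pow_mul, ← pow_succ]

theorem pow_smul_surjective {F : FormalGroup (OO K)} [F.IsComm] {h r : ℕ}
    {V : PowerSeries (OO K)} (H : HtData p F h r V) (m : ℕ) :
    Function.Surjective fun y : Pt F => p ^ m • y := by
  induction m with
  | zero => intro y; exact ⟨y, by simp⟩
  | succ m ih =>
    intro y
    obtain ⟨z, hz⟩ := ih y
    obtain ⟨w, hw⟩ := p_smul_surjective H z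
    refine ⟨w, ?_⟩
    have h1 : p ^ (m + 1) • w = p ^ m • (p • w) := by
      rw [← mul_smul, ← pow_succ]
    simp only at hw hz ⊢
    rw [h1, hw, hz]

theorem lambda_surjective_aux {F : FormalGroup (OO K)} [F.IsComm] {h r : ℕ} [Fact (0 < h)]
    {V : PowerSeries (OO K)} (H : HtData p F h r V) {G : FormalGroup (FixF K p h)} [G.IsComm]
    {lam : PowerSeries (OO K)} (L : LamData F G lam) :
    Function.Surjective (Pt.hom L.hom) := by
  intro c'
  have hp1 : 1 < p := (Fact.out : p.Prime).one_lt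
  have hQ : 1 < p ^ h := Nat.one_lt_pow (Fact.out : 0 < h).ne' hp1
  have hQ0 : 0 < p ^ h := by omega
  have hpG' : mulSeries (G.map (algebraMap (FixF K p h) (OO K))) p =
      PowerSeries.X ^ (p ^ h) := by
    rw [mulSeries_map, L.pG, map_pow, PowerSeries.map_X]
  have hc : 0 < ‖((PowerSeries.coeff 1 lam : OO K) : K)‖ := by
    rw [norm_pos_iff]
    intro h0
    exact L.ne (Subtype.ext h0)
  have hlim : Tendsto (fun m : ℕ => Pt.nm c' ^ ((p ^ h) ^ m)) atTop (𝓝 0) :=
    (tendsto_pow_atTop_nhds_zero_of_lt_one (Pt.nm_nonneg c') (Pt.nm_lt_one c')).comp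
      (tendsto_pow_atTop_atTop_of_one_lt hQ)
  have hc2 : 0 < ‖((PowerSeries.coeff 1 lam : OO K) : K)‖ ^ 2 := by positivity
  obtain ⟨m, hm⟩ := (hlim.eventually (gt_mem_nhds hc2)).exists
  have hv : (p ^ m • c').val = c'.val ^ ((p ^ h) ^ m) :=
    pow_smul_val_of_mulSeries_eq hQ0 hpG' m c'
  have hsmall : ‖(((p ^ m • c').val : OO K) : K)‖ <
      ‖((PowerSeries.coeff 1 lam : OO K) : K)‖ ^ 2 := by
    rw [hv, Subring.coe_pow, norm_pow]
    exact hm
  obtain ⟨y, hy1, hy2⟩ := exists_ev1_eq_of_small L.hom.1 L.ne _ hsmall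
  obtain ⟨y', hy'⟩ := pow_smul_surjective H m (Pt.mk' F y hy1)
  refine ⟨y', ?_⟩
  have h1 : p ^ m • (Pt.hom L.hom y') = p ^ m • c' := by
    rw [← map_nsmul]
    have : p ^ m • y' = Pt.mk' F y hy1 := hy'
    rw [this]
    apply Pt.ext
    rw [Pt.hom_val]
    exact hy2
  have h2 := congrArg Pt.val h1
  rw [pow_smul_val_of_mulSeries_eq hQ0 hpG', pow_smul_val_of_mulSeries_eq hQ0 hpG',
    ← pow_mul] at h2
  have h3 : (((Pt.hom L.hom y').val : OO K) : K) ^ (p ^ (h * m)) = (c'.val : K) ^ (p ^ (h * m)) := by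
    have := congrArg (fun t : OO K => (t : K)) h2
    simpa using this
  have h4 : iterateFrobenius K p (h * m) ((Pt.hom L.hom y').val : K) =
      iterateFrobenius K p (h * m) (c'.val : K) := by
    rw [iterateFrobenius_def, iterateFrobenius_def]; exact h3
  have h5 := iterateFrobenius_inj K p (h * m) h4
  apply Pt.ext
  exact Subtype.ext h5

end
end Vale.Agent.P217
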