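import Vale.Agent.Lib.P217.Core
import Vale.Agent.Lib.P217.BridgePsi
import Vale.Agent.Lib.P217.Iso
import Vale.Agent.Lib.P217.MainP
import Vale.Agent.Lib.P217.UC
import Vale.Agent.Lib.P217.BridgeAux
import Vale.Agent.Lib.P217.BridgeZ
import Vale.Agent.Lib.P217.BridgeIndep
import Vale.Agent.Lib.P217.LamSurj

/-!
# P217: from `RelData` to `CoreData` (module W7); no relation at points of any height `h`

`k` is a field with `x^{p^n} = x` for all `x` containing a primitive `(p^n - 1)`-th root of unity (the field with `p^n` elements),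
`Γ` over `k` with `[p] = X^{p^n}`, `v : honda k → Γ` a strict isomorphism (`exists_strict_iso`), `vi` its inverse.

* `exists_Z`: for a point `y` of `H_n = honda (OO K) p n` the sequence `(Fr (-n l) y)_l` is in `UC H_n p` (`p • y = y^{p^n}`), and
  `y ↦ (Fr (-nl) y)_l` is an isomorphism of groups. Compose with the map of universal covers induced by the approximate homomorphism
  `v` (`exists_ucMap`; `v.map ι` is a homomorphism `H_n → Γ.map ι`, `Fx ≡ Γ.map ι` modulo `c`): this gives `Z`.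
  Surjective: the map of universal covers induced by `vi` is the inverse (`uc_ext`).
* `Z_action`: the endomorphism `b = v ∘ (a X^{p^m}) ∘ vi` of `Γ` acts on `UC Fx` by `Z y ↦ Z y'`, `y'.val = ι(a) y.val^{p^m}` (`uc_ext`); the
  action exists (`exists_ucMap`).
* `lambda_surjective`: the map `λ : Fx → G` on points is surjective.  For `c' ∈ G`, `p^m • c' = c'^{Q^m}` is small for large `m`, so it is
  `λ(y)` for a small `y` (`λ(X) = λ_1 X + …` is invertible on small discs: for `‖t‖ < ‖λ_1‖^2` there is `y` with `‖y‖ < ‖λ_1‖` and `λ(y) = t`,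
  by completeness (contraction) or via `PowerSeries` inverse function estimates). Write `y = p^m • y'` (`p_smul_surjective`);
  `λ(y')^{Q^m} = λ(y) = c'^{Q^m}` so `λ(y') = c'`.
* `Psi_expandable`: for `γ₀` a homomorphism `Fx → H_h` (series over `OO K`), `y ↦ L_h(γ₀(Z(y)_0))` is expandable:
  `‖Z(y)_l - v(Fr (-nl) y)‖ ≤ c` so `Z(y)_0 = p^l • v(Fr (-nl) y) + ε`, `‖ε‖ ≤ c^{Q^l}` (`nm_pow_smul_le` for `HtData`), and
  `L_h(γ₀(Z(y)_0)) = L_h((γ₀ ∘ [p^l] ∘ v)(Fr (-nl) y)) + L_h(γ₀(ε))` (`Lq_add` with `e = 0`); the first term is expandable by `expandable_Lq_ev` and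
  `Expands.comp_Fr`, and the second tends to zero uniformly (`Lq_small`). Conclude by `Expandable.limit`.
* `indep_bound`: the `p`-torsion of `Fx` is finite (`card_torsion`), so there is `ε₀ > 0` with `‖x‖ ≥ ε₀` for all nonzero `p`-torsion `x`. For `a : Fin r → ℕ` with
  some `a_i` prime to `p`, `x = ∑ a_i (z_i)_1` is nonzero (`indep`) and killed by `p`. With `y = ∑ a_i w_i`, `Z y = ∑ a_i z_i`, `(Z y)_1 = x` is `p^l • v(Fr (-n(l+1)) y) + ε`,
  `‖ε‖ ≤ c^{Q^l} < ε₀` for a fixed `l`, so `ε₀ ≤ ‖x‖ ≤ ‖v(Fr (-n(l+1)) y)‖ ≤ ‖y‖^{p^{-n(l+1)}}`, so `‖y‖ ≥ ε₀^{p^{n(l+1)}}`.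
* `relData_false`: let `μ : G → honda (FixF K p h)` be a strict isomorphism with inverse `μi`; `Ψ(y) = μ(λ((Z y)_0))`; `w_i` with `Z w_i = z_i`;
  `χ_i' = μ ∘ χ_i ∘ μi` with coefficients in `FixF K p h`. An element `a` of `OO K` with `a^{p^n} = a` is in the image of `ι`.
-/

set_option linter.unusedSectionVars false

namespace Vale.Agent.P217

open MvPowerSeries Filter Topology

section
variable {K : Type} [NontriviallyNormedField K] [IsUltrametricDist K] [CompleteSpace K]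
  [IsAlgClosed K] {p : ℕ} [Fact p.Prime] [CharP K p]
  {k : Type} [Field k] [CharP k p] {n : ℕ} (hn : 0 < n)
  {Γ : FormalGroup k} [Γ.IsComm] (hΓp : mulSeries Γ p = PowerSeries.X ^ (p ^ n))
  {ι : k →+* OO K} {c : ℝ} (hc0 : 0 < c) (hc1 : c < 1)
  {Fx : FormalGroup (OO K)} [Fx.IsComm] (hFx : PCong p (p ^ n) c Fx)
  (hcong : ∀ d, ‖((coeff d (Fx.toPowerSeries - (Γ.map ι).toPowerSeries) : OO K) : K)‖ ≤ c)
  {v vi : PowerSeries k} (hv : IsHom (honda k p n hn) Γ v) (hvi : IsHom Γ (honda k p n hn) vi)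
  (hvvi : vi.subst v = PowerSeries.X) (hviv : v.subst vi = PowerSeries.X)

include hΓp hc0 hc1 hFx hcong hv hvi hvvi hviv

theorem exists_Z : ∃ Z : Pt (honda (OO K) p n hn) →+ UC Fx p, Function.Surjective Z ∧
    ∀ y l, ‖((((Z y).1 l).val : OO K) : K) -
      ((ev1 (Fr p (-((n * l : ℕ) : ℤ)) y.val) (v.map ι) : OO K) : K)‖ ≤ c :=
  bz_exists_Z hn hc0 hc1 hFx hcong hv hvi hviv

theorem Z_action (hk : ∀ x : k, x ^ (p ^ n) = x) (Z : Pt (honda (OO K) p n hn) →+ UC Fx p)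
    (hZ : ∀ y l, ‖((((Z y).1 l).val : OO K) : K) -
      ((ev1 (Fr p (-((n * l : ℕ) : ℤ)) y.val) (v.map ι) : OO K) : K)‖ ≤ c) (a : k) (m : ℕ) :
    ∃ (b : PowerSeries k) (_ : IsHom Γ Γ b) (Φ : UC Fx p →+ UC Fx p) (_ : IsAct c ι b Φ),
      ∀ y y' : Pt (honda (OO K) p n hn), y'.val = ι a * y.val ^ (p ^ m) → Φ (Z y) = Z y' :=
  bz_Z_action hn hc0 hc1 hFx hcong hv hvi hvvi hk Z hZ a m

end

section
variable {K : Type*} [NontriviallyNormedField K] [IsUltrametricDist K] [CompleteSpace K]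
  [IsAlgClosed K] {p : ℕ} [Fact p.Prime] [CharP K p]

theorem lambda_surjective {F : FormalGroup (OO K)} [F.IsComm] {h r : ℕ} [Fact (0 < h)]
    {V : PowerSeries (OO K)} (H : HtData p F h r V) {G : FormalGroup (FixF K p h)} [G.IsComm]
    {lam : PowerSeries (OO K)} (L : LamData F G lam) :
    Function.Surjective (Pt.hom L.hom) := lambda_surjective_aux H L

theorem Psi_expandable {B : Type*} [NormedCommRing B] [CompleteSpace B] [IsUltrametricDist B]
    (D : TB K p B) {n h r : ℕ} (hn : 0 < n) (hh : 0 < h) {c : ℝ} (hc0 : 0 < c) (hc1 : c < 1)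
    {Fx : FormalGroup (OO K)} [Fx.IsComm] {V : PowerSeries (OO K)} (Ht : HtData p Fx h r V)
    (v : PowerSeries (OO K)) (hv0 : PowerSeries.constantCoeff v = 0)
    (Z : Pt (honda (OO K) p n hn) →+ UC Fx p)
    (hZ : ∀ y l, ‖((((Z y).1 l).val : OO K) : K) -
      ((ev1 (Fr p (-((n * l : ℕ) : ℤ)) y.val) v : OO K) : K)‖ ≤ c)
    (γ : PowerSeries (OO K)) (hγ : IsHom Fx (honda (OO K) p h hh) γ) :
    ∃ g : OO K → B, D.Expandable g ∧
      ∀ y, D.Lq h (Pt.hom hγ ((Z y).1 0)).val = g y.val :=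
  BPsi.Psi_expandable_aux D hn hh hc0 hc1 Ht v hv0 Z hZ γ hγ

theorem indep_bound {n h r : ℕ} (hn : 0 < n) (hh : 0 < h) {c : ℝ} (hc0 : 0 < c) (hc1 : c < 1)
    {Fx : FormalGroup (OO K)} [Fx.IsComm] {V : PowerSeries (OO K)} (Ht : HtData p Fx h r V)
    (v : PowerSeries (OO K)) (hv0 : PowerSeries.constantCoeff v = 0)
    (Z : Pt (honda (OO K) p n hn) →+ UC Fx p)
    (hZ : ∀ y l, ‖((((Z y).1 l).val : OO K) : K) -
      ((ev1 (Fr p (-((n * l : ℕ) : ℤ)) y.val) v : OO K) : K)‖ ≤ c)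
    (z : Fin r → UC Fx p) (w : Fin r → Pt (honda (OO K) p n hn)) (hw : ∀ i, Z (w i) = z i)
    (z0 : ∀ i, (z i).1 0 = 0)
    (indep : ∀ a : Fin r → ℤ, ∑ i, a i • (z i).1 1 = 0 → ∀ i, (p : ℤ) ∣ a i) :
    ∃ s₀ : ℝ, 0 < s₀ ∧ ∀ a : Fin r → ℕ, (∃ i, ¬ p ∣ a i) → s₀ ≤ Pt.nm (∑ i, a i • w i) := by
  exact bi_indep_bound hn hh hc0 hc1 Ht v hv0 Z hZ z w hw z0 indep

end

section
variable {K : Type} [NontriviallyNormedField K] [IsUltrametricDist K] [CompleteSpace K]
  [IsAlgClosed K] {p : ℕ} [Fact p.Prime] [CharP K p]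

theorem relData_false {h r : ℕ} [Fact (0 < h)] (hr : 0 < r) {k : Type} [Field k] [CharP k p]
    (hk : ∀ x : k, x ^ (p ^ (h + r)) = x) (hk' : ∃ ζ : k, IsPrimitiveRoot ζ (p ^ (h + r) - 1))
    {Γ : FormalGroup k} [Γ.IsComm] (hΓp : mulSeries Γ p = PowerSeries.X ^ (p ^ (h + r)))
    {ι : k →+* OO K} {c : ℝ} {Fx : FormalGroup (OO K)} [Fx.IsComm] {V : PowerSeries (OO K)}
    {G : FormalGroup (FixF K p h)} [G.IsComm] {lam : PowerSeries (OO K)} {z : Fin r → UC Fx p}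
    (Dt : RelData h r Γ ι c Fx V G lam z) : False := by
  have hh : 0 < h := Fact.out
  have hn : 0 < h + r := by omega
  have hp : p.Prime := Fact.out
  -- the isomorphism with the Honda law of height `h + r`
  obtain ⟨v, hv, hv1⟩ := exists_strict_iso p (h + r) hn hk (honda k p (h + r) hn) Γ
    (mulSeries_honda k p (h + r) hn) hΓp
  obtain ⟨vi, hvi, hvvi, hviv⟩ := hv.exists_inverse (by rw [hv1]; exact isUnit_one)
  obtain ⟨Z, hZs, hZ⟩ := exists_Z hn hΓp Dt.c0 Dt.c1 Dt.pcong Dt.cong hv hvi hvvi hviv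
  have hv0 : PowerSeries.constantCoeff (v.map ι) = 0 := (hv.map ι).1
  obtain ⟨B, i1, i2, i3, ⟨D⟩⟩ := exists_TB K p
  -- the isomorphism with the Honda law of height `h`
  obtain ⟨μ, hμ, hμ1⟩ := exists_strict_iso p h hh (fun x => pow_FixF x) G
    (honda (FixF K p h) p h hh) Dt.lamD.pG (mulSeries_honda (FixF K p h) p h hh)
  obtain ⟨μi, hμi, hμμi, hμiμ⟩ := hμ.exists_inverse (by rw [hμ1]; exact isUnit_one)
  have hμO : IsHom (G.map (algebraMap (FixF K p h) (OO K))) (honda (OO K) p h hh)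
      (μ.map (algebraMap (FixF K p h) (OO K))) := by
    have h1 := hμ.map (algebraMap (FixF K p h) (OO K))
    rwa [honda_map] at h1
  have hμiO : IsHom (honda (OO K) p h hh) (G.map (algebraMap (FixF K p h) (OO K)))
      (μi.map (algebraMap (FixF K p h) (OO K))) := by
    have h1 := hμi.map (algebraMap (FixF K p h) (OO K))
    rwa [honda_map] at h1
  have hMMi : ∀ x, Pt.hom hμO (Pt.hom hμiO x) = x := by
    intro x
    rw [Pt.hom_hom]
    refine Pt.hom_of_eq_X _ ?_ x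
    rw [← pmap_subst_aux _ hμi.1, hμiμ]
    exact PowerSeries.map_X _
  have hMiM : ∀ x, Pt.hom hμiO (Pt.hom hμO x) = x := by
    intro x
    rw [Pt.hom_hom]
    refine Pt.hom_of_eq_X _ ?_ x
    rw [← pmap_subst_aux _ hμ.1, hμμi]
    exact PowerSeries.map_X _
  -- the map `Ψ`
  let E0 : UC Fx p →+ Pt Fx := (Pi.evalAddMonoidHom (fun _ : ℕ => Pt Fx) 0).comp
    (UC Fx p).subtype
  let Ψ : Pt (honda (OO K) p (h + r) hn) →+ Pt (honda (OO K) p h hh) :=
    (Pt.hom hμO).comp ((Pt.hom Dt.lamD.hom).comp (E0.comp Z))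
  have hΨ : ∀ y, Ψ y = Pt.hom hμO (Pt.hom Dt.lamD.hom ((Z y).1 0)) := fun y => rfl
  choose w hw using fun i => hZs (z i)
  obtain ⟨j, χ, hχ, hχj, hrel⟩ := Dt.rel
  -- the endomorphisms
  have hχ' : ∀ i, IsHom (honda (FixF K p h) p h hh) (honda (FixF K p h) p h hh)
      (μ.subst ((χ i).subst μi)) := fun i => (hμi.comp (hχ i)).comp hμ
  let χO : Fin r → PowerSeries (OO K) := fun i =>
    (μ.subst ((χ i).subst μi)).map (algebraMap (FixF K p h) (OO K))
  have H : ∀ i, IsEnd p hh (χO i) := fun i => isEnd_of_FixF hh (hχ' i)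
  have hHapp : ∀ i x, (H i).app (Pt.hom hμO x) =
      Pt.hom hμO (Pt.hom ((hχ i).map (algebraMap (FixF K p h) (OO K))) x) := by
    intro i x
    have e1 : ∀ y, (H i).app y = Pt.hom hμO
        (Pt.hom ((hχ i).map (algebraMap (FixF K p h) (OO K))) (Pt.hom hμiO y)) := by
      intro y
      rw [Pt.hom_hom hμiO ((hχ i).map _), Pt.hom_hom (hμiO.comp ((hχ i).map _)) hμO]
      refine Pt.hom_congr _ _ ?_ _
      change PowerSeries.map _ (PowerSeries.subst (PowerSeries.subst μi (χ i)) μ) = _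
      rw [pmap_subst_aux _ (hμi.comp (hχ i)).1, pmap_subst_aux _ hμi.1]
    rw [e1, hMiM]
  have C : CoreData D hn hh Ψ w j χO H := by
    refine ⟨?_, ?_, ?_, ?_⟩
    · intro x
      obtain ⟨y1, hy1⟩ := lambda_surjective Dt.ht Dt.lamD (Pt.hom hμiO x)
      obtain ⟨z1, hz1⟩ := uc_zero_surjective Dt.ht y1
      obtain ⟨y, hy⟩ := hZs z1
      refine ⟨y, ?_⟩
      rw [hΨ, hy]
      change Pt.hom hμO (Pt.hom Dt.lamD.hom ((fun z : UC Fx p => z.1 0) z1)) = x
      rw [hz1, hy1, hMMi]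
    · intro η E
      obtain ⟨g, hg, hg'⟩ := Psi_expandable D hn hh Dt.c0 Dt.c1 Dt.ht (v.map ι) hv0 Z hZ _
        ((Dt.lamD.hom.comp hμO).comp E.hom)
      refine ⟨g, hg, fun y => ?_⟩
      rw [← hg' y, hΨ]
      rw [← Pt.hom_hom (Dt.lamD.hom.comp hμO) E.hom, ← Pt.hom_hom Dt.lamD.hom hμO]
      rfl
    · exact indep_bound hn hh Dt.c0 Dt.c1 Dt.ht (v.map ι) hv0 Z hZ z w hw Dt.z0 Dt.indep
    · intro a m y ha hy
      have hN2 : 2 ≤ p ^ (h + r) := by
        calc 2 ≤ p := hp.two_le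
          _ = p ^ 1 := (pow_one p).symm
          _ ≤ p ^ (h + r) := Nat.pow_le_pow_right hp.pos hn
      obtain ⟨a₀, ha₀⟩ := exists_preimage_of_pow_eq ι hN2 hk' a ha
      obtain ⟨b, hb, Φ, hΦ, hact⟩ := Z_action hn hΓp Dt.c0 Dt.c1 Dt.pcong Dt.cong hv hvi hvvi
        hviv hk Z hZ a₀ m
      have hΦz : ∀ i, Φ (z i) = Z (y i) := by
        intro i
        rw [← hw i]
        exact hact (w i) (y i) (by rw [ha₀]; exact hy i)
      have h1 := hrel b hb Φ hΦ
      have h2 := congrArg (Pt.hom hμO) h1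
      rw [map_sum, hΦz, ← hΨ] at h2
      rw [h2]
      have h3 : ∀ i, Pt.hom hμO (Pt.hom ((hχ i).map (algebraMap (FixF K p h) (OO K)))
          (Pt.hom Dt.lamD.hom ((Φ (z i)).1 0))) = (H i).app (Ψ (y i)) := by
        intro i
        rw [← hHapp, hΦz, hΨ]
      rw [Finset.sum_congr rfl fun i _ => h3 i]
      rw [← Finset.sum_erase_add _ _ (Finset.mem_univ j)]
      have h4 : (H j).app (Ψ (y j)) = 0 := by
        rw [← h3 j]
        have h5 : Pt.hom ((hχ j).map (algebraMap (FixF K p h) (OO K)))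
          (Pt.hom Dt.lamD.hom ((Φ (z j)).1 0)) = 0 := by
          apply Pt.ext
          rw [Pt.hom_val, hχj, map_zero]
          exact ev_zero (hasEval_unit (Pt.tn _))
        rw [h5, map_zero]
      rw [h4, add_zero]
  exact core_false C (by omega)

end
end Vale.Agent.P217
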