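import Vale.Agent.Lib.P217.MainP

/-!
# P217: tools for `hasDisp` (module ChaiP)

Sums of homomorphisms, low degree terms of `[p^m]`, and the Artinian quotients
`k[[u_1..u_r]] / (u_i^{p^e})`.
-/

set_option linter.unusedSectionVars false

namespace Vale.Agent.P217.DispTools

open MvPowerSeries

section formal
variable {R S T : Type*} [CommRing R] [CommRing S] [CommRing T]

theorem formalGroup_map_map (F : FormalGroup R) (f : R →+* S) (g : S →+* T) :
    (F.map f).map g = F.map (g.comp f) := by
  apply FormalGroup.ext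
  ext d
  simp [coeff_map]

theorem mv_map_map {σ : Type*} (F : MvPowerSeries σ R) (f : R →+* S) (g : S →+* T) :
    (F.map f).map g = F.map (g.comp f) := by
  ext d
  simp [coeff_map]

/-- the sum of two homomorphisms to a commutative formal group law -/
theorem isHom_add {F G : FormalGroup R} [F.IsComm] [G.IsComm] {f g : PowerSeries R}
    (hf : IsHom F G f) (hg : IsHom F G g) :
    IsHom F G (seriesPoint G f hf.1 + seriesPoint G g hg.1).val := by
  obtain ⟨H, hH⟩ := exists_toPowerSeries_eq G
  have e : (seriesPoint G f hf.1 + seriesPoint G g hg.1).val =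
      subst ![f, g] G.toPowerSeries := rfl
  have hsf := hasSubst_of_isHom hf
  have hsg := hasSubst_of_isHom hg
  rw [e]
  refine ⟨?_, ?_⟩
  · rw [subst_pair_eq hH hsf hsg]
    rw [map_add, map_add, map_mul, map_mul, hf.1, hg.1]
    simp
  · let P0 : F.Point (Fin 2) := ⟨X 0, hasSubst_X 0⟩
    let P1 : F.Point (Fin 2) := ⟨X 1, hasSubst_X 1⟩
    have h : Point.hom hf (Fin 2) (P0 + P1) + Point.hom hg (Fin 2) (P0 + P1) =
        (Point.hom hf (Fin 2) P0 + Point.hom hg (Fin 2) P0) +
          (Point.hom hf (Fin 2) P1 + Point.hom hg (Fin 2) P1) := by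
      rw [map_add, map_add]
      exact add_add_add_comm _ _ _ _
    have hP : (P0 + P1).val = F.toPowerSeries := subst_pair_X F.toPowerSeries
    have e1 : ∀ x : F.Point (Fin 2), (Point.hom hf (Fin 2) x + Point.hom hg (Fin 2) x).val =
        PowerSeries.subst x.val (subst ![f, g] G.toPowerSeries : PowerSeries R) := by
      intro x
      rw [psubst_pair hsf hsg x.prop]
      rfl
    calc PowerSeries.subst F.toPowerSeries (subst ![f, g] G.toPowerSeries : PowerSeries R)
        = PowerSeries.subst (P0 + P1).val (subst ![f, g] G.toPowerSeries : PowerSeries R) := by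
          rw [hP]
      _ = (Point.hom hf (Fin 2) (P0 + P1) + Point.hom hg (Fin 2) (P0 + P1)).val := (e1 _).symm
      _ = ((Point.hom hf (Fin 2) P0 + Point.hom hg (Fin 2) P0) +
          (Point.hom hf (Fin 2) P1 + Point.hom hg (Fin 2) P1)).val := congrArg Subtype.val h
      _ = subst ![(Point.hom hf (Fin 2) P0 + Point.hom hg (Fin 2) P0).val,
          (Point.hom hf (Fin 2) P1 + Point.hom hg (Fin 2) P1).val] G.toPowerSeries := rfl
      _ = _ := by rw [e1 P0, e1 P1]

theorem mulSeries_mul (F : FormalGroup R) (a b : ℕ) :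
    mulSeries F (a * b) = (mulSeries F a).subst (mulSeries F b) := by
  have h : (a * b) • idPoint F = a • (b • idPoint F) := mul_smul a b (idPoint F)
  have h' := congrArg Subtype.val h
  rw [Point.nsmul_val a] at h'
  exact h'

theorem dvd_psubst {f g : PowerSeries R} {a b : ℕ} (hf : PowerSeries.X ^ a ∣ f)
    (hg : PowerSeries.X ^ b ∣ g) (hg0 : PowerSeries.constantCoeff g = 0) :
    PowerSeries.X ^ (a * b) ∣ (f.subst g : PowerSeries R) := by
  have hs : PowerSeries.HasSubst g := PowerSeries.HasSubst.of_constantCoeff_zero' hg0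
  obtain ⟨f', rfl⟩ := hf
  rw [PowerSeries.subst_mul hs, PowerSeries.subst_pow hs, PowerSeries.subst_X hs, mul_comm a b,
    pow_mul]
  exact (pow_dvd_pow_of_dvd hg a).mul_right _

theorem dvd_mulSeries_pow (F : FormalGroup R) {p Q : ℕ}
    (h : PowerSeries.X ^ Q ∣ mulSeries F p) (m : ℕ) :
    PowerSeries.X ^ (Q ^ m) ∣ mulSeries F (p ^ m) := by
  induction m with
  | zero =>
    rw [pow_zero, pow_zero, pow_one]
    exact PowerSeries.X_dvd_iff.2 (mulSeries_constantCoeff F 1)
  | succ m ih =>
    rw [pow_succ' p, pow_succ' Q, mulSeries_mul]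
    exact dvd_psubst h ih (mulSeries_constantCoeff F _)

theorem dvd_add_sub_X (F : FormalGroup R) {γ : PowerSeries R}
    (hγ : PowerSeries.constantCoeff γ = 0) {N : ℕ} (h : PowerSeries.X ^ N ∣ γ) :
    PowerSeries.X ^ N ∣ ((idPoint F + seriesPoint F γ hγ).val - PowerSeries.X) := by
  obtain ⟨H, hH⟩ := exists_toPowerSeries_eq F
  have e : (idPoint F + seriesPoint F γ hγ).val =
      (subst ![PowerSeries.X, γ] F.toPowerSeries : PowerSeries R) := rfl
  rw [e, subst_pair_eq hH PowerSeries.HasSubst.X'
    (PowerSeries.HasSubst.of_constantCoeff_zero' hγ)]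
  have e2 : (PowerSeries.X + γ + PowerSeries.X * γ *
      (subst ![PowerSeries.X, γ] H : PowerSeries R)) - PowerSeries.X =
      γ * (1 + PowerSeries.X * (subst ![PowerSeries.X, γ] H : PowerSeries R)) := by
    ring
  rw [e2]
  exact h.mul_right _

/-- homomorphisms modulo the kernel of a ring homomorphism -/
theorem isHom_map_iff (φ : R →+* S) {F G : FormalGroup R} {f : PowerSeries R}
    (hf : PowerSeries.constantCoeff f = 0) :
    IsHom (F.map φ) (G.map φ) (f.map φ) ↔
      ∀ d, φ (coeff d (PowerSeries.subst F.toPowerSeries f -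
        MvPowerSeries.subst ![PowerSeries.subst (X 0 : MvPowerSeries (Fin 2) R) f,
          PowerSeries.subst (X 1 : MvPowerSeries (Fin 2) R) f] G.toPowerSeries)) = 0 := by
  have h : (PowerSeries.subst F.toPowerSeries f -
        MvPowerSeries.subst ![PowerSeries.subst (X 0 : MvPowerSeries (Fin 2) R) f,
          PowerSeries.subst (X 1 : MvPowerSeries (Fin 2) R) f] G.toPowerSeries).map φ =
      PowerSeries.subst (F.map φ).toPowerSeries (f.map φ) -
        MvPowerSeries.subst ![PowerSeries.subst (X 0 : MvPowerSeries (Fin 2) S) (f.map φ),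
          PowerSeries.subst (X 1 : MvPowerSeries (Fin 2) S) (f.map φ)]
          (G.map φ).toPowerSeries := by
    rw [map_sub, PowerSeries.map_subst (hasSubst_F F), map_subst_pair φ
      (hasSubst_psubst (hasSubst_X 0) hf) (hasSubst_psubst (hasSubst_X 1) hf),
      PowerSeries.map_subst (hasSubst_X 0), PowerSeries.map_subst (hasSubst_X 1), map_X,
      map_X]
    rfl
  have h0 : PowerSeries.constantCoeff (f.map φ) = 0 := by
    rw [← PowerSeries.coeff_zero_eq_constantCoeff_apply, PowerSeries.coeff_map,
      PowerSeries.coeff_zero_eq_constantCoeff_apply, hf, map_zero]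
  constructor
  · intro h1 d
    have h2 := congrArg (coeff d) h
    rw [coeff_map] at h2
    rw [h2, h1.2, sub_self, map_zero]
  · intro h1
    refine ⟨h0, ?_⟩
    rw [← sub_eq_zero, ← h]
    ext d
    rw [coeff_map, h1 d, map_zero]

theorem psMap_map (f : PowerSeries R) (φ : R →+* S) (ψ : S →+* T) :
    (f.map φ).map ψ = f.map (ψ.comp φ) := by
  ext i
  simp

end formal

section power
variable {k : Type} [Field k] {r : ℕ}

instance instCharPMv {σ A : Type*} [CommRing A] (p : ℕ) [CharP A p] : CharP (MvPowerSeries σ A) p :=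
  charP_of_injective_ringHom (f := (C : A →+* MvPowerSeries σ A))
    (fun a b h => by simpa using congrArg constantCoeff h) p

theorem exists_decomp (f : MvPowerSeries (Fin r) k) (hf : constantCoeff f = 0) :
    ∃ g : Fin r → MvPowerSeries (Fin r) k, f = ∑ i, X i * g i := by
  classical
  let c : Fin r → MvPowerSeries (Fin r) k := fun i d =>
    if d i ≠ 0 ∧ ∀ j < i, d j = 0 then coeff d f else 0
  have hc : ∀ i d, coeff d (c i) = if d i ≠ 0 ∧ ∀ j < i, d j = 0 then coeff d f else 0 :=
    fun i d => rfl
  have hdvd : ∀ i, X i ∣ c i := by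
    intro i
    rw [X_dvd_iff]
    intro m hm
    rw [hc, if_neg]
    rintro ⟨h1, _⟩
    exact h1 hm
  choose g hg using hdvd
  refine ⟨g, ?_⟩
  have h1 : ∑ i, X i * g i = ∑ i, c i := Finset.sum_congr rfl (fun i _ => (hg i).symm)
  rw [h1]
  ext d
  rw [map_sum]
  simp only [hc]
  by_cases hd : d = 0
  · subst hd
    have h2 : coeff 0 f = 0 := hf
    rw [h2]
    simp
  · have hex : (Finset.univ.filter (fun i : Fin r => d i ≠ 0)).Nonempty := by
      by_contra hcon
      rw [Finset.not_nonempty_iff_eq_empty] at hcon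
      apply hd
      ext i
      by_contra hi
      have : i ∈ Finset.univ.filter (fun i : Fin r => d i ≠ 0) := by
        simpa using hi
      rw [hcon] at this
      simp at this
    set i0 := (Finset.univ.filter (fun i : Fin r => d i ≠ 0)).min' hex with hi0
    have hi1 : d i0 ≠ 0 := by
      have := Finset.min'_mem _ hex
      rw [← hi0] at this
      simpa using this
    have hi2 : ∀ j < i0, d j = 0 := by
      intro j hj
      by_contra hcon
      have h3 : j ∈ Finset.univ.filter (fun i : Fin r => d i ≠ 0) := by simpa using hcon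
      have h4 := Finset.min'_le _ j h3
      exact absurd hj (not_lt.2 h4)
    rw [Finset.sum_eq_single i0]
    · rw [if_pos ⟨hi1, hi2⟩]
    · intro i _ hi
      rw [if_neg]
      rintro ⟨h3, h4⟩
      rcases lt_or_gt_of_ne hi with h5 | h5
      · exact h3 (hi2 i h5)
      · exact hi1 (h4 i0 h5)
    · intro h3
      exact absurd (Finset.mem_univ _) h3

theorem pow_mem_powIdeal (p : ℕ) [Fact p.Prime] [CharP k p] (e : ℕ)
    {a : MvPowerSeries (Fin r) k} (ha : constantCoeff a = 0) :
    a ^ (p ^ e) ∈ powIdeal k r (p ^ e) := by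
  obtain ⟨g, rfl⟩ := exists_decomp a ha
  rw [sum_pow_char_pow]
  refine Ideal.sum_mem _ (fun i _ => ?_)
  rw [mul_pow]
  exact Ideal.mul_mem_right _ _ (Ideal.subset_span ⟨i, rfl⟩)

theorem constantCoeff_of_mem_powIdeal {s : ℕ} (hs : s ≠ 0) {a : MvPowerSeries (Fin r) k}
    (ha : a ∈ powIdeal k r s) : constantCoeff a = 0 := by
  have h : powIdeal k r s ≤ RingHom.ker
      (constantCoeff : MvPowerSeries (Fin r) k →+* k) := by
    unfold powIdeal
    rw [Ideal.span_le]
    rintro x ⟨j, rfl⟩
    change constantCoeff (X j ^ s) = 0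
    rw [map_pow, constantCoeff_X, zero_pow hs]
  exact h ha

end power

section artin
variable (k : Type) [Field k] (r : ℕ) (p : ℕ) [Fact p.Prime] [CharP k p] (e : ℕ)

/-- the Artinian quotient `k[[u]] / (u_i^{p^e})` -/
abbrev ArtQ : Type := MvPowerSeries (Fin r) k ⧸ powIdeal k r (p ^ e)

theorem powIdeal_ne_top : powIdeal k r (p ^ e) ≠ ⊤ := by
  intro h
  have h1 : (1 : MvPowerSeries (Fin r) k) ∈ powIdeal k r (p ^ e) := by
    rw [h]
    trivial
  have h2 := constantCoeff_of_mem_powIdeal (pow_ne_zero e (Fact.out : p.Prime).ne_zero) h1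
  simp at h2

instance : Nontrivial (ArtQ k r p e) :=
  Ideal.Quotient.nontrivial_iff.2 (powIdeal_ne_top k r p e)

instance : IsLocalRing (ArtQ k r p e) :=
  IsLocalRing.of_surjective' (Ideal.Quotient.mk _) Ideal.Quotient.mk_surjective

instance : IsNoetherianRing (ArtQ k r p e) := inferInstance

/-- the residue map of the Artinian quotient -/
noncomputable def artRes : ArtQ k r p e →+* k :=
  Ideal.Quotient.lift _ (constantCoeff : MvPowerSeries (Fin r) k →+* k)
    (fun _ ha => constantCoeff_of_mem_powIdeal (pow_ne_zero e (Fact.out : p.Prime).ne_zero) ha)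

theorem artRes_comp : (artRes k r p e).comp (Ideal.Quotient.mk _) =
    (constantCoeff : MvPowerSeries (Fin r) k →+* k) := by
  ext a
  rfl

theorem artRes_surjective : Function.Surjective (artRes k r p e) := by
  intro a
  refine ⟨Ideal.Quotient.mk _ (C a), ?_⟩
  simp [artRes]

theorem pow_eq_zero_of_artRes {x : ArtQ k r p e} (hx : artRes k r p e x = 0) :
    x ^ (p ^ e) = 0 := by
  obtain ⟨a, rfl⟩ := Ideal.Quotient.mk_surjective x
  rw [← map_pow, Ideal.Quotient.eq_zero_iff_mem]
  exact pow_mem_powIdeal p e hx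

theorem artQ_maximal_le : IsLocalRing.maximalIdeal (ArtQ k r p e) ≤ nilradical (ArtQ k r p e) := by
  intro x hx
  rw [mem_nilradical]
  refine ⟨p ^ e, pow_eq_zero_of_artRes k r p e ?_⟩
  by_contra hcon
  obtain ⟨a, rfl⟩ := Ideal.Quotient.mk_surjective x
  have h1 : IsUnit a := by
    rw [MvPowerSeries.isUnit_iff_constantCoeff]
    exact (Ne.isUnit hcon)
  rw [IsLocalRing.mem_maximalIdeal] at hx
  exact hx (h1.map _)

instance : IsAdicComplete (IsLocalRing.maximalIdeal (ArtQ k r p e)) (ArtQ k r p e) := by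
  have hnil : IsNilpotent (IsLocalRing.maximalIdeal (ArtQ k r p e)) :=
    (Ideal.FG.isNilpotent_iff_le_nilradical (IsNoetherian.noetherian _)).2
      (artQ_maximal_le k r p e)
  obtain ⟨N, hN⟩ := hnil
  set I := IsLocalRing.maximalIdeal (ArtQ k r p e) with hI
  have hN' : ∀ n, N ≤ n → I ^ n = ⊥ := by
    intro n hn
    rw [eq_bot_iff]
    refine (Ideal.pow_le_pow_right hn).trans ?_
    rw [hN]
    exact le_rfl
  refine { haus' := ?_, prec' := ?_ }
  · intro x hx
    have h1 := hx N
    rw [hN' N le_rfl, Submodule.bot_smul, SModEq.bot] at h1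
    exact h1
  · intro f hf
    refine ⟨f N, fun n => ?_⟩
    rcases le_total n N with h | h
    · exact hf h
    · have h1 := hf h
      rw [hN' N le_rfl, Submodule.bot_smul, SModEq.bot] at h1
      rw [h1]
      exact SModEq.refl _

end artin
end Vale.Agent.P217.DispTools
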