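import Mathlib.RingTheory.Henselian
import Vale.Agent.Lib.P217.FrobFactor

/-!
# P217: endomorphisms of a height one formal group law over the prime field
-/

set_option linter.unusedSectionVars false

namespace Vale.Agent.P217

open MvPowerSeries

section
variable {R : Type*} [CommRing R]

/-- evaluation of one-variable formal points at `x` -/
noncomputable def Point.evalHom {G : FormalGroup R} [G.IsComm] {σ : Type*}
    {x : MvPowerSeries σ R} (hx : PowerSeries.HasSubst x) : G.Point Unit →+ G.Point σ where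
  toFun f := ⟨PowerSeries.subst x f.val, hasSubst_subst hx.const f.prop⟩
  map_zero' := Subtype.ext (subst_zero' hx)
  map_add' f g := Subtype.ext (psubst_pair f.prop g.prop hx _)

theorem Point.evalHom_val {G : FormalGroup R} [G.IsComm] {σ : Type*}
    {x : MvPowerSeries σ R} (hx : PowerSeries.HasSubst x) (f : G.Point Unit) :
    (Point.evalHom hx f).val = PowerSeries.subst x f.val := rfl

/-- a series without constant term as a formal point -/
noncomputable def serPt (F : FormalGroup R) (f : PowerSeries R)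
    (hf : PowerSeries.constantCoeff f = 0) : F.Point Unit :=
  ⟨f, PowerSeries.HasSubst.of_constantCoeff_zero' hf⟩

theorem isHom_iff_evalHom {F G : FormalGroup R} [G.IsComm] (f : G.Point Unit) :
    IsHom F G f.val ↔ PowerSeries.constantCoeff f.val = 0 ∧
      Point.evalHom (hasSubst_F F) f =
        Point.evalHom (hasSubst_X 0) f + Point.evalHom (hasSubst_X 1) f := by
  constructor
  · rintro ⟨h0, h⟩
    exact ⟨h0, Subtype.ext h⟩
  · rintro ⟨h0, h⟩
    exact ⟨h0, congrArg Subtype.val h⟩

theorem Point.coeff_one_add {G : FormalGroup R} [G.IsComm] (f g : G.Point Unit)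
    (hf : PowerSeries.constantCoeff f.val = 0) (hg : PowerSeries.constantCoeff g.val = 0) :
    PowerSeries.coeff 1 (f + g).val = PowerSeries.coeff 1 f.val + PowerSeries.coeff 1 g.val := by
  obtain ⟨H, hH⟩ := exists_toPowerSeries_eq G
  rw [FormalGroup.add_apply, subst_pair_eq hH f.prop g.prop]
  have h : PowerSeries.X ^ 2 ∣ f.val * g.val *
      (subst ![f.val, g.val] H : PowerSeries R) := by
    have h1 : PowerSeries.X ∣ f.val := PowerSeries.X_dvd_iff.2 hf
    have h2 : PowerSeries.X ∣ g.val := PowerSeries.X_dvd_iff.2 hg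
    rw [pow_two]
    exact (mul_dvd_mul h1 h2).mul_right _
  rw [map_add, map_add, PowerSeries.X_pow_dvd_iff.1 h 1 (by norm_num), add_zero]

end

section
variable {κ : Type*} [Field κ] {p : ℕ} [Fact p.Prime] [CharP κ p]

theorem Point.constantCoeff_val {G : FormalGroup κ} (f : G.Point Unit) :
    PowerSeries.constantCoeff f.val = 0 := by
  have h : IsNilpotent (MvPowerSeries.constantCoeff f.val) := f.prop
  exact h.eq_zero

theorem isHom_sub_point {F G : FormalGroup κ} [G.IsComm] (f g : G.Point Unit)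
    (hf : IsHom F G f.val) (hg : IsHom F G g.val) : IsHom F G (f - g).val := by
  rw [isHom_iff_evalHom] at hf hg ⊢
  refine ⟨Point.constantCoeff_val _, ?_⟩
  rw [map_sub, map_sub, map_sub, hf.2, hg.2]
  abel

theorem exists_natCast_eq (hκ : ∀ x : κ, x ^ p = x) (x : κ) : ∃ a : ℕ, (a : κ) = x := by
  obtain ⟨n, hn⟩ := (mem_bot_iff_intCast p κ).1
    ((Subfield.mem_bot_iff_pow_eq_self κ p).2 (hκ x))
  have hp : (p : ℤ) ≠ 0 := by exact_mod_cast (Fact.out : p.Prime).ne_zero
  refine ⟨(n % p).toNat, ?_⟩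
  have h1 : (((n % p).toNat : ℤ) : κ) = ((n % p : ℤ) : κ) := by
    rw [Int.toNat_of_nonneg (Int.emod_nonneg _ hp)]
  have h2 : ((n % p : ℤ) : κ) = (n : κ) := by
    conv_rhs => rw [← Int.emod_add_mul_ediv n p]
    push_cast
    rw [CharP.cast_eq_zero κ p]
    ring
  rw [← hn, ← h2, ← h1]
  push_cast
  rfl

theorem map_iterateFrobenius_eq (hκ : ∀ x : κ, x ^ p = x) (G : FormalGroup κ) :
    G.map (iterateFrobenius κ p 1) = G := by
  have h : iterateFrobenius κ p 1 = RingHom.id κ := by
    ext x
    rw [iterateFrobenius_one_apply]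
    exact hκ x
  rw [h]
  have h2 : MvPowerSeries.map (RingHom.id κ) G.toPowerSeries = G.toPowerSeries := by
    rw [MvPowerSeries.map_id]
    rfl
  cases G
  simp only [FormalGroup.map]
  congr

theorem coeff_low_eq_zero {G F : FormalGroup κ} {f : PowerSeries κ} (hf : IsHom F G f)
    (h1 : PowerSeries.coeff 1 f = 0) : ∀ i < p, PowerSeries.coeff i f = 0 := by
  have h2 := hom_derivative hf
  rw [h1, map_zero, zero_mul] at h2
  have h3 : PowerSeries.derivative κ f = 0 := by
    rcases mul_eq_zero.1 h2 with h | h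
    · exact h
    · exfalso
      have h4 := dser_constantCoeff F
      rw [h, map_zero] at h4
      exact zero_ne_one h4
  intro i hi
  rcases i with _ | i
  · rw [PowerSeries.coeff_zero_eq_constantCoeff_apply]
    exact hf.1
  · have h5 := congrArg (PowerSeries.coeff i) h3
    rw [PowerSeries.coeff_derivative, map_zero] at h5
    rcases mul_eq_zero.1 h5 with h | h
    · exact h
    · exfalso
      have h6 : ((i + 1 : ℕ) : κ) = 0 := by
        push_cast
        exact h
      rw [CharP.cast_eq_zero_iff κ p] at h6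
      exact absurd (Nat.le_of_dvd (Nat.succ_pos i) h6) (by omega)

theorem hasSubst_X_pow_p (l : ℕ) :
    PowerSeries.HasSubst (PowerSeries.X ^ (p ^ l) : PowerSeries κ) :=
  PowerSeries.HasSubst.X_pow (pow_ne_zero _ (Fact.out : p.Prime).ne_zero)

theorem end_step (hκ : ∀ x : κ, x ^ p = x) (G : FormalGroup κ) [G.IsComm]
    (χ : {χ : PowerSeries κ // IsHom G G χ}) :
    ∃ (a : ℕ) (χ' : {χ : PowerSeries κ // IsHom G G χ}),
      serPt G χ.1 χ.2.1 = a • idPoint G +
        Point.evalHom (hasSubst_X_pow_p 1) (serPt G χ'.1 χ'.2.1) := by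
  obtain ⟨a, ha⟩ := exists_natCast_eq hκ (PowerSeries.coeff 1 χ.1)
  set d : G.Point Unit := serPt G χ.1 χ.2.1 - a • idPoint G with hd
  have hdhom : IsHom G G d.val := isHom_sub_point _ _ χ.2 (isHom_mulSeries G a)
  have hd1 : PowerSeries.coeff 1 d.val = 0 := by
    have h1 : serPt G χ.1 χ.2.1 = d + a • idPoint G := by
      rw [hd, sub_add_cancel]
    have h2 := congrArg (fun x : G.Point Unit => PowerSeries.coeff 1 x.val) h1
    have h3 := Point.coeff_one_add d (a • idPoint G) (Point.constantCoeff_val _)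
      (Point.constantCoeff_val _)
    have h4 : PowerSeries.coeff 1 (a • idPoint G).val = (a : κ) := mulSeries_coeff_one G a
    rw [h4] at h3
    have h5 : PowerSeries.coeff 1 χ.1 = PowerSeries.coeff 1 d.val + (a : κ) := h2.trans h3
    rw [ha] at h5
    exact right_eq_add.1 h5
  obtain ⟨V, hV0, hV⟩ := exists_frobenius_factor p hdhom 1 (by
    rw [pow_one]
    exact coeff_low_eq_zero hdhom hd1)
  have hVhom := isHom_of_frobenius_factor p hdhom 1 V hV0 hV
  rw [map_iterateFrobenius_eq hκ] at hVhom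
  refine ⟨a, ⟨V, hVhom⟩, ?_⟩
  have h6 : d = Point.evalHom (hasSubst_X_pow_p 1) (serPt G V hVhom.1) := Subtype.ext hV
  rw [← h6, hd]
  abel

/-- the point `X^{p^l}` -/
theorem pow_smul_idPoint (G : FormalGroup κ) [G.IsComm]
    (hG : mulSeries G p = PowerSeries.X ^ p) (l : ℕ) :
    (p ^ l • idPoint G).val = (PowerSeries.X ^ (p ^ l) : PowerSeries κ) := by
  induction l with
  | zero =>
    rw [pow_zero, one_smul, pow_one]
    rfl
  | succ l ih =>
    have h1 : PowerSeries.HasSubst (PowerSeries.X ^ (p ^ l) : PowerSeries κ) :=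
      hasSubst_X_pow_p l
    rw [pow_succ' p l, mul_smul, Point.nsmul_val, ih, hG, PowerSeries.subst_pow h1,
      PowerSeries.subst_X h1, ← pow_mul, mul_comm]

theorem evalHom_idPoint (G : FormalGroup κ) [G.IsComm]
    (hG : mulSeries G p = PowerSeries.X ^ p) (l : ℕ) :
    Point.evalHom (hasSubst_X_pow_p l) (idPoint G) = p ^ l • idPoint G := by
  apply Subtype.ext
  rw [pow_smul_idPoint G hG, Point.evalHom_val]
  exact PowerSeries.subst_X (hasSubst_X_pow_p l)

theorem evalHom_evalHom (G : FormalGroup κ) [G.IsComm] (l : ℕ) (f : G.Point Unit) :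
    Point.evalHom (hasSubst_X_pow_p l) (Point.evalHom (hasSubst_X_pow_p 1) f) =
      Point.evalHom (hasSubst_X_pow_p (p := p) (l + 1)) f := by
  apply Subtype.ext
  rw [Point.evalHom_val, Point.evalHom_val, Point.evalHom_val,
    PowerSeries.subst_comp_subst_apply (hasSubst_X_pow_p 1) (hasSubst_X_pow_p l),
    PowerSeries.subst_pow (hasSubst_X_pow_p l), PowerSeries.subst_X (hasSubst_X_pow_p l),
    ← pow_mul, ← pow_add]

theorem end_height_one_aux (hκ : ∀ x : κ, x ^ p = x) (G : FormalGroup κ) [G.IsComm]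
    (hG : mulSeries G p = PowerSeries.X ^ p) (χ : PowerSeries κ) (hχ : IsHom G G χ) :
    ∃ a : ℕ → ℕ, (∀ l, a (l + 1) ≡ a l [MOD p ^ l]) ∧
      ∀ l, ∃ (χ' : PowerSeries κ) (h0 : PowerSeries.constantCoeff χ' = 0)
        (h1 : PowerSeries.constantCoeff (χ'.subst (PowerSeries.X ^ (p ^ l) : PowerSeries κ)) = 0),
        serPt G χ hχ.1 = a l • idPoint G +
          serPt G (χ'.subst (PowerSeries.X ^ (p ^ l) : PowerSeries κ)) h1 := by
  choose A N hN using end_step hκ G
  let s : ℕ → {χ : PowerSeries κ // IsHom G G χ} := fun l => Nat.rec ⟨χ, hχ⟩ (fun _ x => N x) l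
  have hs : ∀ l, s (l + 1) = N (s l) := fun l => rfl
  let a : ℕ → ℕ := fun l => ∑ i ∈ Finset.range l, A (s i) * p ^ i
  have ha : ∀ l, a (l + 1) = a l + A (s l) * p ^ l := fun l => Finset.sum_range_succ _ _
  have key : ∀ l, serPt G χ hχ.1 = a l • idPoint G +
      Point.evalHom (hasSubst_X_pow_p l) (serPt G (s l).1 (s l).2.1) := by
    intro l
    induction l with
    | zero =>
      have h1 : a 0 = 0 := rfl
      rw [h1, zero_smul, zero_add]
      apply Subtype.ext
      rw [Point.evalHom_val]
      have h2 : (PowerSeries.X ^ (p ^ 0) : PowerSeries κ) = PowerSeries.X := by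
        rw [pow_zero, pow_one]
      rw [h2]
      exact (PowerSeries.X_subst _).symm
    | succ l ih =>
      rw [ih, ha, hs, hN (s l), map_add, map_nsmul, evalHom_idPoint G hG, evalHom_evalHom,
        add_smul, mul_smul, add_assoc]
  refine ⟨a, ?_, ?_⟩
  · intro l
    rw [ha]
    have h1 : A (s l) * p ^ l ≡ 0 [MOD p ^ l] := Nat.modEq_zero_iff_dvd.2 (Dvd.intro_left _ rfl)
    exact (h1.add_left (a l)).trans (by rw [add_zero])
  · intro l
    exact ⟨(s l).1, (s l).2.1, Point.constantCoeff_val (Point.evalHom (hasSubst_X_pow_p l)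
      (serPt G (s l).1 (s l).2.1)), key l⟩

end
end Vale.Agent.P217
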