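import Vale.Agent.Lib.P217.MainP

/-!
# P217: auxiliary lemmas for `exists_kernel_elt`
-/

set_option linter.unusedSectionVars false

namespace Vale.Agent.P217

open MvPowerSeries Filter Topology
open scoped MvPowerSeries.WithPiTopology

section
variable {K : Type} [NontriviallyNormedField K] [IsUltrametricDist K] [CompleteSpace K]
  {p : ℕ} [Fact p.Prime] [CharP K p] {h : ℕ} [Fact (0 < h)]

theorem ev1_X_pow {x : OO K} (hx : IsTopologicallyNilpotent x) (m : ℕ) :
    ev1 x (PowerSeries.X ^ m : PowerSeries (OO K)) = x ^ m := by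
  have h1 := ev_pow (hasEval_unit hx) (X () : MvPowerSeries Unit (OO K)) m
  rw [ev_X] at h1
  exact h1

theorem hasSubst_X_pow {R : Type*} [CommRing R] {m : ℕ} (hm : m ≠ 0) :
    PowerSeries.HasSubst (PowerSeries.X ^ m : PowerSeries R) := by
  refine PowerSeries.HasSubst.of_constantCoeff_zero' ?_
  rw [map_pow, PowerSeries.constantCoeff_X, zero_pow hm]

theorem GO_smul_val {G : FormalGroup (FixF K p h)} [G.IsComm]
    (hG : mulSeries G p = PowerSeries.X ^ (p ^ h)) (y : Pt (GO G)) :
    (p • y).val = y.val ^ (p ^ h) := by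
  rw [Pt.nsmul_val, mulSeries_map, hG, map_pow, PowerSeries.map_X, ev1_X_pow y.tn]

theorem GO_pow_smul_val {G : FormalGroup (FixF K p h)} [G.IsComm]
    (hG : mulSeries G p = PowerSeries.X ^ (p ^ h)) (l : ℕ) (y : Pt (GO G)) :
    (p ^ l • y).val = y.val ^ ((p ^ h) ^ l) := by
  induction l with
  | zero => simp
  | succ l ih =>
    rw [pow_succ', mul_smul, GO_smul_val hG, ih, ← pow_mul, ← pow_succ]

theorem nm_GO_pow_smul {G : FormalGroup (FixF K p h)} [G.IsComm]
    (hG : mulSeries G p = PowerSeries.X ^ (p ^ h)) (l : ℕ) (y : Pt (GO G)) :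
    Pt.nm (p ^ l • y) = Pt.nm y ^ ((p ^ h) ^ l) := by
  unfold Pt.nm
  rw [GO_pow_smul_val hG]
  push_cast
  rw [norm_pow]

theorem hom_eq_of_seriesPoint {G : FormalGroup (FixF K p h)} [G.IsComm]
    {χ ψ : PowerSeries (FixF K p h)} (hχ : IsHom G G χ)
    (hψ : PowerSeries.constantCoeff ψ = 0) (a : ℕ)
    (he : seriesPoint G χ hχ.1 = a • idPoint G + seriesPoint G ψ hψ)
    (hψ' : PowerSeries.constantCoeff (ψ.map (algebraMap (FixF K p h) (OO K))) = 0)
    (x : Pt (GO G)) :
    Pt.hom (hχ.map (algebraMap (FixF K p h) (OO K))) x =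
      a • x + Pt.app (GO G) (ψ.map (algebraMap (FixF K p h) (OO K))) hψ' x := by
  ext1
  rw [Pt.add_val, Pt.nsmul_val, Pt.hom_val]
  have h1 : χ = subst ![mulSeries G a, ψ] G.toPowerSeries := by
    have := congrArg Subtype.val he
    rw [FormalGroup.add_apply] at this
    exact this
  have h2 : χ.map (algebraMap (FixF K p h) (OO K)) =
      subst ![mulSeries (GO G) a, ψ.map (algebraMap (FixF K p h) (OO K))]
        (GO G).toPowerSeries := by
    have h3 := congrArg (MvPowerSeries.map (algebraMap (FixF K p h) (OO K))) h1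
    rw [map_subst_pair _ (hasSubst_mulSeries G a)
      (PowerSeries.HasSubst.of_constantCoeff_zero' hψ)] at h3
    rw [mulSeries_map]
    exact h3
  rw [h2]
  have hb := hasEval_unit x.tn
  exact ev_subst_pair hb (hasSubst_pair_of_zero (mulSeries_constantCoeff _ a) hψ') _

theorem norm_ev1_subst_le {χ' : PowerSeries (FixF K p h)}
    (h0 : PowerSeries.constantCoeff χ' = 0) {m : ℕ} (hm : m ≠ 0) {x : OO K}
    (hx : IsTopologicallyNilpotent x) :
    ‖((ev1 x ((χ'.subst (PowerSeries.X ^ m : PowerSeries (FixF K p h))).map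
      (algebraMap (FixF K p h) (OO K))) : OO K) : K)‖ ≤ ‖(x : K)‖ ^ m := by
  rw [PowerSeries.map_subst (hasSubst_X_pow hm)]
  have e1 : MvPowerSeries.map (algebraMap (FixF K p h) (OO K))
      (PowerSeries.X ^ m : PowerSeries (FixF K p h)) = (PowerSeries.X ^ m : PowerSeries (OO K)) := by
    have := map_pow (PowerSeries.map (algebraMap (FixF K p h) (OO K)))
      (PowerSeries.X : PowerSeries (FixF K p h)) m
    rw [PowerSeries.map_X] at this
    exact this
  rw [e1, ev1_comp hx _ _ (by rw [map_pow, PowerSeries.constantCoeff_X, zero_pow hm]),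
    ev1_X_pow hx]
  have h1 : ‖((x ^ m : OO K) : K)‖ < 1 := by
    push_cast
    rw [norm_pow]
    exact pow_lt_one₀ (norm_nonneg _) (tn_iff.mp hx) hm
  have h2 := norm_ev1_le (χ'.map (algebraMap (FixF K p h) (OO K))) (x ^ m) h1 (by
    rw [← PowerSeries.coeff_zero_eq_constantCoeff_apply, PowerSeries.coeff_map,
      PowerSeries.coeff_zero_eq_constantCoeff_apply, h0, map_zero])
  refine h2.trans ?_
  push_cast
  rw [norm_pow]

/-- pointwise form of the decomposition of an endomorphism of `G` -/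
theorem nm_hom_sub_le {G : FormalGroup (FixF K p h)} [G.IsComm]
    {χ : PowerSeries (FixF K p h)} (hχ : IsHom G G χ) (a m : ℕ) (hm : m ≠ 0)
    (he : ∃ (χ' : PowerSeries (FixF K p h)) (_ : PowerSeries.constantCoeff χ' = 0)
      (h1 : PowerSeries.constantCoeff (χ'.subst
        (PowerSeries.X ^ m : PowerSeries (FixF K p h))) = 0),
      seriesPoint G χ hχ.1 = a • idPoint G +
        seriesPoint G (χ'.subst (PowerSeries.X ^ m : PowerSeries (FixF K p h))) h1)
    (x : Pt (GO G)) :
    Pt.nm (Pt.hom (hχ.map (algebraMap (FixF K p h) (OO K))) x - a • x) ≤ Pt.nm x ^ m := by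
  obtain ⟨χ', h0, h1, he⟩ := he
  have h1' : PowerSeries.constantCoeff (PowerSeries.map (algebraMap (FixF K p h) (OO K))
      (χ'.subst (PowerSeries.X ^ m : PowerSeries (FixF K p h)))) = 0 := by
    rw [← PowerSeries.coeff_zero_eq_constantCoeff_apply, PowerSeries.coeff_map,
      PowerSeries.coeff_zero_eq_constantCoeff_apply, h1, map_zero]
  rw [hom_eq_of_seriesPoint hχ h1 a he h1', add_sub_cancel_left]
  exact norm_ev1_subst_le h0 hm x.tn

/-- the norm of a finite sum of points -/
theorem nm_sum_le {F : FormalGroup (OO K)} [F.IsComm] {ι : Type*} (s : Finset ι) (f : ι → Pt F)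
    (C : ℝ) (hC : 0 ≤ C) (hf : ∀ i ∈ s, Pt.nm (f i) ≤ C) : Pt.nm (∑ i ∈ s, f i) ≤ C := by
  classical
  induction s using Finset.induction_on with
  | empty =>
    rw [Finset.sum_empty]
    have : Pt.nm (0 : Pt F) = 0 := (Pt.nm_eq_zero 0).2 rfl
    rw [this]
    exact hC
  | insert i s hi ih =>
    rw [Finset.sum_insert hi]
    refine (Pt.nm_add_le _ _).trans (max_le (hf i (Finset.mem_insert_self i s)) ?_)
    exact ih fun j hj => hf j (Finset.mem_insert_of_mem hj)

/-- `p ^ l` kills the `l`-th entry of a compatible sequence starting at `0`. -/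
theorem uc_pow_smul {B : Type*} [CommRing B] [UniformSpace B] [AdicRing B]
    {F : FormalGroup B} [F.IsComm] (z : UC F p) (l m : ℕ) : p ^ m • z.1 (l + m) = z.1 l := by
  induction m with
  | zero => simp
  | succ m ih =>
    rw [pow_succ, mul_smul, ← Nat.add_assoc]
    have := z.2 (l + m)
    rw [this, ih]

theorem smul_eq_of_modEq {A : Type*} [AddCommGroup A] {x : A} {m a b : ℕ} (hx : m • x = 0)
    (h : a ≡ b [MOD m]) : a • x = b • x := by
  have key : ∀ a : ℕ, a • x = (a % m) • x := by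
    intro a
    conv_lhs => rw [← Nat.mod_add_div a m]
    rw [add_smul, mul_comm, mul_smul, hx, smul_zero, add_zero]
  rw [key a, key b, h]

end

section
variable {K : Type} [NontriviallyNormedField K] [IsUltrametricDist K] [CompleteSpace K]
  [IsAlgClosed K] {p : ℕ} [Fact p.Prime] [CharP K p]

theorem exists_kernel_elt_aux [Fact (0 < 1)] {r : ℕ} {k : Type} [Field k] [CharP k p]
    {Γ : FormalGroup k} [Γ.IsComm]
    {ι : k →+* OO K} {c : ℝ} {Fx : FormalGroup (OO K)} [Fx.IsComm] {V : PowerSeries (OO K)}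
    {G : FormalGroup (FixF K p 1)} [G.IsComm] {lam : PowerSeries (OO K)} {z : Fin r → UC Fx p}
    (D : RelData 1 r Γ ι c Fx V G lam z)
    (hE : ∀ (χ : PowerSeries (FixF K p 1)) (hχ : IsHom G G χ),
      ∃ a : ℕ → ℕ, (∀ l, a (l + 1) ≡ a l [MOD p ^ l]) ∧
        ∀ l, ∃ (χ' : PowerSeries (FixF K p 1)) (_ : PowerSeries.constantCoeff χ' = 0)
          (h1 : PowerSeries.constantCoeff (χ'.subst
            (PowerSeries.X ^ (p ^ l) : PowerSeries (FixF K p 1))) = 0),
          seriesPoint G χ hχ.1 = a l • idPoint G +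
            seriesPoint G (χ'.subst
              (PowerSeries.X ^ (p ^ l) : PowerSeries (FixF K p 1))) h1) :
    ∃ w : UC Fx p, w ≠ 0 ∧ w.1 0 = 0 ∧ ∀ b : PowerSeries k, IsHom Γ Γ b →
      ∀ Φ : UC Fx p →+ UC Fx p, IsAct c ι b Φ → ev1 (((Φ w).1 0).val) lam = 0 := by
  classical
  have hp : p.Prime := Fact.out
  obtain ⟨j, χ, hχ, hχj, hrel⟩ := D.rel
  have hpG : mulSeries G p = PowerSeries.X ^ (p ^ 1) := D.lamD.pG
  -- the integers
  have hA : ∀ i, ∃ a : ℕ → ℕ, (i = j → ∀ l, a l = 0) ∧ (∀ l, a (l + 1) ≡ a l [MOD p ^ l]) ∧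
      ∀ l, ∀ x : Pt (GO G),
        Pt.nm (Pt.hom ((hχ i).map (algebraMap (FixF K p 1) (OO K))) x - a l • x) ≤
          Pt.nm x ^ (p ^ l) := by
    intro i
    by_cases hij : i = j
    · refine ⟨fun _ => 0, fun _ _ => rfl, fun _ => rfl, fun l x => ?_⟩
      have h0 : Pt.hom ((hχ i).map (algebraMap (FixF K p 1) (OO K))) x = 0 := by
        ext1
        rw [Pt.hom_val, hij, hχj, map_zero]
        exact ev_zero (hasEval_unit x.tn)
      rw [h0, zero_smul, sub_zero]
      have : Pt.nm (0 : Pt (GO G)) = 0 := (Pt.nm_eq_zero 0).2 rfl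
      rw [this]
      exact pow_nonneg (Pt.nm_nonneg x) _
    · obtain ⟨a, ha1, ha2⟩ := hE (χ i) (hχ i)
      exact ⟨a, fun h => absurd h hij, ha1, fun l x =>
        nm_hom_sub_le (hχ i) (a l) (p ^ l) (pow_ne_zero _ hp.ne_zero) (ha2 l) x⟩
  choose a ha0 ha1 ha2 using hA
  -- compatibility
  have hmod : ∀ i l L, l ≤ L → a i L ≡ a i l [MOD p ^ l] := by
    intro i l L hL
    induction L, hL using Nat.le_induction with
    | base => rfl
    | succ L hL ih => exact ((ha1 i L).of_dvd (pow_dvd_pow p hL)).trans ih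
  have hkill : ∀ i l, p ^ l • (z i).1 l = 0 := by
    intro i l
    have := uc_pow_smul (z i) 0 l
    rw [Nat.zero_add] at this
    rw [this, D.z0]
  have hsm : ∀ i l L, l ≤ L → a i L • (z i).1 l = a i l • (z i).1 l := fun i l L hL =>
    smul_eq_of_modEq (hkill i l) (hmod i l L hL)
  -- the element `w`
  let w : UC Fx p := ⟨fun l => (z j).1 l - ∑ i, a i l • (z i).1 l, by
    intro l
    change p • ((z j).1 (l + 1) - ∑ i, a i (l + 1) • (z i).1 (l + 1)) = _
    rw [smul_sub, Finset.smul_sum, (z j).2 l]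
    congr 1
    refine Finset.sum_congr rfl fun i _ => ?_
    rw [smul_comm, (z i).2 l, hsm i l (l + 1) (Nat.le_succ l)]⟩
  have hw : ∀ l, w.1 l = (z j).1 l - ∑ i, a i l • (z i).1 l := fun _ => rfl
  refine ⟨w, ?_, ?_, ?_⟩
  · -- `w ≠ 0`
    intro hw0
    have h1 : w.1 1 = 0 := by rw [hw0]; rfl
    rw [hw] at h1
    have h2 : ∑ i, ((if i = j then 1 else 0 : ℤ) - (a i 1 : ℤ)) • (z i).1 1 = 0 := by
      rw [← h1]
      simp only [sub_smul, Finset.sum_sub_distrib, ite_smul, one_smul, zero_smul,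
        Finset.sum_ite_eq', Finset.mem_univ, if_true, natCast_zsmul]
    have h3 := D.indep _ h2 j
    rw [if_pos rfl, ha0 j rfl 1] at h3
    have h4 : (p : ℤ) ∣ 1 := by simpa using h3
    exact hp.one_lt.ne' (by exact_mod_cast Int.eq_one_of_dvd_one (by positivity) h4)
  · rw [hw, D.z0, zero_sub, neg_eq_zero]
    refine Finset.sum_eq_zero fun i _ => ?_
    rw [D.z0, smul_zero]
  · intro b hb Φ hΦ
    set Λ := Pt.hom D.lamD.hom with hΛ
    -- the key estimate
    set x : Fin r → Pt (GO G) := fun i => Λ ((Φ (z i)).1 0) with hx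
    have hest : ∀ L : ℕ, ∀ ρ : ℝ, c ≤ ρ → (∀ i, Pt.nm (x i) ≤ ρ) →
        Pt.nm (Λ ((Φ w).1 0)) ≤ ρ ^ (p ^ L) := by
      intro L ρ hcρ hxρ
      have hρ0 : 0 ≤ ρ := D.c0.le.trans hcρ
      let v : UC Fx p := w - (z j - ∑ i, a i L • z i)
      have hv : ∀ l, v.1 l = ∑ i, a i L • (z i).1 l - ∑ i, a i l • (z i).1 l := by
        intro l
        have : v.1 l = w.1 l - ((z j).1 l - ∑ i, a i L • (z i).1 l) := by
          change (w.1 - (z j - ∑ i, a i L • z i : UC Fx p).1) l = _
          rw [Pi.sub_apply]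
          congr 1
          rw [AddSubgroupClass.coe_sub, Pi.sub_apply]
          congr 1
          rw [AddSubgroup.val_finsetSum, Finset.sum_apply]
          rfl
        rw [this, hw]
        abel
      have hv0 : ∀ l ≤ L, v.1 l = 0 := by
        intro l hl
        rw [hv, sub_eq_zero]
        exact Finset.sum_congr rfl fun i _ => hsm i l L hl
      let s : UC Fx p := ⟨fun l => v.1 (l + L), by
        intro l
        change p • v.1 (l + 1 + L) = v.1 (l + L)
        rw [show l + 1 + L = (l + L) + 1 by omega]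
        exact v.2 (l + L)⟩
      have hs0 : s.1 0 = 0 := by
        change v.1 (0 + L) = 0
        exact hv0 _ (by omega)
      have hvs : v = p ^ L • s := by
        apply Subtype.ext
        funext l
        change v.1 l = p ^ L • v.1 (l + L)
        rw [uc_pow_smul]
      have hwv : w = (z j - ∑ i, a i L • z i) + p ^ L • s := by
        rw [← hvs]
        change w = _ + (w - _)
        abel
      have hΦs : Pt.nm ((Φ s).1 0) ≤ c := by
        have h1 := hΦ s 0
        rw [hs0, Pt.zero_val, ev1_zero, ZeroMemClass.coe_zero, sub_zero] at h1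
        · exact h1
        · rw [← PowerSeries.coeff_zero_eq_constantCoeff_apply, PowerSeries.coeff_map,
            PowerSeries.coeff_zero_eq_constantCoeff_apply, hb.1, map_zero]
      have h1 : Λ ((Φ w).1 0) = ∑ i, (Pt.hom ((hχ i).map (algebraMap (FixF K p 1) (OO K))) (x i) -
          a i L • x i) + p ^ L • Λ ((Φ s).1 0) := by
        have e1 : (Φ w).1 0 = (Φ (z j)).1 0 - ∑ i, a i L • (Φ (z i)).1 0 +
            p ^ L • (Φ s).1 0 := by
          conv_lhs => rw [hwv]
          rw [map_add, map_sub, map_sum, map_nsmul]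
          change (((Φ (z j)).1 - (∑ i, Φ (a i L • z i) : UC Fx p).1) + p ^ L • (Φ s).1) 0 = _
          rw [Pi.add_apply, Pi.sub_apply, AddSubgroup.val_finsetSum, Finset.sum_apply]
          congr 2
          refine Finset.sum_congr rfl fun i _ => ?_
          rw [map_nsmul]
          rfl
        rw [e1, map_add, map_sub, map_sum, map_nsmul, Finset.sum_sub_distrib]
        have e2 := hrel b hb Φ hΦ
        rw [e2]
        congr 2
        refine Finset.sum_congr rfl fun i _ => ?_
        rw [map_nsmul]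
      rw [h1]
      refine (Pt.nm_add_le _ _).trans (max_le ?_ ?_)
      · refine nm_sum_le _ _ _ (pow_nonneg hρ0 _) fun i _ => ?_
        exact (ha2 i L (x i)).trans (pow_le_pow_left₀ (Pt.nm_nonneg _) (hxρ i) _)
      · rw [nm_GO_pow_smul hpG, pow_one]
        refine pow_le_pow_left₀ (Pt.nm_nonneg _) ?_ _
        exact ((Pt.nm_hom_le D.lamD.hom _).trans hΦs).trans hcρ
    -- choose `ρ`
    obtain ⟨ρ, hρ1, hcρ, hxρ⟩ : ∃ ρ : ℝ, ρ < 1 ∧ c ≤ ρ ∧ ∀ i, Pt.nm (x i) ≤ ρ := by
      have key : ∀ t : Finset (Fin r), ∃ ρ : ℝ, ρ < 1 ∧ c ≤ ρ ∧ ∀ i ∈ t, Pt.nm (x i) ≤ ρ := by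
        intro t
        induction t using Finset.induction_on with
        | empty => exact ⟨c, D.c1, le_rfl, by simp⟩
        | insert i t hi ih =>
          obtain ⟨ρ, h1, h2, h3⟩ := ih
          refine ⟨max ρ (Pt.nm (x i)), max_lt h1 (Pt.nm_lt_one _), h2.trans (le_max_left _ _), ?_⟩
          intro i' hi'
          rcases Finset.mem_insert.1 hi' with rfl | hi'
          · exact le_max_right _ _
          · exact (h3 i' hi').trans (le_max_left _ _)
      obtain ⟨ρ, h1, h2, h3⟩ := key Finset.univ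
      exact ⟨ρ, h1, h2, fun i => h3 i (Finset.mem_univ i)⟩
    have hρ0 : 0 ≤ ρ := D.c0.le.trans hcρ
    have hlim : Tendsto (fun L : ℕ => ρ ^ (p ^ L)) atTop (𝓝 0) :=
      (tendsto_pow_atTop_nhds_zero_of_lt_one hρ0 hρ1).comp
        (tendsto_pow_atTop_atTop_of_one_lt hp.one_lt)
    have hle : Pt.nm (Λ ((Φ w).1 0)) ≤ 0 :=
      ge_of_tendsto' hlim fun L => hest L ρ hcρ hxρ
    have h0 : Λ ((Φ w).1 0) = 0 := (Pt.nm_eq_zero _).1 (le_antisymm hle (Pt.nm_nonneg _))
    have := congrArg Pt.val h0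
    exact this

end

end Vale.Agent.P217
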