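import Vale.Agent.Lib.P217.MainP

/-!
# P217: the counting argument of `no_kernel_elt` (module A20)
-/

set_option linter.unusedSectionVars false

namespace Vale.Agent.P217

open MvPowerSeries Filter Topology
open scoped MvPowerSeries.WithPiTopology

namespace NK

/-! ### Frobenius powers as endomorphisms -/

section formal
variable {R : Type*} [CommRing R]

theorem subst_X_pow_left (F : FormalGroup R) (m : ℕ) :
    PowerSeries.subst F.toPowerSeries (PowerSeries.X ^ m : PowerSeries R) =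
      F.toPowerSeries ^ m := by
  rw [PowerSeries.subst_pow (hasSubst_F F), PowerSeries.subst_X (hasSubst_F F)]

theorem subst_X_pow_right (F : FormalGroup R) (m : ℕ) (hm : m ≠ 0) :
    MvPowerSeries.subst
      ![PowerSeries.subst (X 0 : MvPowerSeries (Fin 2) R) (PowerSeries.X ^ m : PowerSeries R),
        PowerSeries.subst (X 1 : MvPowerSeries (Fin 2) R) (PowerSeries.X ^ m : PowerSeries R)]
      F.toPowerSeries = expand m hm F.toPowerSeries := by
  have h : ∀ i : Fin 2, PowerSeries.subst (X i : MvPowerSeries (Fin 2) R)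
      (PowerSeries.X ^ m : PowerSeries R) = X i ^ m := by
    intro i
    rw [PowerSeries.subst_pow (hasSubst_X i), PowerSeries.subst_X (hasSubst_X i)]
  rw [h 0, h 1]
  have h2 : (![X 0 ^ m, X 1 ^ m] : Fin 2 → MvPowerSeries (Fin 2) R) = fun i => X i ^ m := by
    funext i
    fin_cases i <;> rfl
  rw [h2, expand, substAlgHom_apply]

variable {p : ℕ} [Fact p.Prime] [CharP R p]

theorem pow_eq_expand (P : MvPowerSeries (Fin 2) R) (j : ℕ) :
    P ^ (p ^ j) = expand (p ^ j) (pow_ne_zero j (Fact.out : p.Prime).ne_zero)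
      (P.map (iterateFrobenius R p j)) := by
  rw [← map_expand, map_iterateFrobenius_expand p (Fact.out : p.Prime).ne_zero]

theorem map_iterate_eq {Γ : FormalGroup R} (hΓF : Γ.map (frobenius R p) = Γ) (j : ℕ) :
    Γ.toPowerSeries.map (iterateFrobenius R p j) = Γ.toPowerSeries := by
  induction j with
  | zero =>
    rw [iterateFrobenius_zero]
    ext d
    rw [coeff_map]
    rfl
  | succ j ih =>
    have h1 : Γ.toPowerSeries.map (frobenius R p) = Γ.toPowerSeries :=
      congrArg FormalGroup.toPowerSeries hΓF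
    ext d
    have h2 := congrArg (coeff d) ih
    have h3 := congrArg (coeff d) h1
    rw [coeff_map] at h2 h3 ⊢
    rw [iterateFrobenius_def] at h2 ⊢
    rw [frobenius_def] at h3
    rw [pow_succ, pow_mul, h2, h3]

theorem isHom_X_pow {Γ : FormalGroup R} (hΓF : Γ.map (frobenius R p) = Γ) (j : ℕ) :
    IsHom Γ Γ (PowerSeries.X ^ (p ^ j) : PowerSeries R) := by
  have hm : p ^ j ≠ 0 := pow_ne_zero j (Fact.out : p.Prime).ne_zero
  constructor
  · rw [map_pow, PowerSeries.constantCoeff_X, zero_pow hm]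
  · rw [subst_X_pow_left, subst_X_pow_right Γ _ hm, pow_eq_expand, map_iterate_eq hΓF]

theorem map_X_pow {S : Type*} [CommRing S] (ι : R →+* S) (m : ℕ) :
    (PowerSeries.X ^ m : PowerSeries R).map ι = PowerSeries.X ^ m := by
  rw [map_pow, PowerSeries.map_X]

end formal

/-! ### Norm estimates -/

section field
variable {K : Type*} [NontriviallyNormedField K] [IsUltrametricDist K] [CompleteSpace K]

theorem ev1_X_pow {y : OO K} (hy : ‖(y : K)‖ < 1) (m : ℕ) :
    ev1 y (PowerSeries.X ^ m : PowerSeries (OO K)) = y ^ m := by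
  have h := ev_pow (hasEval_OO hy) (X () : MvPowerSeries Unit (OO K)) m
  rw [ev_X] at h
  exact h

theorem norm_ev1_le_of_coeff (f : PowerSeries (OO K)) {y : OO K} (hy : ‖(y : K)‖ < 1) {c : ℝ}
    (hc : 0 ≤ c) (h : ∀ i, ‖((PowerSeries.coeff i f : OO K) : K)‖ ≤ c) :
    ‖((ev1 y f : OO K) : K)‖ ≤ c := by
  refine ev_mem_of_closed (hasEval_OO hy) f (ballIdeal K c hc) (isClosed_ballIdeal _ _) ?_
  intro d
  refine Ideal.mul_mem_right _ _ ?_
  have h1 : d = Finsupp.single () (d ()) := by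
    ext
    simp
  rw [h1]
  exact h (d ())

variable {p : ℕ} [Fact p.Prime] [CharP K p]

theorem norm_pow_sub_pow_le (a b : OO K) (m : ℕ) :
    ‖((a ^ m - b ^ m : OO K) : K)‖ ≤ ‖((a - b : OO K) : K)‖ := by
  obtain ⟨s, hs⟩ := sub_dvd_pow_sub_pow a b m
  rw [hs, Subring.coe_mul, norm_mul]
  exact mul_le_of_le_one_right (norm_nonneg _) (norm_le_one s)

theorem approxHom_X_pow {k : Type*} [Field k] [CharP k p] {Γ : FormalGroup k}
    (hΓF : Γ.map (frobenius k p) = Γ) (ι : k →+* OO K) {F : FormalGroup (OO K)} {c : ℝ}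
    (hc0 : 0 ≤ c)
    (cong : ∀ d, ‖((coeff d (F.toPowerSeries - (Γ.map ι).toPowerSeries) : OO K) : K)‖ ≤ c)
    (j : ℕ) : ApproxHom c F F (PowerSeries.X ^ (p ^ j) : PowerSeries (OO K)) := by
  have hm : p ^ j ≠ 0 := pow_ne_zero j (Fact.out : p.Prime).ne_zero
  constructor
  · rw [map_pow, PowerSeries.constantCoeff_X, zero_pow hm]
  · intro d
    rw [subst_X_pow_left, subst_X_pow_right F _ hm, pow_eq_expand (p := p), ← map_sub]
    by_cases hd : ∀ i, p ^ j ∣ d i
    · obtain ⟨d', rfl⟩ : ∃ d' : Fin 2 →₀ ℕ, p ^ j • d' = d :=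
        ⟨d.mapRange (fun a ↦ a / p ^ j) (by simp),
          by ext i; simp [(Nat.mul_div_cancel' (hd i))]⟩
      rw [coeff_expand_smul, map_sub, coeff_map, iterateFrobenius_def]
      set a : OO K := coeff d' F.toPowerSeries with ha
      set b : OO K := ι (coeff d' Γ.toPowerSeries) with hb
      have hbm : b ^ (p ^ j) = b := by
        have h1 := congrArg (coeff d') (map_iterate_eq hΓF j)
        rw [coeff_map, iterateFrobenius_def] at h1
        rw [hb, ← map_pow, h1]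
      have hab : ‖((a - b : OO K) : K)‖ ≤ c := by
        have h2 := cong d'
        rw [map_sub] at h2
        exact h2
      have h3 : (a ^ (p ^ j) - a : OO K) = (a ^ (p ^ j) - b ^ (p ^ j)) + (b - a) := by
        rw [hbm]
        ring
      rw [h3, Subring.coe_add]
      refine (IsUltrametricDist.norm_add_le_max _ _).trans (max_le ?_ ?_)
      · exact (norm_pow_sub_pow_le a b _).trans hab
      · rw [← neg_sub a b, Subring.coe_neg, norm_neg]
        exact hab
    · push Not at hd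
      obtain ⟨i, hi⟩ := hd
      rw [coeff_expand_of_not_dvd _ hm _ hi]
      simpa using hc0

/-- `[p](y) ≡ y^q` -/
theorem norm_p_smul_sub_le {F : FormalGroup (OO K)} [F.IsComm] {q : ℕ} {c : ℝ} (hc0 : 0 ≤ c)
    (hF : PCong p q c F) (y : Pt F) : ‖((p • y).val : K) - (y.val : K) ^ q‖ ≤ c := by
  have h1 := norm_ev1_le_of_coeff _ y.norm_lt hc0 hF
  have h2 : ev1 y.val (mulSeries F p - PowerSeries.X ^ q) = (p • y).val - y.val ^ q := by
    rw [Pt.nsmul_val, ← ev1_X_pow y.norm_lt]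
    exact ev_sub (hasEval_OO y.norm_lt) _ _
  rw [h2] at h1
  simpa using h1

/-- if `‖a - b‖ ≤ c < ‖a‖` then `‖b‖ = ‖a‖` -/
theorem norm_eq_of_sub_le {a b : K} {c : ℝ} (h : ‖a - b‖ ≤ c) (hc : c < ‖a‖) : ‖b‖ = ‖a‖ := by
  have h1 : ‖a - b‖ < ‖a‖ := h.trans_lt hc
  have h2 : b = a + -(a - b) := by ring
  have h3 : ‖a‖ ≠ ‖-(a - b)‖ := by
    rw [norm_neg]
    exact h1.ne'
  rw [h2, IsUltrametricDist.norm_add_eq_max_of_norm_ne_norm h3, norm_neg]
  exact max_eq_left h1.le

theorem norm_eq_of_sub_le' {a b : K} {c : ℝ} (h : ‖a - b‖ ≤ c) (hc : c < ‖b‖) : ‖a‖ = ‖b‖ := by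
  refine norm_eq_of_sub_le (a := b) (b := a) ?_ hc
  rwa [← norm_neg, neg_sub]

/-- a natural number prime to `p` has norm one -/
theorem norm_natCast_eq_one {m : ℕ} (hm : ¬ p ∣ m) : ‖(m : K)‖ = 1 := by
  have h0 : (m : K) ≠ 0 := by
    intro h
    exact hm ((CharP.cast_eq_zero_iff K p m).mp h)
  have h1 : (m : K) ^ (p - 1) = 1 := by
    have h2 : ((m : ZMod p)) ^ (p - 1) = 1 := by
      apply ZMod.pow_card_sub_one_eq_one
      intro h
      exact hm ((ZMod.natCast_eq_zero_iff m p).mp h)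
    have h3 := congrArg (ZMod.castHom (dvd_refl p) K) h2
    rw [map_pow, map_one, map_natCast] at h3
    exact h3
  have h4 : ‖(m : K)‖ ^ (p - 1) = 1 := by rw [← norm_pow, h1, norm_one]
  have hp1 : p - 1 ≠ 0 := by
    have := (Fact.out : p.Prime).two_le
    omega
  exact (pow_eq_one_iff_of_nonneg (norm_nonneg _) hp1).mp h4

/-- a sum of points with pairwise distinct norms has the norm of one of them -/
theorem exists_nm_sum {F : FormalGroup (OO K)} [F.IsComm] {α : Type*} (s : Finset α)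
    (hs : s.Nonempty) (f : α → Pt F)
    (hf : ∀ i ∈ s, ∀ j ∈ s, i ≠ j → Pt.nm (f i) ≠ Pt.nm (f j)) :
    ∃ i ∈ s, Pt.nm (∑ j ∈ s, f j) = Pt.nm (f i) := by
  classical
  induction hs using Finset.Nonempty.cons_induction with
  | singleton a => exact ⟨a, Finset.mem_singleton_self a, by rw [Finset.sum_singleton]⟩
  | cons a s ha hs ih =>
    obtain ⟨i, hi, hi2⟩ := ih (fun i hi j hj =>
      hf i (Finset.mem_cons_of_mem hi) j (Finset.mem_cons_of_mem hj))
    rw [Finset.sum_cons]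
    have hne : Pt.nm (f a) ≠ Pt.nm (f i) := hf a (Finset.mem_cons_self a s) i
      (Finset.mem_cons_of_mem hi) (by
        rintro rfl
        exact ha hi)
    rcases lt_or_gt_of_ne hne with h | h
    · refine ⟨i, Finset.mem_cons_of_mem hi, ?_⟩
      rw [Pt.nm_add_eq_of_lt _ _ (by rw [hi2]; exact h), hi2]
    · refine ⟨a, Finset.mem_cons_self a s, ?_⟩
      rw [add_comm, Pt.nm_add_eq_of_lt _ _ (by rw [hi2]; exact h)]

end field

/-! ### The counting argument -/

section main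
variable {K : Type*} [NontriviallyNormedField K] [IsUltrametricDist K] [CompleteSpace K]
  {p : ℕ} [Fact p.Prime] [CharP K p] {F : FormalGroup (OO K)} [F.IsComm]

theorem uc_smul (w : UC F p) (m l : ℕ) : p ^ m • w.1 (l + m) = w.1 l := by
  induction m with
  | zero => simp
  | succ m ih =>
    have h := w.2 (l + m)
    rw [pow_succ, mul_smul, ← add_assoc, h, ih]

theorem exists_norm_data {q : ℕ} {c : ℝ} (hq2 : 2 ≤ q) (hc0 : 0 ≤ c) (hc1 : c < 1)
    (hF : PCong p q c F) (w : UC F p) (hw : w ≠ 0) :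
    ∃ l₁ : ℕ, ∀ i, c < Pt.nm (w.1 (l₁ + i)) ^ q ∧
      Pt.nm (w.1 (l₁ + i)) = Pt.nm (w.1 (l₁ + (i + 1))) ^ q := by
  obtain ⟨l₀, hl₀⟩ : ∃ l, c < Pt.nm (w.1 l) := by
    by_contra hcon
    push Not at hcon
    refine hw (uc_ext hq2 hc0 hc1 hF w 0 fun l => ?_)
    have h1 : (((0 : UC F p).1 l).val : K) = 0 := rfl
    rw [h1, sub_zero]
    exact hcon l
  have hstep : ∀ l, c < Pt.nm (w.1 l) → Pt.nm (w.1 l) = Pt.nm (w.1 (l + 1)) ^ q ∧
      c < Pt.nm (w.1 (l + 1)) := by
    intro l hl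
    have h1 := norm_p_smul_sub_le hc0 hF (w.1 (l + 1))
    rw [w.2 l] at h1
    have h2 := norm_eq_of_sub_le h1 hl
    rw [norm_pow] at h2
    have h3 : Pt.nm (w.1 (l + 1)) ^ q = Pt.nm (w.1 l) := h2
    refine ⟨h3.symm, ?_⟩
    have h4 : Pt.nm (w.1 (l + 1)) ^ q ≤ Pt.nm (w.1 (l + 1)) :=
      pow_le_of_le_one (Pt.nm_nonneg _) (Pt.nm_lt_one _).le (by omega)
    linarith
  have hall : ∀ i, c < Pt.nm (w.1 (l₀ + i)) := by
    intro i
    induction i with
    | zero => exact hl₀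
    | succ i ih => exact (hstep _ ih).2
  refine ⟨l₀ + 1, fun i => ?_⟩
  have e1 : l₀ + 1 + i = l₀ + i + 1 := by ring
  have e2 : l₀ + 1 + (i + 1) = l₀ + i + 1 + 1 := by ring
  rw [e1, e2]
  have h1 := hstep _ (hall i)
  have h2 := hstep (l₀ + i + 1) h1.2
  refine ⟨?_, h2.1⟩
  rw [← h1.1]
  exact hall i

theorem pow_norm_injective {p n : ℕ} (hp : 2 ≤ p) {N : ℕ → ℝ} (hN0 : ∀ i, 0 < N i)
    (hN1 : ∀ i, N i < 1) (hN : ∀ i, N i = N (i + 1) ^ (p ^ n)) {i i' j j' : ℕ} (hj : j < n)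
    (hj' : j' < n) (h : N i ^ (p ^ j) = N i' ^ (p ^ j')) : j = j' := by
  have hshift : ∀ m i, N i = N (i + m) ^ (p ^ (n * m)) := by
    intro m
    induction m with
    | zero => intro i; simp
    | succ m ih =>
      intro i
      rw [ih i, hN (i + m), ← pow_mul, ← pow_add, add_assoc]
      congr 2
      ring
  have hinj : ∀ (t : ℝ), 0 < t → t < 1 → ∀ a b : ℕ, t ^ a = t ^ b → a = b := by
    intro t ht0 ht1 a b hab
    exact (pow_right_injective₀ ht0 ht1.ne) hab
  rcases le_total i i' with hii | hii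
  · obtain ⟨m, rfl⟩ := Nat.exists_eq_add_of_le hii
    rw [hshift m i, ← pow_mul, ← pow_add] at h
    have h1 := hinj _ (hN0 _) (hN1 _) _ _ h
    have h2 := Nat.pow_right_injective hp h1
    have h3 : m = 0 := by
      by_contra hm
      have h4 : n * 1 ≤ n * m := Nat.mul_le_mul_left n (by omega)
      omega
    rw [h3] at h2
    omega
  · obtain ⟨m, rfl⟩ := Nat.exists_eq_add_of_le hii
    rw [hshift m i', ← pow_mul, ← pow_add] at h
    have h1 := hinj _ (hN0 _) (hN1 _) _ _ h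
    have h2 := Nat.pow_right_injective hp h1
    have h3 : m = 0 := by
      by_contra hm
      have h4 : n * 1 ≤ n * m := Nat.mul_le_mul_left n (by omega)
      omega
    rw [h3] at h2
    omega

/-- the norm of a nonzero multiple of a term of a compatible sequence -/
theorem nm_smul_uc (w : UC F p) (l₁ L : ℕ) {d : ℕ} (hd0 : d ≠ 0) (hd : d < p ^ L) :
    ∃ i, Pt.nm (d • w.1 (l₁ + L)) = Pt.nm (w.1 (l₁ + i)) := by
  have hp1 : p ≠ 1 := (Fact.out : p.Prime).one_lt.ne'
  obtain ⟨e, m, hm, hdm⟩ := Nat.exists_eq_pow_mul_and_not_dvd hd0 p hp1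
  have he : e < L := by
    by_contra hcon
    push Not at hcon
    have h1 : p ^ L ≤ p ^ e := Nat.pow_le_pow_right (Fact.out : p.Prime).pos hcon
    have h2 : 1 ≤ m := by
      rcases Nat.eq_zero_or_pos m with h | h
      · rw [h] at hm
        exact absurd (dvd_zero p) hm
      · exact h
    have h3 : p ^ e * 1 ≤ p ^ e * m := Nat.mul_le_mul_left _ h2
    omega
  refine ⟨L - e, ?_⟩
  have h1 : l₁ + L = l₁ + (L - e) + e := by omega
  rw [hdm, mul_comm, mul_smul, h1, uc_smul w e]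
  exact Pt.nm_nsmul_eq m (norm_natCast_eq_one hm) _

theorem nm_smul_sub_uc (w : UC F p) (l₁ L : ℕ) {a b : ℕ} (hab : a ≠ b) (ha : a < p ^ L)
    (hb : b < p ^ L) :
    ∃ i, Pt.nm (a • w.1 (l₁ + L) - b • w.1 (l₁ + L)) = Pt.nm (w.1 (l₁ + i)) := by
  rcases lt_or_gt_of_ne hab with h | h
  · obtain ⟨i, hi⟩ := nm_smul_uc w l₁ L (d := b - a) (by omega) (by omega)
    refine ⟨i, ?_⟩
    rw [← hi, ← Pt.nm_neg, neg_sub]
    congr 1
    have h1 : b = (b - a) + a := by omega
    conv_lhs => rw [h1, add_smul]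
    rw [add_sub_cancel_right]
  · obtain ⟨i, hi⟩ := nm_smul_uc w l₁ L (d := a - b) (by omega) (by omega)
    refine ⟨i, ?_⟩
    rw [← hi]
    congr 1
    have h1 : a = (a - b) + b := by omega
    conv_lhs => rw [h1, add_smul]
    rw [add_sub_cancel_right]

end main

section count
variable {K : Type*} [NontriviallyNormedField K] [IsUltrametricDist K] [CompleteSpace K]
  [IsAlgClosed K] {p : ℕ} [Fact p.Prime] [CharP K p] {F : FormalGroup (OO K)} [F.IsComm]

theorem count_false {h r : ℕ} {V : PowerSeries (OO K)} (H : HtData p F h r V) (hh : 0 < h)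
    {c : ℝ} (hc0 : 0 ≤ c) (hc1 : c < 1) (hF : PCong p (p ^ (h + r)) c F) (w : UC F p)
    (hw : w ≠ 0) (W : Fin (h + r) → UC F p)
    (hW : ∀ j l, ‖((((W j).1 l).val : OO K) : K) - ((w.1 l).val : K) ^ (p ^ (j : ℕ))‖ ≤ c)
    (hW0 : ∀ j, (W j).1 0 = 0) : False := by
  classical
  have hp2 : 2 ≤ p := (Fact.out : p.Prime).two_le
  have hq2 : 2 ≤ p ^ (h + r) := by
    calc 2 ≤ p := hp2
      _ = p ^ 1 := (pow_one p).symm
      _ ≤ p ^ (h + r) := Nat.pow_le_pow_right (by omega) (by omega)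
  obtain ⟨l₁, hl₁⟩ := exists_norm_data hq2 hc0 hc1 hF w hw
  have hN0 : ∀ i, 0 < Pt.nm (w.1 (l₁ + i)) := by
    intro i
    rcases (Pt.nm_nonneg (w.1 (l₁ + i))).lt_or_eq with h1 | h1
    · exact h1
    · have h2 := (hl₁ i).1
      rw [← h1, zero_pow (by omega)] at h2
      linarith
  have hN1 : ∀ i, Pt.nm (w.1 (l₁ + i)) < 1 := fun i => Pt.nm_lt_one _
  have hWnm : ∀ (j : Fin (h + r)) i, Pt.nm ((W j).1 (l₁ + i)) =
      Pt.nm (w.1 (l₁ + i)) ^ (p ^ (j : ℕ)) := by
    intro j i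
    have h1 : c < ‖((w.1 (l₁ + i)).val : K) ^ (p ^ (j : ℕ))‖ := by
      rw [norm_pow]
      refine (hl₁ i).1.trans_le ?_
      exact pow_le_pow_of_le_one (hN0 i).le (hN1 i).le
        (Nat.pow_le_pow_right (by omega) (by omega))
    have h2 := norm_eq_of_sub_le' (hW j (l₁ + i)) h1
    rw [norm_pow] at h2
    exact h2
  -- an injective map
  have key : ∀ L : ℕ, p ^ (L * (h + r)) ≤ p ^ (r * (l₁ + L)) := by
    intro L
    rw [← card_torsion H (l₁ + L)]
    have hfin : Finite {y : Pt F // p ^ (l₁ + L) • y = 0} := by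
      apply Nat.finite_of_card_ne_zero
      rw [card_torsion H (l₁ + L)]
      exact pow_ne_zero _ (by omega)
    have hcard : Nat.card (Fin (h + r) → Fin (p ^ L)) = p ^ (L * (h + r)) := by
      rw [Nat.card_eq_fintype_card, Fintype.card_fun, Fintype.card_fin, Fintype.card_fin,
        ← pow_mul]
    rw [← hcard]
    refine Nat.card_le_card_of_injective (fun a : Fin (h + r) → Fin (p ^ L) =>
      (⟨∑ j, (a j : ℕ) • (W j).1 (l₁ + L), ?_⟩ : {y : Pt F // p ^ (l₁ + L) • y = 0})) ?_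
    · rw [Finset.smul_sum]
      refine Finset.sum_eq_zero fun j _ => ?_
      have h1 := uc_smul (W j) (l₁ + L) 0
      rw [zero_add, hW0 j] at h1
      rw [smul_comm, h1, smul_zero]
    · intro a b hab
      by_contra hne
      have hab' : ∑ j, (a j : ℕ) • (W j).1 (l₁ + L) = ∑ j, (b j : ℕ) • (W j).1 (l₁ + L) :=
        congrArg Subtype.val hab
      set s : Finset (Fin (h + r)) := Finset.univ.filter (fun j => a j ≠ b j) with hs
      have hsne : s.Nonempty := by
        obtain ⟨j, hj⟩ := Function.ne_iff.mp hne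
        exact ⟨j, by rw [hs, Finset.mem_filter]; exact ⟨Finset.mem_univ j, hj⟩⟩
      set f : Fin (h + r) → Pt F := fun j =>
        (a j : ℕ) • (W j).1 (l₁ + L) - (b j : ℕ) • (W j).1 (l₁ + L) with hf
      have hfnm : ∀ j ∈ s, ∃ i, Pt.nm (f j) = Pt.nm (w.1 (l₁ + i)) ^ (p ^ (j : ℕ)) := by
        intro j hj
        rw [hs, Finset.mem_filter] at hj
        obtain ⟨i, hi⟩ := nm_smul_sub_uc (W j) l₁ L (a := (a j : ℕ)) (b := (b j : ℕ))
          (fun h => hj.2 (Fin.ext h)) (a j).2 (b j).2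
        exact ⟨i, hi.trans (hWnm j i)⟩
      obtain ⟨j, hj, hjs⟩ := exists_nm_sum s hsne f (by
        intro j hj j' hj' hjj' heq
        obtain ⟨i, hi⟩ := hfnm j hj
        obtain ⟨i', hi'⟩ := hfnm j' hj'
        rw [hi, hi'] at heq
        exact hjj' (Fin.ext (pow_norm_injective hp2 (N := fun i => Pt.nm (w.1 (l₁ + i))) hN0 hN1
          (fun i => (hl₁ i).2) j.2 j'.2 heq)))
      have hsum : ∑ j ∈ s, f j = 0 := by
        have h1 : ∑ j ∈ s, f j = ∑ j, f j := by
          rw [hs]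
          refine Finset.sum_filter_of_ne fun j _ hj => ?_
          intro hcon
          apply hj
          rw [hf]
          beta_reduce
          rw [hcon, sub_self]
        rw [h1, hf, Finset.sum_sub_distrib, hab', sub_self]
      obtain ⟨i, hi⟩ := hfnm j hj
      rw [hsum, hi, (Pt.nm_eq_zero _).mpr rfl] at hjs
      have h2 : 0 < Pt.nm (w.1 (l₁ + i)) ^ (p ^ (j : ℕ)) := pow_pos (hN0 i) _
      linarith
  have h1 := key (r * l₁ + 1)
  have h2 := (Nat.pow_le_pow_iff_right (by omega : 1 < p)).mp h1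
  have h3 : (r * l₁ + 1) * (h + r) = (r * l₁ + 1) * h + (r * l₁ + 1) * r := by ring
  have h4 : r * (l₁ + (r * l₁ + 1)) = r * l₁ + (r * l₁ + 1) * r := by ring
  have h5 : (r * l₁ + 1) * 1 ≤ (r * l₁ + 1) * h := Nat.mul_le_mul_left _ hh
  omega

end count

end NK

section
variable {K : Type} [NontriviallyNormedField K] [IsUltrametricDist K] [CompleteSpace K]
  [IsAlgClosed K] {p : ℕ} [Fact p.Prime] [CharP K p]

open NK in
theorem no_kernel_elt_aux {r h : ℕ} [Fact (0 < h)] {k : Type} [Field k] [CharP k p]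
    {Γ : FormalGroup k} [Γ.IsComm] (hΓF : Γ.map (frobenius k p) = Γ)
    {ι : k →+* OO K} {c : ℝ} {Fx : FormalGroup (OO K)} [Fx.IsComm] {V : PowerSeries (OO K)}
    {G : FormalGroup (FixF K p h)} [G.IsComm] {lam : PowerSeries (OO K)} {z : Fin r → UC Fx p}
    (D : RelData h r Γ ι c Fx V G lam z) (w : UC Fx p)
    (hw : ∀ b : PowerSeries k, IsHom Γ Γ b →
      ∀ Φ : UC Fx p →+ UC Fx p, IsAct c ι b Φ → ev1 (((Φ w).1 0).val) lam = 0) : w = 0 := by
  have hh : 0 < h := Fact.out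
  have hp2 : 2 ≤ p := (Fact.out : p.Prime).two_le
  have hq2 : 2 ≤ p ^ (h + r) := by
    calc 2 ≤ p := hp2
      _ = p ^ 1 := (pow_one p).symm
      _ ≤ p ^ (h + r) := Nat.pow_le_pow_right (by omega) (by omega)
  by_contra hne
  have hact : ∀ j : Fin (h + r), ∃ Φ : UC Fx p →+ UC Fx p,
      (∀ z l, ‖((((Φ z).1 l).val : OO K) : K) - ((z.1 l).val : K) ^ (p ^ (j : ℕ))‖ ≤ c) ∧
      ∃ m : ℕ, p ^ m • (Φ w).1 0 = 0 := by
    intro j
    obtain ⟨Φ, hΦ⟩ := exists_ucMap hq2 D.c0.le D.c1 D.pcong D.pcong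
      (PowerSeries.X ^ (p ^ (j : ℕ)) : PowerSeries (OO K))
      (approxHom_X_pow hΓF ι D.c0.le D.cong j)
    refine ⟨Φ, ?_, ?_⟩
    · intro z l
      have h1 := hΦ z l
      rw [ev1_X_pow (z.1 l).norm_lt] at h1
      exact h1
    · refine lambda_eq_zero D.ht D.lamD ((Φ w).1 0) (hw (PowerSeries.X ^ (p ^ (j : ℕ)))
        (isHom_X_pow hΓF j) Φ ?_)
      intro z l
      rw [map_X_pow]
      exact hΦ z l
  choose Φ hΦ m hm using hact
  set M : ℕ := ∑ j, m j with hM
  have hMw : p ^ M • w ≠ 0 := by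
    intro h0
    apply hne
    apply Subtype.ext
    funext l
    have h1 := congrArg (fun v : UC Fx p => v.1 (l + M)) h0
    have h2 : p ^ M • w.1 (l + M) = 0 := h1
    rw [uc_smul w M l] at h2
    exact h2
  refine count_false D.ht hh D.c0.le D.c1 D.pcong (p ^ M • w) hMw (fun j => Φ j (p ^ M • w))
    (fun j l => hΦ j (p ^ M • w) l) (fun j => ?_)
  rw [map_nsmul]
  have h1 : (p ^ M • (Φ j) w).1 0 = p ^ M • ((Φ j) w).1 0 := rfl
  rw [h1]
  have h2 : m j ≤ M := Finset.single_le_sum (f := m) (fun _ _ => Nat.zero_le _) (Finset.mem_univ j)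
  obtain ⟨t, ht⟩ := Nat.exists_eq_add_of_le h2
  rw [ht, add_comm, pow_add, mul_smul, hm j, smul_zero]

end

end Vale.Agent.P217
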