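import Vale.Agent.Lib.P217.MainP
import Vale.Agent.Lib.P217.NoKer
import Vale.Agent.Lib.P217.KerElt
import Vale.Agent.Lib.P217.End1Endo

/-!
# P217: no relation at points of height one (modules A18, A19, A20)

* `end_height_one`: `G` over `FixF K p 1` (the prime field) with `[p]_G = X^p`. For an endomorphism `χ`
  of `G` and `l : ℕ` there are `a l : ℕ` and a series `χ'` without constant term with
  `χ = [a l] +_G χ'(X^{p^l})`, and `a (l+1) ≡ a l` modulo `p^l`.
  Proof: `χ - [a]`, where `a : ℕ` lifts `χ'(0)` (an element of the prime field), has derivative `0` at `0` so is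
  `χ_1(X^p) = χ_1([p]_G(X))` with `χ_1` an endomorphism (`exists_frobenius_factor`,
  `isHom_of_frobenius_factor`; `G.map (iterateFrobenius) = G`). Iterate:
  `χ_0 = χ`, `χ_i = [a_i] + χ_{i+1} ∘ [p]`, `a l = ∑_{i<l} a_i p^i`.

* `exists_kernel_elt` (h = 1): there is `w ∈ UC Fx p`, `w ≠ 0`, `w 0 = 0`, with `lam((Φ w)_0) = 0` for the
  actions `Φ` of all endomorphisms of `Γ`.
  Proof: with the relation `ξ_j(b) = ∑ χ_i(ξ_i(b))` and `a_i l` the integers for `χ_i`, put
  `w l = (z j) l - ∑_i (a_i l) • (z i) l`. As `p^l • (z i) l = 0` this is a compatible sequence.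
  `w 1 ≠ 0` by `indep`.  For all `L`, `w = z j - ∑ (a_i L) • z i + p^L • s` with `s ∈ UC`, `s 0 = 0` (`s` is the shift of a
  compatible sequence: `p^L •` is bijective on `UC`, its inverse is the shift by `L`).  So
  `lam((Φ w)_0) = ∑_i (χ_i - [a_i L])(ξ_i(b)) + p^L • lam((Φ s)_0)`, of norm at most
  `max (max_i ‖ξ_i(b)‖, ρ')^{p^L}` where `ρ' < 1` bounds the norm of `(Φ s)_0` for all `s` with `s 0 = 0`
  (`(Φ s)_0` is `b(s 0) = 0` up to `c`, so its norm is `≤ c`).  Let `L → ∞`.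

* `no_kernel_elt`: `w ∈ UC Fx p` with `w 0 = 0` and `lam((S^j w)_0) = 0` for `j < n = 1 + r`, `S` the action of the
  endomorphism `X^p` of `Γ`, implies `w = 0`.
  Proof. Suppose `w ≠ 0`. By `lambda_eq_zero`, `(S^j w)_0` is torsion; replacing `w` by `p^M • w` we get `(S^j w)_0 = 0`
  for all `j < n` and `w ≠ 0` (`p` is injective on `UC`).  Let `w_j = S^j w`. `‖w_j l - (w l)^{p^j}‖ ≤ c`.
  `‖p • y‖ ≤ max(c ‖y‖, ‖y‖^q)` so `‖w l‖ → 1`, and `‖w l‖ = ‖w (l+1)‖^q` once `‖w l‖ > c`; so there are `l₀` and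
  `s ∈ (0,1)` with `‖w (l₀ + i)‖ = s^{1/q^i}`, `‖w_j (l₀ + i)‖ = s^{p^j/q^i}` (all these norms are `> c`),
  `q = p^n`.  For `L ≥ 0` the elements `∑_{j<n} a_j • w_j (l₀ + L)`, `0 ≤ a_j < p^L`, are pairwise distinct: the
  differences are `∑ d_j • w_j (l₀+L)`, `|d_j| < p^L` not all zero; write `d_j = p^{e_j} d_j'`, `p ∤ d_j'`, `e_j < L` if
  `d_j ≠ 0`: the term has norm `s^{p^j/q^{L - e_j}}` and these are pairwise distinct (the exponents of `p` are
  distinct modulo `n`), so the sum is nonzero.  These `p^{nL}` elements are killed by `p^{l₀+L}`, so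
  `p^{nL} ≤ p^{r(l₀+L)}` by `card_torsion`; as `r < n` this fails for large `L`.
-/

set_option linter.unusedSectionVars false

namespace Vale.Agent.P217

open MvPowerSeries Filter Topology
open scoped MvPowerSeries.WithPiTopology

theorem end_height_one {κ : Type*} [Field κ] (p : ℕ) [Fact p.Prime] [CharP κ p]
    (hκ : ∀ x : κ, x ^ p = x) (G : FormalGroup κ) [G.IsComm]
    (hG : mulSeries G p = PowerSeries.X ^ p) (χ : PowerSeries κ) (hχ : IsHom G G χ) :
    ∃ a : ℕ → ℕ, (∀ l, a (l + 1) ≡ a l [MOD p ^ l]) ∧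
      ∀ l, ∃ (χ' : PowerSeries κ) (h0 : PowerSeries.constantCoeff χ' = 0)
        (h1 : PowerSeries.constantCoeff (χ'.subst (PowerSeries.X ^ (p ^ l) : PowerSeries κ)) = 0),
        seriesPoint G χ hχ.1 = a l • idPoint G +
          seriesPoint G (χ'.subst (PowerSeries.X ^ (p ^ l) : PowerSeries κ)) h1 := by
  exact end_height_one_aux hκ G hG χ hχ

section
variable {K : Type} [NontriviallyNormedField K] [IsUltrametricDist K] [CompleteSpace K]
  [IsAlgClosed K] {p : ℕ} [Fact p.Prime] [CharP K p]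

instance : Fact (0 < 1) := ⟨one_pos⟩

theorem exists_kernel_elt {r : ℕ} {k : Type} [Field k] [CharP k p] {Γ : FormalGroup k} [Γ.IsComm]
    {ι : k →+* OO K} {c : ℝ} {Fx : FormalGroup (OO K)} [Fx.IsComm] {V : PowerSeries (OO K)}
    {G : FormalGroup (FixF K p 1)} [G.IsComm] {lam : PowerSeries (OO K)} {z : Fin r → UC Fx p}
    (D : RelData 1 r Γ ι c Fx V G lam z) :
    ∃ w : UC Fx p, w ≠ 0 ∧ w.1 0 = 0 ∧ ∀ b : PowerSeries k, IsHom Γ Γ b →
      ∀ Φ : UC Fx p →+ UC Fx p, IsAct c ι b Φ → ev1 (((Φ w).1 0).val) lam = 0 := by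
  have hchar : CharP (FixF K p 1) p := inferInstance
  refine exists_kernel_elt_aux D fun χ hχ => ?_
  refine end_height_one p (fun x => ?_) G ?_ χ hχ
  · have h1 := x.2
    rw [mem_FixF, pow_one] at h1
    exact Subtype.ext h1
  · rw [D.lamD.pG, pow_one]

theorem no_kernel_elt {r h : ℕ} [Fact (0 < h)] {k : Type} [Field k] [CharP k p]
    {Γ : FormalGroup k} [Γ.IsComm] (hΓF : Γ.map (frobenius k p) = Γ)
    {ι : k →+* OO K} {c : ℝ} {Fx : FormalGroup (OO K)} [Fx.IsComm] {V : PowerSeries (OO K)}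
    {G : FormalGroup (FixF K p h)} [G.IsComm] {lam : PowerSeries (OO K)} {z : Fin r → UC Fx p}
    (D : RelData h r Γ ι c Fx V G lam z) (w : UC Fx p) (hw0 : w.1 0 = 0)
    (hw : ∀ b : PowerSeries k, IsHom Γ Γ b →
      ∀ Φ : UC Fx p →+ UC Fx p, IsAct c ι b Φ → ev1 (((Φ w).1 0).val) lam = 0) : w = 0 :=
  no_kernel_elt_aux hΓF D w hw

theorem relData_height_one_false {r : ℕ} {k : Type} [Field k] [CharP k p] {Γ : FormalGroup k}
    [Γ.IsComm] (hΓF : Γ.map (frobenius k p) = Γ)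
    {ι : k →+* OO K} {c : ℝ} {Fx : FormalGroup (OO K)} [Fx.IsComm] {V : PowerSeries (OO K)}
    {G : FormalGroup (FixF K p 1)} [G.IsComm] {lam : PowerSeries (OO K)} {z : Fin r → UC Fx p}
    (D : RelData 1 r Γ ι c Fx V G lam z) : False := by
  obtain ⟨w, hw, hw0, hwb⟩ := exists_kernel_elt D
  exact hw (no_kernel_elt hΓF D w hw0 hwb)

end
end Vale.Agent.P217
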