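import Mathlib.RingTheory.AdicCompletion.Completeness
import Mathlib.RingTheory.AdicCompletion.Noetherian
import Mathlib.RingTheory.Henselian
import Mathlib.RingTheory.WittVector.Complete
import Mathlib.RingTheory.WittVector.DiscreteValuationRing
import Vale.Agent.Lib.P217.FrobFactor
import Vale.Agent.Lib.P217.Defs

/-!
# P217: the quotients of the Lubin-Tate ring by the height ideals (module A4)
-/

set_option linter.unusedSectionVars false

namespace Vale.Agent.P217

open MvPowerSeries

section general
variable {σ R : Type*} [CommRing R]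

open Classical in
/-- the part of `f` without the variables in `S` -/
noncomputable def cutVars (S : Finset σ) (f : MvPowerSeries σ R) : MvPowerSeries σ R :=
  fun d => if ∀ i ∈ S, d i = 0 then coeff d f else 0

open Classical in
theorem coeff_cutVars (S : Finset σ) (f : MvPowerSeries σ R) (d : σ →₀ ℕ) :
    coeff d (cutVars S f) = if ∀ i ∈ S, d i = 0 then coeff d f else 0 := rfl

theorem sub_cutVars_mem (S : Finset σ) (f : MvPowerSeries σ R) :
    f - cutVars S f ∈ Ideal.span (X '' (S : Set σ) : Set (MvPowerSeries σ R)) := by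
  classical
  induction S using Finset.induction_on with
  | empty =>
    have h : cutVars ∅ f = f := by
      ext d
      rw [coeff_cutVars]
      simp
    rw [h, sub_self]
    exact Ideal.zero_mem _
  | insert a S ha ih =>
    have e : f - cutVars (insert a S) f
        = (f - cutVars S f) + (cutVars S f - cutVars (insert a S) f) := by ring
    rw [e]
    apply Ideal.add_mem
    · refine Ideal.span_mono ?_ ih
      exact Set.image_mono (by simp)
    · have hd : (X a : MvPowerSeries σ R) ∣ cutVars S f - cutVars (insert a S) f := by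
        rw [X_dvd_iff]
        intro m hm
        rw [map_sub, coeff_cutVars, coeff_cutVars]
        have : (∀ i ∈ insert a S, m i = 0) ↔ ∀ i ∈ S, m i = 0 := by
          simp [hm]
        rw [if_congr this rfl rfl, sub_self]
      obtain ⟨g, hg⟩ := hd
      rw [hg]
      apply Ideal.mul_mem_right
      apply Ideal.subset_span
      exact ⟨a, by simp, rfl⟩

theorem mem_sup_of_coeff (S : Finset σ) (a : R) (f : MvPowerSeries σ R)
    (h : ∀ d : σ →₀ ℕ, (∀ i ∈ S, d i = 0) → a ∣ coeff d f) :
    f ∈ Ideal.span {(C a : MvPowerSeries σ R)} ⊔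
      Ideal.span (X '' (S : Set σ) : Set (MvPowerSeries σ R)) := by
  classical
  have h1 := sub_cutVars_mem S f
  have h2 : ∀ d, ∃ c, coeff d (cutVars S f) = a * c := by
    intro d
    rw [coeff_cutVars]
    split_ifs with hd
    · exact h d hd
    · exact ⟨0, by simp⟩
  choose g hg using h2
  let G : MvPowerSeries σ R := fun d => g d
  have h3 : cutVars S f = C a * G := by
    ext d
    rw [hg, coeff_C_mul]
    rfl
  have e : f = cutVars S f + (f - cutVars S f) := by ring
  rw [e]
  apply Submodule.add_mem_sup
  · rw [h3]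
    exact Ideal.mul_mem_right _ _ (Ideal.subset_span rfl)
  · exact h1

/-- completeness with respect to the sum of two ideals -/
theorem isPrecomplete_sup {A : Type*} [CommRing A] (I J : Ideal A) (hI : IsPrecomplete I A)
    (hJ : IsPrecomplete J A) : IsPrecomplete (I ⊔ J) A := by
  rw [isPrecomplete_iff]
  intro f hf
  simp only [smul_eq_mul, Ideal.mul_top, SModEq.sub_mem] at hf ⊢
  -- `(I + J)^{2n} ≤ I^n + J^n`
  have hpow : ∀ n, (I ⊔ J) ^ (2 * n) ≤ I ^ n ⊔ J ^ n := by
    intro n
    rw [two_mul]
    exact Ideal.sup_pow_add_le_pow_sup_pow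
  have hdiff : ∀ n, ∃ a ∈ I ^ n, ∃ b ∈ J ^ n, a + b = f (2 * (n + 1)) - f (2 * n) := by
    intro n
    have h1 : f (2 * n) - f (2 * (n + 1)) ∈ (I ⊔ J) ^ (2 * n) := hf (by omega)
    have h2 : f (2 * (n + 1)) - f (2 * n) ∈ I ^ n ⊔ J ^ n := by
      rw [← neg_sub]
      exact neg_mem (hpow n h1)
    exact Submodule.mem_sup.1 h2
  choose a ha b hb hab using hdiff
  have key : ∀ (K : Ideal A), IsPrecomplete K A → ∀ c : ℕ → A, (∀ n, c n ∈ K ^ n) →
      ∃ L, ∀ n, (∑ i ∈ Finset.range n, c i) - L ∈ K ^ n := by
    intro K hK c hc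
    have h1 := (isPrecomplete_iff (I := K) (M := A)).1 hK (fun n => ∑ i ∈ Finset.range n, c i)
    simp only [smul_eq_mul, Ideal.mul_top, SModEq.sub_mem] at h1
    apply h1
    intro m n hmn
    have h2 : (∑ i ∈ Finset.range m, c i) - ∑ i ∈ Finset.range n, c i
        = - ∑ i ∈ Finset.Ico m n, c i := by
      rw [Finset.sum_Ico_eq_sub _ hmn]
      ring
    rw [h2]
    apply neg_mem
    apply Ideal.sum_mem
    intro i hi
    exact Ideal.pow_le_pow_right (Finset.mem_Ico.1 hi).1 (hc i)
  obtain ⟨La, hLa⟩ := key I hI a ha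
  obtain ⟨Lb, hLb⟩ := key J hJ b hb
  refine ⟨f 0 + La + Lb, ?_⟩
  have htel : ∀ n, f (2 * n) = f 0 + (∑ i ∈ Finset.range n, a i) + ∑ i ∈ Finset.range n, b i := by
    intro n
    induction n with
    | zero => simp
    | succ n ih =>
      rw [Finset.sum_range_succ, Finset.sum_range_succ]
      have := hab n
      linear_combination ih - this
  intro n
  have h1 : f n - f (2 * n) ∈ (I ⊔ J) ^ n := hf (by omega)
  have h2 : f (2 * n) - (f 0 + La + Lb) ∈ (I ⊔ J) ^ n := by
    have e : f (2 * n) - (f 0 + La + Lb)
        = ((∑ i ∈ Finset.range n, a i) - La) + ((∑ i ∈ Finset.range n, b i) - Lb) := by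
      rw [htel n]; ring
    rw [e]
    apply Ideal.add_mem
    · exact Ideal.pow_right_mono le_sup_left n (hLa n)
    · exact Ideal.pow_right_mono le_sup_right n (hLb n)
  have e : f n - (f 0 + La + Lb) = (f n - f (2 * n)) + (f (2 * n) - (f 0 + La + Lb)) := by ring
  rw [e]
  exact Ideal.add_mem _ h1 h2

/-- `R[[X]]` is `a`-adically precomplete if `R` is -/
theorem isPrecomplete_C (a : R) (h : IsPrecomplete (Ideal.span {a}) R) :
    IsPrecomplete (Ideal.span {(C a : MvPowerSeries σ R)}) (MvPowerSeries σ R) := by
  rw [isPrecomplete_iff] at h ⊢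
  intro f hf
  simp only [smul_eq_mul, Ideal.mul_top, SModEq.sub_mem, Ideal.span_singleton_pow,
    Ideal.mem_span_singleton] at hf h ⊢
  have h1 : ∀ d : σ →₀ ℕ, ∃ L, ∀ n, a ^ n ∣ coeff d (f n) - L := by
    intro d
    apply h (fun n => coeff d (f n))
    intro m n hmn
    obtain ⟨g, hg⟩ := hf hmn
    refine ⟨coeff d g, ?_⟩
    rw [← map_sub, hg, ← map_pow, coeff_C_mul]
  choose L hL using h1
  let L' : MvPowerSeries σ R := fun d => L d
  refine ⟨L', ?_⟩
  intro n
  choose g hg using fun d => hL d n
  let g' : MvPowerSeries σ R := fun d => g d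
  refine ⟨g', ?_⟩
  ext d
  rw [map_sub, ← map_pow, coeff_C_mul]
  exact hg d

end general


section lemmas
variable {R : Type*} [CommRing R]

theorem X_pow_dvd_subst {m : ℕ} {f w : PowerSeries R} (hw : PowerSeries.constantCoeff w = 0)
    (hf : PowerSeries.X ^ m ∣ f) :
    PowerSeries.X ^ m ∣ (PowerSeries.subst w f : PowerSeries R) := by
  have hw' : PowerSeries.HasSubst w := PowerSeries.HasSubst.of_constantCoeff_zero' hw
  obtain ⟨g, rfl⟩ := hf
  rw [PowerSeries.subst_mul hw', PowerSeries.subst_pow hw', PowerSeries.subst_X hw']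
  exact (pow_dvd_pow_of_dvd (PowerSeries.X_dvd_iff.2 hw) m).mul_right _

theorem coeff_subst_lead {t w : PowerSeries R} (ht : PowerSeries.constantCoeff t = 0) {m : ℕ}
    (hm : 1 ≤ m) (hw : PowerSeries.X ^ m ∣ w) :
    PowerSeries.coeff m (PowerSeries.subst w t : PowerSeries R) =
      PowerSeries.coeff 1 t * PowerSeries.coeff m w := by
  have hw0 : PowerSeries.constantCoeff w = 0 := by
    rw [← PowerSeries.coeff_zero_eq_constantCoeff_apply]
    exact PowerSeries.X_pow_dvd_iff.1 hw 0 (by omega)
  have hw' : PowerSeries.HasSubst w := PowerSeries.HasSubst.of_constantCoeff_zero' hw0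
  have h2 : PowerSeries.X ^ 2 ∣ t - PowerSeries.C (PowerSeries.coeff 1 t) * PowerSeries.X := by
    rw [PowerSeries.X_pow_dvd_iff]
    intro i hi
    interval_cases i
    · simp [ht]
    · simp
  obtain ⟨g, hg⟩ := h2
  have h3 : t = PowerSeries.C (PowerSeries.coeff 1 t) * PowerSeries.X + PowerSeries.X ^ 2 * g := by
    rw [← hg]; ring
  have h4 : (PowerSeries.subst w t : PowerSeries R)
      = PowerSeries.C (PowerSeries.coeff 1 t) * w + w ^ 2 * PowerSeries.subst w g := by
    conv_lhs => rw [h3]
    rw [PowerSeries.subst_add hw', PowerSeries.subst_mul hw', PowerSeries.subst_mul hw',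
      PowerSeries.subst_pow hw', PowerSeries.subst_X hw', PowerSeries.subst_C]
    rfl
  have h5 : PowerSeries.X ^ (m + 1) ∣ w ^ 2 * (PowerSeries.subst w g : PowerSeries R) := by
    apply Dvd.dvd.mul_right
    have h6 : (PowerSeries.X ^ m) ^ 2 ∣ w ^ 2 := pow_dvd_pow_of_dvd hw 2
    rw [← pow_mul] at h6
    exact (pow_dvd_pow _ (by omega)).trans h6
  rw [h4, map_add, PowerSeries.coeff_C_mul, PowerSeries.X_pow_dvd_iff.1 h5 m (by omega), add_zero]

theorem isUnit_natCast_of_lt (p : ℕ) [Fact p.Prime] [CharP R p] {j : ℕ} (h1 : 1 ≤ j)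
    (h2 : j < p) : IsUnit (j : R) := by
  have hp : p.Prime := Fact.out
  have hc : Nat.Coprime j p := by
    rw [Nat.coprime_comm, hp.coprime_iff_not_dvd]
    intro h
    have := Nat.le_of_dvd h1 h
    omega
  obtain ⟨u, _, hu⟩ := Nat.exists_mul_mod_eq_one_of_coprime hc hp.one_lt
  refine IsUnit.of_mul_eq_one (u : R) ?_
  rw [← Nat.cast_mul, CharP.cast_eq_mod R p (j * u), hu, Nat.cast_one]

/-- in characteristic `p`, a homomorphism without terms of degree `≤ p^h` has no terms of degree
`< p^{h+1}` -/
theorem coeff_lt_succ (p : ℕ) [Fact p.Prime] [CharP R p] {F G : FormalGroup R}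
    {f : PowerSeries R} (hf : IsHom F G f) (h : ℕ)
    (hlow : ∀ i < p ^ h, PowerSeries.coeff i f = 0) (hph : PowerSeries.coeff (p ^ h) f = 0) :
    ∀ i < p ^ (h + 1), PowerSeries.coeff i f = 0 := by
  have hp : p.Prime := Fact.out
  have hpos : p ^ h ≠ 0 := pow_ne_zero _ hp.ne_zero
  obtain ⟨V, hV0, hV⟩ := exists_frobenius_factor p hf h hlow
  have hVh := isHom_of_frobenius_factor p hf h V hV0 hV
  have hco : ∀ m, PowerSeries.coeff m f
      = if p ^ h ∣ m then PowerSeries.coeff (m / p ^ h) V else 0 := by
    intro m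
    rw [hV, ← PowerSeries.expand_apply (p ^ h) hpos, PowerSeries.coeff_expand]
  have h1 : PowerSeries.coeff 1 V = 0 := by
    have := hco (p ^ h)
    rw [hph, if_pos dvd_rfl, Nat.div_self (Nat.pos_of_ne_zero hpos)] at this
    exact this.symm
  have hder := hom_derivative hVh
  rw [h1, map_zero, zero_mul] at hder
  have hunit : IsUnit (dser (F.map (iterateFrobenius R p h))) := by
    rw [PowerSeries.isUnit_iff_constantCoeff, dser_constantCoeff]
    exact isUnit_one
  have hV' : PowerSeries.derivative R V = 0 := by
    rw [← hunit.mul_left_eq_zero]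
    exact hder
  have hVc : ∀ j < p, PowerSeries.coeff j V = 0 := by
    intro j hj
    rcases Nat.eq_zero_or_pos j with rfl | hj0
    · rw [PowerSeries.coeff_zero_eq_constantCoeff_apply, hV0]
    · have h3 := congrArg (PowerSeries.coeff (j - 1)) hV'
      rw [map_zero, PowerSeries.coeff_derivative] at h3
      have h4 : j - 1 + 1 = j := by omega
      rw [h4] at h3
      have h5 : ((j - 1 : ℕ) : R) + 1 = (j : R) := by
        rw [← Nat.cast_succ, Nat.succ_eq_add_one, h4]
      rw [h5] at h3
      exact (isUnit_natCast_of_lt p hj0 hj).mul_left_eq_zero.1 h3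
  intro i hi
  rw [hco]
  split_ifs with hd
  · apply hVc
    rw [Nat.div_lt_iff_lt_mul (Nat.pos_of_ne_zero hpos)]
    rw [pow_succ] at hi
    rw [mul_comm]
    exact hi
  · rfl

theorem charP_of_prime_eq_zero (p : ℕ) [Fact p.Prime] [Nontrivial R] (h : (p : R) = 0) :
    CharP R p := by
  have hp : p.Prime := Fact.out
  rw [← CharP.ringChar_of_prime_eq_zero hp h]
  infer_instance

end lemmas

section
variable (p : ℕ) [Fact p.Prime] (n : ℕ)

instance : IsLocalRing (LTRing p n) := inferInstance

instance : IsNoetherianRing (LTRing p n) := inferInstance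

theorem residueMap_surjective : Function.Surjective (residueMap p n) := by
  intro x
  obtain ⟨y, hy⟩ := WittVector.constantCoeff_surjective p x
  refine ⟨C y, ?_⟩
  rw [residueMap, RingHom.comp_apply, constantCoeff_C, hy]

theorem ker_residueMap' :
    RingHom.ker (residueMap p n) = IsLocalRing.maximalIdeal (LTRing p n) := by
  have h : (RingHom.ker (residueMap p n)).IsMaximal :=
    RingHom.ker_isMaximal_of_surjective _ (residueMap_surjective p n)
  exact IsLocalRing.eq_maximalIdeal h

theorem ker_residueMap (hn : n ≠ 0) :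
    RingHom.ker (residueMap p n) = IsLocalRing.maximalIdeal (LTRing p n) :=
  ker_residueMap' p n

theorem p_eq_C : (p : LTRing p n) = C (p : WittVector p (GaloisField p n)) := by
  rw [map_natCast]

theorem dvd_iff_constantCoeff (x : WittVector p (GaloisField p n)) :
    (p : WittVector p (GaloisField p n)) ∣ x ↔ WittVector.constantCoeff x = 0 := by
  rw [← Ideal.mem_span_singleton, WittVector.mem_span_p_iff_coeff_zero_eq_zero]
  rfl

theorem maximalIdeal_eq :
    IsLocalRing.maximalIdeal (LTRing p n) = Ideal.span {(p : LTRing p n)} ⊔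
      Ideal.span (Set.range X) := by
  classical
  rw [← ker_residueMap' p n]
  apply le_antisymm
  · intro f hf
    have h := mem_sup_of_coeff (Finset.univ : Finset (Fin (n - 1)))
      (p : WittVector p (GaloisField p n)) f ?_
    · rw [p_eq_C]
      have : (X '' ((Finset.univ : Finset (Fin (n - 1))) : Set (Fin (n - 1))) : Set (LTRing p n))
          = Set.range X := by simp
      rw [this] at h
      exact h
    · intro d hd
      have hd0 : d = 0 := by
        ext i
        exact hd i (Finset.mem_univ i)
      rw [dvd_iff_constantCoeff, hd0]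
      exact hf
  · apply sup_le
    · rw [Ideal.span_le, Set.singleton_subset_iff]
      change residueMap p n (p : LTRing p n) = 0
      rw [map_natCast]
      exact CharP.cast_eq_zero _ _
    · rw [Ideal.span_le]
      rintro _ ⟨i, rfl⟩
      change residueMap p n (X i) = 0
      rw [residueMap, RingHom.comp_apply, constantCoeff_X, map_zero]

instance : IsAdicComplete (IsLocalRing.maximalIdeal (LTRing p n)) (LTRing p n) := by
  have h1 : IsHausdorff (IsLocalRing.maximalIdeal (LTRing p n)) (LTRing p n) := inferInstance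
  have h2 : IsPrecomplete (IsLocalRing.maximalIdeal (LTRing p n)) (LTRing p n) := by
    rw [maximalIdeal_eq]
    apply isPrecomplete_sup
    · rw [p_eq_C]
      apply isPrecomplete_C
      exact (WittVector.isAdicCompleteIdealSpanP (p := p) (k := GaloisField p n)).toIsPrecomplete
    · have h3 : IsAdicComplete (.span (.range X) : Ideal (LTRing p n)) (LTRing p n) :=
        inferInstance
      exact h3.toIsPrecomplete
  exact { h1, h2 with }

/-- For `1 ≤ h ≤ n` the quotient by `I_h` is `k[[u_h, …, u_{n-1}]]`. -/
theorem exists_heightQuot (h r : ℕ) (hh : 1 ≤ h) (hr : h + r = n) :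
    ∃ ρ : LTRing p n →+* MvPowerSeries (Fin r) (GaloisField p n),
      Function.Surjective ρ ∧ RingHom.ker ρ = heightIdeal p n h ∧
      (∀ i : Fin (n - 1), (i : ℕ) + 1 < h → ρ (X i) = 0) ∧
      (∀ (i : Fin (n - 1)) (j : Fin r), (i : ℕ) + 1 = h + (j : ℕ) → ρ (X i) = X j) ∧
      (constantCoeff : MvPowerSeries (Fin r) (GaloisField p n) →+* GaloisField p n).comp ρ =
        residueMap p n := by
  classical
  let e : Fin r ↪ Fin (n - 1) :=
    ⟨fun j => ⟨h - 1 + (j : ℕ), by omega⟩, fun i j hij => by
      simp only [Fin.mk.injEq] at hij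
      exact Fin.ext (by omega)⟩
  have he : ∀ j : Fin r, ((e j : Fin (n - 1)) : ℕ) = h - 1 + (j : ℕ) := fun j => rfl
  let ρ : LTRing p n →+* MvPowerSeries (Fin r) (GaloisField p n) :=
    (MvPowerSeries.map (WittVector.constantCoeff :
      WittVector p (GaloisField p n) →+* GaloisField p n)).comp
      (killCompl (R := WittVector p (GaloisField p n)) e : LTRing p n →+* _)
  have hρ : ∀ f, ρ f = MvPowerSeries.map (WittVector.constantCoeff :
      WittVector p (GaloisField p n) →+* GaloisField p n) (killCompl e f) := fun f => rfl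
  have hρc : ∀ f x, coeff x (ρ f) = WittVector.constantCoeff (coeff (x.embDomain e) f) := by
    intro f x
    rw [hρ, coeff_map, coeff_killCompl]
  have hlow : ∀ i : Fin (n - 1), (i : ℕ) + 1 < h → ρ (X i) = 0 := by
    intro i hi
    rw [hρ, killCompl_X_eq_zero, map_zero]
    rintro ⟨j, hj⟩
    have := he j
    rw [hj] at this
    omega
  refine ⟨ρ, ?_, ?_, hlow, ?_, ?_⟩
  · intro g
    choose s hs using WittVector.constantCoeff_surjective (R := GaloisField p n) p
    let G : MvPowerSeries (Fin r) (WittVector p (GaloisField p n)) := fun d => s (coeff d g)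
    refine ⟨rename e G, ?_⟩
    rw [hρ, killCompl_rename_app]
    ext d
    rw [coeff_map]
    exact hs _
  · rw [heightIdeal, if_neg (by omega)]
    apply le_antisymm
    · intro f hf
      have hf' : ρ f = 0 := hf
      let S : Finset (Fin (n - 1)) := Finset.univ.filter (fun i => (i : ℕ) + 1 < h)
      have h1 := mem_sup_of_coeff S (p : WittVector p (GaloisField p n)) f ?_
      · rw [Ideal.span_union, p_eq_C]
        have h2 : {x : LTRing p n | ∃ i : Fin (n - 1), (i : ℕ) + 1 < h ∧ x = X i}
            = X '' (S : Set (Fin (n - 1))) := by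
          ext x
          constructor
          · rintro ⟨i, hi, rfl⟩
            exact ⟨i, by simp [S, hi], rfl⟩
          · rintro ⟨i, hi, rfl⟩
            exact ⟨i, by simpa [S] using hi, rfl⟩
        rw [h2]
        exact h1
      · intro d hd
        rw [dvd_iff_constantCoeff]
        obtain ⟨x, rfl⟩ : ∃ x : Fin r →₀ ℕ, d = x.embDomain e := by
          refine ⟨d.comapDomain e e.injective.injOn, ?_⟩
          ext i
          by_cases hi : i ∈ Set.range e
          · obtain ⟨j, rfl⟩ := hi
            rw [Finsupp.embDomain_apply_self]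
            rfl
          · rw [Finsupp.embDomain_of_notMem_range _ _ _ hi]
            apply hd
            simp only [S, Finset.mem_filter, Finset.mem_univ, true_and]
            by_contra hcon
            apply hi
            have hi2 := i.isLt
            refine ⟨⟨(i : ℕ) + 1 - h, by omega⟩, ?_⟩
            apply Fin.ext
            rw [he]
            simp only
            omega
        rw [← hρc, hf', coeff_zero]
    · rw [Ideal.span_le]
      rintro x (hx | ⟨i, hi, rfl⟩)
      · rw [Set.mem_singleton_iff] at hx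
        subst hx
        change ρ (p : LTRing p n) = 0
        rw [map_natCast]
        have h3 : (p : MvPowerSeries (Fin r) (GaloisField p n)) = C (p : GaloisField p n) := by
          rw [map_natCast]
        rw [h3, CharP.cast_eq_zero, map_zero]
      · exact hlow i hi
  · intro i j hij
    have : i = e j := by
      apply Fin.ext
      rw [he]
      omega
    rw [this, hρ, killCompl_X, map_X]
  · ext f
    rw [RingHom.comp_apply, ← coeff_zero_eq_constantCoeff_apply, hρc]
    rw [residueMap, RingHom.comp_apply, ← coeff_zero_eq_constantCoeff_apply]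
    rw [Finsupp.embDomain_zero]

theorem heightIdeal_n (hn : n ≠ 0) :
    heightIdeal p n n = IsLocalRing.maximalIdeal (LTRing p n) := by
  obtain ⟨ρ, _, hker, _, _, hc⟩ := exists_heightQuot p n n 0 (by omega) (by omega)
  rw [← hker, ← ker_residueMap' p n, ← hc]
  ext f
  rw [RingHom.mem_ker, RingHom.mem_ker, RingHom.comp_apply]
  constructor
  · intro h
    rw [h, map_zero]
  · intro h
    ext d
    have : d = 0 := Subsingleton.elim _ _
    rw [this, coeff_zero_eq_constantCoeff_apply, h]
    simp

theorem heightIdeal_isPrime (h : ℕ) (hh : h ≤ n) : (heightIdeal p n h).IsPrime := by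
  rcases Nat.eq_zero_or_pos h with rfl | hpos
  · rw [heightIdeal, if_pos rfl]
    exact Ideal.isPrime_bot
  · obtain ⟨ρ, _, hker, _⟩ := exists_heightQuot p n h (n - h) hpos (by omega)
    rw [← hker]
    have : IsDomain (MvPowerSeries (Fin (n - h)) (GaloisField p n)) := NoZeroDivisors.to_isDomain _
    exact RingHom.ker_isPrime ρ

theorem heightIdeal_mono {h h' : ℕ} (hle : h ≤ h') : heightIdeal p n h ≤ heightIdeal p n h' := by
  unfold heightIdeal
  rcases Nat.eq_zero_or_pos h with rfl | h0
  · rw [if_pos rfl]
    exact bot_le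
  · rw [if_neg (by omega), if_neg (by omega)]
    apply Ideal.span_mono
    rintro x (hx | ⟨i, hi, rfl⟩)
    · exact Or.inl hx
    · exact Or.inr ⟨i, by omega, rfl⟩

theorem p_mem_heightIdeal {h : ℕ} (h1 : 1 ≤ h) : (p : LTRing p n) ∈ heightIdeal p n h := by
  rw [heightIdeal, if_neg (by omega)]
  exact Ideal.subset_span (Or.inl rfl)

theorem X_mem_heightIdeal {h : ℕ} (i : Fin (n - 1)) (hi : (i : ℕ) + 1 < h) :
    (X i : LTRing p n) ∈ heightIdeal p n h := by
  rw [heightIdeal, if_neg (by omega)]
  exact Ideal.subset_span (Or.inr ⟨i, hi, rfl⟩)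

theorem coeff_mulSeries_mem_aux (F : FormalGroup (LTRing p n)) [F.IsComm]
    (hc : HasStandardCoordinates p n F) (h : ℕ) (hh : h ≤ n) : ∀ i < p ^ h,
    PowerSeries.coeff i (mulSeries F p) ∈ heightIdeal p n h := by
  induction h with
  | zero =>
    intro i hi
    have : i = 0 := by
      rw [pow_zero] at hi
      omega
    rw [this, PowerSeries.coeff_zero_eq_constantCoeff_apply, mulSeries_constantCoeff]
    exact Ideal.zero_mem _
  | succ h ih =>
    have ih' := ih (by omega)
    have hprime := heightIdeal_isPrime p n (h + 1) hh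
    set I := heightIdeal p n (h + 1) with hI
    have hnt : Nontrivial (LTRing p n ⧸ I) := Ideal.Quotient.nontrivial_iff.2 hprime.ne_top
    have hch : CharP (LTRing p n ⧸ I) p := by
      apply charP_of_prime_eq_zero
      have h1 : Ideal.Quotient.mk I (p : LTRing p n) = 0 :=
        Ideal.Quotient.eq_zero_iff_mem.2 (p_mem_heightIdeal p n (by omega))
      rw [map_natCast] at h1
      exact h1
    have hhom : IsHom (F.map (Ideal.Quotient.mk I)) (F.map (Ideal.Quotient.mk I))
        ((mulSeries F p).map (Ideal.Quotient.mk I)) := (isHom_mulSeries F p).map _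
    have hmem : ∀ i, PowerSeries.coeff i ((mulSeries F p).map (Ideal.Quotient.mk I)) = 0 ↔
        PowerSeries.coeff i (mulSeries F p) ∈ I := by
      intro i
      rw [PowerSeries.coeff_map, Ideal.Quotient.eq_zero_iff_mem]
    have hlast : PowerSeries.coeff (p ^ h) (mulSeries F p) ∈ I := by
      rcases Nat.eq_zero_or_pos h with rfl | h0
      · rw [pow_zero, mulSeries_coeff_one]
        exact p_mem_heightIdeal p n (by omega)
      · have h1 := hc ⟨h - 1, by omega⟩
        have h2 : (h - 1 + 1) = h := by omega
        simp only [h2] at h1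
        have h3 := Ideal.add_mem _ (heightIdeal_mono p n (by omega : h ≤ h + 1) h1)
          (X_mem_heightIdeal p n (h := h + 1) ⟨h - 1, by omega⟩ (by simp only; omega))
        rw [sub_add_cancel] at h3
        exact h3
    have key := coeff_lt_succ p hhom h (fun i hi => (hmem i).2
      (heightIdeal_mono p n (by omega : h ≤ h + 1) (ih' i hi))) ((hmem _).2 hlast)
    intro i hi
    exact (hmem i).1 (key i hi)

/-- coefficients of `[p]_F` below degree `p^h` are in `I_h` -/
theorem coeff_mulSeries_mem (F : FormalGroup (LTRing p n)) [F.IsComm]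
    (hc : HasStandardCoordinates p n F) (h : ℕ) (hh1 : 1 ≤ h) (hh : h ≤ n) (i : ℕ)
    (hi : i < p ^ h) : PowerSeries.coeff i (mulSeries F p) ∈ heightIdeal p n h :=
  coeff_mulSeries_mem_aux p n F hc h hh i hi

/-- an endomorphism `φ` of the Lubin-Tate ring such that `φ_* F` is isomorphic to `F` preserves `I_h` -/
theorem map_heightIdeal_le (F : FormalGroup (LTRing p n)) [F.IsComm]
    (hc : HasStandardCoordinates p n F) (φ : LTRing p n →+* LTRing p n)
    (t : PowerSeries (LTRing p n)) (ht : IsHom (F.map φ) F t)
    (ht1 : IsUnit (PowerSeries.coeff 1 t)) (h : ℕ) (hh : h ≤ n) :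
    ∀ f ∈ heightIdeal p n h, φ f ∈ heightIdeal p n h := by
  induction h with
  | zero =>
    intro f hf
    rw [heightIdeal, if_pos rfl, Ideal.mem_bot] at hf
    rw [hf, map_zero]
    exact Ideal.zero_mem _
  | succ h ih =>
    have ih' := ih (by omega)
    have hmono := heightIdeal_mono p n (by omega : h ≤ h + 1)
    have hprime := heightIdeal_isPrime p n (h + 1) hh
    -- the main case
    have hmain : ∀ i : Fin (n - 1), (i : ℕ) + 1 = h → φ (X i) ∈ heightIdeal p n (h + 1) := by
      intro i hi
      set I := heightIdeal p n (h + 1) with hI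
      have h1 := hc i
      rw [hi] at h1
      have h2 : φ (PowerSeries.coeff (p ^ h) (mulSeries F p)) ∈ I := by
        have hp : p.Prime := Fact.out
        set π : LTRing p n →+* LTRing p n ⧸ I := Ideal.Quotient.mk I with hπ
        have e1 := congrArg (PowerSeries.map π) (ht.comp_mulSeries p)
        have s1 : PowerSeries.HasSubst (mulSeries (F.map φ) p) := hasSubst_mulSeries _ _
        have s2 : PowerSeries.HasSubst t := hasSubst_of_isHom ht
        have e2 : PowerSeries.map π (PowerSeries.subst (mulSeries (F.map φ) p) t)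
            = PowerSeries.subst ((mulSeries (F.map φ) p).map π) (t.map π) :=
          PowerSeries.map_subst s1 t
        have e3 : PowerSeries.map π (PowerSeries.subst t (mulSeries F p))
            = PowerSeries.subst (t.map π) ((mulSeries F p).map π) :=
          PowerSeries.map_subst s2 (mulSeries F p)
        rw [e2, e3] at e1
        have hw : PowerSeries.X ^ (p ^ h) ∣ (mulSeries (F.map φ) p).map π := by
          rw [PowerSeries.X_pow_dvd_iff]
          intro j hj
          rw [mulSeries_map, PowerSeries.coeff_map, PowerSeries.coeff_map, hπ,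
            Ideal.Quotient.eq_zero_iff_mem]
          exact hmono (ih' _ (coeff_mulSeries_mem_aux p n F hc h (by omega) j hj))
        have ht0 : PowerSeries.constantCoeff (t.map π) = 0 := by
          rw [← PowerSeries.coeff_zero_eq_constantCoeff_apply, PowerSeries.coeff_map,
            PowerSeries.coeff_zero_eq_constantCoeff_apply, ht.1, map_zero]
        have hr : PowerSeries.X ^ (p ^ (h + 1)) ∣ (mulSeries F p).map π := by
          rw [PowerSeries.X_pow_dvd_iff]
          intro j hj
          rw [PowerSeries.coeff_map, hπ, Ideal.Quotient.eq_zero_iff_mem]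
          exact coeff_mulSeries_mem_aux p n F hc (h + 1) hh j hj
        have e4 := congrArg (PowerSeries.coeff (p ^ h)) e1
        rw [coeff_subst_lead ht0 (Nat.one_le_pow _ _ hp.pos) hw,
          PowerSeries.X_pow_dvd_iff.1 (X_pow_dvd_subst ht0 hr) (p ^ h)
            (Nat.pow_lt_pow_right hp.one_lt (by omega))] at e4
        rw [mulSeries_map, PowerSeries.coeff_map, PowerSeries.coeff_map, PowerSeries.coeff_map,
          ← map_mul, hπ, Ideal.Quotient.eq_zero_iff_mem] at e4
        exact (Ideal.unit_mul_mem_iff_mem I ht1).1 e4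
      have h3 : φ (X i) = φ (PowerSeries.coeff (p ^ h) (mulSeries F p))
          - φ (PowerSeries.coeff (p ^ h) (mulSeries F p) - X i) := by
        rw [map_sub]; ring
      rw [h3]
      exact Ideal.sub_mem _ h2 (hmono (ih' _ h1))
    intro f hf
    have hle : heightIdeal p n (h + 1) ≤ (heightIdeal p n (h + 1)).comap φ := by
      conv_lhs => rw [heightIdeal, if_neg (by omega)]
      rw [Ideal.span_le]
      rintro x (hx | ⟨i, hi, rfl⟩)
      · rw [Set.mem_singleton_iff] at hx
        subst hx
        change φ (p : LTRing p n) ∈ heightIdeal p n (h + 1)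
        rw [map_natCast]
        exact p_mem_heightIdeal p n (by omega)
      · change φ (X i) ∈ heightIdeal p n (h + 1)
        by_cases hih : (i : ℕ) + 1 = h
        · exact hmain i hih
        · exact hmono (ih' _ (X_mem_heightIdeal p n i (by omega)))
    exact hle hf

end
end Vale.Agent.P217
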