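import Mathlib.RingTheory.MvPowerSeries.Expand
import Mathlib.RingTheory.MvPowerSeries.Inverse
import Vale.Agent.Lib.P217.Formal

/-!
# P217: the p-power of an approximate endomorphism (proof of `lift_pow` of `ChaiP.lean`)
-/

set_option linter.unusedSectionVars false

namespace Vale.Agent.P217

open MvPowerSeries

namespace LiftPow

section
variable {B : Type*} [CommRing B]

/-- series with all coefficients in the ideal `J` -/
noncomputable def coefId (σ : Type*) (J : Ideal B) : Ideal (MvPowerSeries σ B) :=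
  RingHom.ker (MvPowerSeries.map (σ := σ) (Ideal.Quotient.mk J))

theorem mem_coefId {σ : Type*} {J : Ideal B} {f : MvPowerSeries σ B} :
    f ∈ coefId σ J ↔ ∀ d, coeff d f ∈ J := by
  unfold coefId
  rw [RingHom.mem_ker, MvPowerSeries.ext_iff]
  refine forall_congr' fun d => ?_
  rw [coeff_map, map_zero, Ideal.Quotient.eq_zero_iff_mem]

/-- coefficients of a `p^h`-th power -/
theorem pow_mem_coefId {σ : Type*} (p : ℕ) [Fact p.Prime] [CharP B p] (h : ℕ) {J : Ideal B}
    {f : MvPowerSeries σ B} (hf : f ∈ coefId σ J) :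
    f ^ (p ^ h) ∈ coefId σ (Ideal.span {x | ∃ a ∈ J, x = a ^ (p ^ h)}) := by
  have : ExpChar B p := ExpChar.prime (Fact.out : p.Prime)
  have hp : p ≠ 0 := (Fact.out : p.Prime).ne_zero
  rw [mem_coefId] at hf ⊢
  intro d
  rw [← map_iterateFrobenius_expand p hp f h, coeff_map]
  apply Ideal.subset_span
  refine ⟨coeff d (expand (p ^ h) (pow_ne_zero h hp) f), ?_, ?_⟩
  · by_cases hd : ∃ m : σ →₀ ℕ, d = p ^ h • m
    · obtain ⟨m, rfl⟩ := hd
      rw [coeff_expand_smul]
      exact hf m
    · have : ∃ i, ¬ (p ^ h ∣ d i) := by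
        by_contra hcon
        push Not at hcon
        apply hd
        refine ⟨d.mapRange (fun x => x / p ^ h) (by simp), ?_⟩
        ext i
        simp only [Finsupp.smul_apply, Finsupp.mapRange_apply, smul_eq_mul]
        exact (Nat.mul_div_cancel' (hcon i)).symm
      obtain ⟨i, hi⟩ := this
      rw [coeff_expand_of_not_dvd _ _ _ hi]
      exact J.zero_mem
  · rw [iterateFrobenius_def]

/-- the difference of two formal points is a unit times the formal difference -/
theorem sub_val_eq {F : FormalGroup B} [F.IsComm] {σ : Type*} (A G : F.Point σ) :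
    ∃ u : MvPowerSeries σ B, IsUnit u ∧ A.val - G.val = (A - G).val * u := by
  obtain ⟨H, hH⟩ := exists_toPowerSeries_eq F
  have h1 : A = G + (A - G) := by abel
  have h2 : A.val = subst ![G.val, (A - G).val] F.toPowerSeries := by
    conv_lhs => rw [h1]
    exact FormalGroup.add_apply (F := F) (x := G) (y := A - G)
  rw [subst_pair_eq hH G.prop (A - G).prop] at h2
  refine ⟨1 + G.val * subst ![G.val, (A - G).val] H, ?_, ?_⟩
  · rw [MvPowerSeries.isUnit_iff_constantCoeff, map_add, map_one, map_mul]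
    have hnil : IsNilpotent (MvPowerSeries.constantCoeff G.val) := G.prop
    have : IsNilpotent (MvPowerSeries.constantCoeff G.val *
        MvPowerSeries.constantCoeff (subst ![G.val, (A - G).val] H)) :=
      (Commute.all _ _).isNilpotent_mul_right hnil
    exact this.isUnit_one_add
  · rw [h2]
    ring

theorem sub_mem_iff {F : FormalGroup B} [F.IsComm] {σ : Type*} (A G : F.Point σ) (J : Ideal B) :
    A.val - G.val ∈ coefId σ J ↔ (A - G).val ∈ coefId σ J := by
  obtain ⟨u, hu, heq⟩ := sub_val_eq A G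
  rw [heq]
  exact Ideal.mul_unit_mem_iff_mem _ hu

theorem nsmul_mem (p : ℕ) [Fact p.Prime] [CharP B p] {F : FormalGroup B} [F.IsComm] (h : ℕ)
    (V : PowerSeries B) (hV0 : PowerSeries.constantCoeff V = 0)
    (hV : mulSeries F p = V.subst (PowerSeries.X ^ (p ^ h) : PowerSeries B)) {σ : Type*}
    {J : Ideal B} {D : F.Point σ} (hD : D.val ∈ coefId σ J) :
    (p • D).val ∈ coefId σ (Ideal.span {x | ∃ a ∈ J, x = a ^ (p ^ h)}) := by
  have hp : p ^ h ≠ 0 := pow_ne_zero h (Fact.out : p.Prime).ne_zero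
  have hXp : PowerSeries.HasSubst (PowerSeries.X ^ (p ^ h) : PowerSeries B) :=
    PowerSeries.HasSubst.X_pow hp
  rw [Point.nsmul_val, hV, PowerSeries.subst_comp_subst_apply hXp D.prop]
  have h1 : PowerSeries.subst D.val (PowerSeries.X ^ (p ^ h) : PowerSeries B) =
      D.val ^ (p ^ h) := by
    rw [PowerSeries.subst_pow D.prop, PowerSeries.subst_X D.prop]
  rw [h1]
  have hDp : PowerSeries.HasSubst (D.val ^ (p ^ h)) := by
    have hD1 : IsNilpotent (MvPowerSeries.constantCoeff D.val) := D.prop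
    have hD2 : IsNilpotent (MvPowerSeries.constantCoeff (D.val ^ (p ^ h))) := by
      rw [map_pow]
      exact hD1.pow_of_pos hp
    exact hD2
  obtain ⟨V', hV'⟩ := PowerSeries.X_dvd_iff.2 hV0
  rw [hV', PowerSeries.subst_mul hDp, PowerSeries.subst_X hDp]
  exact Ideal.mul_mem_right _ _ (pow_mem_coefId p h hD)

theorem pow_span_le (p : ℕ) [Fact p.Prime] [CharP B p] (h : ℕ) (J : Ideal B) (M : ℕ) :
    Ideal.span {x | ∃ a ∈ Ideal.span {x | ∃ a ∈ J, x = a ^ M}, x = a ^ (p ^ h)} ≤
      Ideal.span {x | ∃ a ∈ J, x = a ^ (M * p ^ h)} := by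
  rw [Ideal.span_le]
  rintro x ⟨a, ha, rfl⟩
  have : ExpChar B p := ExpChar.prime (Fact.out : p.Prime)
  have hp : p ^ h ≠ 0 := pow_ne_zero h (Fact.out : p.Prime).ne_zero
  simp only [SetLike.mem_coe]
  induction ha using Submodule.span_induction with
  | mem x hx =>
    obtain ⟨b, hb, rfl⟩ := hx
    apply Ideal.subset_span
    exact ⟨b, hb, by rw [pow_mul]⟩
  | zero =>
    rw [zero_pow hp]
    exact Ideal.zero_mem _
  | add x y _ _ hx hy =>
    rw [add_pow_expChar_pow]
    exact Ideal.add_mem _ hx hy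
  | smul c x _ hx =>
    rw [smul_eq_mul, mul_pow]
    exact Ideal.mul_mem_left _ _ hx

end

end LiftPow

open LiftPow in
theorem lift_pow_aux {B : Type*} [CommRing B] (p : ℕ) [Fact p.Prime] [CharP B p] (F : FormalGroup B)
    [F.IsComm] (h : ℕ) (V : PowerSeries B) (hV0 : PowerSeries.constantCoeff V = 0)
    (hV : mulSeries F p = V.subst (PowerSeries.X ^ (p ^ h) : PowerSeries B)) (J : Ideal B)
    (β : PowerSeries B) (hβ0 : PowerSeries.constantCoeff β = 0)
    (hβ : ∀ d, coeff d (PowerSeries.subst F.toPowerSeries β -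
      MvPowerSeries.subst ![PowerSeries.subst (X 0 : MvPowerSeries (Fin 2) B) β,
        PowerSeries.subst (X 1 : MvPowerSeries (Fin 2) B) β] F.toPowerSeries) ∈ J) (m : ℕ) :
    ∀ d, coeff d (PowerSeries.subst F.toPowerSeries ((mulSeries F (p ^ m)).subst β) -
      MvPowerSeries.subst
        ![PowerSeries.subst (X 0 : MvPowerSeries (Fin 2) B) ((mulSeries F (p ^ m)).subst β),
          PowerSeries.subst (X 1 : MvPowerSeries (Fin 2) B) ((mulSeries F (p ^ m)).subst β)]
        F.toPowerSeries) ∈ Ideal.span {x | ∃ a ∈ J, x = a ^ ((p ^ h) ^ m)} := by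
  have hβs : PowerSeries.HasSubst β := PowerSeries.HasSubst.of_constantCoeff_zero' hβ0
  have hX0 : PowerSeries.HasSubst (X 0 : MvPowerSeries (Fin 2) B) := hasSubst_X 0
  have hX1 : PowerSeries.HasSubst (X 1 : MvPowerSeries (Fin 2) B) := hasSubst_X 1
  set A : F.Point (Fin 2) := ⟨PowerSeries.subst F.toPowerSeries β,
    hasSubst_psubst (hasSubst_F F) hβ0⟩ with hA
  set G0 : F.Point (Fin 2) := ⟨PowerSeries.subst (X 0) β, hasSubst_psubst hX0 hβ0⟩ with hG0
  set G1 : F.Point (Fin 2) := ⟨PowerSeries.subst (X 1) β, hasSubst_psubst hX1 hβ0⟩ with hG1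
  have hbase : (A - (G0 + G1)).val ∈ coefId (Fin 2) J := by
    rw [← sub_mem_iff, mem_coefId]
    exact hβ
  have key : ∀ m : ℕ, (p ^ m • (A - (G0 + G1))).val ∈
      coefId (Fin 2) (Ideal.span {x | ∃ a ∈ J, x = a ^ ((p ^ h) ^ m)}) := by
    intro m
    induction m with
    | zero =>
      have h0 : p ^ 0 • (A - (G0 + G1)) = A - (G0 + G1) := by rw [pow_zero, one_smul]
      rw [h0]
      rw [mem_coefId] at hbase ⊢
      intro d
      apply Ideal.subset_span
      exact ⟨_, hbase d, by simp⟩
    | succ m ih =>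
      have h1 := nsmul_mem p h V hV0 hV ih
      rw [← mul_smul, ← pow_succ'] at h1
      rw [mem_coefId] at h1 ⊢
      intro d
      have h2 := pow_span_le p h J ((p ^ h) ^ m) (h1 d)
      rw [pow_succ]
      exact h2
  have h3 := key m
  rw [smul_sub, smul_add, ← sub_mem_iff, mem_coefId] at h3
  have e1 : (p ^ m • A).val =
      PowerSeries.subst F.toPowerSeries ((mulSeries F (p ^ m)).subst β) := by
    rw [Point.nsmul_val]
    exact (PowerSeries.subst_comp_subst_apply hβs (hasSubst_F F) _).symm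
  have e2 : (p ^ m • G0 + p ^ m • G1).val = MvPowerSeries.subst
        ![PowerSeries.subst (X 0 : MvPowerSeries (Fin 2) B) ((mulSeries F (p ^ m)).subst β),
          PowerSeries.subst (X 1 : MvPowerSeries (Fin 2) B) ((mulSeries F (p ^ m)).subst β)]
        F.toPowerSeries := by
    rw [FormalGroup.add_apply, Point.nsmul_val, Point.nsmul_val,
      PowerSeries.subst_comp_subst_apply hβs hX0, PowerSeries.subst_comp_subst_apply hβs hX1]
  rw [e1, e2] at h3
  exact h3

end Vale.Agent.P217
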