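import Vale.Agent.Lib.P217.Universal
import Vale.Agent.Lib.P217.HeightQuot
import Vale.Agent.Lib.P217.Endgame1
import Vale.Agent.Lib.P217.LiftPow
import Vale.Agent.Lib.P217.DispTools

/-!
# P217: from invariant primes of the Lubin-Tate ring to `MainP.lean`

`Γ₀` is a formal group law over `ZMod p` with `[p] = X^{p^n}`, `Γk` its base change to
`k = GaloisField p n`, `F` a universal deformation over the Lubin-Tate ring, in standard coordinates.

* `lift_pow` (the key estimate): let `B` be a commutative ring of characteristic `p`, `F` a commutative formal group law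
  over `B` with `[p]_F = V(X^Q)`, `Q = p^h`, `J` an ideal, `β` a series without constant term which is an
  endomorphism of `F` modulo `J` (all coefficients of `β(F(X,Y)) - F(βX, βY)` are in `J`). Then `[p^m]_F ∘ β` is an
  endomorphism of `F` modulo the ideal generated by the `Q^m`-th powers of elements of `J`.
  Proof: `β(F(X,Y)) = F(βX,βY) +_F D` with `D` over `J`; `[p] D = V(D^Q)`, and `D^Q` has coefficients `D_{ij}^Q`
  (Frobenius). Induction on `m`.

* `hasDisp`: Let `m ≥ 1`, `g = 1 + p^m b` (an automorphism of `Γk`).  Choose `φ : E ≃ E` with `ActsBy … g … φ`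
  (`exists_actsBy`), with its `t`. It preserves `I_h` (`map_heightIdeal_le`), so it descends to `φ̄ : R → R`,
  `R = k[[u_h..]] = E/I_h`, `t̄ = t.map ρ`. Let `A = R / powIdeal k r (Q^m)`, an Artinian local ring.
  Let `β` over `R` be a coefficientwise lift of `b` (e.g. constants). By `lift_pow` with `J` the maximal ideal, `g̃ = X +_F [p^m] β` is an
  automorphism of `F` over `A` lifting `g`. By `univ_unique` applied to the two maps `E → R → A`, with and without
  `φ̄`, and the homomorphisms `t̄` and `g̃` to `F_A`: `φ̄ ≡ id` and `t̄ ≡ g̃` modulo `powIdeal`.  And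
  `g̃ ≡ X` modulo `X^{Q^m}` since `[p^m] = V_m(X^{Q^m})`.  `φ̄` fixes the constants `C a`, since
  `a^{p^n} = a`, `φ̄(C a) ≡ C a` modulo the maximal ideal and `R` is a domain.
-/

set_option linter.unusedSectionVars false

namespace Vale.Agent.P217

open MvPowerSeries

theorem lift_pow {B : Type*} [CommRing B] (p : ℕ) [Fact p.Prime] [CharP B p] (F : FormalGroup B)
    [F.IsComm] (h : ℕ) (V : PowerSeries B) (hV0 : PowerSeries.constantCoeff V = 0)
    (hV : mulSeries F p = V.subst (PowerSeries.X ^ (p ^ h) : PowerSeries B)) (J : Ideal B)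
    (β : PowerSeries B) (hβ0 : PowerSeries.constantCoeff β = 0)
    (hβ : ∀ d, coeff d (PowerSeries.subst F.toPowerSeries β -
      MvPowerSeries.subst ![PowerSeries.subst (X 0 : MvPowerSeries (Fin 2) B) β,
        PowerSeries.subst (X 1 : MvPowerSeries (Fin 2) B) β] F.toPowerSeries) ∈ J) (m : ℕ) :
    ∀ d, coeff d (PowerSeries.subst F.toPowerSeries ((mulSeries F (p ^ m)).subst β) -
      MvPowerSeries.subst
        ![PowerSeries.subst (X 0 : MvPowerSeries (Fin 2) B) ((mulSeries F (p ^ m)).subst β),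
          PowerSeries.subst (X 1 : MvPowerSeries (Fin 2) B) ((mulSeries F (p ^ m)).subst β)]
        F.toPowerSeries) ∈ Ideal.span {x | ∃ a ∈ J, x = a ^ ((p ^ h) ^ m)} := by
  exact lift_pow_aux p F h V hV0 hV J β hβ0 hβ m

section
variable (p : ℕ) [Fact p.Prime] (n : ℕ)

/-- base change of a formal group law over `ZMod p` to the residue field -/
noncomputable abbrev Gk (Γ₀ : FormalGroup (ZMod p)) : FormalGroup (GaloisField p n) :=
  Γ₀.map (algebraMap (ZMod p) (GaloisField p n))

/-- Invariance under all elements `1 + p^m b` with `m` large depending on `b`. Invariant ideals, and the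
minimal primes over invariant ideals, have this property. -/
def WeaklyInvariant (Γ₀ : FormalGroup (ZMod p)) (F : FormalGroup (LTRing p n))
    (P : Ideal (LTRing p n)) : Prop :=
  ∀ (b : PowerSeries (GaloisField p n)) (hb : IsHom (Gk p n Γ₀) (Gk p n Γ₀) b),
    ∃ m₀ : ℕ, ∀ m ≥ m₀, ∀ φ : LTRing p n ≃+* LTRing p n,
      ActsBy (Gk p n Γ₀) (residueMap p n) F (onePlus (Gk p n Γ₀) p m b hb.1)
        (RingEquiv.refl _) φ → ∀ f ∈ P, φ f ∈ P

variable {p n} (hn : n ≠ 0) (Γ₀ : FormalGroup (ZMod p)) [Γ₀.IsComm]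
  (hΓ : mulSeries Γ₀ p = PowerSeries.X ^ (p ^ n)) (F : FormalGroup (LTRing p n))
  (hF : IsUniversalDeformation (Gk p n Γ₀) (residueMap p n) F)
  (hc : HasStandardCoordinates p n F)

theorem weaklyInvariant_of_isInvariant (P : Ideal (LTRing p n))
    (hP : IsInvariant (Gk p n Γ₀) (residueMap p n) F P) : WeaklyInvariant p n Γ₀ F P := by
  intro b hb
  refine ⟨0, fun m _ φ hφ f hf => ?_⟩
  have h := hP _ _ φ hφ
  have h1 : (φ : LTRing p n →+* LTRing p n) f ∈ P.map (φ : LTRing p n →+* LTRing p n) :=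
    Ideal.mem_map_of_mem _ hf
  rw [h] at h1
  exact h1

open DispTools in
include hn hΓ hF hc in
theorem hasDisp {h r : ℕ} (hh : 1 ≤ h) (hr : h + r = n)
    (ρ : LTRing p n →+* MvPowerSeries (Fin r) (GaloisField p n))
    (hρ : Function.Surjective ρ) (hker : RingHom.ker ρ = heightIdeal p n h)
    (hρres : (constantCoeff : MvPowerSeries (Fin r) (GaloisField p n) →+* GaloisField p n).comp ρ =
        residueMap p n)
    (P : Ideal (LTRing p n)) (hPh : heightIdeal p n h ≤ P) (hP : WeaklyInvariant p n Γ₀ F P) :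
    HasDisp p h (Gk p n Γ₀) (F.map ρ) (P.map ρ) := by
  intro b hb
  obtain ⟨m₀, hm₀⟩ := hP b hb
  refine ⟨max m₀ 1, ?_⟩
  intro m hm
  have hm0 : m₀ ≤ m := (le_max_left _ _).trans hm
  have hm1 : 1 ≤ m := (le_max_right _ _).trans hm
  have hp1 : 1 < p := (Fact.out : p.Prime).one_lt
  have hFc : F.IsComm := hF.comm
  have hFr : F.map (residueMap p n) = Gk p n Γ₀ := hF.reduction
  -- the series `[p^m] b` over the residue field
  set Γ : FormalGroup (GaloisField p n) := Gk p n Γ₀ with hΓdef
  have hΓp : mulSeries Γ p = PowerSeries.X ^ (p ^ n) := by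
    rw [hΓdef, mulSeries_map, hΓ, map_pow]
    congr 1
    exact PowerSeries.map_X _
  -- `g = 1 + p^m b`
  have hpb : IsHom Γ Γ (PowerSeries.subst b (mulSeries Γ (p ^ m))) :=
    hb.comp (isHom_mulSeries Γ (p ^ m))
  have hg_eq : onePlus Γ p m b hb.1 = (idPoint Γ + seriesPoint Γ _ hpb.1).val := by
    rw [onePlus]
    congr 2
    apply Subtype.ext
    rw [Point.nsmul_val]
    rfl
  have hg : IsHom Γ Γ (onePlus Γ p m b hb.1) := by
    rw [hg_eq]
    exact isHom_add (isHom_X Γ) hpb
  have hqm : 2 ≤ (p ^ n) ^ m := by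
    have h1 : 1 < p ^ n := Nat.one_lt_pow hn hp1
    exact Nat.one_lt_pow (by omega) h1
  have hdvd : PowerSeries.X ^ ((p ^ n) ^ m) ∣ (PowerSeries.subst b (mulSeries Γ (p ^ m)) :
      PowerSeries (GaloisField p n)) := by
    have h1 : PowerSeries.X ^ (p ^ n) ∣ mulSeries Γ p := by rw [hΓp]
    have h2 := dvd_psubst (dvd_mulSeries_pow Γ h1 m)
      (by rw [pow_one]; exact PowerSeries.X_dvd_iff.2 hb.1 : PowerSeries.X ^ 1 ∣ b) hb.1
    rwa [mul_one] at h2
  have hg1 : PowerSeries.coeff 1 (onePlus Γ p m b hb.1) = 1 := by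
    have h1 := dvd_add_sub_X Γ hpb.1 hdvd
    rw [← hg_eq] at h1
    have h2 := PowerSeries.X_pow_dvd_iff.1 h1 1 (by omega)
    rw [map_sub, PowerSeries.coeff_one_X, sub_eq_zero] at h2
    exact h2
  have hgu : IsUnit (PowerSeries.coeff 1 (onePlus Γ p m b hb.1)) := by
    rw [hg1]; exact isUnit_one
  -- the action
  obtain ⟨φ, hφ⟩ := exists_actsBy (residueMap_surjective p n) hF _ hg hgu
  have hφP := hm₀ m hm0 φ hφ
  obtain ⟨-, -, hπφ, t, ht, htg⟩ := hφ
  have hπφ' : (residueMap p n).comp (φ : LTRing p n →+* LTRing p n) = residueMap p n := by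
    rw [hπφ]
    ext x
    rfl
  have ht1 : IsUnit (PowerSeries.coeff 1 t) := by
    by_contra hcon
    have h1 : PowerSeries.coeff 1 t ∈ IsLocalRing.maximalIdeal (LTRing p n) := by
      rw [IsLocalRing.mem_maximalIdeal]
      exact hcon
    rw [← ker_residueMap p n hn, RingHom.mem_ker] at h1
    have h2 := congrArg (PowerSeries.coeff 1) htg
    rw [PowerSeries.coeff_map, h1, hg1] at h2
    exact zero_ne_one h2
  have hφI : ∀ f ∈ heightIdeal p n h, φ f ∈ heightIdeal p n h :=
    map_heightIdeal_le p n F hc (φ : LTRing p n →+* LTRing p n) t ht ht1 h (by omega)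
  -- descent to the quotient
  have hlift : RingHom.ker ρ ≤ RingHom.ker (ρ.comp (φ : LTRing p n →+* LTRing p n)) := by
    intro x hx
    rw [hker] at hx
    have h1 := hφI x hx
    rw [← hker] at h1
    exact h1
  set φb : MvPowerSeries (Fin r) (GaloisField p n) →+* MvPowerSeries (Fin r) (GaloisField p n) :=
    (RingHom.liftOfSurjective ρ hρ) ⟨ρ.comp (φ : LTRing p n →+* LTRing p n), hlift⟩ with hφb
  have hφbc : φb.comp ρ = ρ.comp (φ : LTRing p n →+* LTRing p n) :=
    RingHom.liftOfSurjective_comp ρ hρ ⟨_, hlift⟩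
  have hφbx : ∀ x, φb (ρ x) = ρ (φ x) := fun x => RingHom.congr_fun hφbc x
  -- the Artinian quotient
  have hpow : (p ^ h) ^ m = p ^ (h * m) := (pow_mul p h m).symm
  have hfrac : ∀ i < p ^ h, PowerSeries.coeff i (mulSeries (F.map ρ) p) = 0 := by
    intro i hi
    rw [mulSeries_map, PowerSeries.coeff_map]
    have h1 := coeff_mulSeries_mem p n F hc h hh (by omega) i hi
    rw [← hker] at h1
    exact h1
  obtain ⟨V, hV0, hV⟩ := exists_frobenius_factor p (isHom_mulSeries (F.map ρ) p) h hfrac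
  have hFrc : (F.map ρ).map (constantCoeff : MvPowerSeries (Fin r) (GaloisField p n) →+*
      GaloisField p n) = Γ := by
    rw [formalGroup_map_map, hρres, hFr]
  set β : PowerSeries (MvPowerSeries (Fin r) (GaloisField p n)) :=
    b.map (C : GaloisField p n →+* MvPowerSeries (Fin r) (GaloisField p n)) with hβ
  have hβ0 : PowerSeries.constantCoeff β = 0 := by
    rw [hβ, ← PowerSeries.coeff_zero_eq_constantCoeff_apply, PowerSeries.coeff_map,
      PowerSeries.coeff_zero_eq_constantCoeff_apply, hb.1, map_zero]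
  have hβc : β.map (constantCoeff : MvPowerSeries (Fin r) (GaloisField p n) →+*
      GaloisField p n) = b := by
    rw [hβ, psMap_map]
    ext i
    simp
  have hβJ := (isHom_map_iff (constantCoeff : MvPowerSeries (Fin r) (GaloisField p n) →+*
    GaloisField p n) (F := F.map ρ) (G := F.map ρ) hβ0).1 (by rw [hFrc, hβc]; exact hb)
  have hlp := lift_pow p (F.map ρ) h V hV0 hV (RingHom.ker (constantCoeff :
    MvPowerSeries (Fin r) (GaloisField p n) →+* GaloisField p n)) β hβ0
    (fun d => hβJ d) m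
  set γ : PowerSeries (MvPowerSeries (Fin r) (GaloisField p n)) :=
    (mulSeries (F.map ρ) (p ^ m)).subst β with hγ
  have hγ0 : PowerSeries.constantCoeff γ = 0 :=
    PowerSeries.constantCoeff_subst_eq_zero hβ0 _ (mulSeries_constantCoeff _ _)
  have hspan : Ideal.span {x | ∃ a ∈ RingHom.ker (constantCoeff :
      MvPowerSeries (Fin r) (GaloisField p n) →+* GaloisField p n), x = a ^ ((p ^ h) ^ m)} ≤
      powIdeal (GaloisField p n) r (p ^ (h * m)) := by
    rw [Ideal.span_le]
    rintro x ⟨a, ha, rfl⟩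
    rw [hpow]
    exact pow_mem_powIdeal p (h * m) ha
  set mk : MvPowerSeries (Fin r) (GaloisField p n) →+* ArtQ (GaloisField p n) r p (h * m) :=
    Ideal.Quotient.mk (powIdeal (GaloisField p n) r (p ^ (h * m))) with hmk
  have hγh : IsHom ((F.map ρ).map mk) ((F.map ρ).map mk) (γ.map mk) :=
    (isHom_map_iff mk hγ0).2 (fun d => Ideal.Quotient.eq_zero_iff_mem.2 (hspan (hlp d)))
  -- low order terms
  have hXh : PowerSeries.X ^ (p ^ h) ∣ mulSeries (F.map ρ) p :=
    PowerSeries.X_pow_dvd_iff.2 hfrac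
  have hγX : PowerSeries.X ^ ((p ^ h) ^ m) ∣ γ := by
    have h2 := dvd_psubst (dvd_mulSeries_pow (F.map ρ) hXh m)
      (by rw [pow_one]; exact PowerSeries.X_dvd_iff.2 hβ0 : PowerSeries.X ^ 1 ∣ β) hβ0
    rwa [mul_one] at h2
  have hγX' : PowerSeries.X ^ ((p ^ h) ^ m) ∣ γ.map mk := by
    have h2 := map_dvd (PowerSeries.map mk) hγX
    rwa [map_pow, PowerSeries.map_X] at h2
  set gt : PowerSeries (ArtQ (GaloisField p n) r p (h * m)) :=
    (idPoint ((F.map ρ).map mk) + seriesPoint ((F.map ρ).map mk) (γ.map mk) hγh.1).val with hgt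
  have hgth : IsHom ((F.map ρ).map mk) ((F.map ρ).map mk) gt := isHom_add (isHom_X _) hγh
  have hgtX : PowerSeries.X ^ ((p ^ h) ^ m) ∣ gt - PowerSeries.X :=
    dvd_add_sub_X ((F.map ρ).map mk) hγh.1 hγX'
  -- reduction of `gt`
  set πA : ArtQ (GaloisField p n) r p (h * m) →+* GaloisField p n :=
    artRes (GaloisField p n) r p (h * m) with hπA
  have hπmk : πA.comp mk = (constantCoeff : MvPowerSeries (Fin r) (GaloisField p n) →+*
    GaloisField p n) := artRes_comp (GaloisField p n) r p (h * m)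
  have hGπ : ((F.map ρ).map mk).map πA = Γ := by
    rw [formalGroup_map_map, hπmk, hFrc]
  have hγπ : (γ.map mk).map πA = PowerSeries.subst b (mulSeries Γ (p ^ m)) := by
    rw [psMap_map, hπmk, hγ]
    have h1 := PowerSeries.map_subst (PowerSeries.HasSubst.of_constantCoeff_zero' hβ0)
      (h := (constantCoeff : MvPowerSeries (Fin r) (GaloisField p n) →+* GaloisField p n))
      (mulSeries (F.map ρ) (p ^ m))
    refine h1.trans ?_
    rw [← mulSeries_map, hFrc]
    congr 1
  have hgtπ : gt.map πA = onePlus Γ p m b hb.1 := by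
    rw [hg_eq]
    have h1 := map_subst_pair πA
      (PowerSeries.HasSubst.X' : PowerSeries.HasSubst
        (PowerSeries.X : PowerSeries (ArtQ (GaloisField p n) r p (h * m))))
      (hasSubst_of_isHom hγh) ((F.map ρ).map mk).toPowerSeries
    refine h1.trans ?_
    have h2 : MvPowerSeries.map πA (PowerSeries.X : PowerSeries
      (ArtQ (GaloisField p n) r p (h * m))) = PowerSeries.X := PowerSeries.map_X πA
    have h3 : MvPowerSeries.map πA ((F.map ρ).map mk).toPowerSeries = Γ.toPowerSeries :=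
      congrArg FormalGroup.toPowerSeries hGπ
    have h4 : MvPowerSeries.map πA (γ.map mk) = PowerSeries.subst b (mulSeries Γ (p ^ m)) := hγπ
    rw [h2, h3, h4]
    rfl
  -- uniqueness
  have hT : IsHom (F.map (mk.comp (ρ.comp (φ : LTRing p n →+* LTRing p n))))
      ((F.map ρ).map mk) ((t.map ρ).map mk) := by
    have h1 := (ht.map ρ).map mk
    rw [formalGroup_map_map, formalGroup_map_map] at h1
    exact h1
  have hTπ : ((t.map ρ).map mk).map πA = onePlus Γ p m b hb.1 := by
    rw [psMap_map, hπmk, psMap_map, hρres, htg]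
  have hU := univ_unique hF (ArtQ (GaloisField p n) r p (h * m)) πA
    (artRes_surjective (GaloisField p n) r p (h * m)) ((F.map ρ).map mk) (onePlus Γ p m b hb.1)
    hgu (mk.comp ρ) (mk.comp (ρ.comp (φ : LTRing p n →+* LTRing p n))) gt ((t.map ρ).map mk)
    (by rw [← RingHom.comp_assoc, hπmk, hρres])
    (by rw [← RingHom.comp_assoc, hπmk, ← RingHom.comp_assoc, hρres, hπφ'])
    (by rw [← formalGroup_map_map]; exact hgth) hT hgtπ hTπ
  obtain ⟨hU1, hU2⟩ := hU
  have hmem : ∀ y, φb y - y ∈ powIdeal (GaloisField p n) r ((p ^ h) ^ m) := by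
    intro y
    obtain ⟨x, rfl⟩ := hρ y
    rw [hpow, ← Ideal.Quotient.eq_zero_iff_mem, map_sub, sub_eq_zero, hφbx]
    exact (RingHom.congr_fun hU1 x).symm
  refine ⟨φb, t.map ρ, ?_, fun i => hmem (X i), ?_, ?_, ?_, ?_⟩
  · -- constants
    intro a
    have h1 := hmem (C a)
    rw [hpow] at h1
    have h2 := constantCoeff_of_mem_powIdeal (pow_ne_zero (h * m) (Fact.out : p.Prime).ne_zero) h1
    set d := φb (C a) - C a with hd
    have ha : a ^ (p ^ n) = a := by
      let _ : Fintype (GaloisField p n) := Fintype.ofFinite _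
      have h3 := FiniteField.pow_card (K := GaloisField p n) a
      have h4 := GaloisField.card p n hn
      rw [← Nat.card_eq_fintype_card, h4] at h3
      exact h3
    have h3 : d ^ (p ^ n) = d := by
      rw [hd, sub_pow_char_pow, ← map_pow, ← map_pow, ha]
    have h4 : d * (d ^ (p ^ n - 1) - 1) = 0 := by
      rw [mul_sub, mul_one, ← pow_succ', Nat.sub_add_cancel (Nat.one_le_pow _ _ (by omega)), h3,
        sub_self]
    rcases mul_eq_zero.1 h4 with h5 | h5
    · exact sub_eq_zero.1 h5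
    · exfalso
      have h6 := congrArg (constantCoeff : MvPowerSeries (Fin r) (GaloisField p n) →+*
        GaloisField p n) h5
      have h7 : 1 < p ^ n := Nat.one_lt_pow hn hp1
      rw [map_sub, map_pow, h2, zero_pow (by omega), map_one, map_zero, zero_sub,
        neg_eq_zero] at h6
      exact one_ne_zero h6
  · have h1 := ht.map ρ
    rw [formalGroup_map_map] at h1
    rw [formalGroup_map_map, hφbc]
    exact h1
  · rw [psMap_map, hρres, htg]
  · intro j hj
    rw [hpow, ← Ideal.Quotient.eq_zero_iff_mem]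
    have h1 := PowerSeries.X_pow_dvd_iff.1 hgtX j hj
    rw [hU2, map_sub, PowerSeries.coeff_X, PowerSeries.coeff_map] at h1
    rw [map_sub]
    refine Eq.trans ?_ h1
    congr 1
    split
    · exact map_one _
    · exact map_zero _
  · intro f hf
    obtain ⟨f', hf', rfl⟩ := (Ideal.mem_map_iff_of_surjective ρ hρ).1 hf
    rw [hφbx]
    exact Ideal.mem_map_of_mem ρ (hφP f' hf')


include hn hΓ hF hc in
theorem exists_vData {h r : ℕ} (hh : 1 ≤ h) (hr : h + r = n)
    (ρ : LTRing p n →+* MvPowerSeries (Fin r) (GaloisField p n))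
    (hρ : Function.Surjective ρ) (hker : RingHom.ker ρ = heightIdeal p n h)
    (hρX0 : ∀ i : Fin (n - 1), (i : ℕ) + 1 < h → ρ (X i) = 0)
    (hρX : ∀ (i : Fin (n - 1)) (j : Fin r), (i : ℕ) + 1 = h + (j : ℕ) → ρ (X i) = X j)
    (hρres : (constantCoeff : MvPowerSeries (Fin r) (GaloisField p n) →+* GaloisField p n).comp ρ =
        residueMap p n) :
    ∃ V, VData p h (F.map ρ) V := by
  have hcomm := hF.comm
  have hpp : p.Prime := Fact.out
  have hq : p ^ h ≠ 0 := pow_ne_zero h hpp.ne_zero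
  have hchar : CharP (MvPowerSeries (Fin r) (GaloisField p n)) p :=
    charP_of_injective_ringHom (f := (C : GaloisField p n →+* MvPowerSeries (Fin r) (GaloisField p n)))
      (RingHom.injective _) p
  have hlow : ∀ i < p ^ h, PowerSeries.coeff i (mulSeries (F.map ρ) p) = 0 := by
    intro i hi
    rw [mulSeries_map, PowerSeries.coeff_map]
    have h1 := coeff_mulSeries_mem p n F hc h hh (by omega) i hi
    rw [← hker] at h1
    exact h1
  obtain ⟨V, V0, hV⟩ := exists_frobenius_factor p (isHom_mulSeries (F.map ρ) p) h hlow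
  have hcoV : ∀ i, PowerSeries.coeff i V = ρ (PowerSeries.coeff (p ^ h * i) (mulSeries F p)) := by
    intro i
    have h1 := congrArg (PowerSeries.coeff (p ^ h * i)) hV
    rw [PowerSeries.coeff_subst_X_pow hq, if_pos (Dvd.intro _ rfl), mulSeries_map,
      PowerSeries.coeff_map, Nat.mul_div_cancel_left _ (Nat.pos_of_ne_zero hq)] at h1
    rw [h1]
    rfl
  refine ⟨V, inferInstance, V0, hV, ?_, ?_⟩
  · intro j
    have hj := j.2
    obtain ⟨i, hi⟩ : ∃ i : Fin (n - 1), (i : ℕ) + 1 = h + (j : ℕ) :=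
      ⟨⟨h + j - 1, by omega⟩, by simp only; omega⟩
    have h1 := Ideal.mem_map_of_mem ρ (hc i)
    rw [map_sub, hρX i j hi, hi, pow_add, ← hcoV] at h1
    refine (show Ideal.map ρ (heightIdeal p n (h + (j : ℕ))) ≤ _ from ?_) h1
    rw [heightIdeal, if_neg (by omega), Ideal.map_span, Ideal.span_le]
    rintro _ ⟨x, hx, rfl⟩
    rcases hx with hx | ⟨i', hi', rfl⟩
    · rw [Set.mem_singleton_iff.1 hx, map_natCast, CharP.cast_eq_zero]
      exact Ideal.zero_mem _
    · by_cases hlt : (i' : ℕ) + 1 < h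
      · rw [hρX0 i' hlt]
        exact Ideal.zero_mem _
      · rw [hρX i' ⟨i' + 1 - h, by omega⟩ (by simp only; omega)]
        exact Ideal.subset_span ⟨⟨i' + 1 - h, by omega⟩, by rw [Fin.lt_def]; simp only; omega, rfl⟩
  · ext i
    have h1 : mulSeries (Gk p n Γ₀) p = PowerSeries.X ^ (p ^ n) := by
      rw [mulSeries_map, hΓ, map_pow, PowerSeries.map_X]
    have h2 := congrArg (PowerSeries.coeff (p ^ h * i)) h1
    rw [← hF.reduction, mulSeries_map, PowerSeries.coeff_map, ← hρres, RingHom.comp_apply,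
      ← hcoV] at h2
    rw [PowerSeries.coeff_map, h2, PowerSeries.coeff_X_pow, PowerSeries.coeff_X_pow, ← hr, pow_add]
    congr 1
    rw [mul_right_inj' hq]

include hn hΓ hF hc in
/-- A weakly invariant prime ideal containing `p` but not `u_1` is `(p)`. -/
theorem ordinary (P : Ideal (LTRing p n)) [P.IsPrime] (hP : WeaklyInvariant p n Γ₀ F P)
    (hpP : (p : LTRing p n) ∈ P) (hn2 : 2 ≤ n) (hu : X ⟨0, by omega⟩ ∉ P) :
    P = heightIdeal p n 1 := by
  by_contra hne
  have hcomm := hF.comm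
  have hle : heightIdeal p n 1 ≤ P := by
    rw [heightIdeal, if_neg one_ne_zero, Ideal.span_le]
    rintro x (hx | ⟨i, hi, rfl⟩)
    · rw [Set.mem_singleton_iff.1 hx]
      exact hpP
    · omega
  obtain ⟨r, hr⟩ : ∃ r, 1 + r = n := ⟨n - 1, by omega⟩
  have hr0 : 0 < r := by omega
  obtain ⟨ρ, hρ, hker, hρX0, hρX, hρres⟩ := exists_heightQuot p n 1 r le_rfl hr
  obtain ⟨V, hV⟩ := exists_vData hn Γ₀ hΓ F hF hc le_rfl hr ρ hρ hker hρX0 hρX hρres
  have hD := hasDisp hn Γ₀ hΓ F hF hc le_rfl hr ρ hρ hker hρres P hle hP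
  have hkerP : RingHom.ker ρ ≤ P := by rw [hker]; exact hle
  have hprime : (P.map ρ).IsPrime := Ideal.map_isPrime_of_surjective hρ hkerP
  have hcomap : (P.map ρ).comap ρ = P := by
    rw [Ideal.comap_map_of_surjective' ρ hρ, sup_eq_left.2 hkerP]
  have hX : (X ⟨0, hr0⟩ : MvPowerSeries (Fin r) (GaloisField p n)) ∉ P.map ρ := by
    intro h
    apply hu
    rw [← hcomap, Ideal.mem_comap, hρX ⟨0, by omega⟩ ⟨0, hr0⟩ rfl]
    exact h
  have hPbot : P.map ρ ≠ ⊥ := by
    intro h
    apply hne
    rw [← hker, ← hcomap, h]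
    rfl
  have hΓp : mulSeries (Gk p n Γ₀) p = PowerSeries.X ^ (p ^ (1 + r)) := by
    rw [mulSeries_map, hΓ, map_pow, PowerSeries.map_X, hr]
  have hmm : ∀ {A B D : Type} [CommRing A] [CommRing B] [CommRing D] (F : FormalGroup A)
      (f : A →+* B) (g : B →+* D), (F.map f).map g = F.map (g.comp f) := by
    intro A B D _ _ _ F f g
    apply FormalGroup.ext
    rw [FormalGroup.map_toPowerSeries, FormalGroup.map_toPowerSeries,
      FormalGroup.map_toPowerSeries]
    ext m
    simp only [coeff_map, RingHom.comp_apply]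
  have hΓ' : (F.map ρ).map (constantCoeff : MvPowerSeries (Fin r) (GaloisField p n) →+*
      GaloisField p n) = Gk p n Γ₀ := by
    rw [hmm, hρres, hF.reduction]
  have hΓF : (Gk p n Γ₀).map (frobenius (GaloisField p n) p) = Gk p n Γ₀ := by
    rw [hmm]
    congr 1
    exact Subsingleton.elim _ _
  obtain ⟨K, i1, i2, i3, i4, i5, ι, c, Fx, i6, V', G, i7, lam, z, D⟩ :=
    main_relation hr0 (Gk p n Γ₀) hΓp (F.map ρ) V hV hΓ' (P.map ρ) hPbot hX hD
  exact relData_height_one_false hΓF D

end
end Vale.Agent.P217
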