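import Vale.Agent.Lib.P217.ChaiP
import Vale.Agent.Lib.P217.Bridge

/-!
# P217: all invariant primes containing `p`

`exists_height_of_p_mem`. Let `h ≤ n` be maximal with `I_h ≤ P` (`1 ≤ h` since `p ∈ P`). If `h = n`, `I_n` is the maximal ideal
(`heightIdeal_n`), so `P = I_n`. If `h < n` then `u_h = X ⟨h - 1, _⟩ ∉ P`. Put `r = n - h ≥ 1`, `ρ : E → k[[u_h, …]]` as in
`exists_heightQuot`, and suppose `P ≠ I_h`. As in the proof of `ordinary` (ChaiP.lean, the case `h = 1`; `exists_vData`, `hasDisp` are there for all `h`), `main_relation`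
gives a point and `RelData h r …`, contradicting `relData_false` (Bridge.lean). The field `k = GaloisField p n` satisfies `x^{p^n} = x` and has
a primitive `(p^n - 1)`-th root of unity (the unit group is cyclic of order `p^n - 1`).
-/

set_option linter.unusedSectionVars false

namespace Vale.Agent.P217

open MvPowerSeries

section
variable {p : ℕ} [Fact p.Prime] {n : ℕ} (hn : n ≠ 0) (Γ₀ : FormalGroup (ZMod p)) [Γ₀.IsComm]
  (hΓ : mulSeries Γ₀ p = PowerSeries.X ^ (p ^ n)) (F : FormalGroup (LTRing p n))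
  (hF : IsUniversalDeformation (Gk p n Γ₀) (residueMap p n) F)
  (hc : HasStandardCoordinates p n F)

include hn hΓ hF hc in
theorem exists_height_of_p_mem (P : Ideal (LTRing p n)) [P.IsPrime]
    (hP : WeaklyInvariant p n Γ₀ F P) (hpP : (p : LTRing p n) ∈ P) :
    ∃ h, 1 ≤ h ∧ h ≤ n ∧ P = heightIdeal p n h := by
  classical
  have hcomm := hF.comm
  have hpp : p.Prime := Fact.out
  have hle1 : heightIdeal p n 1 ≤ P := by
    rw [heightIdeal, if_neg one_ne_zero, Ideal.span_le]
    rintro x (hx | ⟨i, hi, rfl⟩)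
    · rw [Set.mem_singleton_iff.1 hx]
      exact hpP
    · omega
  obtain ⟨h, hh, hn', hle, hmax⟩ : ∃ h, 1 ≤ h ∧ h ≤ n ∧ heightIdeal p n h ≤ P ∧
      (h < n → ¬ heightIdeal p n (h + 1) ≤ P) := by
    have hs := Nat.findGreatest_spec (P := fun h => 1 ≤ h ∧ heightIdeal p n h ≤ P)
      (show 1 ≤ n by omega) ⟨le_rfl, hle1⟩
    refine ⟨Nat.findGreatest (fun h => 1 ≤ h ∧ heightIdeal p n h ≤ P) n, hs.1,
      Nat.findGreatest_le n, hs.2, fun hlt hcon => ?_⟩
    exact Nat.findGreatest_is_greatest (P := fun h => 1 ≤ h ∧ heightIdeal p n h ≤ P)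
      (Nat.lt_succ_self _) hlt ⟨by omega, hcon⟩
  refine ⟨h, hh, hn', ?_⟩
  rcases hn'.eq_or_lt with heq | hlt
  · subst heq
    rw [heightIdeal_n p h hn] at hle ⊢
    exact ((IsLocalRing.maximalIdeal.isMaximal (LTRing p h)).eq_of_le
      (Ideal.IsPrime.ne_top inferInstance) hle).symm
  by_contra hne
  have hu : X ⟨h - 1, by omega⟩ ∉ P := by
    intro hX
    refine hmax hlt ?_
    rw [heightIdeal, if_neg (by omega), Ideal.span_le]
    rintro x (hx | ⟨i, hi, rfl⟩)
    · rw [Set.mem_singleton_iff.1 hx]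
      exact hpP
    · by_cases hi' : (i : ℕ) + 1 < h
      · refine hle ?_
        rw [heightIdeal, if_neg (by omega)]
        exact Ideal.subset_span (Or.inr ⟨i, hi', rfl⟩)
      · have : i = ⟨h - 1, by omega⟩ := Fin.ext (by simp only; omega)
        rw [this]
        exact hX
  obtain ⟨r, hr⟩ : ∃ r, h + r = n := ⟨n - h, by omega⟩
  have hr0 : 0 < r := by omega
  have hfact : Fact (0 < h) := ⟨by omega⟩
  obtain ⟨ρ, hρ, hker, hρX0, hρX, hρres⟩ := exists_heightQuot p n h r hh hr
  obtain ⟨V, hV⟩ := exists_vData hn Γ₀ hΓ F hF hc hh hr ρ hρ hker hρX0 hρX hρres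
  have hD := hasDisp hn Γ₀ hΓ F hF hc hh hr ρ hρ hker hρres P hle hP
  have hkerP : RingHom.ker ρ ≤ P := by rw [hker]; exact hle
  have hprime : (P.map ρ).IsPrime := Ideal.map_isPrime_of_surjective hρ hkerP
  have hcomap : (P.map ρ).comap ρ = P := by
    rw [Ideal.comap_map_of_surjective' ρ hρ, sup_eq_left.2 hkerP]
  have hX : (X ⟨0, hr0⟩ : MvPowerSeries (Fin r) (GaloisField p n)) ∉ P.map ρ := by
    intro h'
    apply hu
    rw [← hcomap, Ideal.mem_comap,
      hρX ⟨h - 1, by omega⟩ ⟨0, hr0⟩ (by simp only; omega)]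
    exact h'
  have hPbot : P.map ρ ≠ ⊥ := by
    intro h'
    apply hne
    rw [← hker, ← hcomap, h']
    rfl
  have hΓp : mulSeries (Gk p n Γ₀) p = PowerSeries.X ^ (p ^ (h + r)) := by
    rw [mulSeries_map, hΓ, map_pow, PowerSeries.map_X, hr]
  have hΓ' : (F.map ρ).map (constantCoeff : MvPowerSeries (Fin r) (GaloisField p n) →+*
      GaloisField p n) = Gk p n Γ₀ := by
    have hmm : (F.map ρ).map (constantCoeff : MvPowerSeries (Fin r) (GaloisField p n) →+*
      GaloisField p n) = F.map ((constantCoeff : MvPowerSeries (Fin r) (GaloisField p n) →+*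
      GaloisField p n).comp ρ) := by
      apply FormalGroup.ext
      rw [FormalGroup.map_toPowerSeries, FormalGroup.map_toPowerSeries,
        FormalGroup.map_toPowerSeries]
      ext m
      simp only [coeff_map, RingHom.comp_apply]
    rw [hmm, hρres, hF.reduction]
  have hcard : Nat.card (GaloisField p n) = p ^ n := GaloisField.card p n hn
  have hk : ∀ x : GaloisField p n, x ^ (p ^ (h + r)) = x := by
    intro x
    let _ : Fintype (GaloisField p n) := Fintype.ofFinite _
    have h3 := FiniteField.pow_card (K := GaloisField p n) x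
    rw [← Nat.card_eq_fintype_card, hcard] at h3
    rw [hr]
    exact h3
  have hk' : ∃ ζ : GaloisField p n, IsPrimitiveRoot ζ (p ^ (h + r) - 1) := by
    obtain ⟨g, hg⟩ := IsCyclic.exists_generator (α := (GaloisField p n)ˣ)
    have h3 : orderOf g = p ^ (h + r) - 1 := by
      rw [orderOf_eq_card_of_forall_mem_zpowers hg, Nat.card_units, hcard, hr]
    refine ⟨(g : GaloisField p n), ?_⟩
    rw [← h3, IsPrimitiveRoot.coe_units_iff]
    exact IsPrimitiveRoot.orderOf g
  obtain ⟨K, i1, i2, i3, i4, i5, ι, c, Fx, i6, V', G, i7, lam, z, D⟩ :=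
    main_relation hr0 (Gk p n Γ₀) hΓp (F.map ρ) V hV hΓ' (P.map ρ) hPbot hX hD
  exact relData_false hr0 hk hk' hΓp D

end
end Vale.Agent.P217
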