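import Mathlib.Algebra.CharP.Subring
import Mathlib.Algebra.Module.StablyFree.Basic
import Mathlib.Data.Int.Star
import Vale.Agent.Lib.P217.Rigid
import Vale.Agent.Lib.P217.Pt

/-!
# P217: auxiliary results for `claimA` (see `Relation.lean`)

The proof: suppose that all series vanishing on `Ω` have zero linear part.  Let `φ` vanish on `Ω`.
For `ω ∈ Ω` the series `h_ω(X) = φ(X +_G ω)` (coefficients in `OO K`) vanishes on `Ω`, so by
`rigidity` its linear part is killed by all `κ`-linear functionals, so is zero.  It is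
`(unit) * ∂_i φ(ω)`.  So the ideal `J` of series vanishing on `Ω` is stable under the `∂_i`.
Now take a nonzero element of `J` of minimal order; project to the exponents divisible by `p`, and
take a `p`-th root.
-/

set_option linter.unusedSectionVars false

namespace Vale.Agent.P217.ClaimA

open MvPowerSeries Filter Topology
open scoped MvPowerSeries.WithPiTopology

section evcont
variable {σ : Type*} {B : Type*} [CommRing B] [UniformSpace B] [AdicRing B]

/-- evaluation is continuous for the product topology -/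
theorem continuous_evHom {a : σ → B} (ha : HasEval a) : Continuous (evHom ha) := by
  have h : ⇑(evHom ha) = MvPowerSeries.eval₂ (RingHom.id B) a := by
    funext f
    rw [coe_evHom]
    exact (ev_hasSum ha f).unique
      (MvPowerSeries.hasSum_eval₂ (φ := RingHom.id B) continuous_id ha f)
  rw [h]
  exact MvPowerSeries.continuous_eval₂ continuous_id ha

end evcont

section lin
variable {σ R : Type*} [CommRing R]

theorem coeff_single_mul (i : σ) (f g : MvPowerSeries σ R) :
    coeff (Finsupp.single i 1) (f * g) =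
      constantCoeff f * coeff (Finsupp.single i 1) g +
        coeff (Finsupp.single i 1) f * constantCoeff g := by
  classical
  rw [coeff_mul, Finsupp.antidiagonal_single, Finset.sum_map]
  simp [Finset.Nat.antidiagonal_succ]

theorem coeff_single_pow (i : σ) (f : MvPowerSeries σ R) (n : ℕ) :
    coeff (Finsupp.single i 1) (f ^ n) =
      n * (constantCoeff f) ^ (n - 1) * coeff (Finsupp.single i 1) f := by
  classical
  induction n with
  | zero =>
    rw [pow_zero, coeff_one, if_neg (by simp)]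
    simp
  | succ n ih =>
    rw [pow_succ, coeff_single_mul, ih, map_pow]
    rcases Nat.eq_zero_or_pos n with hn | hn
    · subst hn
      simp
    · obtain ⟨m, rfl⟩ : ∃ m, n = m + 1 := ⟨n - 1, by omega⟩
      simp only [Nat.add_sub_cancel, Nat.cast_add, Nat.cast_one, pow_succ]
      ring

theorem coeff_single_prod (i : σ) (s : Finset σ) (f : σ → MvPowerSeries σ R)
    (h : ∀ j ∈ s, coeff (Finsupp.single i 1) (f j) = 0) :
    coeff (Finsupp.single i 1) (∏ j ∈ s, f j) = 0 := by
  classical
  induction s using Finset.induction_on with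
  | empty => rw [Finset.prod_empty, coeff_one, if_neg (by simp)]
  | insert j s hj ih =>
    rw [Finset.prod_insert hj, coeff_single_mul, h j (Finset.mem_insert_self j s),
      ih fun k hk => h k (Finset.mem_insert_of_mem hk)]
    simp

theorem coeff_single_monomial [Fintype σ] [DecidableEq σ] (i : σ) (a : σ → MvPowerSeries σ R)
    (h : ∀ j, j ≠ i → coeff (Finsupp.single i 1) (a j) = 0) (d : σ →₀ ℕ) :
    coeff (Finsupp.single i 1) (d.prod fun s e => a s ^ e) =
      coeff (Finsupp.single i 1) (a i) * (d i * ((constantCoeff (a i)) ^ (d i - 1) *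
        ∏ j ∈ Finset.univ.erase i, (constantCoeff (a j)) ^ d j)) := by
  rw [Finsupp.prod_fintype _ _ (by simp), ← Finset.mul_prod_erase _ _ (Finset.mem_univ i),
    coeff_single_mul, coeff_single_prod, coeff_single_pow, map_prod]
  · simp only [map_pow]
    ring
  · intro j hj
    rw [coeff_single_pow, h j (Finset.ne_of_mem_erase hj), mul_zero]

end lin

section trunc
variable {K : Type*} [NontriviallyNormedField K] [IsUltrametricDist K] [CompleteSpace K]

theorem ev_coe_poly {σ : Type*} {B : Type*} [CommRing B] [UniformSpace B] (a : σ → B)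
    (q : MvPolynomial σ B) : ev a (q : MvPowerSeries σ B) = MvPolynomial.eval a q := by
  have h := @MvPowerSeries.eval₂_coe σ B _ ⊥ B _ _ (RingHom.id B) a q
  exact h

theorem truncTotal_map {σ R S : Type*} [Finite σ] [CommSemiring R] [CommSemiring S] (f : R →+* S)
    (N : ℕ) (φ : MvPowerSeries σ R) :
    truncTotal N (φ.map f) = MvPolynomial.map f (truncTotal N φ) := by
  ext d
  rw [MvPolynomial.coeff_map, coeff_truncTotal_eq_ite, coeff_truncTotal_eq_ite]
  split_ifs
  · rw [coeff_map]
  · rw [map_zero]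

theorem norm_prod_le {σ : Type*} [Fintype σ] (x : σ → OO K) {r : ℝ} (hr0 : 0 ≤ r)
    (hx : ∀ i, ‖(x i : K)‖ ≤ r) (d : σ →₀ ℕ) :
    ‖((d.prod fun s e => x s ^ e : OO K) : K)‖ ≤ r ^ d.degree := by
  rw [Finsupp.prod_fintype _ _ (by simp), Finsupp.degree_eq_sum, ← Finset.prod_pow_eq_pow_sum]
  push_cast
  rw [norm_prod]
  refine Finset.prod_le_prod (fun i _ => norm_nonneg _) fun i _ => ?_
  rw [norm_pow]
  exact pow_le_pow_left₀ (norm_nonneg _) (hx i) _

theorem trEval_le {σ : Type*} [Fintype σ] (f : MvPowerSeries σ (OO K)) (x : σ → OO K) {r : ℝ}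
    (hr0 : 0 ≤ r) (hr1 : r < 1) (hx : ∀ i, ‖(x i : K)‖ ≤ r) (h0 : ev x f = 0) (N : ℕ) :
    ‖trEval N (f.map (OO K).subtype) (fun i => (x i : K))‖ ≤ r ^ N := by
  have hev : HasEval x := hasEval_of_finite fun i => tn_iff.mpr ((hx i).trans_lt hr1)
  have h1 : trEval N (f.map (OO K).subtype) (fun i => (x i : K)) =
      ((ev x ((truncTotal N f : MvPolynomial σ (OO K)) : MvPowerSeries σ (OO K)) : OO K) : K) := by
    unfold trEval
    rw [truncTotal_map, ev_coe_poly, MvPolynomial.eval_map]
    exact (MvPolynomial.eval₂_comp (OO K).subtype x (truncTotal N f)).symm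
  have h2 : ev x ((truncTotal N f : MvPolynomial σ (OO K)) : MvPowerSeries σ (OO K)) =
      - ev x (f - ((truncTotal N f : MvPolynomial σ (OO K)) : MvPowerSeries σ (OO K))) := by
    rw [ev_sub hev, h0]
    ring
  rw [h1, h2]
  push_cast
  rw [norm_neg]
  refine ev_mem_of_closed hev _ (ballIdeal K (r ^ N) (pow_nonneg hr0 N))
    (isClosed_ballIdeal _ _) ?_
  intro d
  rw [mem_ballIdeal, map_sub, MvPolynomial.coeff_coe, coeff_truncTotal_eq_ite]
  split_ifs with hd
  · rw [sub_self, zero_mul]
    simpa using pow_nonneg hr0 N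
  · rw [sub_zero]
    push_cast [norm_mul]
    have h3 := norm_prod_le x hr0 hx d
    have h4 : r ^ d.degree ≤ r ^ N := pow_le_pow_of_le_one hr0 hr1.le (not_lt.1 hd)
    have h5 := norm_le_one (coeff d f)
    calc ‖((coeff d f : OO K) : K)‖ * ‖((d.prod fun s e => x s ^ e : OO K) : K)‖
        ≤ 1 * r ^ N := mul_le_mul h5 (h3.trans h4) (norm_nonneg _) zero_le_one
      _ = r ^ N := one_mul _

end trunc

section pow
variable {K : Type*} [NontriviallyNormedField K] [IsUltrametricDist K] [CompleteSpace K]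
  {p : ℕ} [Fact p.Prime] [CharP K p] {h : ℕ} [Fact (0 < h)]

theorem val_nsmul_p (G : FormalGroup (FixF K p h)) [(G.map (algebraMap (FixF K p h) (OO K))).IsComm]
    (hG : mulSeries G p = PowerSeries.X ^ (p ^ h))
    (x : Pt (G.map (algebraMap (FixF K p h) (OO K)))) : (p • x).val = x.val ^ (p ^ h) := by
  have hb := hasEval_unit x.tn
  rw [Pt.nsmul_val, mulSeries_map, hG, map_pow, PowerSeries.map_X]
  have h1 := ev_pow hb (X () : MvPowerSeries Unit (OO K)) (p ^ h)
  rw [ev_X] at h1
  exact h1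

theorem val_nsmul_pow (G : FormalGroup (FixF K p h))
    [(G.map (algebraMap (FixF K p h) (OO K))).IsComm]
    (hG : mulSeries G p = PowerSeries.X ^ (p ^ h))
    (x : Pt (G.map (algebraMap (FixF K p h) (OO K)))) (m : ℕ) :
    (p ^ m • x).val = x.val ^ ((p ^ h) ^ m) := by
  induction m with
  | zero => simp
  | succ m ih =>
    rw [pow_succ, mul_comm, mul_smul, val_nsmul_p G hG, ih, ← pow_mul, ← pow_succ]

end pow
section shift
variable {K : Type*} [NontriviallyNormedField K] [IsUltrametricDist K] [CompleteSpace K]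
  {p : ℕ} [Fact p.Prime] [CharP K p] {h : ℕ} [Fact (0 < h)] {σ : Type*}

/-- the constants of `κ` as power series over `OO K` -/
noncomputable def cB (K : Type*) [NontriviallyNormedField K] [IsUltrametricDist K] (p : ℕ)
    [Fact p.Prime] [CharP K p] (h : ℕ) [Fact (0 < h)] (σ : Type*) :
    FixF K p h →+* MvPowerSeries σ (OO K) :=
  (C : OO K →+* MvPowerSeries σ (OO K)).comp (algebraMap (FixF K p h) (OO K))

theorem tn_X (j : σ) : IsTopologicallyNilpotent (X j : MvPowerSeries σ (OO K)) :=
  MvPowerSeries.WithPiTopology.isTopologicallyNilpotent_of_constantCoeff_zero (by simp)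

theorem tn_C {x : OO K} (hx : IsTopologicallyNilpotent x) :
    IsTopologicallyNilpotent (C x : MvPowerSeries σ (OO K)) :=
  hx.map MvPowerSeries.WithPiTopology.continuous_C

/-- the point `X_j + ω` over `OO K [[X]]` -/
noncomputable def shiftC (G : FormalGroup (FixF K p h)) (j : σ)
    (x : Pt (G.map (algebraMap (FixF K p h) (OO K)))) : Pt (G.map (cB K p h σ)) :=
  ⟨X j, tn_X j⟩ + ⟨C x.val, tn_C x.tn⟩

theorem shiftC_shape (G : FormalGroup (FixF K p h)) (j : σ)
    (x : Pt (G.map (algebraMap (FixF K p h) (OO K)))) :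
    ∃ t : MvPowerSeries σ (OO K), (shiftC G j x).val = X j + C x.val + X j * C x.val * t := by
  obtain ⟨t, ht⟩ := Pt.exists_add_val (⟨X j, tn_X j⟩ : Pt (G.map (cB K p h σ)))
    ⟨C x.val, tn_C x.tn⟩
  exact ⟨t, ht⟩

theorem shiftC_ev (G : FormalGroup (FixF K p h)) {y : σ → OO K} (hy : HasEval y) (j : σ)
    (x : Pt (G.map (algebraMap (FixF K p h) (OO K)))) (hyj : IsTopologicallyNilpotent (y j)) :
    ev y (shiftC G j x).val = ((⟨y j, hyj⟩ : Pt (G.map (algebraMap (FixF K p h) (OO K)))) + x).val := by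
  have h1 := map_ev (continuous_evHom hy) (hasEval_pair (tn_X j) (tn_C x.tn))
    (G.map (cB K p h σ)).toPowerSeries
  rw [coe_evHom] at h1
  have h2 : (G.map (cB K p h σ)).toPowerSeries.map (evHom hy) =
      (G.map (algebraMap (FixF K p h) (OO K))).toPowerSeries := by
    change (G.toPowerSeries.map (cB K p h σ)).map (evHom hy) = G.toPowerSeries.map _
    ext d
    rw [coeff_map, coeff_map, coeff_map, coe_evHom]
    exact congrArg _ (ev_C y _)
  rw [h2] at h1
  refine h1.trans ?_
  rw [Pt.add_val]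
  congr 1
  funext s
  fin_cases s
  · exact (coe_evHom hy _).trans (ev_X _ _)
  · exact (coe_evHom hy _).trans (ev_C _ _)

theorem constantCoeff_shiftC (G : FormalGroup (FixF K p h)) (j : σ)
    (x : Pt (G.map (algebraMap (FixF K p h) (OO K)))) :
    constantCoeff (shiftC G j x).val = x.val := by
  obtain ⟨t, ht⟩ := shiftC_shape G j x
  rw [ht]
  simp

theorem coeff_shiftC_ne (G : FormalGroup (FixF K p h)) {i j : σ} (hij : j ≠ i)
    (x : Pt (G.map (algebraMap (FixF K p h) (OO K)))) :
    coeff (Finsupp.single i 1) (shiftC G j x).val = 0 := by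
  classical
  obtain ⟨t, ht⟩ := shiftC_shape G j x
  rw [ht, map_add, map_add, mul_assoc, coeff_single_mul, coeff_X, coeff_C]
  have h1 : ¬ (Finsupp.single i 1 : σ →₀ ℕ) = Finsupp.single j 1 := by
    intro h
    exact hij ((Finsupp.single_left_injective one_ne_zero h).symm)
  rw [if_neg h1, if_neg (by simp)]
  simp

theorem coeff_shiftC_self (G : FormalGroup (FixF K p h)) (i : σ)
    (x : Pt (G.map (algebraMap (FixF K p h) (OO K)))) :
    IsUnit (coeff (Finsupp.single i 1) (shiftC G i x).val) := by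
  classical
  obtain ⟨t, ht⟩ := shiftC_shape G i x
  rw [ht, map_add, map_add, mul_assoc, coeff_single_mul, coeff_X, coeff_C, if_pos rfl,
    if_neg (by simp)]
  simp only [constantCoeff_X, zero_mul, map_mul, constantCoeff_C, zero_add, add_zero, one_mul]
  exact isUnit_one_add (Pt.tn_mul x.tn _)

theorem hasEval_shiftC [Finite σ] (G : FormalGroup (FixF K p h))
    (x : σ → Pt (G.map (algebraMap (FixF K p h) (OO K)))) :
    HasEval (fun j => (shiftC G j (x j)).val) :=
  hasEval_of_finite fun j => (shiftC G j (x j)).tn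

/-- the shifted power series -/
noncomputable def shiftS (G : FormalGroup (FixF K p h)) (φ : MvPowerSeries σ (FixF K p h))
    (x : σ → Pt (G.map (algebraMap (FixF K p h) (OO K)))) : MvPowerSeries σ (OO K) :=
  ev (fun j => (shiftC G j (x j)).val) (φ.map (cB K p h σ))

theorem ev_shiftS [Finite σ] (G : FormalGroup (FixF K p h)) (φ : MvPowerSeries σ (FixF K p h))
    (x y : σ → Pt (G.map (algebraMap (FixF K p h) (OO K)))) :
    ev (fun j => (y j).val) (shiftS G φ x) =
      ev (fun j => (y j + x j).val) (φ.map (algebraMap (FixF K p h) (OO K))) := by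
  have hy : HasEval (fun j => (y j).val) := hasEval_of_finite fun j => (y j).tn
  have h1 := map_ev (continuous_evHom hy) (hasEval_shiftC G x) (φ.map (cB K p h σ))
  rw [coe_evHom] at h1
  have h2 : (φ.map (cB K p h σ)).map (evHom hy) = φ.map (algebraMap (FixF K p h) (OO K)) := by
    ext d
    rw [coeff_map, coeff_map, coeff_map, coe_evHom]
    exact congrArg _ (ev_C _ _)
  rw [h2] at h1
  refine h1.trans ?_
  congr 1
  funext j
  rw [coe_evHom]
  exact shiftC_ev G hy j (x j) (y j).tn

/-- the linear part of the shifted power series -/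
theorem hasSum_coeff_shiftS [Fintype σ] [DecidableEq σ] (G : FormalGroup (FixF K p h))
    (φ : MvPowerSeries σ (FixF K p h))
    (x : σ → Pt (G.map (algebraMap (FixF K p h) (OO K)))) (i : σ) :
    HasSum (fun d : σ →₀ ℕ => coeff (Finsupp.single i 1) (shiftC G i (x i)).val *
      (algebraMap (FixF K p h) (OO K) (coeff d φ) * (d i * ((x i).val ^ (d i - 1) *
        ∏ j ∈ Finset.univ.erase i, (x j).val ^ d j))))
      (coeff (Finsupp.single i 1) (shiftS G φ x)) := by
  have h1 := (ev_hasSum (hasEval_shiftC G x) (φ.map (cB K p h σ))).map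
    (coeff (R := OO K) (Finsupp.single i 1)).toAddMonoidHom
    (MvPowerSeries.WithPiTopology.continuous_coeff _ _)
  have h3 : (fun d : σ →₀ ℕ => coeff (Finsupp.single i 1) (shiftC G i (x i)).val *
      (algebraMap (FixF K p h) (OO K) (coeff d φ) * (d i * ((x i).val ^ (d i - 1) *
        ∏ j ∈ Finset.univ.erase i, (x j).val ^ d j)))) =
      (⇑(coeff (R := OO K) (Finsupp.single i 1)).toAddMonoidHom ∘ fun d =>
      (coeff d) ((MvPowerSeries.map (cB K p h σ)) φ) *
        d.prod fun s e => (shiftC G s (x s)).val ^ e) := by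
    funext d
    simp only [Function.comp, LinearMap.toAddMonoidHom_coe, coeff_map]
    have h2 : cB K p h σ (coeff d φ) = C (algebraMap (FixF K p h) (OO K) (coeff d φ)) := rfl
    rw [h2, coeff_C_mul, coeff_single_monomial i _ (fun j hj => coeff_shiftC_ne G hj (x j))]
    simp only [constantCoeff_shiftC]
    ring
  rw [h3]
  exact h1

end shift
section rig
variable {K : Type*} [NontriviallyNormedField K] [IsUltrametricDist K] [CompleteSpace K]
  {p : ℕ} [Fact p.Prime] [CharP K p] {h : ℕ} [Fact (0 < h)] {σ : Type*} [Fintype σ]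

theorem exists_rho {F : FormalGroup (OO K)} (y : σ → Pt F) :
    ∃ ρ : ℝ, 0 < ρ ∧ ρ < 1 ∧ ∀ i, ‖((y i).val : K)‖ ≤ ρ := by
  set s : NNReal := Finset.univ.sup fun i => ‖((y i).val : K)‖₊ with hs
  have h1 : s < 1 := by
    rw [hs, Finset.sup_lt_iff (by simp)]
    intro i _
    exact_mod_cast (y i).norm_lt
  refine ⟨max (1 / 2) (s : ℝ), lt_max_of_lt_left (by norm_num), max_lt (by norm_num) ?_, ?_⟩
  · exact_mod_cast h1
  · intro i
    refine le_max_of_le_right ?_
    have h2 : ‖((y i).val : K)‖₊ ≤ s := Finset.le_sup (f := fun i => ‖((y i).val : K)‖₊)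
      (Finset.mem_univ i)
    exact_mod_cast h2

theorem shiftS_rigid (G : FormalGroup (FixF K p h)) [G.IsComm]
    (hG : mulSeries G p = PowerSeries.X ^ (p ^ h))
    (Ω : AddSubgroup (σ → Pt (G.map (algebraMap (FixF K p h) (OO K)))))
    (φ : MvPowerSeries σ (FixF K p h))
    (hv : ∀ ω ∈ Ω, ev (fun i => (ω i).val) (φ.map (algebraMap (FixF K p h) (OO K))) = 0)
    {x : σ → Pt (G.map (algebraMap (FixF K p h) (OO K)))} (hx : x ∈ Ω)
    (ℓ : K →ₗ[FixF K p h] (FixF K p h)) :
    ∀ y ∈ Ω, ev (fun i => (y i).val) ((mapCoeff ℓ ((shiftS G φ x).map (OO K).subtype)).map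
      (algebraMap (FixF K p h) (OO K))) = 0 := by
  intro y hy
  refine rigidity {w | ∃ y ∈ Ω, w = fun i => (y i).val} ((shiftS G φ x).map (OO K).subtype) ?_ ℓ
    (fun i => (y i).val) ⟨y, hy, rfl⟩
  rintro w ⟨y, hy, rfl⟩
  obtain ⟨ρ, h0, h1, h2⟩ := exists_rho y
  refine ⟨ρ, h0, h1, h2, fun N => ⟨1, 0, fun m _ => ?_⟩⟩
  have hmem : (p ^ m • y) + x ∈ Ω := Ω.add_mem (Ω.nsmul_mem hy _) hx
  have hev : ev (fun j => ((p ^ m • y) j).val) (shiftS G φ x) = 0 := by
    rw [ev_shiftS]
    exact hv _ hmem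
  have hQ : (p ^ h) ^ m ≠ 0 := pow_ne_zero _ (pow_ne_zero _ (Fact.out : p.Prime).ne_zero)
  have key := trEval_le (shiftS G φ x) (fun j => ((p ^ m • y) j).val) (r := ρ ^ ((p ^ h) ^ m))
    (pow_nonneg h0.le _) (pow_lt_one₀ h0.le h1 hQ) (fun j => by
      rw [Pi.smul_apply, val_nsmul_pow G hG]
      push_cast
      rw [norm_pow]
      exact pow_le_pow_left₀ (norm_nonneg _) (h2 j) _) hev N
  have e1 : (fun i => (((y i).val : OO K) : K) ^ ((p ^ h) ^ m)) =
      fun j => ((((p ^ m • y) j).val : OO K) : K) := by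
    funext j
    rw [Pi.smul_apply, val_nsmul_pow G hG]
    push_cast
    rfl
  rw [e1, one_mul, mul_comm N, pow_mul]
  exact key

/-- if all series vanishing on `Ω` have no linear part, the derivatives of such series vanish -/
theorem hasSum_deriv [DecidableEq σ] (G : FormalGroup (FixF K p h)) [G.IsComm]
    (hG : mulSeries G p = PowerSeries.X ^ (p ^ h))
    (Ω : AddSubgroup (σ → Pt (G.map (algebraMap (FixF K p h) (OO K)))))
    (i : σ)
    (hc : ∀ φ : MvPowerSeries σ (FixF K p h),
      (∀ ω ∈ Ω, ev (fun i => (ω i).val) (φ.map (algebraMap (FixF K p h) (OO K))) = 0) →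
        coeff (Finsupp.single i 1) φ = 0)
    (φ : MvPowerSeries σ (FixF K p h))
    (hv : ∀ ω ∈ Ω, ev (fun i => (ω i).val) (φ.map (algebraMap (FixF K p h) (OO K))) = 0)
    {x : σ → Pt (G.map (algebraMap (FixF K p h) (OO K)))} (hx : x ∈ Ω) :
    HasSum (fun d : σ →₀ ℕ => 
      (algebraMap (FixF K p h) (OO K) (coeff d φ) * (d i * ((x i).val ^ (d i - 1) *
        ∏ j ∈ Finset.univ.erase i, (x j).val ^ d j)))) 0 := by
  have h1 : ∀ ℓ : K →ₗ[FixF K p h] (FixF K p h),
      ℓ ((coeff (Finsupp.single i 1) (shiftS G φ x) : OO K) : K) = 0 := by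
    intro ℓ
    exact hc _ (shiftS_rigid G hG Ω φ hv hx ℓ)
  have h2 : ((coeff (Finsupp.single i 1) (shiftS G φ x) : OO K) : K) = 0 :=
    (Module.forall_dual_apply_eq_zero_iff (FixF K p h) _).1 h1
  have h3 : coeff (Finsupp.single i 1) (shiftS G φ x) = 0 := by
    exact_mod_cast h2
  have h4 := hasSum_coeff_shiftS G φ x i
  rw [h3] at h4
  obtain ⟨u, hu⟩ := coeff_shiftC_self G i (x i)
  have h5 := h4.mul_left ((u⁻¹ : (OO K)ˣ) : OO K)
  rw [mul_zero, ← hu] at h5
  simp only [Units.inv_mul_cancel_left] at h5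
  exact h5

end rig
section ord
variable {p : ℕ} [Fact p.Prime] {κ : Type*} [Field κ] [CharP κ p] {σ : Type*} [Fintype σ]

/-- partial derivative -/
noncomputable def pdS {R : Type*} [CommRing R] (i : σ) (φ : MvPowerSeries σ R) :
    MvPowerSeries σ R :=
  fun d => ((d i + 1 : ℕ) : R) * coeff (d + Finsupp.single i 1) φ

/-- the operator `X_i ∂_i` -/
noncomputable def thS {R : Type*} [CommRing R] (i : σ) (φ : MvPowerSeries σ R) :
    MvPowerSeries σ R :=
  fun d => ((d i : ℕ) : R) * coeff d φ

theorem coeff_pdS {R : Type*} [CommRing R] (i : σ) (φ : MvPowerSeries σ R) (d : σ →₀ ℕ) :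
    coeff d (pdS i φ) = ((d i + 1 : ℕ) : R) * coeff (d + Finsupp.single i 1) φ := rfl

theorem coeff_thS {R : Type*} [CommRing R] (i : σ) (φ : MvPowerSeries σ R) (d : σ →₀ ℕ) :
    coeff d (thS i φ) = ((d i : ℕ) : R) * coeff d φ := rfl

theorem coeff_thS_iter {R : Type*} [CommRing R] (i : σ) (φ : MvPowerSeries σ R) (d : σ →₀ ℕ)
    (n : ℕ) : coeff d ((thS i)^[n] φ) = ((d i : ℕ) : R) ^ n * coeff d φ := by
  induction n with
  | zero => simp
  | succ n ih => rw [Function.iterate_succ_apply', coeff_thS, ih, pow_succ]; ring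

theorem natCast_pow_sub_one (n : ℕ) (hn : ¬ p ∣ n) : ((n : ℕ) : κ) ^ (p - 1) = 1 := by
  have h0 : ((n : ℕ) : κ) ≠ 0 := by
    rw [Ne, CharP.cast_eq_zero_iff κ p]
    exact hn
  have h1 : ((n : ℕ) : κ) ^ p = n := by
    have := map_natCast (frobenius κ p) n
    rwa [frobenius_def] at this
  have h2 : p = (p - 1) + 1 := by
    have := (Fact.out : p.Prime).one_lt
    omega
  rw [h2, pow_succ] at h1
  exact mul_right_cancel₀ h0 (h1.trans (one_mul _).symm)

/-- keep the exponents divisible by `p` in the directions of `S` -/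
noncomputable def keep (p : ℕ) (S : Finset σ) (φ : MvPowerSeries σ κ) : MvPowerSeries σ κ :=
  open Classical in fun d => if ∀ i ∈ S, p ∣ d i then coeff d φ else 0

theorem coeff_keep (S : Finset σ) (φ : MvPowerSeries σ κ) (d : σ →₀ ℕ) :
    coeff d (keep p S φ) = open Classical in if ∀ i ∈ S, p ∣ d i then coeff d φ else 0 := rfl

theorem keep_insert [DecidableEq σ] (S : Finset σ) (i : σ) (φ : MvPowerSeries σ κ) :
    keep p (insert i S) φ = keep p S φ - (thS i)^[p - 1] (keep p S φ) := by
  have hp := (Fact.out : p.Prime).one_lt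
  ext d
  rw [map_sub, coeff_thS_iter, coeff_keep, coeff_keep]
  by_cases h1 : p ∣ d i
  · have h2 : ((d i : ℕ) : κ) = 0 := (CharP.cast_eq_zero_iff κ p _).2 h1
    rw [h2, zero_pow (by omega), zero_mul, sub_zero]
    by_cases h3 : ∀ j ∈ S, p ∣ d j
    · rw [if_pos h3, if_pos]
      intro j hj
      rcases Finset.mem_insert.1 hj with rfl | hj
      · exact h1
      · exact h3 j hj
    · rw [if_neg h3, if_neg]
      intro h4
      exact h3 fun j hj => h4 j (Finset.mem_insert_of_mem hj)
  · rw [natCast_pow_sub_one _ h1, one_mul, sub_self, if_neg]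
    intro h4
    exact h1 (h4 i (Finset.mem_insert_self i S))

theorem order_argument (V : MvPowerSeries σ κ → Prop) (h0 : ∀ φ, V φ → coeff 0 φ = 0)
    (hsub : ∀ φ ψ, V φ → V ψ → V (φ - ψ)) (hpd : ∀ i φ, V φ → V (pdS i φ))
    (hth : ∀ i φ, V φ → V (thS i φ)) (hperf : ∀ c : κ, ∃ b : κ, b ^ p = c)
    (hroot : ∀ φ ψ : MvPowerSeries σ κ, (∀ d, coeff d φ ≠ 0 → ∀ i, p ∣ d i) →
      (∀ β, coeff β ψ ^ p = coeff (p • β) φ) → V φ → V ψ)
    (φ : MvPowerSeries σ κ) (hφ : φ ≠ 0) : ¬ V φ := by
  classical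
  intro hV
  have hp := (Fact.out : p.Prime).one_lt
  have hex : ∃ n : ℕ, ∃ φ : MvPowerSeries σ κ, V φ ∧ ∃ d : σ →₀ ℕ, d.degree = n ∧
      coeff d φ ≠ 0 := by
    obtain ⟨d, hd⟩ : ∃ d, coeff d φ ≠ 0 := by
      by_contra hcon
      push Not at hcon
      exact hφ (by ext d; rw [hcon d, map_zero])
    exact ⟨d.degree, φ, hV, d, rfl, hd⟩
  obtain ⟨φ, hφV, α, hα, hc⟩ := Nat.find_spec hex
  have hmin : ∀ ψ, V ψ → ∀ d : σ →₀ ℕ, d.degree < Nat.find hex → coeff d ψ = 0 := by
    intro ψ hψ d hd
    by_contra hne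
    exact Nat.find_min hex hd ⟨ψ, hψ, d, rfl, hne⟩
  set n := Nat.find hex with hn
  have hn0 : n ≠ 0 := by
    intro hn0
    rw [hn0] at hα
    have : α = 0 := (Finsupp.degree_eq_zero_iff α).1 hα
    rw [this] at hc
    exact hc (h0 φ hφV)
  have hdiv : ∀ i, p ∣ α i := by
    intro i
    by_contra hnd
    have hpos : α i ≠ 0 := fun h => hnd (h ▸ dvd_zero p)
    obtain ⟨β, hβ⟩ : ∃ β : σ →₀ ℕ, α = β + Finsupp.single i 1 := by
      refine ⟨α - Finsupp.single i 1, ?_⟩
      rw [tsub_add_cancel_of_le]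
      rw [Finsupp.single_le_iff]
      omega
    have h1 : coeff β (pdS i φ) = 0 := by
      refine hmin _ (hpd i φ hφV) β ?_
      have : α.degree = β.degree + 1 := by rw [hβ, map_add, Finsupp.degree_single]
      omega
    rw [coeff_pdS, ← hβ] at h1
    rcases mul_eq_zero.1 h1 with h2 | h2
    · rw [CharP.cast_eq_zero_iff κ p] at h2
      apply hnd
      rw [hβ]
      simpa using h2
    · exact hc h2
  have hkeep : ∀ S : Finset σ, V (keep p S φ) := by
    intro S
    induction S using Finset.induction_on with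
    | empty =>
      have : keep p ∅ φ = φ := by
        ext d
        rw [coeff_keep, if_pos (by simp)]
      rw [this]
      exact hφV
    | insert i S _ ih =>
      rw [keep_insert]
      refine hsub _ _ ih ?_
      have : ∀ n : ℕ, V ((thS i)^[n] (keep p S φ)) := by
        intro n
        induction n with
        | zero => exact ih
        | succ n ih => rw [Function.iterate_succ_apply']; exact hth _ _ ih
      exact this _
  choose rt hrt using hperf
  set ψ : MvPowerSeries σ κ := fun β => rt (coeff (p • β) (keep p Finset.univ φ)) with hψ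
  have hψV : V ψ := by
    refine hroot (keep p Finset.univ φ) ψ ?_ ?_ (hkeep _)
    · intro d hd i
      rw [coeff_keep] at hd
      by_contra hcon
      apply hd
      rw [if_neg]
      intro h4
      exact hcon (h4 i (Finset.mem_univ i))
    · intro β
      exact hrt _
  choose γ hγ using hdiv
  have hβ : α = p • (Finsupp.equivFunOnFinite.symm γ) := by
    ext i
    simp [hγ]
  have h1 : coeff (Finsupp.equivFunOnFinite.symm γ) ψ ≠ 0 := by
    intro h2
    have h3 : (coeff (Finsupp.equivFunOnFinite.symm γ) ψ) ^ p = coeff α φ := by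
      rw [hβ]
      refine (hrt _).trans ?_
      rw [coeff_keep, if_pos]
      intro i _
      simp
    rw [h2, zero_pow (by omega)] at h3
    exact hc h3.symm
  refine h1 (hmin _ hψV _ ?_)
  have h4 : α.degree = p * (Finsupp.equivFunOnFinite.symm γ).degree := by
    rw [hβ, map_nsmul, smul_eq_mul]
  rw [hα] at h4
  have h5 : (Finsupp.equivFunOnFinite.symm γ).degree ≠ 0 := by
    intro h6
    rw [h6, mul_zero] at h4
    exact hn0 h4
  rw [h4]
  nlinarith [Nat.pos_of_ne_zero h5]

end ord
section fin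
variable {K : Type*} [NontriviallyNormedField K] [IsUltrametricDist K] [CompleteSpace K]
  {p : ℕ} [Fact p.Prime] [CharP K p] {h : ℕ} [Fact (0 < h)] {σ : Type*} [Fintype σ]

theorem term_pdS [DecidableEq σ] (i : σ) (φ : MvPowerSeries σ (FixF K p h)) (x : σ → OO K)
    (d : σ →₀ ℕ) :
    algebraMap (FixF K p h) (OO K) (coeff (d + Finsupp.single i 1) φ) *
      (((d + Finsupp.single i 1 : σ →₀ ℕ) i : ℕ) *
        ((x i) ^ ((d + Finsupp.single i 1 : σ →₀ ℕ) i - 1) *
        ∏ j ∈ Finset.univ.erase i, (x j) ^ (d + Finsupp.single i 1 : σ →₀ ℕ) j)) =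
    coeff d ((pdS i φ).map (algebraMap (FixF K p h) (OO K))) *
      d.prod fun s e => x s ^ e := by
  rw [coeff_map, coeff_pdS, map_mul, map_natCast,
    Finsupp.prod_fintype _ _ (by simp), ← Finset.mul_prod_erase _ _ (Finset.mem_univ i)]
  have e1 : ∏ j ∈ Finset.univ.erase i, (x j) ^ (d + Finsupp.single i 1 : σ →₀ ℕ) j =
      ∏ j ∈ Finset.univ.erase i, (x j) ^ d j := by
    refine Finset.prod_congr rfl fun j hj => ?_
    rw [Finsupp.add_apply, Finsupp.single_eq_of_ne (Finset.ne_of_mem_erase hj), add_zero]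
  have e2 : (d + Finsupp.single i 1 : σ →₀ ℕ) i = d i + 1 := by simp
  rw [e1, e2, Nat.add_sub_cancel]
  ring

theorem term_thS [DecidableEq σ] (i : σ) (φ : MvPowerSeries σ (FixF K p h)) (x : σ → OO K)
    (d : σ →₀ ℕ) :
    x i * (algebraMap (FixF K p h) (OO K) (coeff d φ) *
      ((d i : ℕ) * ((x i) ^ (d i - 1) * ∏ j ∈ Finset.univ.erase i, (x j) ^ d j))) =
    coeff d ((thS i φ).map (algebraMap (FixF K p h) (OO K))) *
      d.prod fun s e => x s ^ e := by
  rw [coeff_map, coeff_thS, map_mul, map_natCast,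
    Finsupp.prod_fintype _ _ (by simp), ← Finset.mul_prod_erase _ _ (Finset.mem_univ i)]
  rcases Nat.eq_zero_or_pos (d i) with h0 | h0
  · rw [h0]
    simp
  · obtain ⟨m, hm⟩ : ∃ m, d i = m + 1 := ⟨d i - 1, by omega⟩
    rw [hm, Nat.add_sub_cancel, pow_succ]
    ring

theorem hasSum_pdS [DecidableEq σ] (i : σ) (φ : MvPowerSeries σ (FixF K p h)) (x : σ → OO K)
    (hs : HasSum (fun d : σ →₀ ℕ =>
      (algebraMap (FixF K p h) (OO K) (coeff d φ) * (d i * ((x i) ^ (d i - 1) *
        ∏ j ∈ Finset.univ.erase i, (x j) ^ d j)))) 0) :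
    HasSum (fun d : σ →₀ ℕ => coeff d ((pdS i φ).map (algebraMap (FixF K p h) (OO K))) *
      d.prod fun s e => x s ^ e) 0 := by
  have hinj : Function.Injective fun d : σ →₀ ℕ => d + Finsupp.single i 1 :=
    add_left_injective _
  rw [← hinj.hasSum_iff] at hs
  · convert hs using 1
    funext d
    exact (term_pdS i φ x d).symm
  · intro d hd
    have h0 : d i = 0 := by
      by_contra hne
      apply hd
      refine ⟨d - Finsupp.single i 1, ?_⟩
      change d - Finsupp.single i 1 + Finsupp.single i 1 = d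
      rw [tsub_add_cancel_of_le]
      rw [Finsupp.single_le_iff]
      omega
    rw [h0]
    simp

theorem hasSum_thS [DecidableEq σ] (i : σ) (φ : MvPowerSeries σ (FixF K p h)) (x : σ → OO K)
    (hs : HasSum (fun d : σ →₀ ℕ =>
      (algebraMap (FixF K p h) (OO K) (coeff d φ) * (d i * ((x i) ^ (d i - 1) *
        ∏ j ∈ Finset.univ.erase i, (x j) ^ d j)))) 0) :
    HasSum (fun d : σ →₀ ℕ => coeff d ((thS i φ).map (algebraMap (FixF K p h) (OO K))) *
      d.prod fun s e => x s ^ e) 0 := by
  have h1 := hs.mul_left (x i)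
  rw [mul_zero] at h1
  simp only [term_thS] at h1
  exact h1

theorem ev_root {x : σ → OO K} (hx : HasEval x) (φ ψ : MvPowerSeries σ (FixF K p h))
    (h1 : ∀ d, coeff d φ ≠ 0 → ∀ i, p ∣ d i) (h2 : ∀ β, coeff β ψ ^ p = coeff (p • β) φ)
    (h3 : ev x (φ.map (algebraMap (FixF K p h) (OO K))) = 0) :
    ev x (ψ.map (algebraMap (FixF K p h) (OO K))) = 0 := by
  classical
  have hp := (Fact.out : p.Prime).one_lt
  have : CharP (OO K) p := inferInstance
  have e1 := (ev_hasSum hx (ψ.map (algebraMap (FixF K p h) (OO K)))).map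
    (frobenius (OO K) p) (by
      change Continuous fun y : OO K => y ^ p
      exact continuous_pow p)
  have e2 := ev_hasSum hx (φ.map (algebraMap (FixF K p h) (OO K)))
  rw [h3] at e2
  have hinj : Function.Injective fun d : σ →₀ ℕ => p • d := by
    intro a b hab
    ext i
    have := DFunLike.congr_fun hab i
    simp only [Finsupp.smul_apply, smul_eq_mul] at this
    exact Nat.eq_of_mul_eq_mul_left (by omega) this
  rw [← hinj.hasSum_iff] at e2
  · have e4 : (⇑(frobenius (OO K) p) ∘ fun d : σ →₀ ℕ =>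
        (coeff d) ((MvPowerSeries.map (algebraMap (FixF K p h) (OO K))) ψ) *
          d.prod fun s e => x s ^ e) =
        ((fun d => (coeff d) ((MvPowerSeries.map (algebraMap (FixF K p h) (OO K))) φ) *
          d.prod fun s e => x s ^ e) ∘ fun d => p • d) := by
      funext β
      simp only [Function.comp, coeff_map, frobenius_def, mul_pow, ← map_pow, h2]
      congr 1
      rw [Finsupp.prod_fintype _ _ (by simp), Finsupp.prod_fintype _ _ (by simp),
        ← Finset.prod_pow]
      refine Finset.prod_congr rfl fun j _ => ?_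
      rw [Finsupp.smul_apply, smul_eq_mul, mul_comm, pow_mul]
    have e3 : (frobenius (OO K) p) (ev x (ψ.map (algebraMap (FixF K p h) (OO K)))) = 0 := by
      rw [← e4] at e2
      exact e1.unique e2
    rw [frobenius_def] at e3
    exact pow_eq_zero_iff (by omega) |>.1 e3
  · intro d hd
    have : coeff d φ = 0 := by
      by_contra hne
      choose γ hγ using h1 d hne
      exact hd ⟨Finsupp.equivFunOnFinite.symm γ, by ext i; simp [hγ]⟩
    rw [coeff_map, this, map_zero, zero_mul]

theorem ev_at_zero (φ : MvPowerSeries σ (OO K)) (x : σ → OO K) (hx : x = 0) :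
    ev x φ = coeff 0 φ := by
  subst hx
  have h0 : HasEval (0 : σ → OO K) := hasEval_of_finite fun i => tn_iff.2 (by simp)
  refine (ev_hasSum h0 φ).unique ?_
  have := hasSum_single (f := fun d : σ →₀ ℕ => coeff d φ * d.prod fun s e => (0 : σ → OO K) s ^ e)
    0 (by
      intro d hd
      obtain ⟨i, hi⟩ : ∃ i, d i ≠ 0 := by
        by_contra hcon
        push Not at hcon
        exact hd (by ext i; simpa using hcon i)
      rw [Finsupp.prod_fintype _ _ (by simp), Finset.prod_eq_zero (Finset.mem_univ i), mul_zero]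
      simp [hi])
  simpa using this

theorem claimA_aux (G : FormalGroup (FixF K p h)) [G.IsComm]
    (hG : mulSeries G p = PowerSeries.X ^ (p ^ h))
    (Ω : AddSubgroup (σ → Pt (G.map (algebraMap (FixF K p h) (OO K)))))
    (φ : MvPowerSeries σ (FixF K p h)) (hφ : φ ≠ 0)
    (hv : ∀ ω ∈ Ω, ev (fun i => (ω i).val) (φ.map (algebraMap (FixF K p h) (OO K))) = 0) :
    ∃ ψ : MvPowerSeries σ (FixF K p h),
      (∀ ω ∈ Ω, ev (fun i => (ω i).val) (ψ.map (algebraMap (FixF K p h) (OO K))) = 0) ∧
      ∃ i, coeff (Finsupp.single i 1) ψ ≠ 0 := by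
  classical
  by_contra hcon
  push Not at hcon
  have hE : ∀ ω : σ → Pt (G.map (algebraMap (FixF K p h) (OO K))),
      HasEval fun i => (ω i).val := fun ω => hasEval_of_finite fun i => (ω i).tn
  refine order_argument (p := p) (κ := FixF K p h)
    (fun φ => ∀ ω ∈ Ω, ev (fun i => (ω i).val) (φ.map (algebraMap (FixF K p h) (OO K))) = 0)
    ?_ ?_ ?_ ?_ ?_ ?_ φ hφ hv
  · intro φ hφ
    have h1 := hφ 0 Ω.zero_mem
    rw [ev_at_zero _ _ (by funext i; rfl), coeff_map] at h1
    exact (map_eq_zero_iff _ (RingHom.injective _)).1 h1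
  · intro φ ψ hφ hψ ω hω
    rw [map_sub, ev_sub (hE ω), hφ ω hω, hψ ω hω, sub_zero]
  · intro i φ hφ ω hω
    exact (ev_hasSum (hE ω) _).unique (hasSum_pdS i φ _
      (hasSum_deriv G hG Ω i (fun ψ hψ => hcon ψ hψ i) φ hφ hω))
  · intro i φ hφ ω hω
    exact (ev_hasSum (hE ω) _).unique (hasSum_thS i φ _
      (hasSum_deriv G hG Ω i (fun ψ hψ => hcon ψ hψ i) φ hφ hω))
  · intro c
    refine ⟨c ^ (p ^ (h - 1)), ?_⟩
    have hh : 0 < h := Fact.out
    have h1 : (c : K) ^ (p ^ h) = c := c.2
    ext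
    push_cast
    rw [← pow_mul, ← pow_succ, Nat.sub_add_cancel hh]
    exact h1
  · intro φ ψ h1 h2 h3 ω hω
    exact ev_root (hE ω) φ ψ h1 h2 (h3 ω hω)

end fin
end Vale.Agent.P217.ClaimA
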