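import Vale.Agent.Lib.P217.Iso

/-!
# P217 (existence of the universal deformation): tools for symmetric 2-cocycles (module U3)
-/

set_option linter.unusedSectionVars false

namespace Vale.Agent.P217

open MvPowerSeries

section
variable {R : Type*} [CommRing R]

/-- coefficients of `D(0, X)` -/
theorem coeff_subst_zero_X (D : MvPowerSeries (Fin 2) R) (n : ℕ) :
    PowerSeries.coeff n (subst ![0, PowerSeries.X] D : PowerSeries R) =
      MvPowerSeries.coeff (Finsupp.single 1 n) D := by
  have hs : MvPowerSeries.HasSubst (![0, PowerSeries.X] : Fin 2 → PowerSeries R) :=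
    hasSubst_pair PowerSeries.HasSubst.zero PowerSeries.HasSubst.X'
  rw [PowerSeries.coeff, coeff_subst hs, finsum_eq_single _ (Finsupp.single 1 n)]
  · simp [Finsupp.prod_single_index, PowerSeries.X, X_pow_eq]
  · intro d hd
    by_cases hd₁ : d 0 = 0
    · by_cases hd₂ : d 1 = n
      · exfalso
        apply hd
        ext s
        fin_cases s
        · simp [hd₁]
        · simp [hd₂]
      · have h1 : (d.prod fun s e => (![0, PowerSeries.X] s : PowerSeries R) ^ e) =
            PowerSeries.X ^ (d 1) := by
          rw [Finsupp.prod_fintype _ _ (by simp)]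
          simp [hd₁]
        have h2 : MvPowerSeries.coeff (Finsupp.single () n)
            (d.prod fun s e => (![0, PowerSeries.X] s : PowerSeries R) ^ e) = 0 := by
          rw [h1]
          have := PowerSeries.coeff_X_pow (R := R) n (d 1)
          rw [PowerSeries.coeff] at this
          rw [this, if_neg (fun h => hd₂ h.symm)]
        rw [h2, smul_zero]
    · have h1 : (d.prod fun s e => (![0, PowerSeries.X] s : PowerSeries R) ^ e) = 0 := by
        rw [Finsupp.prod_fintype _ _ (by simp)]
        simp [hd₁]
      rw [h1]
      simp

/-- coefficients of `D(X, 0)` -/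
theorem coeff_subst_X_zero (D : MvPowerSeries (Fin 2) R) (n : ℕ) :
    PowerSeries.coeff n (subst ![PowerSeries.X, 0] D : PowerSeries R) =
      MvPowerSeries.coeff (Finsupp.single 0 n) D := by
  have hs : MvPowerSeries.HasSubst (![PowerSeries.X, 0] : Fin 2 → PowerSeries R) :=
    hasSubst_pair PowerSeries.HasSubst.X' PowerSeries.HasSubst.zero
  rw [PowerSeries.coeff, coeff_subst hs, finsum_eq_single _ (Finsupp.single 0 n)]
  · simp [Finsupp.prod_single_index, PowerSeries.X, X_pow_eq]
  · intro d hd
    by_cases hd₁ : d 1 = 0
    · by_cases hd₂ : d 0 = n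
      · exfalso
        apply hd
        ext s
        fin_cases s
        · simp [hd₂]
        · simp [hd₁]
      · have h1 : (d.prod fun s e => (![PowerSeries.X, 0] s : PowerSeries R) ^ e) =
            PowerSeries.X ^ (d 0) := by
          rw [Finsupp.prod_fintype _ _ (by simp)]
          simp [hd₁]
        have h2 : MvPowerSeries.coeff (Finsupp.single () n)
            (d.prod fun s e => (![PowerSeries.X, 0] s : PowerSeries R) ^ e) = 0 := by
          rw [h1]
          have := PowerSeries.coeff_X_pow (R := R) n (d 0)
          rw [PowerSeries.coeff] at this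
          rw [this, if_neg (fun h => hd₂ h.symm)]
        rw [h2, smul_zero]
    · have h1 : (d.prod fun s e => (![PowerSeries.X, 0] s : PowerSeries R) ^ e) = 0 := by
        rw [Finsupp.prod_fintype _ _ (by simp)]
        simp [hd₁]
      rw [h1]
      simp

/-- `g(X^m) = 0` forces `g = 0` -/
theorem eq_zero_of_subst_X_pow {m : ℕ} (hm : m ≠ 0) {g : PowerSeries R}
    (h : g.subst (PowerSeries.X ^ m : PowerSeries R) = 0) : g = 0 := by
  rw [← PowerSeries.expand_apply m hm] at h
  ext i
  rw [← PowerSeries.coeff_expand_mul m hm g i, h, map_zero, map_zero]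

end

end Vale.Agent.P217
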