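import Mathlib.RingTheory.Henselian
import Mathlib.RingTheory.MvPolynomial.IrreducibleQuadratic
import Vale.Agent.Lib.P217.Iso
import Vale.Agent.Lib.P217.CohHom
import Vale.Agent.Lib.P217.CohTools

/-!
# P217 (existence of the universal deformation): symmetric 2-cocycles of a formal group law of height `n` (module U3)

`k` a field of characteristic `p`, `Γ` a commutative formal group law over `k` with `[p] = X^q`, `q = p^n`, and
`Γ ≡ X + Y` modulo degree `q`.

`IsCocycle Γ D`: `D ∈ k[[X,Y]]`, `D(X,0) = 0 = D(0,Y)`, symmetric, `D(X,Y) + D(Γ(X,Y),Z) = D(Y,Z) + D(X,Γ(Y,Z))`.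
`cob Γ g = g(X) + g(Y) - g(Γ(X,Y))`.  `Nser Γ p D = ∑_{j<p} D([j]X, X)`.

* `Nser_cob`: telescoping: `∑_{j<p} (g([j]X) + g(X) - g([j+1]X)) = p g(X) - g([p]X) = - g(X^q)`.
* `cob_eq_zero`: `g` is then additive, `g(X^q) = g([p]X) = p g(X) = 0`.
* `homogeneous_cocycle`: an additive symmetric homogeneous cocycle `f` of degree `d ≥ 2` with `d` not a power of `p` is
  `c((X+Y)^d - X^d - Y^d)` (this is in the proof of `cocycle_coboundary`, see `IsoCocycle.lean`; the hypothesis on `∑ f(i,1)` is only used when `d` is a power of `p`).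
* `cocycle_eq_cob`: successive approximation on the degree: suppose `D' = D - cob Γ g_d` has order `≥ d` (`d ≥ 2`) and let `f` be its homogeneous part of degree `d`;
  `f` is an additive symmetric cocycle (lowest degree part of the identities, `Γ ≡ X + Y` modulo degree two).  The
  coefficient of `X^d` in `Nser D'` is `∑_{j<p} f(j,1)`.
  - `d` not a power of `p`: `f = c((X+Y)^d - X^d - Y^d)`; add `-c X^d`  (check the sign) to `g_d`.
  - `d = p^i < q`: `Nser D' = Nser D + g_d(X^q)` has zero coefficient at `X^{p^i}` by hypothesis, so `∑ f(j,1) = 0`, so `f = c((X+Y)^d - X^d - Y^d) = 0` by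
    `cocycle_coboundary` and `CharP`.
  - `d = p^i ≥ q`: let `h` be the homogeneous part of degree `d` of `cob Γ (X^{p^{i-n}}) = -(Γ - X - Y)^{p^{i-n}}`, which has order `≥ d` as `Γ ≡ X+Y`
    modulo degree `q`. `Nser (cob Γ X^{p^{i-n}}) = -X^d`, so `∑_j h(j,1) = -1`.  With `a = ∑_j f(j,1)`, `f + a h` satisfies the hypothesis of
    `cocycle_coboundary` (it is an additive symmetric cocycle too) so is `0`. So `f = -a h`: add `-a X^{p^{i-n}}` to `g_d`.
  The exponents of the terms added tend to infinity, and `cob Γ` is continuous, so in the limit `D = cob Γ g`.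
-/

set_option linter.unusedSectionVars false

namespace Vale.Agent.P217

open MvPowerSeries

section
variable {k : Type*} [Field k]

/-- coboundary of `g` -/
noncomputable def cob (Γ : FormalGroup k) (g : PowerSeries k) : MvPowerSeries (Fin 2) k :=
  PowerSeries.subst (X 0 : MvPowerSeries (Fin 2) k) g +
    PowerSeries.subst (X 1 : MvPowerSeries (Fin 2) k) g - PowerSeries.subst Γ.toPowerSeries g

/-- symmetric normalized 2-cocycles -/
structure IsCocycle (Γ : FormalGroup k) (D : MvPowerSeries (Fin 2) k) : Prop where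
  zero_left : ∀ i, coeff (Finsupp.single 1 i) D = 0
  zero_right : ∀ i, coeff (Finsupp.single 0 i) D = 0
  symm : MvPowerSeries.subst ![(X 1 : MvPowerSeries (Fin 2) k), X 0] D = D
  coc : MvPowerSeries.subst ![(X 0 : MvPowerSeries (Fin 3) k), X 1] D +
      MvPowerSeries.subst ![(MvPowerSeries.subst ![(X 0 : MvPowerSeries (Fin 3) k), X 1]
        Γ.toPowerSeries), X 2] D =
    MvPowerSeries.subst ![(X 1 : MvPowerSeries (Fin 3) k), X 2] D +
      MvPowerSeries.subst ![(X 0 : MvPowerSeries (Fin 3) k),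
        (MvPowerSeries.subst ![(X 1 : MvPowerSeries (Fin 3) k), X 2] Γ.toPowerSeries)] D

/-- the series `∑_{j<p} D([j]X, X)` -/
noncomputable def Nser (Γ : FormalGroup k) (p : ℕ) (D : MvPowerSeries (Fin 2) k) :
    PowerSeries k :=
  ∑ j ∈ Finset.range p, (MvPowerSeries.subst ![(mulSeries Γ j : MvPowerSeries Unit k),
    (PowerSeries.X : MvPowerSeries Unit k)] D : MvPowerSeries Unit k)

/-- values of a coboundary -/
theorem cob_apply (Γ : FormalGroup k) {g : PowerSeries k}
    {σ : Type*} {a b : MvPowerSeries σ k} (ha : PowerSeries.HasSubst a)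
    (hb : PowerSeries.HasSubst b) :
    subst ![a, b] (cob Γ g) = PowerSeries.subst a g + PowerSeries.subst b g -
      PowerSeries.subst (subst ![a, b] Γ.toPowerSeries) g := by
  have hs := hasSubst_pair ha hb
  unfold cob
  rw [subst_sub hs, subst_add hs, subst_psubst (hasSubst_X 0) hs,
    subst_psubst (hasSubst_X 1) hs, subst_psubst (hasSubst_F Γ) hs, subst_X hs, subst_X hs]
  rfl

variable (p : ℕ) [Fact p.Prime] [CharP k p] {n : ℕ} (hn : 0 < n) (Γ : FormalGroup k) [Γ.IsComm]
  (hΓp : mulSeries Γ p = PowerSeries.X ^ (p ^ n))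

include hΓp

theorem Nser_cob (g : PowerSeries k) (h0 : PowerSeries.constantCoeff g = 0) :
    Nser Γ p (cob Γ g) = - g.subst (PowerSeries.X ^ (p ^ n) : PowerSeries k) := by
  have h1 : ∀ j : ℕ, (MvPowerSeries.subst ![(mulSeries Γ j : MvPowerSeries Unit k),
      (PowerSeries.X : MvPowerSeries Unit k)] (cob Γ g) : MvPowerSeries Unit k) =
      g - (PowerSeries.subst (mulSeries Γ (j + 1)) g - PowerSeries.subst (mulSeries Γ j) g) := by
    intro j
    have h2 : PowerSeries.subst (PowerSeries.X : PowerSeries k) g = g := PowerSeries.X_subst g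
    have h3 := cob_apply Γ (g := g) (hasSubst_mulSeries Γ j)
      (PowerSeries.HasSubst.X' : PowerSeries.HasSubst (PowerSeries.X : PowerSeries k))
    rw [← mulSeries_succ] at h3
    refine h3.trans ?_
    rw [h2]
    abel
  have h4 : Nser Γ p (cob Γ g) = ∑ j ∈ Finset.range p,
      (g - (PowerSeries.subst (mulSeries Γ (j + 1)) g - PowerSeries.subst (mulSeries Γ j) g)) := by
    unfold Nser
    exact Finset.sum_congr rfl fun j _ => h1 j
  rw [h4, Finset.sum_sub_distrib, Finset.sum_const, Finset.card_range,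
    Finset.sum_range_sub (fun j => PowerSeries.subst (mulSeries Γ j) g), hΓp, mulSeries_zero,
    PowerSeries.subst_zero_of_constantCoeff_zero h0, sub_zero]
  have h5 : p • g = 0 := by
    ext i
    rw [map_nsmul, nsmul_eq_mul, CharP.cast_eq_zero k p, zero_mul, map_zero]
  rw [h5, zero_sub]

theorem cob_eq_zero (g : PowerSeries k) (h0 : PowerSeries.constantCoeff g = 0)
    (hg : cob Γ g = 0) : g = 0 := by
  have h1 := Nser_cob p Γ hΓp g h0
  rw [hg] at h1
  have h2 : Nser Γ p 0 = 0 := by
    unfold Nser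
    refine Finset.sum_eq_zero fun j _ => ?_
    have hs := hasSubst_pair (hasSubst_mulSeries Γ j)
      (PowerSeries.HasSubst.X' : PowerSeries.HasSubst (PowerSeries.X : PowerSeries k))
    rw [← coe_substAlgHom hs, map_zero]
  rw [h2] at h1
  have hp : p ^ n ≠ 0 := pow_ne_zero _ (Nat.Prime.ne_zero Fact.out)
  exact eq_zero_of_subst_X_pow hp (neg_eq_zero.1 h1.symm)

theorem isCocycle_cob (g : PowerSeries k) (h0 : PowerSeries.constantCoeff g = 0) :
    IsCocycle Γ (cob Γ g) where
  zero_left i := by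
    rw [← coeff_subst_zero_X, cob_apply Γ PowerSeries.HasSubst.zero PowerSeries.HasSubst.X',
      PowerSeries.subst_zero_of_constantCoeff_zero h0]
    have h1 : (subst ![0, PowerSeries.X] Γ.toPowerSeries : PowerSeries k) = PowerSeries.X :=
      Γ.zeroX_eq_X
    have h2 : PowerSeries.subst (PowerSeries.X : PowerSeries k) g = g := PowerSeries.X_subst g
    rw [h1, h2, zero_add, sub_self, map_zero]
  zero_right i := by
    rw [← coeff_subst_X_zero, cob_apply Γ PowerSeries.HasSubst.X' PowerSeries.HasSubst.zero,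
      PowerSeries.subst_zero_of_constantCoeff_zero h0]
    have h1 : (subst ![PowerSeries.X, 0] Γ.toPowerSeries : PowerSeries k) = PowerSeries.X :=
      Γ.Xzero_eq_X
    have h2 : PowerSeries.subst (PowerSeries.X : PowerSeries k) g = g := PowerSeries.X_subst g
    rw [h1, h2, add_zero, sub_self, map_zero]
  symm := by
    rw [cob_apply Γ (hasSubst_X 1) (hasSubst_X 0), Γ.comm' (hasSubst_X 1) (hasSubst_X 0),
      subst_pair_X]
    unfold cob
    ring
  coc := by
    have h01 : PowerSeries.HasSubst (MvPowerSeries.subst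
        ![(X 0 : MvPowerSeries (Fin 3) k), X 1] Γ.toPowerSeries) :=
      hasSubst_subst (hasSubst_pair (hasSubst_X 0) (hasSubst_X 1)) (hasSubst_F Γ)
    have h12 : PowerSeries.HasSubst (MvPowerSeries.subst
        ![(X 1 : MvPowerSeries (Fin 3) k), X 2] Γ.toPowerSeries) :=
      hasSubst_subst (hasSubst_pair (hasSubst_X 1) (hasSubst_X 2)) (hasSubst_F Γ)
    rw [cob_apply Γ (hasSubst_X 0) (hasSubst_X 1), cob_apply Γ h01 (hasSubst_X 2),
      cob_apply Γ (hasSubst_X 1) (hasSubst_X 2), cob_apply Γ (hasSubst_X 0) h12,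
      Γ.assoc' (hasSubst_X 0) (hasSubst_X 1) (hasSubst_X 2)]
    ring

/-! ### linearity -/

omit hΓp in
theorem cob_sub (g h : PowerSeries k) : cob Γ (g - h) = cob Γ g - cob Γ h := by
  unfold cob
  rw [psubst_sub' (hasSubst_X 0), psubst_sub' (hasSubst_X 1), psubst_sub' (hasSubst_F Γ)]
  ring

omit hΓp in
theorem cob_C_mul (c : k) (g : PowerSeries k) :
    cob Γ (PowerSeries.C c * g) = C c * cob Γ g := by
  have key : ∀ {A : MvPowerSeries (Fin 2) k}, PowerSeries.HasSubst A →
      PowerSeries.subst A (PowerSeries.C c * g) = C c * PowerSeries.subst A g := by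
    intro A hA
    rw [PowerSeries.subst_mul hA]
    congr 1
    rw [← PowerSeries.coe_substAlgHom hA]
    exact AlgHom.commutes (PowerSeries.substAlgHom hA) c
  unfold cob
  rw [key (hasSubst_X 0), key (hasSubst_X 1), key (hasSubst_F Γ)]
  ring

omit hΓp in
theorem IsCocycle.sub {D D' : MvPowerSeries (Fin 2) k} (h : IsCocycle Γ D)
    (h' : IsCocycle Γ D') : IsCocycle Γ (D - D') := by
  have hX : ∀ i j : Fin 3, HasSubst ![(X i : MvPowerSeries (Fin 3) k), X j] := fun i j =>
    hasSubst_pair (hasSubst_X i) (hasSubst_X j)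
  have hF : ∀ i j : Fin 3, PowerSeries.HasSubst
      (subst ![(X i : MvPowerSeries (Fin 3) k), X j] Γ.toPowerSeries) := fun i j =>
    hasSubst_of_Ot (F_pair_mem_Ot Γ (X_mem_Ot i) (X_mem_Ot j))
  refine ⟨fun i => ?_, fun i => ?_, ?_, ?_⟩
  · rw [map_sub, h.zero_left, h'.zero_left, sub_zero]
  · rw [map_sub, h.zero_right, h'.zero_right, sub_zero]
  · rw [subst_sub (hasSubst_pair (hasSubst_X 1) (hasSubst_X 0)), h.symm, h'.symm]
  · have e1 := h.coc
    have e2 := h'.coc
    rw [subst_sub (hX 0 1), subst_sub (hX 1 2), subst_sub (hasSubst_pair (hF 0 1) (hasSubst_X 2)),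
      subst_sub (hasSubst_pair (hasSubst_X 0) (hF 1 2))]
    linear_combination e1 - e2

omit hΓp in
theorem Nser_sub (D D' : MvPowerSeries (Fin 2) k) :
    Nser Γ p (D - D') = Nser Γ p D - Nser Γ p D' := by
  unfold Nser
  rw [← Finset.sum_sub_distrib]
  refine Finset.sum_congr rfl fun j _ => ?_
  exact subst_sub (hasSubst_pair (hasSubst_mulSeries Γ j) PowerSeries.HasSubst.X') _ _

/-! ### the homogeneous part of lowest degree -/

omit hΓp in
theorem coh_mem_two {D : MvPowerSeries (Fin 2) k} (hD : IsCocycle Γ D) : D ∈ Ot 2 := by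
  intro e he
  have h1 : e.degree = e 0 + e 1 := by
    rw [Finsupp.degree_eq_sum, Fin.sum_univ_two]
  rw [h1] at he
  by_cases h0 : e 0 = 0
  · have : e = Finsupp.single 1 (e 1) := by
      ext s
      fin_cases s
      · simp [h0]
      · simp
    rw [this]
    exact hD.zero_left _
  · have h2 : e 1 = 0 := by omega
    have : e = Finsupp.single 0 (e 0) := by
      ext s
      fin_cases s
      · simp
      · simp [h2]
    rw [this]
    exact hD.zero_right _

omit hΓp in
theorem coh_subst_sub {σ : Type*} {d : ℕ} {D : MvPowerSeries (Fin 2) k}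
    {f : MvPolynomial (Fin 2) k} (hf : D - (f : MvPowerSeries (Fin 2) k) ∈ Ot (d + 1))
    {A B : MvPowerSeries σ k} (hA : A ∈ Ot 1) (hB : B ∈ Ot 1) :
    subst ![A, B] D - MvPolynomial.aeval ![A, B] f ∈ Ot (d + 1) := by
  have hab := hasSubst_pair (hasSubst_of_Ot hA) (hasSubst_of_Ot hB)
  have h1 := subst_pair_mem hA hB hf
  rwa [subst_sub hab, subst_coe] at h1

omit hΓp in
theorem coh_symm {d : ℕ} {D : MvPowerSeries (Fin 2) k} (hD : IsCocycle Γ D)
    {f : MvPolynomial (Fin 2) k} (hfh : f.IsHomogeneous d)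
    (hf : D - (f : MvPowerSeries (Fin 2) k) ∈ Ot (d + 1)) :
    MvPolynomial.aeval ![MvPolynomial.X 1, MvPolynomial.X 0] f = f := by
  have hX : ∀ i : Fin 2, (MvPolynomial.X i : MvPolynomial (Fin 2) k).IsHomogeneous 1 := fun i =>
    MvPolynomial.isHomogeneous_X k i
  rw [← sub_eq_zero]
  apply homogeneous_eq_zero (d := d)
  · exact (isHomogeneous_aeval_pair hfh (hX 1) (hX 0)).sub hfh
  · have hs : ∀ p q : MvPolynomial (Fin 2) k, ((p - q : MvPolynomial (Fin 2) k) :
        MvPowerSeries (Fin 2) k) = (p : MvPowerSeries (Fin 2) k) - (q : MvPowerSeries (Fin 2) k) :=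
      fun p q => map_sub (MvPolynomial.coeToMvPowerSeries.ringHom (σ := Fin 2) (R := k)) p q
    rw [hs, coe_aeval_pair, MvPolynomial.coe_X, MvPolynomial.coe_X]
    have h1 := coh_subst_sub hf (X_mem_Ot (1 : Fin 2)) (X_mem_Ot (0 : Fin 2))
    rw [hD.symm] at h1
    have h2 := sub_mem hf h1
    convert h2 using 1
    ring

omit hΓp in
theorem coh_cocycle {d : ℕ} {D : MvPowerSeries (Fin 2) k} (hD : IsCocycle Γ D)
    {f : MvPolynomial (Fin 2) k} (hfh : f.IsHomogeneous d)
    (hf : D - (f : MvPowerSeries (Fin 2) k) ∈ Ot (d + 1)) :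
    MvPolynomial.aeval
        ![(MvPolynomial.X 1 : MvPolynomial (Fin 3) k), MvPolynomial.X 2] f +
      MvPolynomial.aeval
        ![(MvPolynomial.X 0 : MvPolynomial (Fin 3) k), MvPolynomial.X 1 + MvPolynomial.X 2] f =
      MvPolynomial.aeval
        ![(MvPolynomial.X 0 + MvPolynomial.X 1 : MvPolynomial (Fin 3) k), MvPolynomial.X 2] f +
      MvPolynomial.aeval
        ![(MvPolynomial.X 0 : MvPolynomial (Fin 3) k), MvPolynomial.X 1] f := by
  have hX : ∀ i : Fin 3, (MvPolynomial.X i : MvPolynomial (Fin 3) k).IsHomogeneous 1 := fun i =>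
    MvPolynomial.isHomogeneous_X k i
  rw [← sub_eq_zero]
  apply homogeneous_eq_zero (d := d)
  · refine MvPolynomial.IsHomogeneous.sub (MvPolynomial.IsHomogeneous.add ?_ ?_)
      (MvPolynomial.IsHomogeneous.add ?_ ?_)
    · exact isHomogeneous_aeval_pair hfh (hX 1) (hX 2)
    · exact isHomogeneous_aeval_pair hfh (hX 0) ((hX 1).add (hX 2))
    · exact isHomogeneous_aeval_pair hfh ((hX 0).add (hX 1)) (hX 2)
    · exact isHomogeneous_aeval_pair hfh (hX 0) (hX 1)
  · have hs : ∀ p q : MvPolynomial (Fin 3) k, ((p - q : MvPolynomial (Fin 3) k) :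
        MvPowerSeries (Fin 3) k) = (p : MvPowerSeries (Fin 3) k) - (q : MvPowerSeries (Fin 3) k) :=
      fun p q => map_sub (MvPolynomial.coeToMvPowerSeries.ringHom (σ := Fin 3) (R := k)) p q
    rw [hs, MvPolynomial.coe_add, MvPolynomial.coe_add, coe_aeval_pair, coe_aeval_pair,
      coe_aeval_pair, coe_aeval_pair, MvPolynomial.coe_add, MvPolynomial.coe_add,
      MvPolynomial.coe_X, MvPolynomial.coe_X, MvPolynomial.coe_X]
    have o0 := X_mem_Ot (R := k) (0 : Fin 3)
    have o1 := X_mem_Ot (R := k) (1 : Fin 3)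
    have o2 := X_mem_Ot (R := k) (2 : Fin 3)
    have l1 := coh_subst_sub hf o0 o1
    have l2 := coh_subst_sub hf (F_pair_mem_Ot Γ o0 o1) o2
    have l3 := aeval_pair_sub_mem hfh (F_pair_mem_Ot Γ o0 o1) o2 ((Ot 1).add_mem o0 o1) o2
      (F_pair_sub_mem Γ o0 o1) (by rw [sub_self]; exact (Ot 2).zero_mem)
    have r1 := coh_subst_sub hf o1 o2
    have r2 := coh_subst_sub hf o0 (F_pair_mem_Ot Γ o1 o2)
    have r3 := aeval_pair_sub_mem hfh o0 (F_pair_mem_Ot Γ o1 o2) o0 ((Ot 1).add_mem o1 o2)
      (by rw [sub_self]; exact (Ot 2).zero_mem) (F_pair_sub_mem Γ o1 o2)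
    have hl := (Ot (d + 1)).add_mem ((Ot (d + 1)).add_mem l1 l2) l3
    have hr := (Ot (d + 1)).add_mem ((Ot (d + 1)).add_mem r1 r2) r3
    have hlr := sub_mem hl hr
    have hc := hD.coc
    convert hlr using 1
    linear_combination (-1 : MvPowerSeries (Fin 3) k) * hc

omit hΓp in
theorem coh_coeff_Nser {d : ℕ} {D : MvPowerSeries (Fin 2) k}
    {f : MvPolynomial (Fin 2) k} (hfh : f.IsHomogeneous d)
    (hf : D - (f : MvPowerSeries (Fin 2) k) ∈ Ot (d + 1)) :
    PowerSeries.coeff d (Nser Γ p D) =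
      ∑ j ∈ Finset.range p, MvPolynomial.eval ![(j : k), 1] f := by
  unfold Nser
  rw [map_sum]
  refine Finset.sum_congr rfl fun j _ => ?_
  have hX1 : (PowerSeries.X : PowerSeries k) ∈ (Ot 1 : Ideal (MvPowerSeries Unit k)) :=
    X_mem_Ot ()
  have hm1 : (mulSeries Γ j : PowerSeries k) ∈ (Ot 1 : Ideal (MvPowerSeries Unit k)) :=
    mem_Ot_one.mpr (mulSeries_constantCoeff Γ j)
  have h1 := coh_subst_sub hf hm1 hX1
  have h3 : mulSeries Γ j - C (j : k) * (PowerSeries.X : PowerSeries k) ∈
      (Ot 2 : Ideal (MvPowerSeries Unit k)) := by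
    intro e he
    have he' : e = Finsupp.single () (e ()) := by ext; simp
    have hdeg : e.degree = e () := by
      rw [Finsupp.degree_eq_sum]; simp
    rw [hdeg] at he
    rw [he']
    change PowerSeries.coeff (e ()) (mulSeries Γ j - PowerSeries.C (j : k) * PowerSeries.X) = 0
    rcases (by omega : e () = 0 ∨ e () = 1) with h0 | h0
    · rw [h0, map_sub, PowerSeries.coeff_zero_eq_constantCoeff_apply, mulSeries_constantCoeff]
      simp
    · rw [h0, map_sub, mulSeries_coeff_one]
      simp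
  have hmX : C (j : k) * (PowerSeries.X : PowerSeries k) ∈
      (Ot 1 : Ideal (MvPowerSeries Unit k)) := (Ot 1).mul_mem_left _ hX1
  have h4 := aeval_pair_sub_mem hfh hm1 hX1 hmX hX1 h3
    (by rw [sub_self]; exact (Ot 2).zero_mem)
  have h5 := aeval_pair_line hfh (j : k) (PowerSeries.X : MvPowerSeries Unit k)
  rw [h5] at h4
  have h6 := (Ot (d + 1)).add_mem h1 h4
  rw [sub_add_sub_cancel] at h6
  have h7 := h6 (Finsupp.single () d) (by rw [Finsupp.degree_single]; exact Nat.lt_succ_self d)
  rw [map_sub, sub_eq_zero] at h7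
  have h8 : PowerSeries.coeff d (PowerSeries.C (MvPolynomial.eval ![(j : k), 1] f) *
      (PowerSeries.X : PowerSeries k) ^ d) = MvPolynomial.eval ![(j : k), 1] f := by
    rw [PowerSeries.coeff_C_mul, PowerSeries.coeff_X_pow_self, mul_one]
  rw [← h8]
  exact h7

omit hΓp in
theorem cob_X_pow (e : ℕ) : cob Γ (PowerSeries.X ^ e) =
    X 0 ^ e + X 1 ^ e - Γ.toPowerSeries ^ e := by
  have key : ∀ {A : MvPowerSeries (Fin 2) k}, PowerSeries.HasSubst A →
      PowerSeries.subst A (PowerSeries.X ^ e : PowerSeries k) = A ^ e := by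
    intro A hA
    rw [PowerSeries.subst_pow hA, PowerSeries.subst_X hA]
  unfold cob
  rw [key (hasSubst_X 0), key (hasSubst_X 1), key (hasSubst_F Γ)]

omit hΓp in
theorem cob_mem_Ot {N : ℕ} {g : PowerSeries k}
    (hg : g ∈ (Ot N : Ideal (MvPowerSeries Unit k))) : cob Γ g ∈ Ot N := by
  unfold cob
  exact sub_mem (add_mem (psubst_mem (X_mem_Ot 0) hg) (psubst_mem (X_mem_Ot 1) hg))
    (psubst_mem (F_mem_Ot Γ) hg)

theorem coeff_ne_zero_pow_n (g : PowerSeries k) (h0 : PowerSeries.constantCoeff g = 0)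
    {m : ℕ} (hm : m < p ^ n) :
    PowerSeries.coeff m (g.subst (PowerSeries.X ^ (p ^ n) : PowerSeries k)) = 0 := by
  have hq : p ^ n ≠ 0 := pow_ne_zero _ (Fact.out : p.Prime).ne_zero
  obtain ⟨g1, rfl⟩ := PowerSeries.X_dvd_iff.2 h0
  have hs : PowerSeries.HasSubst (PowerSeries.X ^ (p ^ n) : PowerSeries k) :=
    PowerSeries.HasSubst.of_constantCoeff_zero' (by
      rw [map_pow, PowerSeries.constantCoeff_X, zero_pow hq])
  rw [PowerSeries.subst_mul hs, PowerSeries.subst_X hs]
  exact PowerSeries.X_pow_dvd_iff.1 (Dvd.intro _ rfl) m hm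

theorem coh_step (hlow : ∀ d : Fin 2 →₀ ℕ, 2 ≤ d.degree → d.degree < p ^ n →
      coeff d Γ.toPowerSeries = 0) (D : MvPowerSeries (Fin 2) k) (hD : IsCocycle Γ D)
    (hN : ∀ i, 1 ≤ i → i < n → PowerSeries.coeff (p ^ i) (Nser Γ p D) = 0)
    {d : ℕ} (hd : 2 ≤ d) (g : PowerSeries k) (h0 : PowerSeries.constantCoeff g = 0)
    (hg : D - cob Γ g ∈ Ot d) :
    ∃ u : PowerSeries k, PowerSeries.constantCoeff u = 0 ∧
      (∀ m, m * p ^ n < d → PowerSeries.coeff m u = 0) ∧ D - cob Γ (g - u) ∈ Ot (d + 1) := by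
  have hpp : p.Prime := Fact.out
  have hq : p ^ n ≠ 0 := pow_ne_zero _ hpp.ne_zero
  have hq1 : 1 ≤ p ^ n := Nat.one_le_iff_ne_zero.2 hq
  have hchar : CharP (MvPowerSeries (Fin 2) k) p :=
    charP_of_injective_ringHom (f := (C : k →+* MvPowerSeries (Fin 2) k))
      (RingHom.injective _) p
  have hchar' : CharP (MvPolynomial (Fin 2) k) p :=
    charP_of_injective_ringHom (f := (MvPolynomial.C : k →+* MvPolynomial (Fin 2) k))
      (MvPolynomial.C_injective _ _) p
  have hD' : IsCocycle Γ (D - cob Γ g) := hD.sub Γ (isCocycle_cob p Γ hΓp g h0)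
  obtain ⟨f, hfh, hf⟩ := exists_homogeneous hg
  have hsym := coh_symm Γ hD' hfh hf
  have hcoc := coh_cocycle Γ hD' hfh hf
  have hsum := coh_coeff_Nser p Γ hfh hf
  rw [Nser_sub, Nser_cob p Γ hΓp g h0, sub_neg_eq_add, map_add] at hsum
  have hs : ∀ p q : MvPolynomial (Fin 2) k, ((p - q : MvPolynomial (Fin 2) k) :
      MvPowerSeries (Fin 2) k) = (p : MvPowerSeries (Fin 2) k) - (q : MvPowerSeries (Fin 2) k) :=
    fun p q => map_sub (MvPolynomial.coeToMvPowerSeries.ringHom (σ := Fin 2) (R := k)) p q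
  have hgu : ∀ u : PowerSeries k, D - cob Γ (g - u) = (D - cob Γ g) + cob Γ u := by
    intro u
    rw [cob_sub]
    ring
  by_cases hdp : ∃ i, d = p ^ i
  · obtain ⟨i, rfl⟩ := hdp
    have hzero : ∀ c : k, MvPolynomial.C c *
        ((MvPolynomial.X 0 + MvPolynomial.X 1) ^ (p ^ i) - MvPolynomial.X 0 ^ (p ^ i) -
          MvPolynomial.X 1 ^ (p ^ i) : MvPolynomial (Fin 2) k) = 0 := by
      intro c
      rw [add_pow_char_pow]
      ring
    by_cases hin : i < n
    · have hi1 : 1 ≤ i := by
        by_contra hcon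
        have : i = 0 := by omega
        rw [this, pow_zero] at hd
        omega
      rw [hN i hi1 hin, coeff_ne_zero_pow_n p Γ hΓp g h0
        (Nat.pow_lt_pow_right hpp.one_lt hin), add_zero] at hsum
      obtain ⟨c, hc⟩ := cocycle_coboundary p f (p ^ i) hd hfh hsym hcoc hsum.symm
      rw [hzero c] at hc
      refine ⟨0, map_zero _, fun m _ => map_zero _, ?_⟩
      rw [sub_zero]
      rw [hc] at hf
      simpa using hf
    · push Not at hin
      set e := p ^ (i - n) with he
      have hei : e * p ^ n = p ^ i := by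
        rw [he, ← pow_add]
        congr 1
        omega
      have he0 : e ≠ 0 := pow_ne_zero _ hpp.ne_zero
      set v : PowerSeries k := PowerSeries.X ^ e with hv
      have hv0 : PowerSeries.constantCoeff v = 0 := by
        rw [hv, map_pow, PowerSeries.constantCoeff_X, zero_pow he0]
      have hcv : IsCocycle Γ (cob Γ v) := isCocycle_cob p Γ hΓp v hv0
      have hΓq : Γ.toPowerSeries - X 0 - X 1 ∈ Ot (p ^ n) := by
        intro m hm
        by_cases hm2 : 2 ≤ m.degree
        · rw [map_sub, map_sub, hlow m hm2 hm, coeff_X, coeff_X, if_neg, if_neg]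
          · ring
          · rintro rfl
            rw [Finsupp.degree_single] at hm2
            omega
          · rintro rfl
            rw [Finsupp.degree_single] at hm2
            omega
        · have h2 := F_pair_sub_mem Γ (X_mem_Ot (R := k) (0 : Fin 2)) (X_mem_Ot (1 : Fin 2))
          rw [subst_pair_X] at h2
          have h3 := h2 m (by omega)
          rw [← h3]
          congr 1
          ring
      have hOt : cob Γ v ∈ Ot (p ^ i) := by
        have e1 : cob Γ v = - (Γ.toPowerSeries - X 0 - X 1) ^ e := by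
          rw [hv, cob_X_pow, he, sub_pow_char_pow, sub_pow_char_pow]
          ring
        rw [e1]
        refine neg_mem ?_
        have key : ∀ (A : MvPowerSeries (Fin 2) k) (a b : ℕ), A ∈ Ot a → A ^ b ∈ Ot (b * a) := by
          intro A a b hA
          induction b with
          | zero => rw [zero_mul]; exact mem_Ot_zero _
          | succ b ih =>
            rw [pow_succ, add_mul, one_mul]
            exact Ot_mul ih hA
        rw [← hei]
        exact key _ _ _ hΓq
      obtain ⟨h, hhh, hh⟩ := exists_homogeneous hOt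
      have hsym2 := coh_symm Γ hcv hhh hh
      have hcoc2 := coh_cocycle Γ hcv hhh hh
      have hsum2 := coh_coeff_Nser p Γ hhh hh
      have hvq : v.subst (PowerSeries.X ^ (p ^ n) : PowerSeries k) = PowerSeries.X ^ (p ^ i) := by
        have hsx : PowerSeries.HasSubst (PowerSeries.X ^ (p ^ n) : PowerSeries k) :=
          PowerSeries.HasSubst.of_constantCoeff_zero' (by
            rw [map_pow, PowerSeries.constantCoeff_X, zero_pow hq])
        rw [hv, PowerSeries.subst_pow hsx, PowerSeries.subst_X hsx, ← pow_mul, mul_comm, hei]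
      rw [Nser_cob p Γ hΓp v hv0, hvq, map_neg, PowerSeries.coeff_X_pow_self] at hsum2
      set a := ∑ j ∈ Finset.range p, MvPolynomial.eval ![(j : k), 1] f with ha
      have hf2h : (f + MvPolynomial.C a * h).IsHomogeneous (p ^ i) := by
        refine hfh.add ?_
        have := (MvPolynomial.isHomogeneous_C (Fin 2) a).mul hhh
        rwa [zero_add] at this
      have hC : ∀ (σ : Type) (x y : MvPolynomial σ k), MvPolynomial.aeval ![x, y]
          (f + MvPolynomial.C a * h) = MvPolynomial.aeval ![x, y] f +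
            MvPolynomial.C a * MvPolynomial.aeval ![x, y] h := by
        intro σ x y
        rw [map_add, map_mul, MvPolynomial.algHom_C, MvPolynomial.algebraMap_eq]
      obtain ⟨c, hc⟩ := cocycle_coboundary p (f + MvPolynomial.C a * h) (p ^ i) hd hf2h
        (by rw [hC, hsym, hsym2])
        (by
          rw [hC, hC, hC, hC]
          linear_combination hcoc + MvPolynomial.C a * hcoc2)
        (by
          have : ∀ j : ℕ, MvPolynomial.eval ![(j : k), 1] (f + MvPolynomial.C a * h) =
              MvPolynomial.eval ![(j : k), 1] f + a * MvPolynomial.eval ![(j : k), 1] h := by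
            intro j
            rw [map_add, map_mul, MvPolynomial.eval_C]
          rw [Finset.sum_congr rfl fun j _ => this j, Finset.sum_add_distrib, ← Finset.mul_sum,
            ← hsum2, ← ha]
          ring)
      rw [hzero c] at hc
      refine ⟨PowerSeries.C a * v, ?_, ?_, ?_⟩
      · rw [map_mul, hv0, mul_zero]
      · intro m hm
        have hme : m < e := by
          rw [← hei] at hm
          exact lt_of_mul_lt_mul_right hm (Nat.zero_le _)
        rw [PowerSeries.coeff_C_mul, hv, PowerSeries.coeff_X_pow, if_neg (by omega), mul_zero]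
      · rw [hgu, cob_C_mul]
        have h1 := (Ot (p ^ i + 1)).add_mem hf ((Ot (p ^ i + 1)).mul_mem_left (C a) hh)
        have h2 : ((f : MvPowerSeries (Fin 2) k) + C a * (h : MvPowerSeries (Fin 2) k)) = 0 := by
          have := congrArg (fun P : MvPolynomial (Fin 2) k => (P : MvPowerSeries (Fin 2) k)) hc
          simp only [MvPolynomial.coe_add, MvPolynomial.coe_mul, MvPolynomial.coe_C,
            MvPolynomial.coe_zero] at this
          exact this
        convert h1 using 1
        linear_combination h2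
  · push Not at hdp
    obtain ⟨c, hc⟩ := homogeneous_cocycle_main p f d hd hfh hsym hcoc hdp
    refine ⟨PowerSeries.C c * PowerSeries.X ^ d, ?_, ?_, ?_⟩
    · rw [map_mul, map_pow, PowerSeries.constantCoeff_X, zero_pow (by omega), mul_zero]
    · intro m hm
      have hmd : m < d := lt_of_le_of_lt (Nat.le_mul_of_pos_right m hq1) hm
      rw [PowerSeries.coeff_C_mul, PowerSeries.coeff_X_pow, if_neg (by omega), mul_zero]
    · rw [hgu, cob_C_mul, cob_X_pow]
      have h2 := F_pair_sub_mem Γ (X_mem_Ot (R := k) (0 : Fin 2)) (X_mem_Ot (1 : Fin 2))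
      rw [subst_pair_X] at h2
      have h3 := pow_sub_pow_mem (F_mem_Ot Γ)
        ((Ot 1).add_mem (X_mem_Ot (0 : Fin 2)) (X_mem_Ot (1 : Fin 2))) h2 d
      have h4 := sub_mem hf ((Ot (d + 1)).mul_mem_left (C c) h3)
      rw [hc, MvPolynomial.coe_mul, hs, hs, MvPolynomial.coe_pow, MvPolynomial.coe_pow,
        MvPolynomial.coe_pow, MvPolynomial.coe_add, MvPolynomial.coe_X, MvPolynomial.coe_X,
        MvPolynomial.coe_C] at h4
      convert h4 using 1
      ring

theorem cocycle_eq_cob (hlow : ∀ d : Fin 2 →₀ ℕ, 2 ≤ d.degree → d.degree < p ^ n →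
      coeff d Γ.toPowerSeries = 0) (D : MvPowerSeries (Fin 2) k) (hD : IsCocycle Γ D)
    (hN : ∀ i, 1 ≤ i → i < n → PowerSeries.coeff (p ^ i) (Nser Γ p D) = 0) :
    ∃ g : PowerSeries k, PowerSeries.constantCoeff g = 0 ∧ D = cob Γ g := by
  classical
  have hpp : p.Prime := Fact.out
  have hq1 : 1 ≤ p ^ n := Nat.one_le_iff_ne_zero.2 (pow_ne_zero _ hpp.ne_zero)
  have cob0 : cob Γ (0 : PowerSeries k) = 0 := by
    have := cob_sub Γ (0 : PowerSeries k) 0
    rwa [sub_self, sub_self] at this
  have hstep := fun (d : ℕ) (hd : 2 ≤ d) (g : PowerSeries k)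
    (h : PowerSeries.constantCoeff g = 0 ∧ D - cob Γ g ∈ Ot d) =>
      coh_step p Γ hΓp hlow D hD hN hd g h.1 h.2
  let seq : (j : ℕ) → {g : PowerSeries k // PowerSeries.constantCoeff g = 0 ∧
      D - cob Γ g ∈ Ot (j + 2)} := fun j =>
    Nat.rec ⟨0, map_zero _, by rw [cob0, sub_zero]; exact coh_mem_two Γ hD⟩ (fun j g =>
      ⟨g.1 - Classical.choose (hstep (j + 2) (by omega) g.1 g.2),
        by
          rw [map_sub, g.2.1, (Classical.choose_spec (hstep (j + 2) (by omega) g.1 g.2)).1,
            sub_zero],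
        (Classical.choose_spec (hstep (j + 2) (by omega) g.1 g.2)).2.2⟩) j
  have hseq : ∀ j m, m * p ^ n < j + 2 → PowerSeries.coeff m (seq (j + 1)).1 =
      PowerSeries.coeff m (seq j).1 := by
    intro j m hm
    have h1 : (seq (j + 1)).1 = (seq j).1 -
        Classical.choose (hstep (j + 2) (by omega) (seq j).1 (seq j).2) := rfl
    rw [h1, map_sub,
      (Classical.choose_spec (hstep (j + 2) (by omega) (seq j).1 (seq j).2)).2.1 m hm, sub_zero]
  have hco : ∀ i j, i ≤ j → ∀ m, m * p ^ n ≤ i → PowerSeries.coeff m (seq j).1 =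
      PowerSeries.coeff m (seq i).1 := by
    intro i j hij
    induction j, hij using Nat.le_induction with
    | base => intro m _; rfl
    | succ j hj ih =>
      intro m hm
      rw [hseq j m (by omega), ih m hm]
  let g : PowerSeries k := PowerSeries.mk fun m => PowerSeries.coeff m (seq (m * p ^ n)).1
  have hg : ∀ j m, m * p ^ n ≤ j → PowerSeries.coeff m g = PowerSeries.coeff m (seq j).1 := by
    intro j m hm
    change PowerSeries.coeff m (PowerSeries.mk fun m => PowerSeries.coeff m (seq (m * p ^ n)).1) = _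
    rw [PowerSeries.coeff_mk]
    exact (hco (m * p ^ n) j hm m le_rfl).symm
  have hgO : ∀ N, g - (seq (N * p ^ n)).1 ∈ (Ot N : Ideal (MvPowerSeries Unit k)) := by
    intro N e he
    have he' : e = Finsupp.single () (e ()) := by ext; simp
    have hdeg : e.degree = e () := by
      rw [Finsupp.degree_eq_sum]; simp
    rw [hdeg] at he
    rw [he']
    change PowerSeries.coeff (e ()) (g - (seq (N * p ^ n)).1) = 0
    rw [map_sub, hg (N * p ^ n) (e ()) (Nat.mul_le_mul_right _ he.le), sub_self]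
  refine ⟨g, ?_, ?_⟩
  · rw [← PowerSeries.coeff_zero_eq_constantCoeff_apply, hg 0 0 (by omega),
      PowerSeries.coeff_zero_eq_constantCoeff_apply, (seq 0).2.1]
  · rw [← sub_eq_zero]
    apply eq_zero_of_Ot
    intro N
    have h1 := (seq (N * p ^ n)).2.2
    have h2 : D - cob Γ (seq (N * p ^ n)).1 ∈ Ot N :=
      Ot_mono (by nlinarith [Nat.le_mul_of_pos_right N hq1]) h1
    have h3 := cob_mem_Ot Γ (hgO N)
    have h4 := sub_mem h2 h3
    rw [cob_sub] at h4
    convert h4 using 1
    ring

end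

theorem homogeneous_cocycle {κ : Type*} [Field κ] (p : ℕ) [Fact p.Prime] [CharP κ p]
    (f : MvPolynomial (Fin 2) κ) (d : ℕ) (hd : 2 ≤ d) (hdp : ∀ i, d ≠ p ^ i)
    (hf : f.IsHomogeneous d)
    (hsymm : MvPolynomial.aeval ![MvPolynomial.X 1, MvPolynomial.X 0] f = f)
    (hcoc : MvPolynomial.aeval
        ![(MvPolynomial.X 1 : MvPolynomial (Fin 3) κ), MvPolynomial.X 2] f +
      MvPolynomial.aeval
        ![(MvPolynomial.X 0 : MvPolynomial (Fin 3) κ), MvPolynomial.X 1 + MvPolynomial.X 2] f =
      MvPolynomial.aeval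
        ![(MvPolynomial.X 0 + MvPolynomial.X 1 : MvPolynomial (Fin 3) κ), MvPolynomial.X 2] f +
      MvPolynomial.aeval
        ![(MvPolynomial.X 0 : MvPolynomial (Fin 3) κ), MvPolynomial.X 1] f) :
    ∃ c : κ, f = MvPolynomial.C c *
      ((MvPolynomial.X 0 + MvPolynomial.X 1) ^ d - MvPolynomial.X 0 ^ d - MvPolynomial.X 1 ^ d) := by
  exact homogeneous_cocycle_main p f d hd hf hsymm hcoc hdp

end Vale.Agent.P217
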