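import Mathlib.Algebra.Ring.IsFormallyReal
import Vale.Agent.Lib.P217.LiftPow
import Vale.Agent.Lib.P217.OK

/-!
# P217 (characteristic zero part): multiplication by `p` of an approximate endomorphism
(proofs of `defect_step` and `defect_norm` of `DispZ.lean`)
-/

set_option linter.unusedSectionVars false

namespace Vale.Agent.P217

open MvPowerSeries Filter Topology

namespace DefectAux

open LiftPow

section
variable {B : Type*} [CommRing B]

theorem coefId_mono {σ : Type*} {J J' : Ideal B} (h : J ≤ J') {f : MvPowerSeries σ B}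
    (hf : f ∈ coefId σ J) : f ∈ coefId σ J' := by
  rw [mem_coefId] at hf ⊢
  exact fun d => h (hf d)

theorem sq_mem_coefId {σ : Type*} {J : Ideal B} {f : MvPowerSeries σ B} (hf : f ∈ coefId σ J) :
    f ^ 2 ∈ coefId σ (J ^ 2) := by
  classical
  rw [mem_coefId] at hf ⊢
  intro d
  rw [pow_two, pow_two, coeff_mul]
  exact Ideal.sum_mem _ fun x _ => Ideal.mul_mem_mul (hf _) (hf _)

theorem natCast_mul_mem_coefId {σ : Type*} (p : ℕ) {J : Ideal B} {f : MvPowerSeries σ B}
    (hf : f ∈ coefId σ J) :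
    (p : MvPowerSeries σ B) * f ∈ coefId σ (Ideal.span {(p : B)} * J) := by
  rw [mem_coefId] at hf ⊢
  intro d
  have h1 : (p : MvPowerSeries σ B) * f = (p : B) • f := by
    rw [MvPowerSeries.smul_eq_C_mul, map_natCast]
  rw [h1, coeff_smul]
  exact Ideal.mul_mem_mul (Ideal.mem_span_singleton_self _) (hf d)

/-- `[p](X) = p X + X² V(X)` -/
theorem exists_mulSeries_eq (F : FormalGroup B) (p : ℕ) : ∃ V : PowerSeries B,
    mulSeries F p = (p : PowerSeries B) * PowerSeries.X + PowerSeries.X ^ 2 * V := by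
  have h : PowerSeries.X ^ 2 ∣ mulSeries F p - (p : PowerSeries B) * PowerSeries.X := by
    rw [PowerSeries.X_pow_dvd_iff]
    intro m hm
    interval_cases m
    · rw [map_sub, PowerSeries.coeff_zero_eq_constantCoeff_apply, mulSeries_constantCoeff,
        PowerSeries.coeff_zero_eq_constantCoeff_apply]
      simp
    · rw [map_sub, mulSeries_coeff_one, PowerSeries.coeff_succ_mul_X,
        PowerSeries.coeff_zero_eq_constantCoeff_apply, map_natCast, sub_self]
  obtain ⟨V, hV⟩ := h
  exact ⟨V, by rw [← hV]; ring⟩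

theorem nsmul_mem_coefId {F : FormalGroup B} [F.IsComm] (p : ℕ) {σ : Type*} {J : Ideal B}
    {D : F.Point σ} (hD : D.val ∈ coefId σ J) :
    (p • D).val ∈ coefId σ (Ideal.span {(p : B)} * J ⊔ J ^ 2) := by
  obtain ⟨V, hV⟩ := exists_mulSeries_eq F p
  have hcast : PowerSeries.subst D.val ((p : PowerSeries B)) = (p : MvPowerSeries σ B) := by
    rw [← PowerSeries.coe_substAlgHom D.prop, map_natCast]
  rw [Point.nsmul_val, hV, PowerSeries.subst_add D.prop, PowerSeries.subst_mul D.prop,
    PowerSeries.subst_mul D.prop, PowerSeries.subst_pow D.prop, PowerSeries.subst_X D.prop, hcast]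
  refine Ideal.add_mem _ ?_ ?_
  · exact coefId_mono le_sup_left (natCast_mul_mem_coefId p hD)
  · exact Ideal.mul_mem_right _ _ (coefId_mono le_sup_right (sq_mem_coefId hD))

end

end DefectAux

open LiftPow DefectAux in
theorem defect_step_aux {B : Type*} [CommRing B] (F : FormalGroup B) [F.IsComm] (p : ℕ)
    (J : Ideal B) (β : PowerSeries B) (hβ0 : PowerSeries.constantCoeff β = 0)
    (hβ : ∀ d, coeff d (PowerSeries.subst F.toPowerSeries β -
      MvPowerSeries.subst ![PowerSeries.subst (X 0 : MvPowerSeries (Fin 2) B) β,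
        PowerSeries.subst (X 1 : MvPowerSeries (Fin 2) B) β] F.toPowerSeries) ∈ J) :
    ∀ d, coeff d (PowerSeries.subst F.toPowerSeries ((mulSeries F p).subst β) -
      MvPowerSeries.subst
        ![PowerSeries.subst (X 0 : MvPowerSeries (Fin 2) B) ((mulSeries F p).subst β),
          PowerSeries.subst (X 1 : MvPowerSeries (Fin 2) B) ((mulSeries F p).subst β)]
        F.toPowerSeries) ∈ Ideal.span {(p : B)} * J ⊔ J ^ 2 := by
  have hβs : PowerSeries.HasSubst β := PowerSeries.HasSubst.of_constantCoeff_zero' hβ0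
  have hX0 : PowerSeries.HasSubst (X 0 : MvPowerSeries (Fin 2) B) := hasSubst_X 0
  have hX1 : PowerSeries.HasSubst (X 1 : MvPowerSeries (Fin 2) B) := hasSubst_X 1
  set A : F.Point (Fin 2) := ⟨PowerSeries.subst F.toPowerSeries β,
    hasSubst_psubst (hasSubst_F F) hβ0⟩ with hA
  set G0 : F.Point (Fin 2) := ⟨PowerSeries.subst (X 0) β, hasSubst_psubst hX0 hβ0⟩ with hG0
  set G1 : F.Point (Fin 2) := ⟨PowerSeries.subst (X 1) β, hasSubst_psubst hX1 hβ0⟩ with hG1
  have hbase : (A - (G0 + G1)).val ∈ coefId (Fin 2) J := by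
    rw [← sub_mem_iff, mem_coefId]
    exact hβ
  have h3 := nsmul_mem_coefId p hbase
  rw [smul_sub, smul_add, ← sub_mem_iff, mem_coefId] at h3
  have e1 : (p • A).val =
      PowerSeries.subst F.toPowerSeries ((mulSeries F p).subst β) := by
    rw [Point.nsmul_val]
    exact (PowerSeries.subst_comp_subst_apply hβs (hasSubst_F F) _).symm
  have e2 : (p • G0 + p • G1).val = MvPowerSeries.subst
        ![PowerSeries.subst (X 0 : MvPowerSeries (Fin 2) B) ((mulSeries F p).subst β),
          PowerSeries.subst (X 1 : MvPowerSeries (Fin 2) B) ((mulSeries F p).subst β)]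
        F.toPowerSeries := by
    rw [FormalGroup.add_apply, Point.nsmul_val, Point.nsmul_val,
      PowerSeries.subst_comp_subst_apply hβs hX0, PowerSeries.subst_comp_subst_apply hβs hX1]
  rw [e1, e2] at h3
  exact h3

/-- `[p^{m+1}] ∘ β = [p] ∘ ([p^m] ∘ β)` -/
theorem mulSeries_pow_succ_subst {B : Type*} [CommRing B] (F : FormalGroup B) (p m : ℕ)
    (β : PowerSeries B) (hβ0 : PowerSeries.constantCoeff β = 0) :
    (mulSeries F (p ^ (m + 1))).subst β = (mulSeries F p).subst ((mulSeries F (p ^ m)).subst β) := by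
  have h : (p * p ^ m) • idPoint F = p • (p ^ m • idPoint F) := mul_smul p (p ^ m) (idPoint F)
  have h' := congrArg Subtype.val h
  rw [Point.nsmul_val p] at h'
  have h2 : mulSeries F (p ^ (m + 1)) = (mulSeries F p).subst (mulSeries F (p ^ m)) := by
    rw [pow_succ']
    exact h'
  rw [h2]
  exact PowerSeries.subst_comp_subst_apply (hasSubst_mulSeries F _)
    (PowerSeries.HasSubst.of_constantCoeff_zero' hβ0) _

theorem mulSeries_one_subst {B : Type*} [CommRing B] (F : FormalGroup B)
    (β : PowerSeries B) (hβ0 : PowerSeries.constantCoeff β = 0) :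
    (mulSeries F 1).subst β = β := by
  have h : mulSeries F 1 = PowerSeries.X := by
    rw [mulSeries, one_smul]
    rfl
  rw [h, PowerSeries.subst_X (PowerSeries.HasSubst.of_constantCoeff_zero' hβ0)]

/-- the sequence of bounds for the defect -/
noncomputable def dseq (P c : ℝ) : ℕ → ℝ
  | 0 => c
  | j + 1 => max (P * dseq P c j) (dseq P c j ^ 2)

theorem exists_dseq_le {P c : ℝ} (hP0 : 0 < P) (hP1 : P < 1) (hc0 : 0 ≤ c) (hc1 : c < 1) :
    ∃ C : ℝ, 0 < C ∧ ∀ m, dseq P c m ≤ C * P ^ m := by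
  have hnn : ∀ m, 0 ≤ dseq P c m := by
    intro m
    induction m with
    | zero => exact hc0
    | succ m ih => exact le_max_of_le_right (sq_nonneg _)
  set r : ℝ := max P c with hr
  have hr0 : 0 < r := lt_max_of_lt_left hP0
  have hr1 : r < 1 := max_lt hP1 hc1
  have hle : ∀ m, dseq P c m ≤ c ∧ dseq P c m ≤ r ^ m := by
    intro m
    induction m with
    | zero => exact ⟨le_rfl, by simpa [dseq] using hc1.le⟩
    | succ m ih =>
      have h1 : dseq P c (m + 1) ≤ r * dseq P c m := by
        show max (P * dseq P c m) (dseq P c m ^ 2) ≤ r * dseq P c m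
        apply max_le
        · exact mul_le_mul_of_nonneg_right (le_max_left _ _) (hnn m)
        · rw [pow_two]
          exact mul_le_mul_of_nonneg_right (ih.1.trans (le_max_right _ _)) (hnn m)
      refine ⟨h1.trans ?_, h1.trans ?_⟩
      · calc r * dseq P c m ≤ 1 * dseq P c m := mul_le_mul_of_nonneg_right hr1.le (hnn m)
          _ ≤ c := by rw [one_mul]; exact ih.1
      · rw [pow_succ']
        exact mul_le_mul_of_nonneg_left ih.2 hr0.le
  obtain ⟨j₀, hj₀⟩ := exists_pow_lt_of_lt_one hP0 hr1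
  have hlate : ∀ i, dseq P c (j₀ + i) ≤ P ^ i ∧ dseq P c (j₀ + i) ≤ P := by
    intro i
    induction i with
    | zero => exact ⟨by rw [pow_zero]; exact (hle j₀).1.trans hc1.le, (hle j₀).2.trans hj₀.le⟩
    | succ i ih =>
      have h1 : dseq P c (j₀ + (i + 1)) ≤ P * dseq P c (j₀ + i) := by
        show max (P * dseq P c (j₀ + i)) (dseq P c (j₀ + i) ^ 2) ≤ P * dseq P c (j₀ + i)
        apply max_le le_rfl
        rw [pow_two]
        exact mul_le_mul_of_nonneg_right ih.2 (hnn _)
      refine ⟨h1.trans ?_, h1.trans ?_⟩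
      · rw [pow_succ']
        exact mul_le_mul_of_nonneg_left ih.1 hP0.le
      · calc P * dseq P c (j₀ + i) ≤ P * 1 :=
              mul_le_mul_of_nonneg_left (ih.2.trans hP1.le) hP0.le
          _ = P := mul_one P
  refine ⟨(P ^ j₀)⁻¹, by positivity, fun m => ?_⟩
  rcases le_or_gt j₀ m with h | h
  · obtain ⟨i, rfl⟩ := Nat.exists_eq_add_of_le h
    refine (hlate i).1.trans (le_of_eq ?_)
    rw [pow_add, ← mul_assoc, inv_mul_cancel₀ (pow_ne_zero _ hP0.ne'), one_mul]
  · have h1 : dseq P c m ≤ 1 := (hle m).1.trans hc1.le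
    have h2 : P ^ j₀ ≤ P ^ m := pow_le_pow_of_le_one hP0.le hP1.le h.le
    refine h1.trans ?_
    rw [inv_mul_eq_div, le_div_iff₀ (by positivity), one_mul]
    exact h2

theorem step_ballIdeal {K : Type*} [NormedField K] [IsUltrametricDist K] (p : ℕ) {s : ℝ}
    (hs : 0 ≤ s) {x : OO K}
    (hx : x ∈ Ideal.span {((p : ℕ) : OO K)} * ballIdeal K s hs ⊔ ballIdeal K s hs ^ 2) :
    ‖(x : K)‖ ≤ max (‖(p : K)‖ * s) (s ^ 2) := by
  have h0 : 0 ≤ max (‖(p : K)‖ * s) (s ^ 2) := le_max_of_le_right (sq_nonneg _)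
  have hle : Ideal.span {((p : ℕ) : OO K)} * ballIdeal K s hs ⊔ ballIdeal K s hs ^ 2 ≤
      ballIdeal K (max (‖(p : K)‖ * s) (s ^ 2)) h0 := by
    apply sup_le
    · rw [Ideal.mul_le]
      intro a ha b hb
      rw [Ideal.mem_span_singleton'] at ha
      obtain ⟨y, rfl⟩ := ha
      rw [mem_ballIdeal] at hb ⊢
      rw [Subring.coe_mul, Subring.coe_mul, norm_mul, norm_mul]
      refine le_trans ?_ (le_max_left _ _)
      have h1 : ‖(((p : ℕ) : OO K) : K)‖ = ‖(p : K)‖ := by norm_cast
      rw [h1]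
      calc ‖(y : K)‖ * ‖(p : K)‖ * ‖(b : K)‖ ≤ 1 * ‖(p : K)‖ * s := by
            gcongr
            exact norm_le_one y
        _ = _ := by rw [one_mul]
    · rw [pow_two, Ideal.mul_le]
      intro a ha b hb
      rw [mem_ballIdeal] at ha hb ⊢
      rw [Subring.coe_mul, norm_mul]
      refine le_trans ?_ (le_max_right _ _)
      rw [pow_two]
      gcongr
  exact mem_ballIdeal.1 (hle hx)

theorem defect_norm_aux {K : Type*} [NontriviallyNormedField K] [IsUltrametricDist K]
    [CompleteSpace K] (p : ℕ) (hp0 : (p : K) ≠ 0) (hp1 : ‖(p : K)‖ < 1) {c : ℝ} (hc0 : 0 ≤ c)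
    (hc1 : c < 1) : ∃ C : ℝ, 0 < C ∧ ∀ (F : FormalGroup (OO K)) (_ : F.IsComm)
      (β : PowerSeries (OO K)), PowerSeries.constantCoeff β = 0 →
      (∀ d, ‖((coeff d (PowerSeries.subst F.toPowerSeries β -
        MvPowerSeries.subst ![PowerSeries.subst (X 0 : MvPowerSeries (Fin 2) (OO K)) β,
          PowerSeries.subst (X 1 : MvPowerSeries (Fin 2) (OO K)) β] F.toPowerSeries) :
          OO K) : K)‖ ≤ c) →
      ∀ (m : ℕ) d, ‖((coeff d (PowerSeries.subst F.toPowerSeries
          ((mulSeries F (p ^ m)).subst β) -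
        MvPowerSeries.subst
          ![PowerSeries.subst (X 0 : MvPowerSeries (Fin 2) (OO K))
              ((mulSeries F (p ^ m)).subst β),
            PowerSeries.subst (X 1 : MvPowerSeries (Fin 2) (OO K))
              ((mulSeries F (p ^ m)).subst β)] F.toPowerSeries) : OO K) : K)‖ ≤
        C * ‖(p : K)‖ ^ m := by
  have hP0 : 0 < ‖(p : K)‖ := norm_pos_iff.2 hp0
  obtain ⟨C, hC, hle⟩ := exists_dseq_le hP0 hp1 hc0 hc1
  refine ⟨C, hC, ?_⟩
  intro F _ β hβ0 hβ
  have hnn : ∀ m, 0 ≤ dseq ‖(p : K)‖ c m := by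
    intro m
    induction m with
    | zero => exact hc0
    | succ m ih => exact le_max_of_le_right (sq_nonneg _)
  have key : ∀ (m : ℕ) d, ‖((coeff d (PowerSeries.subst F.toPowerSeries
          ((mulSeries F (p ^ m)).subst β) -
        MvPowerSeries.subst
          ![PowerSeries.subst (X 0 : MvPowerSeries (Fin 2) (OO K))
              ((mulSeries F (p ^ m)).subst β),
            PowerSeries.subst (X 1 : MvPowerSeries (Fin 2) (OO K))
              ((mulSeries F (p ^ m)).subst β)] F.toPowerSeries) : OO K) : K)‖ ≤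
        dseq ‖(p : K)‖ c m := by
    intro m
    induction m with
    | zero =>
      intro d
      rw [pow_zero, mulSeries_one_subst F β hβ0]
      exact hβ d
    | succ m ih =>
      intro d
      have hγ0 : PowerSeries.constantCoeff ((mulSeries F (p ^ m)).subst β) = 0 :=
        PowerSeries.constantCoeff_subst_eq_zero hβ0 _ (mulSeries_constantCoeff F _)
      have h1 := defect_step_aux F p (ballIdeal K (dseq ‖(p : K)‖ c m) (hnn m))
        ((mulSeries F (p ^ m)).subst β) hγ0 (fun d => mem_ballIdeal.2 (ih d)) d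
      rw [← mulSeries_pow_succ_subst F p m β hβ0] at h1
      exact step_ballIdeal p (hnn m) h1
  exact fun m d => (key m d).trans (hle m)

end Vale.Agent.P217
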