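import Vale.Agent.Lib.P217.Lq
import Vale.Agent.Lib.P217.FrobFactor

/-!
# P217: endomorphisms of the Honda law and `L_h` (module W4)

`χ` is an endomorphism of `H = honda (OO K) p h` with coefficients fixed by `x ↦ x^{p^h}`. (They are in
`κ = {x | x^{p^h} = x}`, a finite subfield of `OO K`.)
* `end_honda_step`: `χ = [a] +_H χ'(X^p)` with `a = χ'(0)` (coefficient of degree one), `[a] = aX` (`isHom_honda_scale`): `χ -_H aX` is a
  homomorphism with derivative `0` at `0`, so is a series in `X^p` (`exists_frobenius_factor`), and `χ'` is an endomorphism of `H`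
  (`H.map frobenius = H`, `isHom_of_frobenius_factor`), its coefficients are in `κ` again (`κ` is a ring and `H`, `[-1]_H` have
  coefficients in the prime field).
* `end_honda_expand`: iterate: `χ = ∑^H_{j<N} [a_j] X^{p^j} +_H χ_N(X^{p^N})`. Apply `L_h ∘ Fr e`, additive by `Lq_add`:
  `L_h(Fr e (χ y)) = ∑_{j<N} T(a_j)^{p^e} L_h(Fr (j+e) y) + L_h(Fr e (χ_N(y^{p^N})))`, the last term tends to zero (`Lq_small`), and
  `L_h(Fr (t + hk + e) y) = p^k L_h(Fr (t+e) y)` (`Lq_frob`).  So the sum is `∑_{t<h} (∑_k p^k T(a_{t+hk})^{p^e}) L_h(Fr (t+e) y)`, and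
  `∑_k p^k T(a_{t+hk})^{p^e} = θ(φ^e x_t)` with `x_t = ∑_k p^k [a_{t+hk}] ∈ W(OO K)` (construct `x_t` by its
  coefficients: `x_t.coeff k = a_{t+hk}^{p^k}`; `‖θ(p^k …)‖ ≤ ρ^k` gives the convergence; `φ^h x_t = x_t` as the coefficients are in `κ`).
-/

set_option linter.unusedSectionVars false

namespace Vale.Agent.P217

open MvPowerSeries Filter Topology

namespace EndH

section
variable {R : Type*} [CommRing R]

/-- a series without constant term as a formal point -/
noncomputable def sp (F : FormalGroup R) (f : PowerSeries R)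
    (hf : PowerSeries.constantCoeff f = 0) : F.Point Unit :=
  ⟨f, PowerSeries.HasSubst.of_constantCoeff_zero' hf⟩

/-- evaluation of one-variable formal points at `x` -/
noncomputable def eh {G : FormalGroup R} [G.IsComm] {σ : Type*}
    {x : MvPowerSeries σ R} (hx : PowerSeries.HasSubst x) : G.Point Unit →+ G.Point σ where
  toFun f := ⟨PowerSeries.subst x f.val, hasSubst_subst hx.const f.prop⟩
  map_zero' := Subtype.ext (subst_zero' hx)
  map_add' f g := Subtype.ext (psubst_pair f.prop g.prop hx _)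

theorem eh_val {G : FormalGroup R} [G.IsComm] {σ : Type*}
    {x : MvPowerSeries σ R} (hx : PowerSeries.HasSubst x) (f : G.Point Unit) :
    (eh hx f).val = PowerSeries.subst x f.val := rfl

theorem isHom_iff_eh {F G : FormalGroup R} [G.IsComm] (f : G.Point Unit) :
    IsHom F G f.val ↔ PowerSeries.constantCoeff f.val = 0 ∧
      eh (hasSubst_F F) f =
        eh (hasSubst_X 0) f + eh (hasSubst_X 1) f := by
  constructor
  · rintro ⟨h0, h⟩
    exact ⟨h0, Subtype.ext h⟩
  · rintro ⟨h0, h⟩
    exact ⟨h0, congrArg Subtype.val h⟩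

theorem coeff_one_add {G : FormalGroup R} [G.IsComm] (f g : G.Point Unit)
    (hf : PowerSeries.constantCoeff f.val = 0) (hg : PowerSeries.constantCoeff g.val = 0) :
    PowerSeries.coeff 1 (f + g).val = PowerSeries.coeff 1 f.val + PowerSeries.coeff 1 g.val := by
  obtain ⟨H, hH⟩ := exists_toPowerSeries_eq G
  rw [FormalGroup.add_apply, subst_pair_eq hH f.prop g.prop]
  have h : PowerSeries.X ^ 2 ∣ f.val * g.val *
      (subst ![f.val, g.val] H : PowerSeries R) := by
    have h1 : PowerSeries.X ∣ f.val := PowerSeries.X_dvd_iff.2 hf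
    have h2 : PowerSeries.X ∣ g.val := PowerSeries.X_dvd_iff.2 hg
    rw [pow_two]
    exact (mul_dvd_mul h1 h2).mul_right _
  rw [map_add, map_add, PowerSeries.X_pow_dvd_iff.1 h 1 (by norm_num), add_zero]

/-- functoriality of formal points -/
noncomputable def pmap {S : Type*} [CommRing S] (G : FormalGroup R) [G.IsComm] (φ : R →+* S) :
    G.Point Unit →+ (G.map φ).Point Unit where
  toFun f := ⟨f.val.map φ, by
    have h := f.prop
    have h2 : IsNilpotent (φ (MvPowerSeries.constantCoeff f.val)) := h.map φ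
    change IsNilpotent (MvPowerSeries.constantCoeff (MvPowerSeries.map φ f.val))
    rwa [MvPowerSeries.constantCoeff_map]⟩
  map_zero' := Subtype.ext (map_zero _)
  map_add' f g := Subtype.ext (map_subst_pair φ f.prop g.prop G.toPowerSeries)

end

section dom
variable {R : Type*} [CommRing R] [IsDomain R] {p : ℕ} [Fact p.Prime] [CharP R p]

theorem constantCoeff_val {G : FormalGroup R} (f : G.Point Unit) :
    PowerSeries.constantCoeff f.val = 0 := by
  have h : IsNilpotent (MvPowerSeries.constantCoeff f.val) := f.prop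
  exact h.eq_zero

theorem isHom_sub {F G : FormalGroup R} [G.IsComm] (f g : G.Point Unit)
    (hf : IsHom F G f.val) (hg : IsHom F G g.val) : IsHom F G (f - g).val := by
  rw [isHom_iff_eh] at hf hg ⊢
  refine ⟨constantCoeff_val _, ?_⟩
  rw [map_sub, map_sub, map_sub, hf.2, hg.2]
  abel

theorem low_eq_zero {G F : FormalGroup R} {f : PowerSeries R} (hf : IsHom F G f)
    (h1 : PowerSeries.coeff 1 f = 0) : ∀ i < p, PowerSeries.coeff i f = 0 := by
  have h2 := hom_derivative hf
  rw [h1, map_zero, zero_mul] at h2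
  have h3 : PowerSeries.derivative R f = 0 := by
    rcases mul_eq_zero.1 h2 with h | h
    · exact h
    · exfalso
      have h4 := dser_constantCoeff F
      rw [h, map_zero] at h4
      exact zero_ne_one h4
  intro i hi
  rcases i with _ | i
  · rw [PowerSeries.coeff_zero_eq_constantCoeff_apply]
    exact hf.1
  · have h5 := congrArg (PowerSeries.coeff i) h3
    rw [PowerSeries.coeff_derivative, map_zero] at h5
    rcases mul_eq_zero.1 h5 with h | h
    · exact h
    · exfalso
      have h6 : ((i + 1 : ℕ) : R) = 0 := by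
        push_cast
        exact h
      rw [CharP.cast_eq_zero_iff R p] at h6
      exact absurd (Nat.le_of_dvd (Nat.succ_pos i) h6) (by omega)

theorem constantCoeff_pmap {S : Type*} [CommRing S] (φ : R →+* S) (f : PowerSeries R)
    (hf : PowerSeries.constantCoeff f = 0) :
    PowerSeries.constantCoeff (PowerSeries.map φ f) = 0 := by
  rw [← PowerSeries.coeff_zero_eq_constantCoeff_apply, PowerSeries.coeff_map,
    PowerSeries.coeff_zero_eq_constantCoeff_apply, hf, map_zero]

/-- fixed coefficients -/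
theorem fix_iff (h : ℕ) (f : PowerSeries R) :
    (∀ d, (PowerSeries.coeff d f) ^ (p ^ h) = PowerSeries.coeff d f) ↔
      f.map (iterateFrobenius R p h) = f := by
  constructor
  · intro h1
    ext d
    rw [PowerSeries.coeff_map, iterateFrobenius_def, h1]
  · intro h1 d
    have h2 := congrArg (PowerSeries.coeff d) h1
    rw [PowerSeries.coeff_map, iterateFrobenius_def] at h2
    exact h2

end dom

end EndH

section
variable {K : Type*} [NontriviallyNormedField K] [IsUltrametricDist K] [CompleteSpace K]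
  [IsAlgClosed K] {p : ℕ} [Fact p.Prime] [CharP K p]
  {B : Type*} [NormedCommRing B] [CompleteSpace B] [IsUltrametricDist B]

/-- endomorphisms of the Honda law of height `h` with coefficients in the field with `p^h` elements -/
structure IsEnd (p : ℕ) [Fact p.Prime] {h : ℕ} (hh : 0 < h) (χ : PowerSeries (OO K)) : Prop where
  hom : IsHom (honda (OO K) p h hh) (honda (OO K) p h hh) χ
  fix : ∀ d, (PowerSeries.coeff d χ) ^ (p ^ h) = PowerSeries.coeff d χ

/-- `χ` on points -/
noncomputable def IsEnd.app {h : ℕ} {hh : 0 < h} {χ : PowerSeries (OO K)} (H : IsEnd p hh χ) :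
    Pt (honda (OO K) p h hh) →+ Pt (honda (OO K) p h hh) := Pt.hom H.hom

theorem isEnd_X {h : ℕ} (hh : 0 < h) : IsEnd p hh (PowerSeries.X : PowerSeries (OO K)) := by
  refine ⟨isHom_X _, ?_⟩
  rw [EndH.fix_iff, PowerSeries.map_X]

/-- composition with Frobenius -/
theorem IsEnd.frob {h : ℕ} {hh : 0 < h} {χ : PowerSeries (OO K)} (H : IsEnd p hh χ) (e : ℕ) :
    IsEnd p hh (χ ^ (p ^ e)) := by
  have hs : PowerSeries.HasSubst χ := PowerSeries.HasSubst.of_constantCoeff_zero' H.hom.1
  refine ⟨?_, ?_⟩
  · have h1 := H.hom.comp (isHom_honda_frob (OO K) p h hh e)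
    rwa [PowerSeries.subst_pow hs, PowerSeries.subst_X hs] at h1
  · rw [EndH.fix_iff, map_pow, (EndH.fix_iff h χ).1 H.fix]

theorem EndH.ev1_add {F : FormalGroup (OO K)} [F.IsComm] (f g : F.Point Unit) (y : Pt F)
    (hf : PowerSeries.constantCoeff f.val = 0) (hg : PowerSeries.constantCoeff g.val = 0) :
    ev1 y.val (f + g).val = ev ![ev1 y.val f.val, ev1 y.val g.val] F.toPowerSeries :=
  ev_subst_pair (hasEval_unit y.tn) (hasSubst_pair_of_zero hf hg) F.toPowerSeries

theorem end_honda_step {h : ℕ} (hh : 0 < h) (χ : PowerSeries (OO K)) (H : IsEnd p hh χ) :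
    ∃ (χ' : PowerSeries (OO K)) (H' : IsEnd p hh χ'), ∀ y : Pt (honda (OO K) p h hh),
      ∃ u v : Pt (honda (OO K) p h hh), u.val = PowerSeries.coeff 1 χ * y.val ∧
        v.val = y.val ^ p ∧ H.app y = u + H'.app v := by
  set a := PowerSeries.coeff 1 χ with ha
  have haf : a ^ (p ^ h) = a := H.fix 1
  have hA : IsHom (honda (OO K) p h hh) (honda (OO K) p h hh)
    (PowerSeries.C a * PowerSeries.X) := isHom_honda_scale (OO K) p h hh a haf
  set cχ := EndH.sp (honda (OO K) p h hh) χ H.hom.1 with hcχ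
  set cA := EndH.sp (honda (OO K) p h hh) (PowerSeries.C a * PowerSeries.X) hA.1 with hcA
  set d := cχ - cA with hd
  have hdh : IsHom (honda (OO K) p h hh) (honda (OO K) p h hh) d.val :=
    EndH.isHom_sub cχ cA H.hom hA
  have hsum : cχ = cA + d := by rw [hd]; abel
  have hd1 : PowerSeries.coeff 1 d.val = 0 := by
    have h1 := EndH.coeff_one_add cA d hA.1 hdh.1
    rw [← hsum] at h1
    have h2 : PowerSeries.coeff 1 cχ.val = a := rfl
    have h3 : PowerSeries.coeff 1 cA.val = a := by
      change PowerSeries.coeff 1 (PowerSeries.C a * PowerSeries.X) = a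
      rw [PowerSeries.coeff_C_mul, PowerSeries.coeff_one_X, mul_one]
    rw [h2, h3] at h1
    exact left_eq_add.1 h1
  have hlow : ∀ i < p ^ 1, PowerSeries.coeff i d.val = 0 := by
    rw [pow_one]
    exact EndH.low_eq_zero hdh hd1
  obtain ⟨V, hV0, hV⟩ := exists_frobenius_factor p hdh 1 hlow
  have hVh := isHom_of_frobenius_factor p hdh 1 V hV0 hV
  rw [honda_map] at hVh
  -- coefficients are fixed
  have hfix : V.map (iterateFrobenius (OO K) p h) = V := by
    have hmap : (honda (OO K) p h hh).map (iterateFrobenius (OO K) p h) =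
      honda (OO K) p h hh := honda_map _ p h hh
    have hdc : PowerSeries.constantCoeff
        (PowerSeries.map (iterateFrobenius (OO K) p h) d.val) = 0 :=
      EndH.constantCoeff_pmap _ _ hdh.1
    have h1 : PowerSeries.map (iterateFrobenius (OO K) p h) d.val = d.val := by
      have h2 : cχ = cA + EndH.sp (honda (OO K) p h hh) _ hdc := by
        apply Subtype.ext
        have h3 := congrArg (MvPowerSeries.map (iterateFrobenius (OO K) p h))
          (congrArg Subtype.val hsum)
        have h4 := map_subst_pair (iterateFrobenius (OO K) p h) cA.prop d.prop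
          (honda (OO K) p h hh).toPowerSeries
        have h5 : MvPowerSeries.map (iterateFrobenius (OO K) p h) cχ.val = cχ.val :=
          (EndH.fix_iff h χ).1 H.fix
        have h6 : MvPowerSeries.map (iterateFrobenius (OO K) p h) cA.val = cA.val := by
          change PowerSeries.map (iterateFrobenius (OO K) p h)
            (PowerSeries.C a * PowerSeries.X) = PowerSeries.C a * PowerSeries.X
          rw [map_mul, PowerSeries.map_C, PowerSeries.map_X, iterateFrobenius_def, haf]
        have h7 : MvPowerSeries.map (iterateFrobenius (OO K) p h)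
            (honda (OO K) p h hh).toPowerSeries = (honda (OO K) p h hh).toPowerSeries :=
          congrArg FormalGroup.toPowerSeries hmap
        rw [h5] at h3
        rw [h6, h7] at h4
        exact h3.trans h4
      have h3 : EndH.sp (honda (OO K) p h hh) _ hdc = d := by
        rw [hsum] at h2
        exact (add_left_cancel h2).symm
      exact congrArg Subtype.val h3
    have hp1 : p ^ 1 ≠ 0 := by
      rw [pow_one]; exact (Fact.out : p.Prime).ne_zero
    have h2 : (V.map (iterateFrobenius (OO K) p h)).subst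
        (PowerSeries.X ^ (p ^ 1) : PowerSeries (OO K)) =
        V.subst (PowerSeries.X ^ (p ^ 1) : PowerSeries (OO K)) := by
      rw [hV] at h1
      have h3 := PowerSeries.map_subst (PowerSeries.HasSubst.X_pow (R := OO K) hp1)
        (h := iterateFrobenius (OO K) p h) V
      have h4 : MvPowerSeries.map (iterateFrobenius (OO K) p h)
          (PowerSeries.X ^ (p ^ 1) : PowerSeries (OO K)) = PowerSeries.X ^ (p ^ 1) := by
        change PowerSeries.map (iterateFrobenius (OO K) p h) (PowerSeries.X ^ (p ^ 1)) = _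
        rw [map_pow, PowerSeries.map_X]
      rw [h4] at h3
      exact h3.symm.trans h1
    refine PowerSeries.ext (fun i => ?_)
    have h3 := congrArg (PowerSeries.coeff (p ^ 1 * i)) h2
    rw [PowerSeries.coeff_subst_X_pow hp1, PowerSeries.coeff_subst_X_pow hp1,
      if_pos (Dvd.intro _ rfl), if_pos (Dvd.intro _ rfl),
      Nat.mul_div_cancel_left _ (Nat.pos_of_ne_zero hp1)] at h3
    exact h3
  have HV : IsEnd p hh V := ⟨hVh, (EndH.fix_iff h V).2 hfix⟩
  refine ⟨V, HV, ?_⟩
  intro y
  have hFr := isHom_honda_frob (OO K) p h hh 1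
  refine ⟨Pt.hom hA y, Pt.hom hFr y, ?_, ?_, ?_⟩
  · rw [Pt.hom_val]
    have h3 := ev_mul (hasEval_unit y.tn) (C a) (X () : MvPowerSeries Unit (OO K))
    rw [ev_C, ev_X] at h3
    exact h3
  · rw [Pt.hom_val]
    have h3 := ev_pow (hasEval_unit y.tn) (X () : MvPowerSeries Unit (OO K)) (p ^ 1)
    rw [ev_X] at h3
    exact h3.trans (by rw [pow_one])
  · apply Pt.ext
    rw [Pt.add_val]
    have h3 : (IsEnd.app H y).val = ev1 y.val (cA + d).val := by
      rw [← hsum]
      rfl
    rw [h3, EndH.ev1_add cA d y hA.1 hdh.1]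
    have h4 : ev1 y.val d.val = (HV.app (Pt.hom hFr y)).val := by
      rw [hV, ev1_comp y.tn V _ hFr.1]
      rfl
    rw [h4]
    rfl

namespace EndH

theorem frobenius_iterate_coeff (e : ℕ) (x : WittVector p (OO K)) (n : ℕ) :
    ((WittVector.frobenius (p := p) (R := OO K))^[e] x).coeff n = (x.coeff n) ^ (p ^ e) := by
  induction e with
  | zero => rw [pow_zero, pow_one]; rfl
  | succ e ih =>
    rw [Function.iterate_succ_apply', WittVector.coeff_frobenius_charP, ih, ← pow_mul, pow_succ]

theorem frobenius_iterate_teichmuller (e : ℕ) (y : OO K) :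
    (WittVector.frobenius (p := p) (R := OO K))^[e] (WittVector.teichmuller p y) =
      WittVector.teichmuller p (y ^ (p ^ e)) := by
  induction e with
  | zero => rw [pow_zero, pow_one]; rfl
  | succ e ih =>
    rw [Function.iterate_succ_apply', ih, WittVector.frobenius_eq_map_frobenius,
      WittVector.map_teichmuller, frobenius_def, ← pow_mul, pow_succ]

/-- the Witt vector with Teichmüller coordinates `c` -/
noncomputable def wv (p : ℕ) [Fact p.Prime] [CharP K p] (c : ℕ → OO K) : WittVector p (OO K) :=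
  WittVector.mk p fun k => (c k) ^ (p ^ k)

theorem ti_wv (c : ℕ → OO K) (n : ℕ) : TBNorm.ti (wv p c) n = c n :=
  TBNorm.symm_pow_apply_pow n (c n)

theorem norm_pow_mul (D : TB K p B) (n : ℕ) (b : B) :
    ‖(p : B) ^ n * b‖ = D.ρ ^ n * ‖b‖ := by
  induction n generalizing b with
  | zero => simp
  | succ n ih => rw [pow_succ, mul_assoc, ih, D.norm_p, pow_succ, mul_assoc]

theorem norm_wv_sub_le (D : TB K p B) (c : ℕ → OO K) (e M : ℕ) :
    ‖D.θ ((WittVector.frobenius (p := p) (R := OO K))^[e] (wv p c)) -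
      ∑ k ∈ Finset.range M, (p : B) ^ k * D.T ((c k) ^ (p ^ e))‖ ≤ D.ρ ^ M := by
  cases M with
  | zero =>
    rw [Finset.range_zero, Finset.sum_empty, sub_zero, pow_zero]
    exact D.norm_θ _
  | succ n =>
    obtain ⟨u, hu⟩ := TBNorm.dvd_ti (wv p c) n
    have h1 : (wv p c) = ∑ i ∈ Finset.range (n + 1), WittVector.teichmuller p (c i) *
        (p : WittVector p (OO K)) ^ i + (p : WittVector p (OO K)) ^ (n + 1) * u := by
      rw [← hu]
      have h2 : Finset.Iic n = Finset.range (n + 1) := by
        ext i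
        rw [Finset.mem_Iic, Finset.mem_range]
        omega
      rw [h2]
      have h3 : ∑ i ∈ Finset.range (n + 1), WittVector.teichmuller p (TBNorm.ti (wv p c) i) *
          (p : WittVector p (OO K)) ^ i = ∑ i ∈ Finset.range (n + 1),
          WittVector.teichmuller p (c i) * (p : WittVector p (OO K)) ^ i :=
        Finset.sum_congr rfl (fun i _ => by rw [ti_wv])
      rw [h3]
      ring
    have hφ : ∀ z : WittVector p (OO K), (WittVector.frobenius (p := p) (R := OO K))^[e] z =
        ((WittVector.frobenius (p := p) (R := OO K)) ^ e : WittVector p (OO K) →+*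
          WittVector p (OO K)) z := by
      intro z
      rw [RingHom.coe_pow]
    have h4 : D.θ ((WittVector.frobenius (p := p) (R := OO K))^[e] (wv p c)) =
        ∑ k ∈ Finset.range (n + 1), (p : B) ^ k * D.T ((c k) ^ (p ^ e)) +
          (p : B) ^ (n + 1) *
          D.θ ((WittVector.frobenius (p := p) (R := OO K))^[e] u) := by
      rw [hφ, h1, map_add, map_sum, map_add, map_sum, hφ]
      congr 1
      · refine Finset.sum_congr rfl (fun i _ => ?_)
        rw [map_mul, map_mul, map_pow, map_pow, map_natCast, map_natCast, ← hφ,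
          frobenius_iterate_teichmuller, mul_comm]
        rfl
      · rw [map_mul, map_mul, map_pow, map_pow, map_natCast, map_natCast]
    rw [h4, add_sub_cancel_left, norm_pow_mul D]
    exact mul_le_of_le_one_right (pow_nonneg D.ρ_pos.le _) (D.norm_θ _)

theorem Lq_frob_iter (D : TB K p B) {h : ℕ} (hh : 0 < h) {z : OO K} (hz : ‖(z : K)‖ < 1) (k : ℕ) :
    D.Lq h (z ^ (p ^ (h * k))) = (p : B) ^ k * D.Lq h z := by
  induction k with
  | zero => simp
  | succ k ih =>
    have hz' : ‖((z ^ (p ^ (h * k)) : OO K) : K)‖ < 1 := by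
      rw [Subring.coe_pow, norm_pow]
      exact pow_lt_one₀ (norm_nonneg _) hz (pow_ne_zero _ (Fact.out : p.Prime).ne_zero)
    have h1 := D.Lq_frob hh hz'
    rw [Fr_natCast] at h1
    have h2 : z ^ (p ^ (h * (k + 1))) = (z ^ (p ^ (h * k))) ^ (p ^ h) := by
      rw [← pow_mul, ← pow_add]
      congr 2
    rw [h2, h1, ih, pow_succ']
    ring

theorem sum_range_mul (f : ℕ → B) (h M : ℕ) :
    ∑ j ∈ Finset.range (h * M), f j =
      ∑ t ∈ Finset.range h, ∑ k ∈ Finset.range M, f (t + h * k) := by
  rw [Finset.sum_comm]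
  induction M with
  | zero => simp
  | succ M ih =>
    rw [Finset.sum_range_succ, ← ih, Nat.mul_succ, Finset.sum_range_add]
    congr 1
    exact Finset.sum_congr rfl (fun t _ => by rw [add_comm])

end EndH

theorem end_honda_expand (D : TB K p B) {h : ℕ} (hh : 0 < h) (χ : PowerSeries (OO K))
    (H : IsEnd p hh χ) :
    ∃ x : ℕ → WittVector p (OO K),
      (∀ t, (WittVector.frobenius (p := p) (R := OO K))^[h] (x t) = x t) ∧
      ∀ (e : ℕ) (y : Pt (honda (OO K) p h hh)),
        D.Lq h ((H.app y).val ^ (p ^ e)) =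
          ∑ t ∈ Finset.range h, D.θ ((WittVector.frobenius (p := p) (R := OO K))^[e] (x t)) *
            D.Lq h (y.val ^ (p ^ (t + e))) := by
  have hstep : ∀ χ : {χ : PowerSeries (OO K) // IsEnd p hh χ},
      ∃ χ' : {χ : PowerSeries (OO K) // IsEnd p hh χ}, ∀ y : Pt (honda (OO K) p h hh),
      ∃ u v : Pt (honda (OO K) p h hh), u.val = PowerSeries.coeff 1 χ.1 * y.val ∧
        v.val = y.val ^ p ∧ χ.2.app y = u + χ'.2.app v := by
    intro χ
    obtain ⟨χ', H', h1⟩ := end_honda_step hh χ.1 χ.2
    exact ⟨⟨χ', H'⟩, h1⟩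
  choose N hN using hstep
  let s : ℕ → {χ : PowerSeries (OO K) // IsEnd p hh χ} := fun l => Nat.rec ⟨χ, H⟩ (fun _ x => N x) l
  have hs0 : s 0 = ⟨χ, H⟩ := rfl
  have hs : ∀ l, s (l + 1) = N (s l) := fun l => rfl
  set a : ℕ → OO K := fun j => PowerSeries.coeff 1 (s j).1 with ha
  have haf : ∀ j, (a j) ^ (p ^ h) = a j := fun j => (s j).2.fix 1
  have hpart : ∀ (e M : ℕ) (y : Pt (honda (OO K) p h hh)), ∃ w : Pt (honda (OO K) p h hh),
      w.val = y.val ^ (p ^ M) ∧
      D.Lq h ((H.app y).val ^ (p ^ e)) =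
        ∑ j ∈ Finset.range M, D.T ((a j) ^ (p ^ e)) * D.Lq h (y.val ^ (p ^ (j + e))) +
          D.Lq h (((s M).2.app w).val ^ (p ^ e)) := by
    intro e M y
    induction M with
    | zero =>
      refine ⟨y, by rw [pow_zero, pow_one], ?_⟩
      rw [Finset.range_zero, Finset.sum_empty, zero_add]
    | succ M ih =>
      obtain ⟨w, hw, h1⟩ := ih
      obtain ⟨u, v, hu, hv, huv⟩ := hN (s M) w
      refine ⟨v, ?_, ?_⟩
      · rw [hv, hw, ← pow_mul, pow_succ]
      · rw [h1, Finset.sum_range_succ, add_assoc]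
        congr 1
        have h2 := D.Lq_add hh (e : ℤ) u ((N (s M)).2.app v)
        rw [Fr_natCast, Fr_natCast, Fr_natCast] at h2
        rw [huv, h2, hu]
        have h3 := D.Lq_scale hh (e : ℤ) w.norm_lt (haf M)
        rw [Fr_natCast, Fr_natCast, Fr_natCast] at h3
        have h4 : (a M) = PowerSeries.coeff 1 (s M).1 := rfl
        rw [h4] at h3
        rw [h3, hw, ← pow_mul, ← pow_add]
  refine ⟨fun t => EndH.wv p (fun k => a (t + h * k)), ?_, ?_⟩
  · intro t
    ext k : 1
    rw [EndH.frobenius_iterate_coeff]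
    change (a (t + h * k) ^ (p ^ k)) ^ (p ^ h) = a (t + h * k) ^ (p ^ k)
    rw [← pow_mul, mul_comm (p ^ k), pow_mul, haf]
  · intro e y
    set Lt : ℕ → B := fun t => D.Lq h (y.val ^ (p ^ (t + e))) with hLt
    set th : ℕ → B := fun t => D.θ ((WittVector.frobenius (p := p) (R := OO K))^[e]
      (EndH.wv p (fun k => a (t + h * k)))) with hth
    set S := D.Lq h ((H.app y).val ^ (p ^ e)) with hS
    change S = ∑ t ∈ Finset.range h, th t * Lt t
    set C : ℝ := ∑ t ∈ Finset.range h, ‖Lt t‖ with hC
    have hy1 : ‖(y.val : K)‖ < 1 := y.norm_lt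
    have hp1 : 1 < p := (Fact.out : p.Prime).one_lt
    rw [← sub_eq_zero, ← norm_le_zero_iff]
    refine le_of_forall_pos_le_add (fun ε hε => ?_)
    rw [zero_add]
    obtain ⟨δ, hδ, hδL⟩ := D.Lq_small hh (half_pos hε)
    have t1 : Tendsto (fun M : ℕ => D.ρ ^ M * C) atTop (𝓝 0) := by
      have := (tendsto_pow_atTop_nhds_zero_of_lt_one D.ρ_pos.le D.ρ_lt).mul_const C
      rwa [zero_mul] at this
    have t2 : Tendsto (fun M : ℕ => ‖(y.val : K)‖ ^ (p ^ (h * M))) atTop (𝓝 0) := by
      refine (tendsto_pow_atTop_nhds_zero_of_lt_one (norm_nonneg _) hy1).comp ?_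
      refine tendsto_atTop_mono (fun M => ?_) tendsto_id
      have e1 : M ≤ h * M := Nat.le_mul_of_pos_left M hh
      exact e1.trans (Nat.lt_pow_self hp1).le
    obtain ⟨M, hM1, hM2⟩ := ((t1.eventually (gt_mem_nhds (half_pos hε))).and
      (t2.eventually (gt_mem_nhds hδ))).exists
    obtain ⟨w, hw, h1⟩ := hpart e (h * M) y
    have h2 : ∑ j ∈ Finset.range (h * M), D.T ((a j) ^ (p ^ e)) *
        D.Lq h (y.val ^ (p ^ (j + e))) = ∑ t ∈ Finset.range h,
        (∑ k ∈ Finset.range M, (p : B) ^ k * D.T ((a (t + h * k)) ^ (p ^ e))) * Lt t := by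
      rw [EndH.sum_range_mul]
      refine Finset.sum_congr rfl (fun t _ => ?_)
      rw [Finset.sum_mul]
      refine Finset.sum_congr rfl (fun k _ => ?_)
      have h3 : ‖((y.val ^ (p ^ (t + e)) : OO K) : K)‖ < 1 := by
        rw [Subring.coe_pow, norm_pow]
        exact pow_lt_one₀ (norm_nonneg _) hy1 (pow_ne_zero _ (Fact.out : p.Prime).ne_zero)
      have h4 := EndH.Lq_frob_iter D hh h3 k
      have h5 : y.val ^ (p ^ (t + h * k + e)) = (y.val ^ (p ^ (t + e))) ^ (p ^ (h * k)) := by
        rw [← pow_mul, ← pow_add]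
        congr 2
        ring
      rw [h5, h4]
      simp only [hLt]
      ring
    have h3 : S - ∑ t ∈ Finset.range h, th t * Lt t =
        (∑ t ∈ Finset.range h, ((∑ k ∈ Finset.range M,
          (p : B) ^ k * D.T ((a (t + h * k)) ^ (p ^ e))) - th t) * Lt t) +
        D.Lq h (((s (h * M)).2.app w).val ^ (p ^ e)) := by
      rw [hS, h1, h2]
      simp only [sub_mul, Finset.sum_sub_distrib]
      ring
    rw [h3]
    refine (norm_add_le _ _).trans ?_
    have h4 : ‖∑ t ∈ Finset.range h, ((∑ k ∈ Finset.range M,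
          (p : B) ^ k * D.T ((a (t + h * k)) ^ (p ^ e))) - th t) * Lt t‖ ≤ D.ρ ^ M * C := by
      refine (norm_sum_le _ _).trans ?_
      rw [hC, Finset.mul_sum]
      refine Finset.sum_le_sum (fun t _ => ?_)
      refine (norm_mul_le _ _).trans ?_
      refine mul_le_mul_of_nonneg_right ?_ (norm_nonneg _)
      rw [norm_sub_rev]
      exact EndH.norm_wv_sub_le D (fun k => a (t + h * k)) e M
    have h5 : ‖D.Lq h (((s (h * M)).2.app w).val ^ (p ^ e))‖ ≤ ε / 2 := by
      apply hδL
      have e1 : ‖((((s (h * M)).2.app w).val : OO K) : K)‖ ≤ ‖(w.val : K)‖ :=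
        norm_ev1_le _ w.val w.norm_lt (s (h * M)).2.hom.1
      have e2 : ‖(w.val : K)‖ = ‖(y.val : K)‖ ^ (p ^ (h * M)) := by
        rw [hw, Subring.coe_pow, norm_pow]
      rw [Subring.coe_pow, norm_pow]
      have e3 : ‖((((s (h * M)).2.app w).val : OO K) : K)‖ ≤ 1 := norm_le_one _
      refine (pow_le_of_le_one (norm_nonneg _) e3
        (pow_ne_zero _ (Fact.out : p.Prime).ne_zero)).trans ?_
      rw [e2] at e1
      exact e1.trans hM2.le
    linarith

end
end Vale.Agent.P217
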