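import Vale.Agent.Lib.P217.ActZ
import Vale.Agent.Lib.P217.Iso
import Vale.Agent.Lib.P217.Honda
import Vale.Agent.Lib.P217.EndHonda

/-!
# P217 (characteristic zero part): the operators `T` and `S` on the universal cover, and a point with nonzero logarithm

Used in `deriv_vanish` (`DerivZ.lean`).
-/

set_option linter.unusedSectionVars false

namespace Vale.Agent.P217

open MvPowerSeries Filter Topology
open scoped MvPowerSeries.WithPiTopology

namespace DTS

section cj
variable {κ : Type*} [CommRing κ]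

theorem hs {f : PowerSeries κ} (hf : PowerSeries.constantCoeff f = 0) : PowerSeries.HasSubst f :=
  PowerSeries.HasSubst.of_constantCoeff_zero' hf

theorem comp_assoc (f : PowerSeries κ) {g h : PowerSeries κ}
    (hg : PowerSeries.constantCoeff g = 0) (hh : PowerSeries.constantCoeff h = 0) :
    PowerSeries.subst h (PowerSeries.subst g f) =
      PowerSeries.subst (PowerSeries.subst h g : PowerSeries κ) f :=
  PowerSeries.subst_comp_subst_apply (hs hg) (hs hh) f

theorem cc_subst {g h : PowerSeries κ} (hg : PowerSeries.constantCoeff g = 0)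
    (hh : PowerSeries.constantCoeff h = 0) :
    PowerSeries.constantCoeff (PowerSeries.subst h g : PowerSeries κ) = 0 :=
  PowerSeries.constantCoeff_subst_eq_zero hh _ hg

/-- conjugation of `e` by `v`, with inverse `vi` -/
noncomputable def cj (v vi e : PowerSeries κ) : PowerSeries κ :=
  PowerSeries.subst vi (PowerSeries.subst e v)

theorem cj_comp {v vi e e' : PowerSeries κ} (hv : PowerSeries.constantCoeff v = 0)
    (hvi : PowerSeries.constantCoeff vi = 0) (he : PowerSeries.constantCoeff e = 0)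
    (he' : PowerSeries.constantCoeff e' = 0)
    (h1 : PowerSeries.subst v vi = PowerSeries.X) :
    cj v vi (PowerSeries.subst e' e) =
      PowerSeries.subst (cj v vi e') (cj v vi e) := by
  unfold cj
  have hve' := cc_subst hv he'
  have hve := cc_subst hv he
  have h3 := cc_subst hve' hvi
  rw [comp_assoc _ hvi h3]
  have h4 : PowerSeries.subst (PowerSeries.subst vi (PowerSeries.subst e' v)) vi =
      PowerSeries.subst vi e' := by
    rw [← comp_assoc vi hve' hvi, ← comp_assoc vi hv he', h1, PowerSeries.subst_X (hs he')]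
  rw [h4, ← comp_assoc _ he' hvi, comp_assoc v he he']

theorem cj_X {v vi : PowerSeries κ} (h2 : PowerSeries.subst vi v = PowerSeries.X) :
    cj v vi PowerSeries.X = PowerSeries.X := by
  unfold cj
  have hX : PowerSeries.subst (PowerSeries.X : PowerSeries κ) v = v := PowerSeries.X_subst v
  rw [hX, h2]

theorem isHom_cj {H Γ : FormalGroup κ} {v vi e : PowerSeries κ} (hv : IsHom H Γ v)
    (hvi : IsHom Γ H vi) (he : IsHom H H e) : IsHom Γ Γ (cj v vi e) :=
  hvi.comp (he.comp hv)

theorem cj_mulSeries {H Γ : FormalGroup κ} {v vi : PowerSeries κ} (hv : IsHom H Γ v)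
    (hvi : PowerSeries.constantCoeff vi = 0)
    (h2 : PowerSeries.subst vi v = PowerSeries.X) (p : ℕ) :
    cj v vi (mulSeries H p) = mulSeries Γ p := by
  unfold cj
  have h3 : PowerSeries.subst (mulSeries H p) v = PowerSeries.subst v (mulSeries Γ p) :=
    hv.comp_mulSeries p
  rw [h3, comp_assoc _ hv.1 hvi, h2]
  exact PowerSeries.X_subst _

/-- the linear coefficient of a composition -/
theorem coeff_one_subst {g h : PowerSeries κ} (hg : PowerSeries.constantCoeff g = 0)
    (hh : PowerSeries.constantCoeff h = 0) :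
    PowerSeries.coeff 1 (PowerSeries.subst h g : PowerSeries κ) =
      PowerSeries.coeff 1 g * PowerSeries.coeff 1 h := by
  obtain ⟨g', rfl⟩ := PowerSeries.X_dvd_iff.mpr hg
  have h1 : (PowerSeries.subst h (PowerSeries.X * g') : PowerSeries κ) =
      h * PowerSeries.subst h g' := by
    rw [PowerSeries.subst_mul (hs hh), PowerSeries.subst_X (hs hh)]
  rw [h1]
  obtain ⟨h', rfl⟩ := PowerSeries.X_dvd_iff.mpr hh
  have h2 : PowerSeries.constantCoeff (PowerSeries.subst (PowerSeries.X * h') g' : PowerSeries κ) =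
      PowerSeries.constantCoeff g' := by
    have h3 : g' = PowerSeries.C (PowerSeries.constantCoeff g') +
        (g' - PowerSeries.C (PowerSeries.constantCoeff g')) := by ring
    have h4 : PowerSeries.constantCoeff (g' - PowerSeries.C (PowerSeries.constantCoeff g')) = 0 := by
      simp
    have h5 : (PowerSeries.subst (PowerSeries.X * h')
        (PowerSeries.C (PowerSeries.constantCoeff g')) : PowerSeries κ) =
        PowerSeries.C (PowerSeries.constantCoeff g') := PowerSeries.subst_C _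
    conv_lhs => rw [h3]
    rw [PowerSeries.subst_add (hs hh), map_add, cc_subst h4 hh, h5, add_zero]
    exact PowerSeries.constantCoeff_C _
  have h5 : ∀ a b : PowerSeries κ, PowerSeries.coeff 1 (PowerSeries.X * a * b) =
      PowerSeries.constantCoeff a * PowerSeries.constantCoeff b := by
    intro a b
    rw [mul_assoc]
    have := PowerSeries.coeff_succ_X_mul 0 (a * b)
    rw [zero_add] at this
    rw [this, PowerSeries.coeff_zero_eq_constantCoeff_apply, map_mul]
  have h6 : ∀ a : PowerSeries κ, PowerSeries.coeff 1 (PowerSeries.X * a) =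
      PowerSeries.constantCoeff a := by
    intro a
    have := PowerSeries.coeff_succ_X_mul 0 a
    rw [zero_add] at this
    rw [this, PowerSeries.coeff_zero_eq_constantCoeff_apply]
  rw [h5, h2, h6, h6, mul_comm]

theorem coeff_one_cj {v vi e : PowerSeries κ} (hv : PowerSeries.constantCoeff v = 0)
    (hvi : PowerSeries.constantCoeff vi = 0) (he : PowerSeries.constantCoeff e = 0)
    (h1 : PowerSeries.subst v vi = PowerSeries.X) :
    PowerSeries.coeff 1 (cj v vi e) = PowerSeries.coeff 1 e := by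
  unfold cj
  rw [coeff_one_subst (cc_subst hv he) hvi, coeff_one_subst hv he]
  have h2 := congrArg (PowerSeries.coeff 1) h1
  rw [coeff_one_subst hvi hv, PowerSeries.coeff_one_X] at h2
  linear_combination (PowerSeries.coeff 1 e) * h2

theorem scale_comp (a b : κ) :
    (PowerSeries.subst (PowerSeries.C b * PowerSeries.X : PowerSeries κ)
      (PowerSeries.C a * PowerSeries.X : PowerSeries κ) : PowerSeries κ) =
      PowerSeries.C (a * b) * PowerSeries.X := by
  have h : PowerSeries.HasSubst (PowerSeries.C b * PowerSeries.X : PowerSeries κ) := hs (by simp)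
  have h5 : (PowerSeries.subst (PowerSeries.C b * PowerSeries.X : PowerSeries κ)
      (PowerSeries.C a) : PowerSeries κ) = PowerSeries.C a := PowerSeries.subst_C _
  rw [PowerSeries.subst_mul h, PowerSeries.subst_X h, h5, map_mul, mul_assoc]

/-- iterates as homomorphisms -/
def itr {A : Type*} [AddCommGroup A] (T : A →+ A) : ℕ → (A →+ A)
  | 0 => AddMonoidHom.id A
  | i + 1 => (itr T i).comp T

theorem itr_apply {A : Type*} [AddCommGroup A] (T : A →+ A) (i : ℕ) (u : A) :
    itr T i u = T^[i] u := by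
  induction i generalizing u with
  | zero => rfl
  | succ i ih =>
    change itr T i (T u) = _
    rw [ih, Function.iterate_succ_apply]

end cj

section act
variable {R0 : Type} [CommRing R0] {κ : Type} [Field κ] {r : ℕ}
  {K : Type} [NontriviallyNormedField K] [IsUltrametricDist K] [CompleteSpace K]
  {π : MvPowerSeries (Fin r) R0 →+* κ} (hπ : Function.Surjective π)
  (F : FormalGroup (MvPowerSeries (Fin r) R0)) [F.IsComm] (Γ : FormalGroup κ) [Γ.IsComm]
  (hΓ : F.map π = Γ) {p n : ℕ} [Fact p.Prime] [CharP κ p] [Fintype κ]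
  (hn : 0 < n) (hcard : Fintype.card κ = p ^ n)
  (hq2 : 2 ≤ p ^ n) (hΓp : mulSeries Γ p = PowerSeries.X ^ (p ^ n))
  (ι : R0 →+* OO K) {ξ : Fin r → OO K} (hξ : ∀ i, ‖(ξ i : K)‖ < 1)
  {c : ℝ} (hc0 : 0 < c) (hc1 : c < 1)
  (hker : ∀ f, π f = 0 → ‖((spec ι hξ f : OO K) : K)‖ ≤ c)

include hπ hΓ hn hcard hq2 hΓp hc0 hc1 hker

theorem exists_TS : ∃ (T S : UC (F.map (spec ι hξ)) p →+ UC (F.map (spec ι hξ)) p)
    (bT bS : PowerSeries κ), IsHom Γ Γ bT ∧ IsHom Γ Γ bS ∧
      IsActE π (spec ι hξ) c bT T ∧ IsActE π (spec ι hξ) c bS S ∧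
      (∀ u, T^[p ^ n - 1] u = u) ∧ (∀ u, S^[n] u = p • u) ∧
      (∀ u, S (T u) = T^[p] (S u)) ∧
      (∀ i, 0 < i → i < p ^ n - 1 → Function.Surjective (fun u => T^[i] u - u)) := by
  classical
  have hκ : ∀ x : κ, x ^ (p ^ n) = x := by
    intro x
    rw [← hcard]
    exact FiniteField.pow_card x
  obtain ⟨v, hv, hv1⟩ := exists_strict_iso p n hn hκ (honda κ p n hn) Γ
    (mulSeries_honda κ p n hn) hΓp
  obtain ⟨vi, hvi, hvi1, hvi2⟩ := hv.exists_inverse (by rw [hv1]; exact isUnit_one)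
  have h1 : PowerSeries.subst v vi = PowerSeries.X := hvi1
  have h2 : PowerSeries.subst vi v = PowerSeries.X := hvi2
  -- the action of an endomorphism of the Honda law
  have hex : ∀ e : PowerSeries κ, IsHom (honda κ p n hn) (honda κ p n hn) e →
      ∃ Φ : UC (F.map (spec ι hξ)) p →+ UC (F.map (spec ι hξ)) p,
        IsActE π (spec ι hξ) c (cj v vi e) Φ := fun e he =>
    exists_actE hπ F Γ hΓ hq2 hΓp ι hξ hc0 hc1 hker (isHom_cj hv hvi he)
  have huniq : ∀ (e : PowerSeries κ), IsHom (honda κ p n hn) (honda κ p n hn) e →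
      ∀ Φ Φ' : UC (F.map (spec ι hξ)) p →+ UC (F.map (spec ι hξ)) p,
        IsActE π (spec ι hξ) c (cj v vi e) Φ → IsActE π (spec ι hξ) c (cj v vi e) Φ' → Φ = Φ' :=
    fun e he Φ Φ' h h' =>
      actE_unique hπ F Γ hΓ hq2 hΓp ι hξ hc0 hc1 hker (isHom_cj hv hvi he) h h'
  have hcomp : ∀ (e e' : PowerSeries κ), IsHom (honda κ p n hn) (honda κ p n hn) e →
      IsHom (honda κ p n hn) (honda κ p n hn) e' →
      ∀ Φ Φ' : UC (F.map (spec ι hξ)) p →+ UC (F.map (spec ι hξ)) p,
        IsActE π (spec ι hξ) c (cj v vi e) Φ → IsActE π (spec ι hξ) c (cj v vi e') Φ' →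
        IsActE π (spec ι hξ) c (cj v vi (PowerSeries.subst e' e)) (Φ.comp Φ') := by
    intro e e' he he' Φ Φ' h h'
    rw [cj_comp hv.1 hvi.1 he.1 he'.1 h1]
    exact actE_comp hπ F Γ hΓ hq2 hΓp ι hξ hc0 hc1 hker (isHom_cj hv hvi he)
      (isHom_cj hv hvi he') h h'
  have hid : IsActE π (spec ι hξ) c (cj v vi PowerSeries.X)
      (AddMonoidHom.id (UC (F.map (spec ι hξ)) p)) := by
    rw [cj_X h2]
    exact actE_X hπ F Γ hΓ hq2 hΓp ι hξ hc0 hc1 hker
  have hsc : ∀ a : κ, IsHom (honda κ p n hn) (honda κ p n hn)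
      (PowerSeries.C a * PowerSeries.X) := fun a => isHom_honda_scale κ p n hn a (hκ a)
  have hfr : ∀ e : ℕ, IsHom (honda κ p n hn) (honda κ p n hn)
      (PowerSeries.X ^ (p ^ e)) := fun e => isHom_honda_frob κ p n hn e
  -- a generator of the multiplicative group
  obtain ⟨ζu, hζu⟩ := IsCyclic.exists_ofOrder_eq_natCard (α := κˣ)
  have hcu : Nat.card κˣ = p ^ n - 1 := by
    rw [Nat.card_eq_fintype_card, Fintype.card_units, hcard]
  rw [hcu] at hζu
  set ζ : κ := (ζu : κ) with hζ
  have hζ1 : ζ ^ (p ^ n - 1) = 1 := by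
    rw [hζ, ← Units.val_pow_eq_pow_val, ← hζu, pow_orderOf_eq_one, Units.val_one]
  have hζi : ∀ i, 0 < i → i < p ^ n - 1 → ζ ^ i ≠ 1 := by
    intro i hi0 hi h
    rw [hζ, ← Units.val_pow_eq_pow_val, Units.val_eq_one] at h
    exact (pow_ne_one_of_lt_orderOf hi0.ne' (by rw [hζu]; exact hi)) h
  obtain ⟨T, hT⟩ := hex _ (hsc ζ)
  obtain ⟨S, hS⟩ := hex _ (hfr 1)
  rw [pow_one] at hS
  have hfr1 := hfr 1
  rw [pow_one] at hfr1
  -- powers
  have hTi : ∀ i : ℕ, IsActE π (spec ι hξ) c (cj v vi (PowerSeries.C (ζ ^ i) * PowerSeries.X))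
      (itr T i) := by
    intro i
    induction i with
    | zero =>
      rw [pow_zero, map_one, one_mul]
      exact hid
    | succ i ih =>
      have h3 := hcomp _ _ (hsc _) (hsc _) _ _ ih hT
      rw [scale_comp] at h3
      rw [pow_succ ζ]
      exact h3
  have hSi : ∀ i : ℕ, IsActE π (spec ι hξ) c (cj v vi (PowerSeries.X ^ (p ^ i)))
      (itr S i) := by
    intro i
    induction i with
    | zero =>
      rw [pow_zero, pow_one]
      exact hid
    | succ i ih =>
      have h3 := hcomp _ _ (hfr i) hfr1 _ _ ih hS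
      rw [PowerSeries.subst_pow (hs hfr1.1), PowerSeries.subst_X (hs hfr1.1), ← pow_mul,
        ← pow_succ'] at h3
      exact h3
  refine ⟨T, S, _, _, isHom_cj hv hvi (hsc ζ), isHom_cj hv hvi hfr1, hT, hS, ?_, ?_, ?_, ?_⟩
  · intro u
    have h3 := hTi (p ^ n - 1)
    rw [hζ1, map_one, one_mul] at h3
    have h4 := huniq _ (isHom_X _) _ _ h3 hid
    have h5 := DFunLike.congr_fun h4 u
    rw [itr_apply] at h5
    exact h5
  · intro u
    have h3 := hSi n
    have h4 := actE_mulSeries hπ F Γ hΓ hq2 hΓp ι hξ hc0 hc1 hker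
    rw [← cj_mulSeries hv hvi.1 h2, mulSeries_honda κ p n hn] at h4
    have h5 := huniq _ (hfr n) _ _ h3 h4
    have h6 := DFunLike.congr_fun h5 u
    rw [itr_apply] at h6
    exact h6
  · intro u
    have h3 := hcomp _ _ hfr1 (hsc ζ) _ _ hS hT
    have h4 := hcomp _ _ (hsc (ζ ^ p)) hfr1 _ _ (hTi p) hS
    have h5 : (PowerSeries.subst (PowerSeries.C ζ * PowerSeries.X : PowerSeries κ)
        (PowerSeries.X ^ p : PowerSeries κ) : PowerSeries κ) =
        PowerSeries.C (ζ ^ p) * PowerSeries.X ^ p := by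
      rw [PowerSeries.subst_pow (hs (hsc ζ).1), PowerSeries.subst_X (hs (hsc ζ).1), mul_pow,
        map_pow]
    have h6 : (PowerSeries.subst (PowerSeries.X ^ p : PowerSeries κ)
        (PowerSeries.C (ζ ^ p) * PowerSeries.X : PowerSeries κ) : PowerSeries κ) =
        PowerSeries.C (ζ ^ p) * PowerSeries.X ^ p := by
      have h7 : (PowerSeries.subst (PowerSeries.X ^ p : PowerSeries κ)
          (PowerSeries.C (ζ ^ p)) : PowerSeries κ) = PowerSeries.C (ζ ^ p) :=
        PowerSeries.subst_C _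
      rw [PowerSeries.subst_mul (hs hfr1.1), PowerSeries.subst_X (hs hfr1.1), h7]
    rw [h5] at h3
    rw [h6] at h4
    have h8 : IsHom (honda κ p n hn) (honda κ p n hn)
        (PowerSeries.C (ζ ^ p) * PowerSeries.X ^ p) := by
      rw [← h6]
      exact hfr1.comp (hsc (ζ ^ p))
    have h9 := huniq _ h8 _ _ h3 h4
    have h10 := DFunLike.congr_fun h9 u
    have h11 : (S.comp T) u = S (T u) := rfl
    rw [h11] at h10
    rw [h10]
    change itr T p (S u) = _
    rw [itr_apply]
  · intro i hi0 hi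
    have hb := isHom_cj hv hvi (hsc (ζ ^ i))
    have hXh : IsHom Γ Γ PowerSeries.X := isHom_X Γ
    set d := seriesPoint Γ _ hb.1 - seriesPoint Γ _ hXh.1 with hd
    have hdh : IsHom Γ Γ d.val := EndH.isHom_sub _ _ hb hXh
    have hact : IsActE π (spec ι hξ) c d.val
        (itr T i - AddMonoidHom.id _) :=
      actE_sub hπ F Γ hΓ hq2 hΓp ι hξ hc0 hc1 hker hb hXh hdh.1 rfl (hTi i)
        (actE_X hπ F Γ hΓ hq2 hΓp ι hξ hc0 hc1 hker)
    have hd1 : PowerSeries.coeff 1 d.val = ζ ^ i - 1 := by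
      have h3 : d + seriesPoint Γ _ hXh.1 = seriesPoint Γ _ hb.1 := by rw [hd]; abel
      have h4 := EndH.coeff_one_add d (seriesPoint Γ _ hXh.1) hdh.1 hXh.1
      rw [h3] at h4
      have h5 : PowerSeries.coeff 1 (seriesPoint Γ _ hb.1).val = ζ ^ i := by
        change PowerSeries.coeff 1 (cj v vi (PowerSeries.C (ζ ^ i) * PowerSeries.X)) = _
        rw [coeff_one_cj hv.1 hvi.1 (hsc _).1 h1, PowerSeries.coeff_C_mul,
          PowerSeries.coeff_one_X, mul_one]
      have h6 : PowerSeries.coeff 1 (seriesPoint Γ _ hXh.1).val = 1 := by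
        change PowerSeries.coeff 1 (PowerSeries.X : PowerSeries κ) = 1
        exact PowerSeries.coeff_one_X
      rw [h5, h6] at h4
      rw [h4]
      ring
    have hsurj := actE_surjective hπ F Γ hΓ hq2 hΓp ι hξ hc0 hc1 hker hdh
      (by rw [hd1]; exact isUnit_iff_ne_zero.2 (sub_ne_zero.2 (hζi i hi0 hi))) hact
    intro w
    obtain ⟨u, hu⟩ := hsurj w
    refine ⟨u, ?_⟩
    rw [← hu]
    change _ = (itr T i) u - u
    rw [itr_apply]

end act

section log
variable {K : Type*} [NontriviallyNormedField K] [IsUltrametricDist K] [CompleteSpace K]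
  [IsAlgClosed K] {p : ℕ} (hp0 : (p : K) ≠ 0) (hp1 : ‖(p : K)‖ < 1) {G : FormalGroup (OO K)}
  [G.IsComm] {q : ℕ} {c : ℝ} (hq2 : 2 ≤ q) (hc0 : 0 ≤ c) (hc1 : c < 1) (hG : PCong p q c G)

include hp0 hp1 hq2 hc0 hc1 hG in
/-- there is a point of the universal cover with nonzero logarithm -/
theorem exists_log_ne_zero (L : Pt G →+ K) (hL : ∀ y, IsLog p G y (L y)) :
    ∃ z : UC G p, L (z.1 0) ≠ 0 := by
  have hpp : 0 < ‖(p : K)‖ := norm_pos_iff.2 hp0
  have hmem : ‖(p : K) ^ 3‖ ≤ 1 := by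
    rw [norm_pow]
    exact pow_le_one₀ hpp.le hp1.le
  have hp3 : ‖(p : K) ^ 3‖ < 1 := by
    rw [norm_pow]
    exact pow_lt_one₀ hpp.le hp1 (by norm_num)
  obtain ⟨x, hx⟩ : ∃ x : Pt G, (x.val : K) = (p : K) ^ 3 :=
    ⟨Pt.mk' G ((p : OO K) ^ 3) (by push_cast; exact hp3), by simp [Pt.mk']⟩
  have hnm : Pt.nm x = ‖(p : K)‖ ^ 3 := by
    unfold Pt.nm
    rw [hx, norm_pow]
  obtain ⟨v, hv, hv2⟩ := isLog_small hp0 hp1 x (by
    rw [hnm]
    exact pow_le_pow_of_le_one hpp.le hp1.le (by norm_num))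
  have hvne : L x ≠ 0 := by
    rw [(hL x).unique hv]
    rintro rfl
    rw [zero_sub, norm_neg, hnm, hx, norm_pow] at hv2
    have h3 : (‖(p : K)‖ ^ 3) ^ 2 / ‖(p : K)‖ = ‖(p : K)‖ ^ 3 * ‖(p : K)‖ ^ 2 := by
      field_simp
    rw [h3] at hv2
    have h4 : ‖(p : K)‖ ^ 3 * ‖(p : K)‖ ^ 2 < ‖(p : K)‖ ^ 3 * 1 :=
      mul_lt_mul_of_pos_left (pow_lt_one₀ hpp.le hp1 (by norm_num)) (pow_pos hpp 3)
    linarith
  have hsur := psmul_surjective_of_pCong hp0 hp1 hq2 hc0 hc1 hG
  choose g hg using hsur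
  refine ⟨⟨fun l => g^[l] x, fun l => ?_⟩, hvne⟩
  change p • g^[l + 1] x = g^[l] x
  rw [Function.iterate_succ_apply', hg]

end log

end DTS

end Vale.Agent.P217
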