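import Vale.Agent.Lib.P217.ChaiP

/-!
# P217: the displacement of `1 + p^m b` modulo an ideal (used in `DispZ.lean`)
-/

set_option linter.unusedSectionVars false

namespace Vale.Agent.P217

open MvPowerSeries

namespace DispZOne

open DispTools

section
variable {R : Type*} [CommRing R]

theorem isHom_mul_comp {Γ : FormalGroup R} [Γ.IsComm] {b : PowerSeries R} (hb : IsHom Γ Γ b)
    (a : ℕ) : IsHom Γ Γ (PowerSeries.subst b (mulSeries Γ a)) :=
  hb.comp (isHom_mulSeries Γ a)

theorem onePlus_eq {Γ : FormalGroup R} [Γ.IsComm] {b : PowerSeries R} (hb : IsHom Γ Γ b)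
    (p m : ℕ) : onePlus Γ p m b hb.1 =
      (idPoint Γ + seriesPoint Γ _ (isHom_mul_comp hb (p ^ m)).1).val := by
  rw [onePlus]
  congr 2
  apply Subtype.ext
  rw [Point.nsmul_val]
  rfl

theorem isHom_onePlus' {Γ : FormalGroup R} [Γ.IsComm] {b : PowerSeries R} (hb : IsHom Γ Γ b)
    (p m : ℕ) : IsHom Γ Γ (onePlus Γ p m b hb.1) := by
  rw [onePlus_eq hb]
  exact isHom_add (isHom_X Γ) (isHom_mul_comp hb (p ^ m))

theorem coeff_one_add' {G : FormalGroup R} {f g : PowerSeries R}
    (hf : PowerSeries.constantCoeff f = 0) (hg : PowerSeries.constantCoeff g = 0) :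
    PowerSeries.coeff 1 (seriesPoint G f hf + seriesPoint G g hg).val =
      PowerSeries.coeff 1 f + PowerSeries.coeff 1 g := by
  obtain ⟨H, hH⟩ := exists_toPowerSeries_eq G
  rw [FormalGroup.add_apply, subst_pair_eq hH (seriesPoint G f hf).prop (seriesPoint G g hg).prop]
  have h : PowerSeries.X ^ 2 ∣ f * g * (subst ![f, g] H : PowerSeries R) := by
    have h1 : PowerSeries.X ∣ f := PowerSeries.X_dvd_iff.2 hf
    have h2 : PowerSeries.X ∣ g := PowerSeries.X_dvd_iff.2 hg
    rw [pow_two]
    exact (mul_dvd_mul h1 h2).mul_right _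
  have h3 := PowerSeries.X_pow_dvd_iff.1 h 1 (by norm_num)
  change PowerSeries.coeff 1 (f + g + f * g * (subst ![f, g] H : PowerSeries R)) = _
  rw [map_add, map_add, h3, add_zero]

theorem coeff_one_id_add {G : FormalGroup R} {g : PowerSeries R}
    (hg : PowerSeries.constantCoeff g = 0) :
    PowerSeries.coeff 1 (idPoint G + seriesPoint G g hg).val = 1 + PowerSeries.coeff 1 g := by
  have h := coeff_one_add' (G := G) (f := PowerSeries.X) (by simp) hg
  rw [PowerSeries.coeff_one_X] at h
  exact h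

/-- the linear coefficient of a composition -/
theorem coeff_one_subst' {f g : PowerSeries R} (hf : PowerSeries.constantCoeff f = 0)
    (hg : PowerSeries.constantCoeff g = 0) :
    PowerSeries.coeff 1 (PowerSeries.subst f g : PowerSeries R) =
      PowerSeries.coeff 1 g * PowerSeries.coeff 1 f := by
  have hs : PowerSeries.HasSubst f := PowerSeries.HasSubst.of_constantCoeff_zero' hf
  obtain ⟨g', hg'⟩ := PowerSeries.X_dvd_iff.2 hg
  obtain ⟨f', hf'⟩ := PowerSeries.X_dvd_iff.2 hf
  have hg1 : PowerSeries.coeff 1 g = PowerSeries.constantCoeff g' := by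
    rw [hg']
    have := PowerSeries.coeff_succ_X_mul 0 g'
    rw [zero_add] at this
    rw [this, PowerSeries.coeff_zero_eq_constantCoeff_apply]
  have hf1 : PowerSeries.coeff 1 f = PowerSeries.constantCoeff f' := by
    rw [hf']
    have := PowerSeries.coeff_succ_X_mul 0 f'
    rw [zero_add] at this
    rw [this, PowerSeries.coeff_zero_eq_constantCoeff_apply]
  obtain ⟨g'', hg''⟩ : PowerSeries.X ∣ g' - PowerSeries.C (PowerSeries.constantCoeff g') :=
    PowerSeries.X_dvd_iff.2 (by simp)
  have e1 : (PowerSeries.subst f g : PowerSeries R) = f * (PowerSeries.subst f g' : PowerSeries R) := by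
    conv_lhs => rw [hg', PowerSeries.subst_mul hs, PowerSeries.subst_X hs]
  have e2 : PowerSeries.constantCoeff (PowerSeries.subst f g' : PowerSeries R) =
      PowerSeries.constantCoeff g' := by
    have h1 : g' = PowerSeries.C (PowerSeries.constantCoeff g') + PowerSeries.X * g'' := by
      rw [← hg'']
      ring
    conv_lhs => rw [h1, PowerSeries.subst_add hs, PowerSeries.subst_mul hs,
      PowerSeries.subst_X hs]
    rw [map_add, map_mul, hf, zero_mul, add_zero]
    have h2 : (PowerSeries.subst f (PowerSeries.C (PowerSeries.constantCoeff g')) :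
        PowerSeries R) = PowerSeries.C (PowerSeries.constantCoeff g') := by
      exact PowerSeries.subst_C (PowerSeries.constantCoeff g')
    rw [h2, PowerSeries.constantCoeff_C]
  rw [e1]
  conv_lhs => rw [hf', mul_assoc]
  have h3 := PowerSeries.coeff_succ_X_mul 0 (f' * (PowerSeries.subst f g' : PowerSeries R))
  rw [zero_add] at h3
  rw [← hf', h3, PowerSeries.coeff_zero_eq_constantCoeff_apply, map_mul, e2, hg1, hf1, mul_comm]

end

/-- rings with nilpotent maximal ideal are complete -/
theorem isAdicComplete_of_pow_eq_bot {A : Type*} [CommRing A] {I : Ideal A} {N : ℕ}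
    (hN : I ^ N = ⊥) : IsAdicComplete I A := by
  have hN' : ∀ n, N ≤ n → I ^ n = ⊥ := by
    intro n hn
    rw [eq_bot_iff]
    refine (Ideal.pow_le_pow_right hn).trans ?_
    rw [hN]
  refine { haus' := ?_, prec' := ?_ }
  · intro x hx
    have h1 := hx N
    rw [hN' N le_rfl, Submodule.bot_smul, SModEq.bot] at h1
    exact h1
  · intro f hf
    refine ⟨f N, fun n => ?_⟩
    rcases le_total n N with h | h
    · exact hf h
    · have h1 := hf h
      rw [hN' N le_rfl, Submodule.bot_smul, SModEq.bot] at h1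
      rw [h1]

theorem isLocalRing_quotient {E : Type*} [CommRing E] [IsLocalRing E] {I : Ideal E}
    (hI : I ≤ IsLocalRing.maximalIdeal E) : IsLocalRing (E ⧸ I) := by
  have : Nontrivial (E ⧸ I) := Ideal.Quotient.nontrivial_iff.2 (by
    intro h
    rw [h, top_le_iff] at hI
    exact (IsLocalRing.maximalIdeal.isMaximal E).ne_top hI)
  exact IsLocalRing.of_surjective' (Ideal.Quotient.mk _) Ideal.Quotient.mk_surjective

theorem maximalIdeal_quotient_pow {E : Type*} [CommRing E] [IsLocalRing E] {I : Ideal E}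
    [IsLocalRing (E ⧸ I)] {N : ℕ} (hN : IsLocalRing.maximalIdeal E ^ N ≤ I) :
    IsLocalRing.maximalIdeal (E ⧸ I) ^ N = ⊥ := by
  have h1 : IsLocalRing.maximalIdeal (E ⧸ I) ≤
      (IsLocalRing.maximalIdeal E).map (Ideal.Quotient.mk I) := by
    intro x hx
    obtain ⟨a, rfl⟩ := Ideal.Quotient.mk_surjective x
    refine Ideal.mem_map_of_mem _ ?_
    rw [IsLocalRing.mem_maximalIdeal] at hx ⊢
    intro hu
    exact hx (hu.map _)
  rw [eq_bot_iff]
  refine (Ideal.pow_right_mono h1 N).trans ?_
  rw [← Ideal.map_pow]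
  refine (Ideal.map_mono hN).trans ?_
  rw [Ideal.map_quotient_self]

section
variable {k E : Type} [Field k] [CommRing E] [IsLocalRing E] [IsNoetherianRing E]
  {π : E →+* k} (hπ : Function.Surjective π)
  {Γ : FormalGroup k} [Γ.IsComm] {F : FormalGroup E} [F.IsComm]
  (hF : IsUniversalDeformation Γ π F) {p : ℕ} [Fact p.Prime] [CharP k p]

theorem coeff_one_onePlus' {Γ : FormalGroup k} [Γ.IsComm] {b : PowerSeries k}
    (hb : IsHom Γ Γ b) {m : ℕ} (hm : 1 ≤ m) :
    PowerSeries.coeff 1 (onePlus Γ p m b hb.1) = 1 := by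
  rw [onePlus_eq hb, coeff_one_id_add, coeff_one_subst' hb.1 (mulSeries_constantCoeff _ _),
    mulSeries_coeff_one]
  have h1 : ((p ^ m : ℕ) : k) = 0 := by
    rw [Nat.cast_pow, CharP.cast_eq_zero, zero_pow (by omega)]
  rw [h1, zero_mul, add_zero]

include hπ in
theorem ker_eq_maximal : RingHom.ker π = IsLocalRing.maximalIdeal E := by
  have h : (RingHom.ker π).IsMaximal := RingHom.ker_isMaximal_of_surjective _ hπ
  exact IsLocalRing.eq_maximalIdeal h

include hπ hF in
theorem disp_core {b : PowerSeries k} (hb : IsHom Γ Γ b) (bt : PowerSeries E)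
    (hbt0 : PowerSeries.constantCoeff bt = 0) (hbt : bt.map π = b) {m : ℕ} (hm : 1 ≤ m)
    (I : Ideal E) (hI : I ≤ IsLocalRing.maximalIdeal E) (N : ℕ)
    (hIN : IsLocalRing.maximalIdeal E ^ N ≤ I)
    (hIm : ∀ d, coeff d (PowerSeries.subst F.toPowerSeries ((mulSeries F (p ^ m)).subst bt) -
      MvPowerSeries.subst
        ![PowerSeries.subst (X 0 : MvPowerSeries (Fin 2) E) ((mulSeries F (p ^ m)).subst bt),
          PowerSeries.subst (X 1 : MvPowerSeries (Fin 2) E) ((mulSeries F (p ^ m)).subst bt)]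
        F.toPowerSeries) ∈ I)
    (φ : E →+* E) (hφ : ∀ f, π (φ f) = π f) (t : PowerSeries E) (ht : IsHom (F.map φ) F t)
    (htg : t.map π = onePlus Γ p m b hb.1) :
    (∀ f, φ f - f ∈ I) ∧
    PowerSeries.coeff 1 t - 1 - (p : E) ^ m * PowerSeries.coeff 1 bt ∈ I := by
  have hker := ker_eq_maximal hπ
  have hFr : F.map π = Γ := hF.reduction
  have : IsLocalRing (E ⧸ I) := isLocalRing_quotient hI
  have : IsAdicComplete (IsLocalRing.maximalIdeal (E ⧸ I)) (E ⧸ I) :=
    isAdicComplete_of_pow_eq_bot (maximalIdeal_quotient_pow hIN)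
  set mk : E →+* E ⧸ I := Ideal.Quotient.mk I with hmk
  let πA : E ⧸ I →+* k := Ideal.Quotient.lift I π (fun a ha => by
    have h1 := hI ha
    rw [← hker] at h1
    exact h1)
  have hπmk : πA.comp mk = π := by
    ext a
    rfl
  have hπA : Function.Surjective πA := by
    intro a
    obtain ⟨e, he⟩ := hπ a
    exact ⟨mk e, he⟩
  set γ : PowerSeries E := (mulSeries F (p ^ m)).subst bt with hγ
  have hγ0 : PowerSeries.constantCoeff γ = 0 :=
    PowerSeries.constantCoeff_subst_eq_zero hbt0 _ (mulSeries_constantCoeff _ _)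
  have hγh : IsHom (F.map mk) (F.map mk) (γ.map mk) :=
    (isHom_map_iff mk hγ0).2 (fun d => Ideal.Quotient.eq_zero_iff_mem.2 (hIm d))
  set gt : PowerSeries (E ⧸ I) :=
    (idPoint (F.map mk) + seriesPoint (F.map mk) (γ.map mk) hγh.1).val with hgt
  have hgth : IsHom (F.map mk) (F.map mk) gt := isHom_add (isHom_X _) hγh
  have hGπ : (F.map mk).map πA = Γ := by
    rw [formalGroup_map_map, hπmk, hFr]
  have hγπ : (γ.map mk).map πA = PowerSeries.subst b (mulSeries Γ (p ^ m)) := by
    rw [psMap_map, hπmk, hγ]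
    have h1 := PowerSeries.map_subst (PowerSeries.HasSubst.of_constantCoeff_zero' hbt0)
      (h := π) (mulSeries F (p ^ m))
    refine h1.trans ?_
    rw [← mulSeries_map, hFr]
    congr 1
  have hgtπ : gt.map πA = onePlus Γ p m b hb.1 := by
    rw [onePlus_eq hb]
    have h1 := map_subst_pair πA
      (PowerSeries.HasSubst.X' : PowerSeries.HasSubst (PowerSeries.X : PowerSeries (E ⧸ I)))
      (hasSubst_of_isHom hγh) (F.map mk).toPowerSeries
    refine h1.trans ?_
    have h2 : MvPowerSeries.map πA (PowerSeries.X : PowerSeries (E ⧸ I)) = PowerSeries.X :=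
      PowerSeries.map_X πA
    have h3 : MvPowerSeries.map πA (F.map mk).toPowerSeries = Γ.toPowerSeries :=
      congrArg FormalGroup.toPowerSeries hGπ
    have h4 : MvPowerSeries.map πA (γ.map mk) = PowerSeries.subst b (mulSeries Γ (p ^ m)) := hγπ
    rw [h2, h3, h4]
    rfl
  have hgu : IsUnit (PowerSeries.coeff 1 (onePlus Γ p m b hb.1)) := by
    rw [coeff_one_onePlus' hb hm]
    exact isUnit_one
  have hT : IsHom (F.map (mk.comp φ)) (F.map mk) (t.map mk) := by
    have h1 := ht.map mk
    rw [formalGroup_map_map] at h1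
    exact h1
  have hTπ : (t.map mk).map πA = onePlus Γ p m b hb.1 := by
    rw [psMap_map, hπmk, htg]
  have hφc : πA.comp (mk.comp φ) = π := by
    rw [← RingHom.comp_assoc, hπmk]
    ext f
    exact hφ f
  obtain ⟨hU1, hU2⟩ := univ_unique hF (E ⧸ I) πA hπA (F.map mk) (onePlus Γ p m b hb.1)
    hgu mk (mk.comp φ) gt (t.map mk) hπmk hφc hgth hT hgtπ hTπ
  refine ⟨fun f => ?_, ?_⟩
  · rw [← Ideal.Quotient.eq_zero_iff_mem, map_sub, sub_eq_zero]
    exact (RingHom.congr_fun hU1 f).symm
  · have h1 : PowerSeries.coeff 1 gt = 1 + mk ((p : E) ^ m * PowerSeries.coeff 1 bt) := by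
      rw [hgt, coeff_one_id_add, PowerSeries.coeff_map, hγ,
        coeff_one_subst' hbt0 (mulSeries_constantCoeff _ _), mulSeries_coeff_one, Nat.cast_pow]
    have h2 : mk (PowerSeries.coeff 1 t) = 1 + mk ((p : E) ^ m * PowerSeries.coeff 1 bt) := by
      rw [← h1, hU2, PowerSeries.coeff_map]
    rw [← Ideal.Quotient.eq_zero_iff_mem, map_sub, map_sub, map_one]
    change mk (PowerSeries.coeff 1 t) - 1 - mk ((p : E) ^ m * PowerSeries.coeff 1 bt) = 0
    rw [h2]
    ring

end

end DispZOne
end Vale.Agent.P217
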