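import Mathlib.RingTheory.WittVector.TeichmullerSeries
import Vale.Agent.Lib.P217.HeightQuot

/-!
# P217: a ring endomorphism of the Lubin-Tate ring over the residue field fixes the Witt vectors
-/

namespace Vale.Agent.P217

open MvPowerSeries

/-- Two roots of `X ^ q - X` that are congruent modulo the maximal ideal of a local ring in which
`q` is a nonunit are equal. -/
theorem fixW_root {E : Type*} [CommRing E] [IsLocalRing E] {q : ℕ} (hq : 2 ≤ q)
    (hqm : (q : E) ∈ IsLocalRing.maximalIdeal E) {u v : E} (hu : u ^ q = u) (hv : v ^ q = v)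
    (huv : u - v ∈ IsLocalRing.maximalIdeal E) : u = v := by
  have h1 : (∑ i ∈ Finset.range q, u ^ i * v ^ (q - 1 - i)) * (u - v) = u ^ q - v ^ q :=
    (Commute.all u v).geom_sum₂_mul q
  have h2 : (∑ i ∈ Finset.range q, u ^ i * v ^ (q - 1 - i)) ∈ IsLocalRing.maximalIdeal E := by
    rw [← Ideal.Quotient.eq_zero_iff_mem, map_sum]
    have h3 : (Ideal.Quotient.mk (IsLocalRing.maximalIdeal E)) u =
        (Ideal.Quotient.mk (IsLocalRing.maximalIdeal E)) v := Ideal.Quotient.eq.mpr huv
    have h4 : (Ideal.Quotient.mk (IsLocalRing.maximalIdeal E)) (q : E) = 0 :=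
      Ideal.Quotient.eq_zero_iff_mem.mpr hqm
    rw [map_natCast] at h4
    have h5 : ∀ i ∈ Finset.range q, (Ideal.Quotient.mk (IsLocalRing.maximalIdeal E))
        (u ^ i * v ^ (q - 1 - i)) =
        (Ideal.Quotient.mk (IsLocalRing.maximalIdeal E)) v ^ (q - 1) := by
      intro i hi
      have hi' := Finset.mem_range.mp hi
      rw [map_mul, map_pow, map_pow, h3, ← pow_add]
      congr 1
      omega
    rw [Finset.sum_congr rfl h5, Finset.sum_const, Finset.card_range, nsmul_eq_mul, h4, zero_mul]
  rw [hu, hv] at h1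
  have h6 : (1 - ∑ i ∈ Finset.range q, u ^ i * v ^ (q - 1 - i)) * (u - v) = 0 := by
    rw [sub_mul, h1, one_mul, sub_self]
  have h7 : IsUnit (1 - ∑ i ∈ Finset.range q, u ^ i * v ^ (q - 1 - i)) := by
    by_contra h8
    have h9 : (1 - ∑ i ∈ Finset.range q, u ^ i * v ^ (q - 1 - i)) ∈
      IsLocalRing.maximalIdeal E := h8
    have h10 := Ideal.add_mem _ h9 h2
    rw [sub_add_cancel] at h10
    exact (IsLocalRing.maximalIdeal E).ne_top_iff_one.mp
      (IsLocalRing.maximalIdeal.isMaximal E).ne_top h10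
  exact sub_eq_zero.mp (h7.mul_right_eq_zero.mp h6)

theorem fix_W' (p : ℕ) [Fact p.Prime] (n : ℕ) (hn : n ≠ 0) (φ : LTRing p n →+* LTRing p n)
    (hφ : ∀ f, residueMap p n (φ f) = residueMap p n f) (a : WittVector p (GaloisField p n)) :
    φ (C a) = C a := by
  have hker : ∀ f, residueMap p n f = 0 ↔ f ∈ IsLocalRing.maximalIdeal (LTRing p n) := by
    intro f
    rw [← ker_residueMap p n hn, RingHom.mem_ker]
  have hp : (p : LTRing p n) ∈ IsLocalRing.maximalIdeal (LTRing p n) := by
    rw [← hker, map_natCast]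
    exact CharP.cast_eq_zero _ p
  have hcard : Nat.card (GaloisField p n) = p ^ n := GaloisField.card p n hn
  have : Finite (GaloisField p n) := inferInstance
  have : Fintype (GaloisField p n) := Fintype.ofFinite _
  have hq : 2 ≤ p ^ n := by
    calc 2 ≤ p := (Fact.out : p.Prime).two_le
      _ = p ^ 1 := (pow_one p).symm
      _ ≤ p ^ n := Nat.pow_le_pow_right (Fact.out : p.Prime).pos (Nat.one_le_iff_ne_zero.mpr hn)
  have hqm : ((p ^ n : ℕ) : LTRing p n) ∈ IsLocalRing.maximalIdeal (LTRing p n) := by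
    rw [Nat.cast_pow]
    exact Ideal.pow_mem_of_mem _ hp n (Nat.pos_of_ne_zero hn)
  have hteich : ∀ x : GaloisField p n,
      φ (C (WittVector.teichmuller p x)) = C (WittVector.teichmuller p x) := by
    intro x
    have hx : (WittVector.teichmuller p x) ^ (p ^ n) = WittVector.teichmuller p x := by
      rw [← map_pow]
      congr 1
      rw [← hcard, Nat.card_eq_fintype_card]
      exact FiniteField.pow_card x
    have hC : (C (WittVector.teichmuller p x) : LTRing p n) ^ (p ^ n) =
        C (WittVector.teichmuller p x) := by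
      rw [← map_pow, hx]
    refine fixW_root hq hqm ?_ hC ?_
    · rw [← map_pow, hC]
    · rw [← hker, map_sub, hφ, sub_self]
  have hN : ∀ N : ℕ, φ (C a) - C a ∈ IsLocalRing.maximalIdeal (LTRing p n) ^ N := by
    intro N
    have h1 := WittVector.eq_of_apply_teichmuller_eq (p := p) (R := GaloisField p n)
      (((Ideal.Quotient.mk (IsLocalRing.maximalIdeal (LTRing p n) ^ N)).comp φ).comp
        (C : WittVector p (GaloisField p n) →+* LTRing p n))
      ((Ideal.Quotient.mk (IsLocalRing.maximalIdeal (LTRing p n) ^ N)).comp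
        (C : WittVector p (GaloisField p n) →+* LTRing p n))
      ⟨N, by
        rw [← map_natCast (Ideal.Quotient.mk (IsLocalRing.maximalIdeal (LTRing p n) ^ N)),
          ← map_pow, Ideal.Quotient.eq_zero_iff_mem]
        exact Ideal.pow_mem_pow hp N⟩
      (fun x => by
        simp only [RingHom.comp_apply]
        rw [hteich])
    have h2 := RingHom.congr_fun h1 a
    simp only [RingHom.comp_apply] at h2
    exact Ideal.Quotient.eq.mp h2
  have h3 : φ (C a) - C a ∈ (⨅ N : ℕ, IsLocalRing.maximalIdeal (LTRing p n) ^ N) :=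
    Ideal.mem_iInf.mpr hN
  rw [Ideal.iInf_pow_eq_bot_of_isLocalRing _
    (IsLocalRing.maximalIdeal.isMaximal (LTRing p n)).ne_top] at h3
  exact sub_eq_zero.mp (Ideal.mem_bot.mp h3)

end Vale.Agent.P217
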