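import Vale.Agent.Lib.P217.UC
import Vale.Agent.Lib.P217.Zeros

/-!
# P217 (characteristic zero part): the logarithm on points (module Z2)

`K` of characteristic zero, `‖p‖ < 1`.  `IsLog p F x v` : `v = lim_l (p^l • x) / p^l`.

* `IsLog.add`: `‖(u + w) - u - w‖ ≤ ‖u‖ ‖w‖` (`Pt.norm_add_sub_le`) for `u = p^l • x`, `w = p^l • y`; the sequences `(p^l • x)/p^l` converge so are
  bounded, so the error divided by `p^l` is `O(‖p‖^l)`.
* `IsLog.hom`: `‖t(u) - t_1 u‖ ≤ ‖u‖^2` for a series `t` over `OO K` without constant term.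
* `isLog_small`: for `‖x‖ ≤ ‖p‖^2`: `‖p • y - p y‖ ≤ ‖y‖^2` (`[p](X) = pX + X^2(…)`), so `‖p^l • x‖ ≤ ‖p‖^l ‖x‖` by
  induction and `‖(p^{l+1} • x)/p^{l+1} - (p^l • x)/p^l‖ ≤ ‖p‖^{l-1} ‖x‖^2`.
* `exists_isLog`: `p^l • x` tends to zero when `[p] ≡ X^q` modulo `c < 1` (`‖p • y‖ ≤ max(c ‖y‖, ‖y‖^q)`), so `p^j • x` is in the
  range of `isLog_small` for large `j`, and `IsLog (p^j • x) v` implies `IsLog x (v/p^j)`.
* `exists_logHom`: the additive homomorphism.
-/

set_option linter.unusedSectionVars false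

namespace Vale.Agent.P217

open MvPowerSeries Filter Topology

section
variable {K : Type*} [NontriviallyNormedField K] [IsUltrametricDist K] [CompleteSpace K] {p : ℕ}

/-- `v` is the logarithm of `x` -/
def IsLog (p : ℕ) (F : FormalGroup (OO K)) [F.IsComm] (x : Pt F) (v : K) : Prop :=
  Tendsto (fun l : ℕ => (((p ^ l • x).val : OO K) : K) / (p : K) ^ l) atTop (𝓝 v)

/-- first order Taylor approximation of a series without constant term -/
theorem norm_ev1_sub_linear_le (f : PowerSeries (OO K)) (hf : PowerSeries.constantCoeff f = 0)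
    (x : OO K) (hx : ‖(x : K)‖ < 1) :
    ‖((ev1 x f : OO K) : K) - ((PowerSeries.coeff 1 f : OO K) : K) * (x : K)‖ ≤ ‖(x : K)‖ ^ 2 := by
  obtain ⟨g, hg⟩ := PowerSeries.X_dvd_iff.mpr hf
  have hg1 : PowerSeries.coeff 1 f = PowerSeries.constantCoeff g := by
    rw [hg]
    simp
  have e1 : ev1 x f = x * ev1 x g := by
    rw [hg, ev1_mul hx, ev1_X]
  have e2 : ev1 x g = ev1 x (g - PowerSeries.C (PowerSeries.constantCoeff g)) +
      PowerSeries.constantCoeff g := by
    have h3 := ev1_add hx (g - PowerSeries.C (PowerSeries.constantCoeff g))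
      (PowerSeries.C (PowerSeries.constantCoeff g))
    rw [sub_add_cancel, ev1_C] at h3
    exact h3
  have e3 := norm_ev1_le (g - PowerSeries.C (PowerSeries.constantCoeff g)) x hx (by simp)
  rw [e1, hg1, e2]
  have e4 : ((x * (ev1 x (g - PowerSeries.C (PowerSeries.constantCoeff g)) +
      PowerSeries.constantCoeff g) : OO K) : K) - ((PowerSeries.constantCoeff g : OO K) : K) * x =
      (x : K) * ((ev1 x (g - PowerSeries.C (PowerSeries.constantCoeff g)) : OO K) : K) := by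
    push_cast
    ring
  rw [e4, norm_mul, pow_two]
  exact mul_le_mul_of_nonneg_left e3 (norm_nonneg _)

variable {F G : FormalGroup (OO K)} [F.IsComm] [G.IsComm] (hp0 : (p : K) ≠ 0)
  (hp1 : ‖(p : K)‖ < 1)

theorem IsLog.unique {x : Pt F} {v w : K} (h : IsLog p F x v) (h' : IsLog p F x w) : v = w :=
  tendsto_nhds_unique h h'

/-- `p • y` is `p y` up to `‖y‖ ^ 2` -/
theorem norm_psmul_sub_le (m : ℕ) (y : Pt F) :
    ‖(((m • y).val : OO K) : K) - (m : K) * (y.val : K)‖ ≤ Pt.nm y ^ 2 := by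
  have h := norm_ev1_sub_linear_le (mulSeries F m) (mulSeries_constantCoeff F m) y.val y.norm_lt
  rw [mulSeries_coeff_one, ← Pt.nsmul_val] at h
  unfold Pt.nm
  simpa using h

include hp0 hp1

/-- the multiples `p^l • x` are `O(‖p‖^l)` when the logarithm exists -/
theorem IsLog.bound {x : Pt F} {v : K} (h : IsLog p F x v) :
    ∃ C : ℝ, 0 ≤ C ∧ ∀ l : ℕ, Pt.nm (p ^ l • x) ≤ C * ‖(p : K)‖ ^ l := by
  obtain ⟨C, hC⟩ := (Metric.isBounded_range_of_tendsto _ h).exists_norm_le
  refine ⟨max C 0, le_max_right _ _, fun l => ?_⟩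
  have h1 := hC _ (Set.mem_range_self l)
  have hp : 0 < ‖(p : K)‖ ^ l := pow_pos (norm_pos_iff.2 hp0) _
  rw [norm_div, norm_pow, div_le_iff₀ hp] at h1
  exact h1.trans (mul_le_mul_of_nonneg_right (le_max_left _ _) hp.le)

theorem tendsto_const_mul_norm_p (C : ℝ) :
    Tendsto (fun l : ℕ => C * ‖(p : K)‖ ^ l) atTop (𝓝 0) := by
  have := (tendsto_pow_atTop_nhds_zero_of_lt_one (norm_nonneg (p : K)) hp1).const_mul C
  simpa using this

theorem IsLog.add {x y : Pt F} {v w : K} (h : IsLog p F x v) (h' : IsLog p F y w) :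
    IsLog p F (x + y) (v + w) := by
  obtain ⟨C, hC0, hC⟩ := h.bound hp0 hp1
  obtain ⟨D, hD0, hD⟩ := h'.bound hp0 hp1
  have h1 : Tendsto (fun l : ℕ => (((p ^ l • x).val : OO K) : K) / (p : K) ^ l +
      (((p ^ l • y).val : OO K) : K) / (p : K) ^ l) atTop (𝓝 (v + w)) := Tendsto.add h h'
  have h2 : Tendsto (fun l : ℕ => (((p ^ l • (x + y)).val : OO K) : K) / (p : K) ^ l -
      ((((p ^ l • x).val : OO K) : K) / (p : K) ^ l +
      (((p ^ l • y).val : OO K) : K) / (p : K) ^ l)) atTop (𝓝 0) := by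
    refine squeeze_zero_norm (fun l => ?_) (tendsto_const_mul_norm_p hp0 hp1 (C * D))
    have hp : 0 < ‖(p : K)‖ ^ l := pow_pos (norm_pos_iff.2 hp0) _
    rw [← add_div, ← sub_div, norm_div, norm_pow, div_le_iff₀ hp, smul_add]
    refine (Pt.norm_add_sub_le _ _).trans ?_
    calc Pt.nm (p ^ l • x) * Pt.nm (p ^ l • y)
        ≤ (C * ‖(p : K)‖ ^ l) * (D * ‖(p : K)‖ ^ l) :=
          mul_le_mul (hC l) (hD l) (Pt.nm_nonneg _) (mul_nonneg hC0 hp.le)
      _ = _ := by ring
  have h3 := h2.add h1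
  rw [zero_add] at h3
  unfold IsLog
  refine h3.congr fun l => ?_
  ring

theorem IsLog.nsmul {x : Pt F} {v : K} (h : IsLog p F x v) (m : ℕ) :
    IsLog p F (m • x) ((m : K) * v) := by
  induction m with
  | zero =>
    unfold IsLog
    simp only [zero_nsmul, smul_zero, Pt.zero_val, Nat.cast_zero, zero_mul]
    simp
  | succ m ih =>
    rw [succ_nsmul, Nat.cast_succ, add_mul, one_mul]
    exact ih.add hp0 hp1 h

theorem IsLog.hom {x : Pt F} {v : K} (h : IsLog p F x v) {t : PowerSeries (OO K)}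
    (ht : IsHom F G t) :
    IsLog p G (Pt.hom ht x) (((PowerSeries.coeff 1 t : OO K) : K) * v) := by
  obtain ⟨C, hC0, hC⟩ := h.bound hp0 hp1
  have h1 : Tendsto (fun l : ℕ => ((PowerSeries.coeff 1 t : OO K) : K) *
      ((((p ^ l • x).val : OO K) : K) / (p : K) ^ l)) atTop
      (𝓝 (((PowerSeries.coeff 1 t : OO K) : K) * v)) := Tendsto.const_mul _ h
  have h2 : Tendsto (fun l : ℕ => (((p ^ l • Pt.hom ht x).val : OO K) : K) / (p : K) ^ l -
      ((PowerSeries.coeff 1 t : OO K) : K) *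
      ((((p ^ l • x).val : OO K) : K) / (p : K) ^ l)) atTop (𝓝 0) := by
    refine squeeze_zero_norm (fun l => ?_) (tendsto_const_mul_norm_p hp0 hp1 (C * C))
    have hp : 0 < ‖(p : K)‖ ^ l := pow_pos (norm_pos_iff.2 hp0) _
    rw [← mul_div_assoc, ← sub_div, norm_div, norm_pow, div_le_iff₀ hp, ← map_nsmul, Pt.hom_val]
    refine (norm_ev1_sub_linear_le t ht.1 _ (p ^ l • x).norm_lt).trans ?_
    have h3 : ‖(((p ^ l • x).val : OO K) : K)‖ ≤ C * ‖(p : K)‖ ^ l := hC l
    calc ‖(((p ^ l • x).val : OO K) : K)‖ ^ 2 ≤ (C * ‖(p : K)‖ ^ l) ^ 2 :=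
          pow_le_pow_left₀ (norm_nonneg _) h3 2
      _ = _ := by ring
  have h3 := h2.add h1
  rw [zero_add] at h3
  unfold IsLog
  refine h3.congr fun l => ?_
  ring

theorem isLog_small (x : Pt F) (hx : Pt.nm x ≤ ‖(p : K)‖ ^ 2) :
    ∃ v : K, IsLog p F x v ∧ ‖v - x.val‖ ≤ Pt.nm x ^ 2 / ‖(p : K)‖ := by
  have hpp : 0 < ‖(p : K)‖ := norm_pos_iff.2 hp0
  -- the size of the multiples
  have hsize : ∀ l : ℕ, Pt.nm (p ^ l • x) ≤ ‖(p : K)‖ ^ l * Pt.nm x := by
    intro l
    induction l with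
    | zero => simp
    | succ l ih =>
      have h1 : p ^ (l + 1) • x = p • (p ^ l • x) := by rw [smul_smul, ← pow_succ']
      rw [h1]
      have h2 : Pt.nm (p ^ l • x) ≤ ‖(p : K)‖ := by
        refine ((Pt.nm_nsmul_le _ _).trans hx).trans ?_
        rw [pow_two]
        exact mul_le_of_le_one_left hpp.le hp1.le
      have h3 := norm_psmul_sub_le (F := F) p (p ^ l • x)
      have h4 : Pt.nm (p • p ^ l • x) ≤ ‖(p : K)‖ * Pt.nm (p ^ l • x) := by
        have h5 : (((p • p ^ l • x).val : OO K) : K) =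
            ((((p • p ^ l • x).val : OO K) : K) - (p : K) * (((p ^ l • x).val : OO K) : K)) +
            (p : K) * (((p ^ l • x).val : OO K) : K) := by ring
        unfold Pt.nm at h2 h3 ⊢
        rw [h5]
        refine (IsUltrametricDist.norm_add_le_max _ _).trans (max_le (h3.trans ?_) ?_)
        · rw [pow_two]
          exact mul_le_mul_of_nonneg_right h2 (norm_nonneg _)
        · rw [norm_mul]
      refine h4.trans ?_
      rw [pow_succ', mul_assoc]
      exact mul_le_mul_of_nonneg_left ih hpp.le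
  set a : ℕ → K := fun l => (((p ^ l • x).val : OO K) : K) / (p : K) ^ l with ha
  have hstep : ∀ l, ‖a (l + 1) - a l‖ ≤ (Pt.nm x ^ 2 / ‖(p : K)‖) * ‖(p : K)‖ ^ l := by
    intro l
    have h1 : p ^ (l + 1) • x = p • (p ^ l • x) := by rw [smul_smul, ← pow_succ']
    have h3 := norm_psmul_sub_le (F := F) p (p ^ l • x)
    have h4 : a (l + 1) - a l = ((((p • p ^ l • x).val : OO K) : K) -
        (p : K) * (((p ^ l • x).val : OO K) : K)) / (p : K) ^ (l + 1) := by
      simp only [ha]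
      rw [h1, pow_succ]
      field_simp
    have hpl : 0 < ‖(p : K)‖ ^ (l + 1) := pow_pos hpp _
    rw [h4, norm_div, norm_pow, div_le_iff₀ hpl]
    refine h3.trans ?_
    calc Pt.nm (p ^ l • x) ^ 2 ≤ (‖(p : K)‖ ^ l * Pt.nm x) ^ 2 :=
          pow_le_pow_left₀ (Pt.nm_nonneg _) (hsize l) 2
      _ = _ := by
          rw [pow_succ ‖(p : K)‖ l]
          field_simp
  have hcau : CauchySeq a := by
    refine cauchySeq_of_le_geometric ‖(p : K)‖ (Pt.nm x ^ 2 / ‖(p : K)‖) hp1 fun l => ?_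
    rw [dist_comm, dist_eq_norm]
    exact hstep l
  obtain ⟨v, hv⟩ := cauchySeq_tendsto_of_complete hcau
  refine ⟨v, hv, ?_⟩
  have hC0 : 0 ≤ Pt.nm x ^ 2 / ‖(p : K)‖ := div_nonneg (sq_nonneg _) hpp.le
  have hall : ∀ l, ‖a l - x.val‖ ≤ Pt.nm x ^ 2 / ‖(p : K)‖ := by
    intro l
    induction l with
    | zero => simpa [ha] using hC0
    | succ l ih =>
      have h5 : a (l + 1) - x.val = (a (l + 1) - a l) + (a l - x.val) := by ring
      rw [h5]
      refine (IsUltrametricDist.norm_add_le_max _ _).trans (max_le ((hstep l).trans ?_) ih)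
      exact mul_le_of_le_one_right hC0 (pow_le_one₀ hpp.le hp1.le)
  exact le_of_tendsto ((hv.sub_const (x.val : K)).norm) (Eventually.of_forall hall)

theorem exists_isLog {q : ℕ} {c : ℝ} (hq2 : 2 ≤ q) (hc0 : 0 ≤ c) (hc1 : c < 1)
    (hF : PCong p q c F) (x : Pt F) : ∃ v : K, IsLog p F x v := by
  have hpp : 0 < ‖(p : K)‖ := norm_pos_iff.2 hp0
  have hc' : max c (Pt.nm x) < 1 := max_lt hc1 (Pt.nm_lt_one x)
  have hc0' : 0 ≤ max c (Pt.nm x) := hc0.trans (le_max_left _ _)
  have hF' : PCong p q (max c (Pt.nm x)) F := fun i => (hF i).trans (le_max_left _ _)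
  obtain ⟨k, hk⟩ := exists_pow_lt_of_lt_one (pow_pos hpp 2) hc'
  have h1 : Pt.nm (p ^ k • x) ≤ ‖(p : K)‖ ^ 2 :=
    (uc_nm_pow_smul_le hq2 hc0' hc' hF' x (le_max_right _ _) k).trans hk.le
  obtain ⟨v, hv, -⟩ := isLog_small hp0 hp1 (p ^ k • x) h1
  refine ⟨v / (p : K) ^ k, ?_⟩
  unfold IsLog
  rw [← tendsto_add_atTop_iff_nat k]
  have h2 := hv.div_const ((p : K) ^ k)
  refine h2.congr fun l => ?_
  rw [smul_smul, ← pow_add, div_div, ← pow_add]

theorem exists_logHom {q : ℕ} {c : ℝ} (hq2 : 2 ≤ q) (hc0 : 0 ≤ c) (hc1 : c < 1)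
    (hF : PCong p q c F) : ∃ L : Pt F →+ K, ∀ x, IsLog p F x (L x) := by
  choose L hL using exists_isLog hp0 hp1 hq2 hc0 hc1 hF
  exact ⟨AddMonoidHom.mk' L fun x y => (hL (x + y)).unique ((hL x).add hp0 hp1 (hL y)), hL⟩

/-- multiplication by `p` is surjective on points (`K` algebraically closed): the series `[p](Y) - y` has coefficients
of norm `< 1` in degrees `< q` and a unit in degree `q`, use `exists_zero` -/
theorem psmul_surjective_of_pCong [IsAlgClosed K] {q : ℕ} {c : ℝ} (hq2 : 2 ≤ q) (hc0 : 0 ≤ c)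
    (hc1 : c < 1) (hF : PCong p q c F) (y : Pt F) : ∃ x : Pt F, p • x = y := by
  have hlt : ∀ i < q, ‖((PowerSeries.coeff i (mulSeries F p - PowerSeries.C y.val) : OO K) : K)‖ < 1 := by
    intro i hi
    rcases Nat.eq_zero_or_pos i with h0 | h0
    · subst h0
      have h1 : PowerSeries.coeff 0 (mulSeries F p - PowerSeries.C y.val) = - y.val := by
        rw [PowerSeries.coeff_zero_eq_constantCoeff, map_sub, mulSeries_constantCoeff]
        simp
      rw [h1]
      have := y.norm_lt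
      push_cast
      rwa [norm_neg]
    · have h1 : PowerSeries.coeff i (mulSeries F p - PowerSeries.C y.val) =
          PowerSeries.coeff i (mulSeries F p - PowerSeries.X ^ q) := by
        rw [map_sub, map_sub, PowerSeries.coeff_C, if_neg h0.ne', PowerSeries.coeff_X_pow,
          if_neg hi.ne]
      rw [h1]
      exact (hF i).trans_lt hc1
  have hq : ‖((PowerSeries.coeff q (mulSeries F p - PowerSeries.C y.val) : OO K) : K)‖ = 1 := by
    have h1 : PowerSeries.coeff q (mulSeries F p - PowerSeries.C y.val) =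
        1 + PowerSeries.coeff q (mulSeries F p - PowerSeries.X ^ q) := by
      rw [map_sub, map_sub, PowerSeries.coeff_C, if_neg (by omega), PowerSeries.coeff_X_pow,
        if_pos rfl]
      ring
    rw [h1]
    refine Pt.norm_one_add_tn (tn_iff.mpr ?_)
    exact (hF q).trans_lt hc1
  obtain ⟨z, hz1, hz⟩ := exists_zero (mulSeries F p - PowerSeries.C y.val) q (by omega) hlt hq
  refine ⟨Pt.mk' F z hz1, ?_⟩
  ext
  rw [Pt.nsmul_val]
  change ((ev1 z (mulSeries F p) : OO K) : K) = (y.val : K)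
  have h3 := ev1_add hz1 (mulSeries F p - PowerSeries.C y.val) (PowerSeries.C y.val)
  rw [sub_add_cancel, hz, zero_add, ev1_C] at h3
  rw [h3]

end
end Vale.Agent.P217
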