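import Vale.Agent.Lib.P217.ChaiP
import Vale.Agent.Lib.P217.DispZOne
import Vale.Agent.Lib.P217.LogPt
import Vale.Agent.Lib.P217.DefectAux
import Vale.Agent.Lib.P217.FixW

/-!
# P217 (characteristic zero part): the displacement of `1 + p^m b` is `O(p^m)` (module Z4)

`E` a complete Noetherian local ring with residue field `k`, `π : E → k`, `F` a universal deformation of `Γ`.

`defect F γ = γ(F(X,Y)) - F(γ X, γ Y)`.
* `defect_step`: over any ring, for an ideal `J` containing the coefficients of `defect F β`, the coefficients of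
  `defect F ([p] ∘ β)` are in `p J + J^2`:  `β(F(X,Y)) = F(βX,βY) +_F D` with the coefficients of `D` in `J`, and `[p](D) = pD + D^2 (…)`.
  (Use `sub_val_eq`, `sub_mem_iff` of `LiftPow.lean` and the `coefId` ideals.)
* `defect_norm`: over `OO K`: if the coefficients of `defect F β` have norm `≤ s` then those of `defect F ([p] ∘ β)` have norm
  `≤ max(‖p‖ s, s^2)` (apply `defect_step` to `J = {‖·‖ ≤ s}`); so if `s ≤ c < 1` those of `defect F ([p^m] ∘ β)` have norm at most `C ‖p‖^m`, `C`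
  depending only on `c` and `‖p‖` (after `j₀` steps `s ≤ ‖p‖`, as `s_{j+1} ≤ max(‖p‖,c) s_j`, and then `s_{j+1} ≤ ‖p‖ s_j`).
* `disp_ideal`: let `J ≤ 𝔪` be an ideal containing the coefficients of `defect F ([p^m] ∘ bt)`, `bt` a lift of `b`, `m ≥ 1`. Over the Artinian local
  ring `A = E/(J + 𝔪^N)` (`N ≥ 1`; Noetherian, complete because the maximal ideal is nilpotent, see `ArtQ` in `DispTools.lean`), `[p^m] ∘ bt` is an endomorphism of `F_A`, so
  `gt = X +_F [p^m] bt` is one too, reducing to `onePlus Γ p m b`; by `univ_unique` applied to (`E → A`, `gt`) and (`E → A` composed with `φ`, `t`) they are equal.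
  The linear coefficient of `gt` is `1 + p^m bt'(0)`.
* `disp_estimate`: take `J = {f ∈ 𝔪 : ‖x(f)‖ ≤ s_m}` with `s_m = C ‖p‖^m` (an ideal), and `N` large.
* `disp_adic`: take `J = 𝔪^{m+1}` (`defect_step` and induction).
* `isHom_onePlusZ`, `coeff_one_onePlus`: see the proof of `hasDisp` in `ChaiP.lean`.
* `fix_W`: `φ(C [a]) = C [a]` for Teichmüller elements, since both are roots of `X^q - X`, congruent modulo the maximal ideal, and `q u^{q-1} - 1` is a unit;
  `φ(C a) ≡ C a` modulo `p^N` for all `N` (every Witt vector is a combination of Teichmüller elements modulo `p^N`), and `E` is `𝔪`-adically separated.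
-/

set_option linter.unusedSectionVars false

namespace Vale.Agent.P217

open MvPowerSeries Filter Topology

/-- the defect of additivity of `γ` -/
noncomputable def defect {B : Type*} [CommRing B] (F : FormalGroup B) (γ : PowerSeries B) :
    MvPowerSeries (Fin 2) B :=
  PowerSeries.subst F.toPowerSeries γ -
    MvPowerSeries.subst ![PowerSeries.subst (X 0 : MvPowerSeries (Fin 2) B) γ,
      PowerSeries.subst (X 1 : MvPowerSeries (Fin 2) B) γ] F.toPowerSeries

theorem defect_step {B : Type*} [CommRing B] (F : FormalGroup B) [F.IsComm] (p : ℕ)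
    (J : Ideal B) (β : PowerSeries B) (h0 : PowerSeries.constantCoeff β = 0)
    (hβ : ∀ d, coeff d (defect F β) ∈ J) :
    ∀ d, coeff d (defect F ((mulSeries F p).subst β)) ∈ Ideal.span {(p : B)} * J ⊔ J ^ 2 := by
  unfold defect at hβ ⊢
  exact defect_step_aux F p J β h0 hβ

theorem defect_norm {K : Type*} [NontriviallyNormedField K] [IsUltrametricDist K]
    [CompleteSpace K] (p : ℕ) (hp0 : (p : K) ≠ 0) (hp1 : ‖(p : K)‖ < 1) {c : ℝ} (hc0 : 0 ≤ c)
    (hc1 : c < 1) : ∃ C : ℝ, 0 < C ∧ ∀ (F : FormalGroup (OO K)) (_ : F.IsComm)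
      (β : PowerSeries (OO K)), PowerSeries.constantCoeff β = 0 →
      (∀ d, ‖((coeff d (defect F β) : OO K) : K)‖ ≤ c) →
      ∀ (m : ℕ) d, ‖((coeff d (defect F ((mulSeries F (p ^ m)).subst β)) : OO K) : K)‖ ≤
        C * ‖(p : K)‖ ^ m := by
  unfold defect
  exact defect_norm_aux p hp0 hp1 hc0 hc1


section dispZc
variable {R S : Type*} [CommRing R] [CommRing S]

open DispTools in
theorem dzc_defect_map (φ : R →+* S) (F : FormalGroup R) {f : PowerSeries R}
    (hf : PowerSeries.constantCoeff f = 0) :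
    (defect F f).map φ = defect (F.map φ) (f.map φ) := by
  unfold defect
  rw [map_sub, PowerSeries.map_subst (hasSubst_F F), map_subst_pair φ
    (hasSubst_psubst (hasSubst_X 0) hf) (hasSubst_psubst (hasSubst_X 1) hf),
    PowerSeries.map_subst (hasSubst_X 0), PowerSeries.map_subst (hasSubst_X 1), map_X,
    map_X]
  rfl

theorem dzc_constantCoeff_map (φ : R →+* S) {f : PowerSeries R}
    (hf : PowerSeries.constantCoeff f = 0) : PowerSeries.constantCoeff (f.map φ) = 0 := by
  rw [← PowerSeries.coeff_zero_eq_constantCoeff_apply, PowerSeries.coeff_map,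
    PowerSeries.coeff_zero_eq_constantCoeff_apply, hf, map_zero]

theorem dzc_defect_isHom {F : FormalGroup R} {f : PowerSeries R} (hf : IsHom F F f) :
    defect F f = 0 := by
  unfold defect
  rw [hf.2, sub_self]

theorem dzc_mul_map (φ : R →+* S) (F : FormalGroup R) (M : ℕ) {f : PowerSeries R}
    (hf : PowerSeries.constantCoeff f = 0) :
    PowerSeries.map φ ((mulSeries F M).subst f : PowerSeries R) =
      (mulSeries (F.map φ) M).subst (f.map φ) := by
  have h1 := PowerSeries.map_subst (PowerSeries.HasSubst.of_constantCoeff_zero' hf)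
    (h := φ) (mulSeries F M)
  refine h1.trans ?_
  rw [← mulSeries_map]
  rfl

theorem dzc_mul_zero (F : FormalGroup R) (M : ℕ) {f : PowerSeries R}
    (hf : PowerSeries.constantCoeff f = 0) :
    PowerSeries.constantCoeff ((mulSeries F M).subst f : PowerSeries R) = 0 :=
  PowerSeries.constantCoeff_subst_eq_zero hf _ (mulSeries_constantCoeff _ _)

end dispZc

section
variable {k E : Type} [Field k] [CommRing E] [IsLocalRing E] [IsNoetherianRing E]
  [IsAdicComplete (IsLocalRing.maximalIdeal E) E] {π : E →+* k} (hπ : Function.Surjective π)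
  {Γ : FormalGroup k} [Γ.IsComm] {F : FormalGroup E} [F.IsComm]
  (hF : IsUniversalDeformation Γ π F) {p : ℕ} [Fact p.Prime] [CharP k p]

theorem isHom_onePlusZ {Γ : FormalGroup k} [Γ.IsComm] {b : PowerSeries k} (hb : IsHom Γ Γ b)
    (m : ℕ) : IsHom Γ Γ (onePlus Γ p m b hb.1) := by
  exact DispZOne.isHom_onePlus' hb p m

theorem coeff_one_onePlus {Γ : FormalGroup k} [Γ.IsComm] {b : PowerSeries k}
    (hb : IsHom Γ Γ b) {m : ℕ} (hm : 1 ≤ m) :
    PowerSeries.coeff 1 (onePlus Γ p m b hb.1) = 1 := by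
  exact DispZOne.coeff_one_onePlus' hb hm

include hπ hF in
theorem disp_ideal {b : PowerSeries k} (hb : IsHom Γ Γ b) (bt : PowerSeries E)
    (hbt0 : PowerSeries.constantCoeff bt = 0) (hbt : bt.map π = b) {m : ℕ} (hm : 1 ≤ m)
    (J : Ideal E) (hJ : J ≤ IsLocalRing.maximalIdeal E)
    (hJm : ∀ d, coeff d (defect F ((mulSeries F (p ^ m)).subst bt)) ∈ J)
    (φ : E →+* E) (hφ : ∀ f, π (φ f) = π f) (t : PowerSeries E) (ht : IsHom (F.map φ) F t)
    (htg : t.map π = onePlus Γ p m b hb.1) (N : ℕ) :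
    (∀ f, φ f - f ∈ J ⊔ IsLocalRing.maximalIdeal E ^ N) ∧
    PowerSeries.coeff 1 t - 1 - (p : E) ^ m * PowerSeries.coeff 1 bt ∈
      J ⊔ IsLocalRing.maximalIdeal E ^ N := by
  rcases Nat.eq_zero_or_pos N with rfl | hN
  · rw [pow_zero, Ideal.one_eq_top, sup_top_eq]
    exact ⟨fun _ => trivial, trivial⟩
  · exact DispZOne.disp_core hπ hF hb bt hbt0 hbt hm (J ⊔ IsLocalRing.maximalIdeal E ^ N)
      (sup_le hJ (Ideal.pow_le_self hN.ne')) N le_sup_right
      (fun d => (le_sup_left : J ≤ J ⊔ IsLocalRing.maximalIdeal E ^ N) (hJm d)) φ hφ t ht htg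


theorem dzc_exists_lift (hπ : Function.Surjective π) (b : PowerSeries k)
    (hb : PowerSeries.constantCoeff b = 0) :
    ∃ bt : PowerSeries E, PowerSeries.constantCoeff bt = 0 ∧ bt.map π = b := by
  refine ⟨PowerSeries.mk fun i => if i = 0 then 0 else (hπ (PowerSeries.coeff i b)).choose,
    ?_, ?_⟩
  · rw [← PowerSeries.coeff_zero_eq_constantCoeff_apply, PowerSeries.coeff_mk, if_pos rfl]
  · ext i
    rw [PowerSeries.coeff_map, PowerSeries.coeff_mk]
    split
    · next h => rw [h, map_zero, PowerSeries.coeff_zero_eq_constantCoeff_apply, hb]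
    · exact (hπ (PowerSeries.coeff i b)).choose_spec

theorem dzc_max (hπ : Function.Surjective π) {f : E} :
    f ∈ IsLocalRing.maximalIdeal E ↔ π f = 0 := by
  have h := IsLocalRing.eq_maximalIdeal (RingHom.ker_isMaximal_of_surjective π hπ)
  rw [← h, RingHom.mem_ker]

theorem dzc_defect_mem {b : PowerSeries k} (hb : IsHom (F.map π) (F.map π) b) (bt : PowerSeries E)
    (hbt0 : PowerSeries.constantCoeff bt = 0) (hbt : bt.map π = b) (d : Fin 2 →₀ ℕ) :
    π (coeff d (defect F bt)) = 0 := by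
  rw [← coeff_map, dzc_defect_map π F hbt0, hbt, dzc_defect_isHom hb, map_zero]

theorem dzc_defect_mul_mem {b : PowerSeries k} (hb : IsHom (F.map π) (F.map π) b)
    (bt : PowerSeries E) (hbt0 : PowerSeries.constantCoeff bt = 0) (hbt : bt.map π = b) (M : ℕ)
    (d : Fin 2 →₀ ℕ) :
    π (coeff d (defect F ((mulSeries F M).subst bt))) = 0 := by
  have hc : (F.map π).IsComm := inferInstance
  refine dzc_defect_mem (b := (mulSeries (F.map π) M).subst b)
    (hb.comp (isHom_mulSeries (F.map π) M)) _ (dzc_mul_zero F M hbt0) ?_ d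
  rw [dzc_mul_map π F M hbt0, hbt]

include hπ hF in
theorem disp_estimate {K : Type*} [NontriviallyNormedField K] [IsUltrametricDist K]
    [CompleteSpace K] (hp0 : (p : K) ≠ 0) (hp1 : ‖(p : K)‖ < 1) {c : ℝ} (hc0 : 0 < c)
    (hc1 : c < 1) {b : PowerSeries k} (hb : IsHom Γ Γ b) :
    ∃ C : ℝ, 0 < C ∧ ∀ (x : E →+* OO K), (∀ f, π f = 0 → ‖((x f : OO K) : K)‖ ≤ c) →
      ∀ m ≥ 1, ∀ (φ : E →+* E), (∀ f, π (φ f) = π f) → ∀ (t : PowerSeries E),
        IsHom (F.map φ) F t → t.map π = onePlus Γ p m b hb.1 →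
        (∀ f, ‖((x (φ f) - x f : OO K) : K)‖ ≤ C * ‖(p : K)‖ ^ m) ∧
        ‖((x (PowerSeries.coeff 1 t) - 1 : OO K) : K)‖ ≤ C * ‖(p : K)‖ ^ m := by
  obtain ⟨C, hC, hnorm⟩ := defect_norm (K := K) p hp0 hp1 hc0.le hc1
  refine ⟨max C 1, lt_max_of_lt_left hC, ?_⟩
  intro x hx m hm φ hφ t ht htg
  obtain ⟨bt, hbt0, hbt⟩ := dzc_exists_lift hπ b hb.1
  have hred : F.map π = Γ := hF.reduction
  have hb' : IsHom (F.map π) (F.map π) b := by rw [hred]; exact hb
  have hp : 0 < ‖(p : K)‖ := norm_pos_iff.2 hp0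
  have hpm : 0 < ‖(p : K)‖ ^ m := pow_pos hp m
  have hs0 : 0 ≤ C * ‖(p : K)‖ ^ m := (mul_pos hC hpm).le
  -- the ideal
  set J : Ideal E := IsLocalRing.maximalIdeal E ⊓
    (ballIdeal K (C * ‖(p : K)‖ ^ m) hs0).comap x with hJdef
  have hbx0 := dzc_constantCoeff_map x hbt0
  have hdef : ∀ d, ‖((coeff d (defect (F.map x) (bt.map x)) : OO K) : K)‖ ≤ c := by
    intro d
    rw [← dzc_defect_map x F hbt0, coeff_map]
    exact hx _ (dzc_defect_mem hb' bt hbt0 hbt d)
  have hdefm := hnorm (F.map x) inferInstance (bt.map x) hbx0 hdef m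
  have hJm : ∀ d, coeff d (defect F ((mulSeries F (p ^ m)).subst bt)) ∈ J := by
    intro d
    refine ⟨(dzc_max hπ).2 (dzc_defect_mul_mem hb' bt hbt0 hbt _ d), ?_⟩
    show ‖((x (coeff d (defect F ((mulSeries F (p ^ m)).subst bt))) : OO K) : K)‖ ≤ _
    rw [← coeff_map, dzc_defect_map x F (dzc_mul_zero F _ hbt0), dzc_mul_map x F _ hbt0]
    exact hdefm d
  -- the power of the maximal ideal
  obtain ⟨N, hN⟩ : ∃ N : ℕ, c ^ N ≤ C * ‖(p : K)‖ ^ m := by
    obtain ⟨N, hN⟩ := exists_pow_lt_of_lt_one (mul_pos hC hpm) hc1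
    exact ⟨N, hN.le⟩
  have hpow : ∀ N : ℕ, ∀ f ∈ IsLocalRing.maximalIdeal E ^ N, ‖((x f : OO K) : K)‖ ≤ c ^ N := by
    have h1 : IsLocalRing.maximalIdeal E ≤ (ballIdeal K c hc0.le).comap x := by
      intro g hg
      exact hx g ((dzc_max hπ).1 hg)
    have h2 : ∀ N : ℕ, IsLocalRing.maximalIdeal E ^ N ≤
        (ballIdeal K (c ^ N) (pow_nonneg hc0.le N)).comap x := by
      intro N
      induction N with
      | zero =>
        intro g _
        show ‖((x g : OO K) : K)‖ ≤ c ^ 0
        rw [pow_zero]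
        exact norm_le_one _
      | succ N ih =>
        rw [pow_succ, Ideal.mul_le]
        intro a ha e he
        have ha' : ‖((x a : OO K) : K)‖ ≤ c ^ N := ih ha
        have he' : ‖((x e : OO K) : K)‖ ≤ c := h1 he
        show ‖((x (a * e) : OO K) : K)‖ ≤ c ^ (N + 1)
        rw [map_mul, Subring.coe_mul, norm_mul, pow_succ]
        exact mul_le_mul ha' he' (norm_nonneg _) (pow_nonneg hc0.le N)
    intro N f hf
    exact h2 N hf
  have hsup : ∀ f ∈ J ⊔ IsLocalRing.maximalIdeal E ^ N,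
      ‖((x f : OO K) : K)‖ ≤ C * ‖(p : K)‖ ^ m := by
    intro f hf
    obtain ⟨a, ha, e, he, rfl⟩ := Submodule.mem_sup.1 hf
    have ha' : ‖((x a : OO K) : K)‖ ≤ C * ‖(p : K)‖ ^ m := ha.2
    have he' := (hpow N e he).trans hN
    rw [map_add, Subring.coe_add]
    exact (IsUltrametricDist.norm_add_le_max _ _).trans (max_le ha' he')
  obtain ⟨h1, h2⟩ := disp_ideal hπ hF hb bt hbt0 hbt hm J inf_le_left hJm φ hφ t ht htg N
  have hle : C * ‖(p : K)‖ ^ m ≤ max C 1 * ‖(p : K)‖ ^ m :=
    mul_le_mul_of_nonneg_right (le_max_left _ _) hpm.le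
  refine ⟨fun f => ?_, ?_⟩
  · rw [← map_sub]
    exact (hsup _ (h1 f)).trans hle
  · have h3 := hsup _ h2
    have e1 : ((x (PowerSeries.coeff 1 t) - 1 : OO K) : K) =
        ((x (PowerSeries.coeff 1 t - 1 - (p : E) ^ m * PowerSeries.coeff 1 bt) : OO K) : K) +
          (p : K) ^ m * ((x (PowerSeries.coeff 1 bt) : OO K) : K) := by
      rw [map_sub, map_sub, map_mul, map_pow, map_natCast, map_one]
      push_cast
      ring
    rw [e1]
    refine (IsUltrametricDist.norm_add_le_max _ _).trans (max_le (h3.trans hle) ?_)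
    rw [norm_mul, norm_pow]
    calc ‖(p : K)‖ ^ m * ‖((x (PowerSeries.coeff 1 bt) : OO K) : K)‖
        ≤ ‖(p : K)‖ ^ m * 1 := mul_le_mul_of_nonneg_left (norm_le_one _) hpm.le
      _ = 1 * ‖(p : K)‖ ^ m := by ring
      _ ≤ max C 1 * ‖(p : K)‖ ^ m := mul_le_mul_of_nonneg_right (le_max_right _ _) hpm.le

include hπ hF in
theorem disp_adic {b : PowerSeries k} (hb : IsHom Γ Γ b) {m : ℕ} (hm : 1 ≤ m)
    (φ : E →+* E) (hφ : ∀ f, π (φ f) = π f) (t : PowerSeries E) (ht : IsHom (F.map φ) F t)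
    (htg : t.map π = onePlus Γ p m b hb.1) (f : E) :
    φ f - f ∈ IsLocalRing.maximalIdeal E ^ (m + 1) := by
  obtain ⟨bt, hbt0, hbt⟩ := dzc_exists_lift hπ b hb.1
  have hred : F.map π = Γ := hF.reduction
  have hb' : IsHom (F.map π) (F.map π) b := by rw [hred]; exact hb
  have hpE : (p : E) ∈ IsLocalRing.maximalIdeal E := by
    rw [dzc_max hπ, map_natCast, CharP.cast_eq_zero]
  have key : ∀ j : ℕ, ∀ d, coeff d (defect F ((mulSeries F (p ^ j)).subst bt)) ∈
      IsLocalRing.maximalIdeal E ^ (j + 1) := by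
    intro j
    induction j with
    | zero =>
      intro d
      rw [zero_add, pow_one]
      exact (dzc_max hπ).2 (dzc_defect_mul_mem hb' bt hbt0 hbt _ d)
    | succ j ih =>
      intro d
      have h1 := defect_step F p (IsLocalRing.maximalIdeal E ^ (j + 1)) _
        (dzc_mul_zero F (p ^ j) hbt0) ih d
      have e1 : (mulSeries F p).subst ((mulSeries F (p ^ j)).subst bt : PowerSeries E) =
          ((mulSeries F (p ^ (j + 1))).subst bt : PowerSeries E) := by
        rw [pow_succ', DispTools.mulSeries_mul]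
        exact (PowerSeries.subst_comp_subst_apply (hasSubst_mulSeries F _)
          (PowerSeries.HasSubst.of_constantCoeff_zero' hbt0) _).symm
      rw [e1] at h1
      refine (sup_le ?_ ?_ : Ideal.span {(p : E)} * IsLocalRing.maximalIdeal E ^ (j + 1) ⊔
        (IsLocalRing.maximalIdeal E ^ (j + 1)) ^ 2 ≤
        IsLocalRing.maximalIdeal E ^ (j + 1 + 1)) h1
      · rw [pow_succ' _ (j + 1)]
        exact Ideal.mul_mono_left ((Ideal.span_singleton_le_iff_mem _).2 hpE)
      · rw [← pow_mul]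
        exact Ideal.pow_le_pow_right (by omega)
  have hJ : IsLocalRing.maximalIdeal E ^ (m + 1) ≤ IsLocalRing.maximalIdeal E :=
    Ideal.pow_le_self (by omega)
  have h := (disp_ideal hπ hF hb bt hbt0 hbt hm _ hJ (key m) φ hφ t ht htg (m + 1)).1 f
  rwa [sup_idem] at h

end

theorem fix_W (p : ℕ) [Fact p.Prime] (n : ℕ) (hn : n ≠ 0) (φ : LTRing p n →+* LTRing p n)
    (hφ : ∀ f, residueMap p n (φ f) = residueMap p n f) (a : WittVector p (GaloisField p n)) :
    φ (C a) = C a :=
  fix_W' p n hn φ hφ a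

end Vale.Agent.P217
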