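import Vale.Agent.Lib.P217.ActZ
import Vale.Agent.Lib.P217.DispZ

/-!
# P217 (characteristic zero part): the space of logarithms (auxiliary file of `DerivZ.lean`)

* `logSpace_abstract`: the linear algebra and the passage to the limit.
* `exists_bound_maximal_aux`, `exists_logSpace_aux`: the statements used in `DerivZ.lean`.
-/

set_option linter.unusedSectionVars false

namespace Vale.Agent.P217

open MvPowerSeries Filter Topology
open scoped MvPowerSeries.WithPiTopology

/-- linear algebra: a closed subspace of small dimension -/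
theorem logSpace_linear {K : Type*} [NontriviallyNormedField K] [CompleteSpace K] {U : Type*}
    {r : ℕ} (Λ : U → K) (a : U → Fin r → K) (D : Fin r → K) (j : Fin r) (hj : D j ≠ 0) :
    ∃ T' : Submodule K (U → K), FiniteDimensional K T' ∧ Module.finrank K T' ≤ r ∧
      ∀ g : U → K, (∃ (e : ℕ → K) (v : ℕ → Fin r → K),
        Tendsto (fun m => ∑ i, v m i * D i) atTop (𝓝 0) ∧
        ∀ z, Tendsto (fun m => e m * Λ z + ∑ i, v m i * a z i) atTop (𝓝 (g z))) → g ∈ T' := by
  classical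
  let ℓ : (K × (Fin r → K)) →ₗ[K] K :=
    { toFun := fun x => ∑ i, x.2 i * D i
      map_add' := by
        intro x y
        simp only [Prod.snd_add, Pi.add_apply, add_mul, Finset.sum_add_distrib]
      map_smul' := by
        intro c x
        simp only [Prod.smul_snd, Pi.smul_apply, smul_eq_mul, mul_assoc, Finset.mul_sum,
          RingHom.id_apply] }
  let Ψ : (K × (Fin r → K)) →ₗ[K] (U → K) :=
    { toFun := fun x z => x.1 * Λ z + ∑ i, x.2 i * a z i
      map_add' := by
        intro x y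
        funext z
        simp only [Prod.fst_add, Prod.snd_add, Pi.add_apply, add_mul, Finset.sum_add_distrib]
        ring
      map_smul' := by
        intro c x
        funext z
        simp only [Prod.smul_fst, Prod.smul_snd, Pi.smul_apply, smul_eq_mul, mul_assoc,
          Finset.mul_sum, RingHom.id_apply, mul_add] }
  have hℓ : ∀ x, ℓ x = ∑ i, x.2 i * D i := fun x => rfl
  have hΨ : ∀ x z, Ψ x z = x.1 * Λ z + ∑ i, x.2 i * a z i := fun x z => rfl
  have hsurj : Function.Surjective ℓ := by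
    intro c
    refine ⟨(0, Pi.single j (c / D j)), ?_⟩
    rw [hℓ]
    simp only
    rw [Finset.sum_eq_single j]
    · rw [Pi.single_eq_same, div_mul_cancel₀ _ hj]
    · intro i _ hij
      rw [Pi.single_eq_of_ne hij, zero_mul]
    · intro h
      exact absurd (Finset.mem_univ j) h
  have hker : Module.finrank K (LinearMap.ker ℓ) = r := by
    have h1 := LinearMap.finrank_range_add_finrank_ker ℓ
    rw [LinearMap.range_eq_top.2 hsurj, finrank_top, Module.finrank_self, Module.finrank_prod,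
      Module.finrank_self, Module.finrank_fin_fun] at h1
    omega
  refine ⟨(LinearMap.ker ℓ).map Ψ, inferInstance, ?_, ?_⟩
  · calc Module.finrank K ((LinearMap.ker ℓ).map Ψ) ≤ Module.finrank K (LinearMap.ker ℓ) :=
          Submodule.finrank_map_le _ _
      _ = r := hker
  · rintro g ⟨e, v, h1, h2⟩
    have hclosed : IsClosed (((LinearMap.ker ℓ).map Ψ : Submodule K (U → K)) : Set (U → K)) :=
      Submodule.closed_of_finiteDimensional _
    refine hclosed.mem_of_tendsto (f := fun m : ℕ => Ψ (e m, v m - Pi.single j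
      ((∑ i, v m i * D i) / D j))) (b := atTop) ?_ (Eventually.of_forall fun m => ?_)
    · rw [tendsto_pi_nhds]
      intro z
      have h3 : (fun m : ℕ => Ψ (e m, v m - Pi.single j ((∑ i, v m i * D i) / D j)) z) =
          fun m : ℕ => (e m * Λ z + ∑ i, v m i * a z i) - (∑ i, v m i * D i) / D j * a z j := by
        funext m
        rw [hΨ]
        simp only [Pi.sub_apply, sub_mul, Finset.sum_sub_distrib]
        rw [Finset.sum_eq_single (s := Finset.univ) j
          (f := fun i => (Pi.single j ((∑ i, v m i * D i) / D j) : Fin r → K) i * a z i)]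
        · rw [Pi.single_eq_same]
          ring
        · intro i _ hij
          rw [Pi.single_eq_of_ne hij, zero_mul]
        · intro h
          exact absurd (Finset.mem_univ j) h
      rw [h3]
      have h4 : Tendsto (fun m : ℕ => (∑ i, v m i * D i) / D j * a z j) atTop (𝓝 0) := by
        have := (h1.div_const (D j)).mul_const (a z j)
        simpa using this
      simpa using (h2 z).sub h4
    · refine Submodule.mem_map_of_mem ?_
      rw [LinearMap.mem_ker, hℓ]
      simp only [Pi.sub_apply, sub_mul, Finset.sum_sub_distrib]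
      rw [Finset.sum_eq_single (s := Finset.univ) j
          (f := fun i => (Pi.single j ((∑ i, v m i * D i) / D j) : Fin r → K) i * D i)]
      · rw [Pi.single_eq_same, div_mul_cancel₀ _ hj, sub_self]
      · intro i _ hij
        rw [Pi.single_eq_of_ne hij, zero_mul]
      · intro h
        exact absurd (Finset.mem_univ j) h

/-- the passage to the limit -/
theorem logSpace_abstract {K : Type*} [NontriviallyNormedField K] [CompleteSpace K] {U : Type*}
    {r : ℕ} {π : K} (hπ0 : π ≠ 0) (hπ1 : ‖π‖ < 1) (Λ : U → K) (a : U → Fin r → K) (C ε : U → ℝ)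
    (hε : ∀ z, 0 < ε z) (D : Fin r → K) (j : Fin r)
    (hj : D j ≠ 0) :
    ∃ T' : Submodule K (U → K), FiniteDimensional K T' ∧ Module.finrank K T' ≤ r ∧
      ∀ g : U → K, (∃ C₁ : ℝ, 0 ≤ C₁ ∧ ∀ᶠ m : ℕ in atTop, ∃ (t : K) (δ : Fin r → K),
        ‖t‖ ≤ 1 ∧ ‖∑ i, D i * δ i‖ ≤ (C₁ * ‖π‖ ^ m) ^ 2 ∧ ∀ z, C₁ * ‖π‖ ^ m ≤ ε z →
          ‖Λ z + π ^ m * g z - t * (Λ z + ∑ i, a z i * δ i)‖ ≤ C z * (C₁ * ‖π‖ ^ m) ^ 2) →
        g ∈ T' := by
  classical
  obtain ⟨T', h1, h2, h3⟩ := logSpace_linear Λ a D j hj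
  refine ⟨T', h1, h2, ?_⟩
  rintro g ⟨C₁, hC₁, hev⟩
  apply h3
  have hπn : 0 < ‖π‖ := norm_pos_iff.2 hπ0
  have hlim : Tendsto (fun m : ℕ => ‖π‖ ^ m) atTop (𝓝 0) :=
    tendsto_pow_atTop_nhds_zero_of_lt_one hπn.le hπ1
  obtain ⟨M, hM⟩ := eventually_atTop.1 hev
  choose! t δ ht hD hlog using hM
  refine ⟨fun m => (t m - 1) / π ^ m, fun m i => t m * δ m i / π ^ m, ?_, ?_⟩
  · have hb : Tendsto (fun m : ℕ => C₁ ^ 2 * ‖π‖ ^ m) atTop (𝓝 0) := by
      simpa using hlim.const_mul (C₁ ^ 2)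
    refine squeeze_zero_norm' ?_ hb
    filter_upwards [eventually_ge_atTop M] with m hm
    have e1 : ∑ i, t m * δ m i / π ^ m * D i = t m * (∑ i, D i * δ m i) / π ^ m := by
      rw [Finset.mul_sum, Finset.sum_div]
      refine Finset.sum_congr rfl fun i _ => ?_
      ring
    rw [e1, norm_div, norm_mul, norm_pow, div_le_iff₀ (by positivity)]
    calc ‖t m‖ * ‖∑ i, D i * δ m i‖ ≤ 1 * (C₁ * ‖π‖ ^ m) ^ 2 :=
          mul_le_mul (ht m hm) (hD m hm) (norm_nonneg _) zero_le_one
      _ = C₁ ^ 2 * ‖π‖ ^ m * ‖π‖ ^ m := by ring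
  · intro z
    rw [tendsto_iff_norm_sub_tendsto_zero]
    have hb : Tendsto (fun m : ℕ => C z * C₁ ^ 2 * ‖π‖ ^ m) atTop (𝓝 0) := by
      simpa using hlim.const_mul (C z * C₁ ^ 2)
    have hs : ∀ᶠ m : ℕ in atTop, C₁ * ‖π‖ ^ m ≤ ε z := by
      have h4 : Tendsto (fun m : ℕ => C₁ * ‖π‖ ^ m) atTop (𝓝 0) := by
        simpa using hlim.const_mul C₁
      exact (h4.eventually (gt_mem_nhds (hε z))).mono fun m hm => hm.le
    refine squeeze_zero' (Eventually.of_forall fun m => norm_nonneg _) ?_ hb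
    filter_upwards [eventually_ge_atTop M, hs] with m hm hsm
    have hpm : π ^ m ≠ 0 := pow_ne_zero _ hπ0
    have e1 : (t m - 1) / π ^ m * Λ z + ∑ i, t m * δ m i / π ^ m * a z i - g z =
        -(Λ z + π ^ m * g z - t m * (Λ z + ∑ i, a z i * δ m i)) / π ^ m := by
      have e2 : ∑ i, t m * δ m i / π ^ m * a z i = t m * (∑ i, a z i * δ m i) / π ^ m := by
        rw [Finset.mul_sum, Finset.sum_div]
        refine Finset.sum_congr rfl fun i _ => ?_
        ring
      rw [e2]
      field_simp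
      ring
    rw [e1, norm_div, norm_neg, norm_pow, div_le_iff₀ (by positivity)]
    calc _ ≤ C z * (C₁ * ‖π‖ ^ m) ^ 2 := hlog m hm z hsm
      _ = C z * C₁ ^ 2 * ‖π‖ ^ m * ‖π‖ ^ m := by ring

section
variable {p : ℕ} [Fact p.Prime] {n : ℕ} (hn : n ≠ 0) (Γ₀ : FormalGroup (ZMod p)) [Γ₀.IsComm]
  (hΓ : mulSeries Γ₀ p = PowerSeries.X ^ (p ^ n)) (F : FormalGroup (LTRing p n)) [F.IsComm]
  (hF : IsUniversalDeformation (Gk p n Γ₀) (residueMap p n) F)
  {K : Type} [NontriviallyNormedField K] [IsUltrametricDist K] [CompleteSpace K]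
  [IsAlgClosed K] (hp0 : (p : K) ≠ 0) (hp1 : ‖(p : K)‖ < 1)
  (ι : WittVector p (GaloisField p n) →+* OO K) {ξ : Fin (n - 1) → OO K}
  (hξ : ∀ i, ‖(ξ i : K)‖ < 1)

include hp1 in
theorem exists_bound_maximal_aux : ∃ c : ℝ, 0 < c ∧ c < 1 ∧
    ∀ f : LTRing p n, residueMap p n f = 0 → ‖((spec ι hξ f : OO K) : K)‖ ≤ c := by
  obtain ⟨ρ, hρ0, hρ1, hρ⟩ := exists_rho hξ
  refine ⟨max (max ρ ‖(p : K)‖) (1 / 2), by positivity, max_lt (max_lt hρ1 hp1) (by norm_num), ?_⟩
  set c : ℝ := max (max ρ ‖(p : K)‖) (1 / 2) with hc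
  have hc0 : 0 ≤ c := by positivity
  have hc1 : c < 1 := max_lt (max_lt hρ1 hp1) (by norm_num)
  intro f hf
  have h1 := norm_ev_sub_constantCoeff_le hc0 hc1
    (fun i => (hρ i).trans ((le_max_left _ _).trans (le_max_left _ _))) (f.map ι)
  have h2 : ‖((constantCoeff (f.map ι) : OO K) : K)‖ ≤ c := by
    obtain ⟨y, hy⟩ := (dvd_iff_constantCoeff p n (constantCoeff f)).2 hf
    rw [constantCoeff_map, hy, map_mul, map_natCast, Subring.coe_mul, norm_mul]
    calc ‖(((p : OO K)) : K)‖ * ‖((ι y : OO K) : K)‖ ≤ ‖(p : K)‖ * 1 := by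
          refine mul_le_mul (le_of_eq ?_) (norm_le_one _) (norm_nonneg _) (norm_nonneg _)
          norm_num
      _ ≤ c := by
          rw [mul_one]
          exact (le_max_right _ _).trans (le_max_left _ _)
  rw [spec_apply]
  have h3 : ((ev ξ (f.map ι) : OO K) : K) =
      ((ev ξ (f.map ι) - constantCoeff (f.map ι) : OO K) : K) +
        ((constantCoeff (f.map ι) : OO K) : K) := by
    push_cast
    ring
  rw [h3]
  exact (IsUltrametricDist.norm_add_le_max _ _).trans (max_le h1 h2)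

include hn hΓ hF hp0 hp1

theorem exists_logSpace_aux (P : Ideal (LTRing p n)) (hP : WeaklyInvariant p n Γ₀ F P)
    (hPx : ∀ g ∈ P, spec ι hξ g = 0) {c : ℝ} (hc0 : 0 < c) (hc1 : c < 1)
    (hker : ∀ f : LTRing p n, residueMap p n f = 0 → ‖((spec ι hξ f : OO K) : K)‖ ≤ c)
    (L : Pt (F.map (spec ι hξ)) →+ K) (hL : ∀ y, IsLog p (F.map (spec ι hξ)) y (L y))
    (f : LTRing p n) (hf : f ∈ P) (j : Fin (n - 1))
    (hj : coeff (Finsupp.single j 1) (taylor ι hξ f) ≠ 0) :
    ∃ T' : Submodule K (UC (F.map (spec ι hξ)) p → K), FiniteDimensional K T' ∧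
      Module.finrank K T' < n ∧
      ∀ (b : PowerSeries (GaloisField p n)) (_ : IsHom (Gk p n Γ₀) (Gk p n Γ₀) b)
        (Φ : UC (F.map (spec ι hξ)) p →+ UC (F.map (spec ι hξ)) p)
        (_ : IsActE (residueMap p n) (spec ι hξ) c b Φ),
        (fun z => L ((Φ z).1 0)) ∈ T' := by
  have hπ := residueMap_surjective p n
  have hp1' : 1 < p := (Fact.out : p.Prime).one_lt
  have hq2 : 2 ≤ p ^ n := Nat.one_lt_pow hn hp1'
  have hΓp : mulSeries (Gk p n Γ₀) p = PowerSeries.X ^ (p ^ n) := by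
    rw [mulSeries_map, hΓ, map_pow]
    congr 1
    exact PowerSeries.map_X _
  -- the expansions of the logarithms
  have hex : ∀ z : UC (F.map (spec ι hξ)) p, _ := fun z =>
    log_expansion hπ F (Gk p n Γ₀) hF.reduction hq2 hΓp ι hξ hc0 hc1 hker hp0 hp1 z
      (hL (z.1 0))
  choose a C ε hC hε hexp using hex
  have hj' : ((coeff (Finsupp.single j 1) (taylor ι hξ f) : OO K) : K) ≠ 0 := by
    intro h0
    exact hj (Subtype.ext h0)
  obtain ⟨T', h1, h2, h3⟩ := logSpace_abstract hp0 hp1 (fun z => L (z.1 0)) a C ε hε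
    (fun i => ((coeff (Finsupp.single i 1) (taylor ι hξ f) : OO K) : K)) j hj'
  refine ⟨T', h1, by omega, ?_⟩
  intro b hb Φ hΦ
  apply h3
  obtain ⟨C₁, hC₁, hest⟩ := disp_estimate hπ hF hp0 hp1 hc0 hc1 hb
  obtain ⟨m₀, hm₀⟩ := hP b hb
  refine ⟨C₁, hC₁.le, ?_⟩
  have hsmall : ∀ᶠ m : ℕ in atTop, C₁ * ‖(p : K)‖ ^ m < 1 := by
    have h4 : Tendsto (fun m : ℕ => C₁ * ‖(p : K)‖ ^ m) atTop (𝓝 0) := by
      simpa using (tendsto_pow_atTop_nhds_zero_of_lt_one (norm_nonneg _) hp1).const_mul C₁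
    exact h4.eventually (gt_mem_nhds one_pos)
  filter_upwards [eventually_ge_atTop (max m₀ 1), hsmall] with m hm hs1
  have hm0 : m₀ ≤ m := (le_max_left _ _).trans hm
  have hm1 : 1 ≤ m := (le_max_right _ _).trans hm
  have hg := isHom_onePlusZ (p := p) hb m
  have hg1 : IsUnit (PowerSeries.coeff 1 (onePlus (Gk p n Γ₀) p m b hb.1)) := by
    rw [coeff_one_onePlus hb hm1]
    exact isUnit_one
  obtain ⟨φ, hφ⟩ := exists_actsBy hπ hF _ hg hg1
  have hφP := hm₀ m hm0 φ hφ
  obtain ⟨-, -, hπφ, t, ht, htg⟩ := hφ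
  have hφπ : ∀ g, residueMap p n ((φ : LTRing p n →+* LTRing p n) g) = residueMap p n g := by
    intro g
    have := RingHom.congr_fun hπφ g
    exact this
  have hφC := fix_W p n hn (φ : LTRing p n →+* LTRing p n) hφπ
  obtain ⟨hd1, hd2⟩ := hest (spec ι hξ) hker m hm1 (φ : LTRing p n →+* LTRing p n) hφπ t ht htg
  have hspecX : ∀ i, spec ι hξ (X i) = ξ i := by
    intro i
    rw [spec_apply, map_X, ev_X]
  set φ' : LTRing p n →+* LTRing p n := (φ : LTRing p n →+* LTRing p n) with hφ'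
  set δ : Fin (n - 1) → OO K := fun i => spec ι hξ (φ' (X i)) - ξ i with hδ
  have hδn : ∀ i, ‖(δ i : K)‖ ≤ C₁ * ‖(p : K)‖ ^ m := by
    intro i
    have h4 := hd1 (X i)
    rw [hspecX] at h4
    exact h4
  have hδ1 : ∀ i, ‖(δ i : K)‖ < 1 := fun i => (hδn i).trans_lt hs1
  have hδE : HasEval δ := hasEval_xi hδ1
  have hs0 : 0 ≤ C₁ * ‖(p : K)‖ ^ m := by positivity
  refine ⟨((spec ι hξ (PowerSeries.coeff 1 t) : OO K) : K), fun i => (δ i : K), norm_le_one _,
    ?_, ?_⟩
  · -- the relation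
    have h0 : spec ι hξ (φ' f) = 0 := hPx _ (hφP f hf)
    have hev : ev δ (taylor ι hξ f) = spec ι hξ (φ' f) := by
      have h3 : (fun i => ((spec ι hξ).comp φ') (X i)) = fun i => ξ i + δ i := by
        funext i
        rw [hδ, RingHom.comp_apply]
        ring
      have h4 : ∀ i, ‖((((spec ι hξ).comp φ') (X i) : OO K) : K)‖ < 1 := by
        intro i
        have h5 := congrFun h3 i
        rw [h5, Subring.coe_add]
        exact (IsUltrametricDist.norm_add_le_max _ _).trans_lt (max_lt (hξ i) (hδ1 i))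
      have h1 := ringHom_eq_ev ((spec ι hξ).comp φ') h4 f
      have h2 : ((spec ι hξ).comp φ').comp MvPowerSeries.C = ι := by
        ext a
        rw [RingHom.comp_apply, RingHom.comp_apply, hφC, spec_apply, map_C, ev_C]
      rw [h2, h3] at h1
      rw [ev_taylor ι hξ hδ1, ← h1]
      rfl
    have h4 := norm_ev_sub_le_of_EB (hε := one_pos) (hε1 := le_rfl) (ha := zero_le_one) hs0 hs1.le
      hδn hδE (mem_EB.2 (lf_norm_coeff_le one_pos le_rfl (taylor ι hξ f)))
    have h5 : coeff 0 (taylor ι hξ f) = 0 := by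
      rw [coeff_zero_eq_constantCoeff_apply, constantCoeff_taylor, ← spec_apply]
      exact hPx f hf
    rw [hev, h0, h5, sub_self, zero_sub, norm_neg, div_one, one_mul] at h4
    exact h4
  · intro z hz
    exact hexp z b hb Φ hΦ m hg φ' hφC hφπ t ht htg _ (hL _) _ hz hδn

end

end Vale.Agent.P217
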