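import Mathlib.Algebra.Order.Ring.Star
import Mathlib.FieldTheory.IsSepClosed
import Mathlib.LinearAlgebra.Eigenspace.Triangularizable
import Mathlib.RingTheory.Henselian

/-!
# P217 (characteristic zero part): a lower bound for a dimension (module Z6)

`dim_lower`. The operator `f ↦ f ∘ T` on the nonzero finite dimensional space `M` over the algebraically closed field `K` has an
eigenvector `f ≠ 0` with eigenvalue `a`, `a^{p^n - 1} = 1` since `T^{p^n-1} = 1`. The functions `f ∘ S^j ∈ M`, `j < n`, are nonzero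
(`f ∘ S^n = p f ≠ 0` by additivity) and are eigenvectors with eigenvalue `a^{p^j}` (`S^j T = T^{p^j} S^j`). If
`a^{p^i} = a^{p^j}` with `i < j < n`, put `m = p^j - p^i`, `0 < m < p^n - 1`; `a^m = 1`, so `f(T^m u - u) = 0` for all `u`, and `f = 0` by
surjectivity of `u ↦ T^m u - u`. So the eigenvalues are pairwise distinct and these functions are linearly independent.
-/

set_option linter.unusedSectionVars false

namespace Vale.Agent.P217

theorem dim_lower {U : Type*} [AddCommGroup U] {K : Type*} [Field K] [IsAlgClosed K] (p n : ℕ)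
    (hp : p.Prime) (hpK : (p : K) ≠ 0) (T S : U →+ U)
    (hT : ∀ u, T^[p ^ n - 1] u = u) (hS : ∀ u, S^[n] u = p • u)
    (hST : ∀ u, S (T u) = T^[p] (S u))
    (hinv : ∀ i, 0 < i → i < p ^ n - 1 → Function.Surjective (fun u => T^[i] u - u))
    (M : Submodule K (U → K)) [FiniteDimensional K M] (hM0 : M ≠ ⊥)
    (hadd : ∀ f ∈ M, ∀ u v, f (u + v) = f u + f v) (hMT : ∀ f ∈ M, f ∘ T ∈ M)
    (hMS : ∀ f ∈ M, f ∘ S ∈ M) : n ≤ Module.finrank K M := by
  classical
  -- the operator `f ↦ f ∘ T`
  let L : M →ₗ[K] M :=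
    { toFun := fun f => ⟨(f : U → K) ∘ T, hMT f f.2⟩
      map_add' := fun f g => rfl
      map_smul' := fun c f => rfl }
  have hnt : Nontrivial M := Submodule.nontrivial_iff_ne_bot.2 hM0
  obtain ⟨a, ha⟩ := Module.End.exists_eigenvalue L
  obtain ⟨f, hf⟩ := ha.exists_hasEigenvector
  have hf0 : f ≠ 0 := hf.2
  have hfT : ∀ u, (f : U → K) (T u) = a * (f : U → K) u := by
    intro u
    have h1 : L f = a • f := hf.apply_eq_smul
    have h2 := congrArg (fun g : M => (g : U → K) u) h1
    exact h2
  have hfTm : ∀ (m : ℕ) (u : U), (f : U → K) (T^[m] u) = a ^ m * (f : U → K) u := by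
    intro m
    induction m with
    | zero => intro u; simp
    | succ m ih =>
      intro u
      rw [Function.iterate_succ_apply', hfT, ih]
      ring
  have hfadd := hadd f f.2
  have hfex : ∃ u, (f : U → K) u ≠ 0 := by
    by_contra hcon
    push Not at hcon
    apply hf0
    apply Subtype.ext
    funext u
    exact hcon u
  obtain ⟨u₀, hu₀⟩ := hfex
  have hf_zero : (f : U → K) 0 = 0 := by
    have := hfadd 0 0
    rw [add_zero] at this
    exact left_eq_add.1 this
  have hf_nsmul : ∀ (k : ℕ) (u : U), (f : U → K) (k • u) = k * (f : U → K) u := by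
    intro k u
    induction k with
    | zero => simp [hf_zero]
    | succ k ih =>
      rw [succ_nsmul, hfadd, ih]
      push_cast
      ring
  have hST2 : ∀ (m : ℕ) (u : U), S (T^[m] u) = T^[p * m] (S u) := by
    intro m
    induction m with
    | zero => intro u; simp
    | succ m ih =>
      intro u
      rw [Function.iterate_succ_apply', hST, ih, ← Function.iterate_add_apply,
        show p + p * m = p * (m + 1) by ring]
  have hST3 : ∀ (j : ℕ) (u : U), S^[j] (T u) = T^[p ^ j] (S^[j] u) := by
    intro j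
    induction j with
    | zero => intro u; simp
    | succ j ih =>
      intro u
      rw [Function.iterate_succ_apply', ih, hST2, Function.iterate_succ_apply' S j u, pow_succ']
  have hmem : ∀ j : ℕ, (fun u => (f : U → K) (S^[j] u)) ∈ M := by
    intro j
    induction j with
    | zero => exact f.2
    | succ j ih =>
      have := hMS _ ih
      exact this
  let g : Fin n → M := fun j => ⟨fun u => (f : U → K) (S^[(j : ℕ)] u), hmem j⟩
  have hg0 : ∀ j : Fin n, g j ≠ 0 := by
    intro j hj
    have h1 : ∀ u, (f : U → K) (S^[(j : ℕ)] u) = 0 := fun u =>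
      congrArg (fun g : M => (g : U → K) u) hj
    have h2 := h1 (S^[n - (j : ℕ)] u₀)
    rw [← Function.iterate_add_apply, Nat.add_sub_cancel' j.2.le, hS, hf_nsmul] at h2
    rcases mul_eq_zero.1 h2 with h3 | h3
    · exact hpK h3
    · exact hu₀ h3
  have hinj : ∀ i j : ℕ, i < j → j < n → a ^ p ^ i ≠ a ^ p ^ j := by
    intro i j hij hjn heq
    have hp1 : 1 < p := hp.one_lt
    have h1 : p ^ i < p ^ j := Nat.pow_lt_pow_right hp1 hij
    have h2 : p ^ j < p ^ n := Nat.pow_lt_pow_right hp1 hjn
    have h3 : 0 < p ^ i := by positivity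
    have ha0 : a ≠ 0 := by
      rintro rfl
      have h4 := hfTm (p ^ n - 1) u₀
      rw [hT, zero_pow (by omega), zero_mul] at h4
      exact hu₀ h4
    have ham : a ^ (p ^ j - p ^ i) = 1 := by
      have h5 : a ^ p ^ i * a ^ (p ^ j - p ^ i) = a ^ p ^ i * 1 := by
        rw [← pow_add, Nat.add_sub_cancel' h1.le, ← heq, mul_one]
      exact mul_left_cancel₀ (pow_ne_zero _ ha0) h5
    obtain ⟨v, hv⟩ := hinv (p ^ j - p ^ i) (by omega) (by omega) u₀
    have h6 : (f : U → K) (T^[p ^ j - p ^ i] v) = (f : U → K) v := by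
      rw [hfTm, ham, one_mul]
    have h7 : (f : U → K) (T^[p ^ j - p ^ i] v) = (f : U → K) u₀ + (f : U → K) v := by
      rw [← hfadd, ← hv]
      simp
    rw [h6] at h7
    exact hu₀ (by simpa using h7)
  have hli : LinearIndependent K g := by
    refine Module.End.eigenvectors_linearIndependent' L (fun j : Fin n => a ^ p ^ (j : ℕ)) ?_ g ?_
    · intro i j hij
      have hij' : a ^ p ^ (i : ℕ) = a ^ p ^ (j : ℕ) := hij
      rcases lt_trichotomy (i : ℕ) (j : ℕ) with h | h | h
      · exact absurd hij' (hinj i j h j.2)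
      · exact Fin.ext h
      · exact absurd hij'.symm (hinj j i h i.2)
    · intro j
      refine ⟨?_, hg0 j⟩
      rw [Module.End.mem_eigenspace_iff]
      apply Subtype.ext
      funext u
      change (f : U → K) (S^[(j : ℕ)] (T u)) = a ^ p ^ (j : ℕ) * (f : U → K) (S^[(j : ℕ)] u)
      rw [hST3, hfTm]
  have := hli.fintype_card_le_finrank
  simpa using this

end Vale.Agent.P217
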