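import Mathlib.Analysis.Normed.Algebra.Ultra
import Mathlib.Analysis.Normed.Field.Approximation
import Mathlib.Analysis.Normed.Field.Instances
import Mathlib.Analysis.Normed.Module.Completion
import Mathlib.Analysis.Normed.Unbundled.SpectralNorm
import Mathlib.Data.Int.Star
import Mathlib.RingTheory.Henselian
import Mathlib.RingTheory.LaurentSeries
import Mathlib.RingTheory.Valuation.Integral
import Mathlib.Topology.Algebra.Valued.NormedValued
import Vale.Agent.Lib.P217.OK

/-!
# P217: a complete algebraically closed field containing a domain finite over `k[[T]]` (step (3) of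
module A7)

* the completion of an algebraic closure of a complete ultrametric field is algebraically closed (in
  any characteristic), by continuity of roots;
* the normed field of Laurent series;
* `exists_field'`: a domain finite over `k[[T]]` embeds in the closed unit ball.
-/

set_option linter.unusedSectionVars false

namespace Vale.Agent.P217

section

open Polynomial

theorem isAlgClosed_of_denseRange' {K L : Type*} [Field K] [NontriviallyNormedField L]
    [CompleteSpace L] [IsUltrametricDist L] [Algebra K L]
    (hi : DenseRange (algebraMap K L)) [IsAlgClosed K] : IsAlgClosed L := by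
  apply IsAlgClosed.of_exists_root
  intro f fmon firr
  have fnatdeg0 : f.natDegree ≠ 0 := (Irreducible.natDegree_pos firr).ne'
  let F := f.SplittingField
  let _ : NormedField F := spectralNorm.normedField L F
  let _ : NormedAlgebra L F := spectralNorm.normedAlgebra L F
  let a := rootOfSplits (SplittingField.splits f)
      (by simpa using degree_ne_of_natDegree_ne fnatdeg0)
  have fa0 : f.aeval a = 0 := by
    rw [← eval_map_algebraMap]
    exact eval_rootOfSplits (Polynomial.SplittingField.splits f)
      (by simpa using degree_ne_of_natDegree_ne fnatdeg0)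
  have hiso : Isometry (algebraMap L F) := algebraMap_isometry L F
  have hclosed : IsClosed (Set.range (algebraMap L F)) :=
    hiso.isClosedEmbedding.isClosed_range
  have hmem : a ∈ closure (Set.range (algebraMap L F)) := by
    rw [Metric.mem_closure_iff]
    intro δ hδ
    have hM : 0 < max ‖a‖ 1 := lt_of_lt_of_le one_pos (le_max_right _ _)
    have hd1 : (0 : ℝ) < (f.natDegree : ℝ) + 1 := by positivity
    have hε : 0 < (δ / max ‖a‖ 1) ^ f.natDegree / ((f.natDegree : ℝ) + 1) := by positivity
    obtain ⟨g, gmon, gdeg, hg⟩ :=
      exists_monic_and_natDegree_eq_and_norm_map_algebraMap_coeff_sub_lt hi fmon hε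
    have hgs : g.Splits := IsAlgClosed.splits g
    obtain ⟨b, hb, hab⟩ := exists_aroots_norm_sub_lt_of_norm_coeff_sub_lt (K := L) (L := F)
      (g := g.map (algebraMap K L)) hε fa0 fmon (gmon.map _) (by rw [natDegree_map]; exact gdeg.symm)
      hg ((hgs.map _).map _)
    have hbr : b ∈ Set.range (algebraMap L F) := by
      have h1 : ((g.map (algebraMap K L)).map (algebraMap L F)).roots =
          ((g.roots.map (algebraMap K L)).map (algebraMap L F)) := by
        rw [(hgs.map (algebraMap K L)).roots_map, hgs.roots_map]
      rw [aroots_def, h1, Multiset.mem_map] at hb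
      obtain ⟨c, -, rfl⟩ := hb
      exact ⟨c, rfl⟩
    refine ⟨b, hbr, ?_⟩
    rw [dist_eq_norm]
    refine hab.trans_le ?_
    have h2 : ((f.natDegree : ℝ) + 1) * ((δ / max ‖a‖ 1) ^ f.natDegree /
        ((f.natDegree : ℝ) + 1)) = (δ / max ‖a‖ 1) ^ f.natDegree := by
      field_simp
    rw [h2, Real.pow_rpow_inv_natCast (by positivity) fnatdeg0]
    rw [div_mul_cancel₀ _ hM.ne']
  rw [hclosed.closure_eq] at hmem
  obtain ⟨x, hx⟩ := hmem
  refine ⟨x, ?_⟩
  have h3 : algebraMap L F (f.eval x) = 0 := by
    rw [← fa0, ← hx, aeval_algebraMap_apply]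
    rfl
  exact (map_eq_zero_iff _ (algebraMap L F).injective).1 h3

theorem exists_complete_closure (F : Type) [NontriviallyNormedField F] [IsUltrametricDist F]
    [CompleteSpace F] : ∃ (K : Type) (_ : NontriviallyNormedField K) (_ : IsUltrametricDist K)
      (_ : CompleteSpace K) (_ : IsAlgClosed K) (φ : F →+* K), ∀ x, ‖φ x‖ = ‖x‖ := by
  let _ : NontriviallyNormedField (AlgebraicClosure F) :=
    spectralNorm.nontriviallyNormedField F (AlgebraicClosure F)
  let _ : NormedAlgebra F (AlgebraicClosure F) := spectralNorm.normedAlgebra F (AlgebraicClosure F)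
  have hu : IsUltrametricDist (AlgebraicClosure F) := IsUltrametricDist.of_normedAlgebra F
  let _ : UniformContinuousConstSMul F (AlgebraicClosure F) :=
    uniformContinuousConstSMul_of_continuousConstSMul F (AlgebraicClosure F)
  let _ : NontriviallyNormedField (UniformSpace.Completion (AlgebraicClosure F)) :=
    { (inferInstance : NormedField (UniformSpace.Completion (AlgebraicClosure F))) with
      non_trivial := by
        choose x hx using NontriviallyNormedField.non_trivial (α := AlgebraicClosure F)
        exact ⟨x, by simpa using hx⟩ }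
  have hu2 : IsUltrametricDist (UniformSpace.Completion (AlgebraicClosure F)) :=
    IsUltrametricDist.of_normedAlgebra F
  refine ⟨UniformSpace.Completion (AlgebraicClosure F), inferInstance, hu2, inferInstance,
    isAlgClosed_of_denseRange' (K := AlgebraicClosure F) UniformSpace.Completion.denseRange_coe,
    algebraMap F _, ?_⟩
  intro x
  exact norm_algebraMap' _ x

theorem exists_laurent_field (p : ℕ) (k : Type) [Field k] [CharP k p] :
    ∃ (F : Type) (_ : NontriviallyNormedField F) (_ : IsUltrametricDist F) (_ : CompleteSpace F)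
      (_ : CharP F p) (ψ : PowerSeries k →+* F), Function.Injective ψ ∧ (∀ x, ‖ψ x‖ ≤ 1) ∧
      ‖ψ PowerSeries.X‖ < 1 := by
  let v : Valuation (LaurentSeries k) (WithZero (Multiplicative ℤ)) := Valued.v
  have hX : v ((PowerSeries.X : PowerSeries k) : LaurentSeries k) =
      WithZero.exp (-1 : ℤ) := by
    have h1 := LaurentSeries.valuation_X_pow k 1
    simpa using h1
  have he : (1 : NNReal) < 2 := one_lt_two
  let _ : Valuation.RankOne v :=
    { hom' := (WithZeroMulInt.toNNReal he.ne_zero).comp MonoidWithZeroHom.ValueGroup₀.embedding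
      strictMono' := (WithZeroMulInt.toNNReal_strictMono he).comp
        MonoidWithZeroHom.ValueGroup₀.embedding_strictMono
      exists_val_nontrivial := ⟨((PowerSeries.X : PowerSeries k) : LaurentSeries k), by
        rw [hX]
        constructor
        · exact WithZero.coe_ne_zero
        · intro h
          have := WithZero.exp_injective (a₁ := (-1 : ℤ)) (a₂ := 0) h
          omega⟩ }
  let _ : NontriviallyNormedField (LaurentSeries k) :=
    Valued.toNontriviallyNormedField (LaurentSeries k) (WithZero (Multiplicative ℤ))
  have hcoe : ∀ x : PowerSeries k, v (algebraMap (PowerSeries k) (LaurentSeries k) x) ≤ 1 :=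
    fun x => (LaurentSeries.val_le_one_iff_eq_coe k _).2 ⟨x, rfl⟩
  refine ⟨LaurentSeries k, inferInstance, inferInstance, LaurentSeries.instLaurentSeriesComplete,
    ?_, algebraMap (PowerSeries k) (LaurentSeries k), ?_, ?_, ?_⟩
  · exact charP_of_injective_ringHom (HahnSeries.C_injective (Γ := ℤ) (R := k)) p
  · exact IsFractionRing.injective (PowerSeries k) (LaurentSeries k)
  · intro x
    exact Valued.toNormedField.norm_le_one_iff.2 (hcoe x)
  · apply Valued.toNormedField.norm_lt_one_iff.2
    have h2 : v (algebraMap (PowerSeries k) (LaurentSeries k) PowerSeries.X) =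
      WithZero.exp (-1 : ℤ) := hX
    change v _ < 1
    rw [h2]
    exact WithZero.exp_lt_exp.2 (by norm_num)

end

/-- a domain finite over `k[[T]]` embeds in the unit ball of a complete algebraically
closed ultrametric field, with `‖T‖ < 1`. -/
theorem exists_field' (p : ℕ) (k : Type) [Field k] [CharP k p] (D : Type)
    [CommRing D] [IsDomain D] (θ : PowerSeries k →+* D) (hθ : Function.Injective θ)
    (hfin : θ.Finite) :
    ∃ (K : Type) (_ : NontriviallyNormedField K) (_ : IsUltrametricDist K) (_ : CompleteSpace K)
      (_ : IsAlgClosed K) (_ : CharP K p) (y : D →+* OO K), Function.Injective y ∧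
      ‖((y (θ PowerSeries.X) : OO K) : K)‖ < 1 := by
  obtain ⟨F, hF1, hF2, hF3, hF4, ψ, hψ, hψ1, hψX⟩ := exists_laurent_field p k
  obtain ⟨K, hK1, hK2, hK3, hK4, φ, hφ⟩ := exists_complete_closure F
  have hchar : CharP K p := charP_of_injective_ringHom φ.injective p
  let χ : PowerSeries k →+* K := φ.comp ψ
  have hχ : Function.Injective χ := φ.injective.comp hψ
  have hχ1 : ∀ x, ‖χ x‖ ≤ 1 := fun x => (hφ (ψ x)).trans_le (hψ1 x)
  let _ : Algebra (PowerSeries k) D := θ.toAlgebra
  let _ : Algebra (PowerSeries k) K := χ.toAlgebra
  have hfin' : Module.Finite (PowerSeries k) D := hfin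
  have hint : Algebra.IsIntegral (PowerSeries k) D := inferInstance
  have hfs1 : FaithfulSMul (PowerSeries k) D := (faithfulSMul_iff_algebraMap_injective _ _).2 hθ
  have hfs2 : FaithfulSMul (PowerSeries k) K := (faithfulSMul_iff_algebraMap_injective _ _).2 hχ
  let y₀ : D →ₐ[PowerSeries k] K := IsAlgClosed.lift
  have hnorm : ∀ d : D, ‖y₀ d‖ ≤ 1 := by
    intro d
    let v := NormedField.valuation (K := K)
    have hmem : ∀ x, χ x ∈ v.integer := by
      intro x
      change v (χ x) ≤ 1
      rw [NormedField.valuation_apply, ← NNReal.coe_le_coe]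
      exact hχ1 x
    let ρ : PowerSeries k →+* v.integer := χ.codRestrict v.integer hmem
    let _ : Algebra (PowerSeries k) v.integer := ρ.toAlgebra
    have hst : IsScalarTower (PowerSeries k) v.integer K :=
      IsScalarTower.of_algebraMap_eq (fun x => rfl)
    have h1 : IsIntegral (PowerSeries k) (y₀ d) := (hint.isIntegral d).map y₀
    have h2 : IsIntegral v.integer (y₀ d) := h1.tower_top
    have h3 : y₀ d ∈ v.integer := (Valuation.integer.integers v).mem_of_integral h2
    have h4 : v (y₀ d) ≤ 1 := h3
    rw [NormedField.valuation_apply, ← NNReal.coe_le_coe] at h4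
    exact h4
  have hinj : Function.Injective y₀ := by
    have h1 : RingHom.ker y₀.toRingHom = ⊥ := by
      apply Ideal.eq_bot_of_comap_eq_bot (R := PowerSeries k)
      rw [RingHom.comap_ker]
      have h2 : y₀.toRingHom.comp (algebraMap (PowerSeries k) D) = χ := by
        ext1 x
        exact y₀.commutes x
      rw [h2]
      exact (RingHom.injective_iff_ker_eq_bot χ).1 hχ
    exact (RingHom.injective_iff_ker_eq_bot y₀.toRingHom).2 h1
  refine ⟨K, hK1, hK2, hK3, hK4, hchar, y₀.toRingHom.codRestrict (OO K) hnorm, ?_, ?_⟩
  · intro a b hab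
    apply hinj
    exact congrArg (fun z : OO K => (z : K)) hab
  · have h1 : y₀ (θ PowerSeries.X) = χ PowerSeries.X := y₀.commutes PowerSeries.X
    change ‖y₀ (θ PowerSeries.X)‖ < 1
    rw [h1]
    exact (hφ (ψ PowerSeries.X)).trans_lt hψX

end Vale.Agent.P217
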