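import Mathlib.Algebra.Module.StablyFree.Basic
import Mathlib.RingTheory.WittVector.DiscreteValuationRing
import Vale.Agent.Lib.P217.PEField

/-!
# P217 (characteristic zero part): a complete algebraically closed field containing a domain of
characteristic zero finite over the Witt vectors of a finite field
-/

set_option linter.unusedSectionVars false

namespace Vale.Agent.P217

open IsDedekindDomain

theorem charZero_wittVector' (p : ℕ) [hp : Fact p.Prime] (k : Type*) [Field k] [CharP k p] :
    CharZero (WittVector p k) := by
  obtain ⟨q, hq⟩ := CharP.exists (WittVector p k)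
  rcases CharP.char_is_prime_or_zero (WittVector p k) q with h | h
  · exfalso
    have h1 : ((q : ℕ) : WittVector p k) = 0 := CharP.cast_eq_zero _ q
    have h2 := congrArg (WittVector.constantCoeff : WittVector p k →+* k) h1
    rw [map_natCast, map_zero] at h2
    have h3 : p ∣ q := (CharP.cast_eq_zero_iff k p q).1 h2
    have h4 : p = q := ((Nat.dvd_prime h).1 h3).resolve_left hp.out.ne_one
    rw [← h4] at h1
    exact WittVector.p_nonzero p k h1
  · subst h
    exact CharP.charP_to_charZero _

theorem exists_witt_field (p : ℕ) [hp : Fact p.Prime] (k : Type) [Field k] [CharP k p]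
    [PerfectRing k p] :
    ∃ (F : Type) (_ : NontriviallyNormedField F) (_ : IsUltrametricDist F) (_ : CompleteSpace F)
      (ψ : WittVector p k →+* F), Function.Injective ψ ∧ (∀ x, ‖ψ x‖ ≤ 1) ∧
      ‖ψ (p : WittVector p k)‖ < 1 := by
  let K₀ := FractionRing (WittVector p k)
  have hirr : Irreducible (p : WittVector p k) := WittVector.irreducible p
  have hm : IsLocalRing.maximalIdeal (WittVector p k) = Ideal.span {(p : WittVector p k)} :=
    hirr.maximalIdeal_eq
  let w : HeightOneSpectrum (WittVector p k) :=
    { asIdeal := IsLocalRing.maximalIdeal (WittVector p k)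
      isPrime := inferInstance
      ne_bot := IsDiscreteValuationRing.not_a_field _ }
  let F := w.adicCompletion K₀
  let v : Valuation F (WithZero (Multiplicative ℤ)) := Valued.v
  have hval : ∀ x : WittVector p k, v (algebraMap (WittVector p k) F x) =
      w.valuation K₀ (algebraMap _ K₀ x) := by
    intro x
    rw [HeightOneSpectrum.algebraMap_adicCompletion]
    exact HeightOneSpectrum.adicCompletion.valued_coe K₀ w _
  have hinj : Function.Injective (algebraMap (WittVector p k) F) := by
    rw [IsScalarTower.algebraMap_eq (WittVector p k) K₀ F]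
    exact (algebraMap K₀ F).injective.comp (IsFractionRing.injective _ _)
  have hp1 : v (algebraMap (WittVector p k) F (p : WittVector p k)) < 1 := by
    rw [hval, HeightOneSpectrum.valuation_lt_one_iff_mem]
    change (p : WittVector p k) ∈ IsLocalRing.maximalIdeal (WittVector p k)
    rw [hm]
    exact Ideal.mem_span_singleton_self _
  have he : (1 : NNReal) < 2 := one_lt_two
  let _ : Valuation.RankOne v :=
    { hom' := (WithZeroMulInt.toNNReal he.ne_zero).comp MonoidWithZeroHom.ValueGroup₀.embedding
      strictMono' := (WithZeroMulInt.toNNReal_strictMono he).comp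
        MonoidWithZeroHom.ValueGroup₀.embedding_strictMono
      exists_val_nontrivial := ⟨algebraMap (WittVector p k) F (p : WittVector p k), by
        constructor
        · rw [Valuation.ne_zero_iff]
          intro h
          exact WittVector.p_nonzero p k (hinj (h.trans (map_zero _).symm))
        · exact hp1.ne⟩ }
  let _ : NontriviallyNormedField F :=
    Valued.toNontriviallyNormedField F (WithZero (Multiplicative ℤ))
  refine ⟨F, inferInstance, inferInstance, ?_, algebraMap (WittVector p k) F, hinj, ?_, ?_⟩
  · exact (inferInstance : CompleteSpace (w.adicCompletion K₀))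
  · intro x
    apply Valued.toNormedField.norm_le_one_iff.2
    change v _ ≤ 1
    rw [hval]
    exact HeightOneSpectrum.valuation_le_one w x
  · apply Valued.toNormedField.norm_lt_one_iff.2
    exact hp1

theorem exists_field_zero_aux (p : ℕ) [Fact p.Prime] (k : Type) [Field k] [Finite k] [CharP k p]
    (D : Type) [CommRing D] [IsDomain D] (θ : WittVector p k →+* D) (hθ : θ.Finite)
    (hp : (p : D) ≠ 0) :
    ∃ (K : Type) (_ : NontriviallyNormedField K) (_ : IsUltrametricDist K) (_ : CompleteSpace K)
      (_ : IsAlgClosed K) (_ : CharZero K) (y : D →+* OO K), Function.Injective y ∧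
      ‖(p : K)‖ < 1 := by
  have hperf : PerfectRing k p := inferInstance
  obtain ⟨F, hF1, hF2, hF3, ψ, hψ, hψ1, hψX⟩ := exists_witt_field p k
  obtain ⟨K, hK1, hK2, hK3, hK4, φ, hφ⟩ := exists_complete_closure F
  let χ : WittVector p k →+* K := φ.comp ψ
  have hχ : Function.Injective χ := φ.injective.comp hψ
  have hχ1 : ∀ x, ‖χ x‖ ≤ 1 := fun x => (hφ (ψ x)).trans_le (hψ1 x)
  have hcz : CharZero (WittVector p k) := charZero_wittVector' p k
  have hchar : CharZero K := charZero_of_injective_ringHom hχ
  -- injectivity of `θ`
  have hθi : Function.Injective θ := by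
    rw [injective_iff_map_eq_zero]
    intro a ha
    by_contra ha0
    obtain ⟨m, b, hb⟩ := WittVector.exists_eq_pow_p_mul' a ha0
    rw [hb, map_mul, map_pow, map_natCast] at ha
    rcases mul_eq_zero.1 ha with h | h
    · exact pow_ne_zero m hp h
    · exact (b.isUnit.map θ).ne_zero h
  let _ : Algebra (WittVector p k) D := θ.toAlgebra
  let _ : Algebra (WittVector p k) K := χ.toAlgebra
  have hfin' : Module.Finite (WittVector p k) D := hθ
  have hint : Algebra.IsIntegral (WittVector p k) D := inferInstance
  have hfs1 : FaithfulSMul (WittVector p k) D := (faithfulSMul_iff_algebraMap_injective _ _).2 hθi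
  have hfs2 : FaithfulSMul (WittVector p k) K := (faithfulSMul_iff_algebraMap_injective _ _).2 hχ
  let y₀ : D →ₐ[WittVector p k] K := IsAlgClosed.lift
  have hnorm : ∀ d : D, ‖y₀ d‖ ≤ 1 := by
    intro d
    let v := NormedField.valuation (K := K)
    have hmem : ∀ x, χ x ∈ v.integer := by
      intro x
      change v (χ x) ≤ 1
      rw [NormedField.valuation_apply, ← NNReal.coe_le_coe]
      exact hχ1 x
    let ρ : WittVector p k →+* v.integer := χ.codRestrict v.integer hmem
    let _ : Algebra (WittVector p k) v.integer := ρ.toAlgebra
    have hst : IsScalarTower (WittVector p k) v.integer K :=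
      IsScalarTower.of_algebraMap_eq (fun x => rfl)
    have h1 : IsIntegral (WittVector p k) (y₀ d) := (hint.isIntegral d).map y₀
    have h2 : IsIntegral v.integer (y₀ d) := h1.tower_top
    have h3 : y₀ d ∈ v.integer := (Valuation.integer.integers v).mem_of_integral h2
    have h4 : v (y₀ d) ≤ 1 := h3
    rw [NormedField.valuation_apply, ← NNReal.coe_le_coe] at h4
    exact h4
  have hinj : Function.Injective y₀ := by
    have h1 : RingHom.ker y₀.toRingHom = ⊥ := by
      apply Ideal.eq_bot_of_comap_eq_bot (R := WittVector p k)
      rw [RingHom.comap_ker]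
      have h2 : y₀.toRingHom.comp (algebraMap (WittVector p k) D) = χ := by
        ext1 x
        exact y₀.commutes x
      rw [h2]
      exact (RingHom.injective_iff_ker_eq_bot χ).1 hχ
    exact (RingHom.injective_iff_ker_eq_bot y₀.toRingHom).2 h1
  refine ⟨K, hK1, hK2, hK3, hK4, hchar, y₀.toRingHom.codRestrict (OO K) hnorm, ?_, ?_⟩
  · intro a b hab
    apply hinj
    exact congrArg (fun z : OO K => (z : K)) hab
  · have h1 : χ (p : WittVector p k) = (p : K) := map_natCast χ p
    rw [← h1]
    exact (hφ (ψ p)).trans_lt hψX

end Vale.Agent.P217
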