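import Mathlib.RingTheory.DedekindDomain.Basic
import Mathlib.RingTheory.AdicCompletion.Completeness
import Mathlib.RingTheory.AdicCompletion.Noetherian
import Mathlib.RingTheory.Henselian
import Mathlib.RingTheory.Ideal.KrullsHeightTheorem

/-!
# P217: commutative algebra for the existence of points (module PE-finite)
-/

set_option linter.unusedSectionVars false

namespace Vale.Agent.P217

open IsLocalRing

/-- In a Noetherian local domain in which every nonzero prime contains `f ≠ 0`, a power of the
maximal ideal lies in `(f)`. -/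
theorem maximalIdeal_pow_le_span {D : Type*} [CommRing D] [IsDomain D] [IsLocalRing D]
    [IsNoetherianRing D] {f : D} (hf0 : f ≠ 0) (hfm : f ∈ maximalIdeal D)
    (h : ∀ q : Ideal D, q.IsPrime → q ≠ ⊥ → f ∈ q) :
    ∃ N : ℕ, maximalIdeal D ^ N ≤ Ideal.span {f} := by
  classical
  have hfin : ((Ideal.span {f}).minimalPrimes).Finite :=
    Ideal.finite_minimalPrimes_of_isNoetherianRing D _
  have hle : Ideal.span {f} ≤ maximalIdeal D := by
    rw [Ideal.span_le]; simpa using hfm
  have hone : ∃ q ∈ (Ideal.span {f}).minimalPrimes, maximalIdeal D ≤ q := by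
    by_contra hcon
    have h1 : ¬ ((maximalIdeal D : Set D) ⊆
        ⋃ q ∈ (Ideal.span {f}).minimalPrimes, ((id q : Ideal D) : Set D)) := by
      rw [Ideal.subset_union_prime_finite hfin (f := id) ⊥ ⊥ (fun q hq _ _ => hq.1.1)]
      exact hcon
    obtain ⟨b, hbm, hb⟩ := Set.not_subset.1 h1
    simp only [id, Set.mem_iUnion, not_exists] at hb
    obtain ⟨q0, hq0, hq0m⟩ := Ideal.exists_minimalPrimes_le hle
    have hb0 : b ≠ 0 := by
      rintro rfl
      exact hb q0 hq0 (q0.zero_mem)
    have hble : Ideal.span {b} ≤ maximalIdeal D := by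
      rw [Ideal.span_le]; simpa using hbm
    obtain ⟨r, hr, hrm⟩ := Ideal.exists_minimalPrimes_le hble
    have hrp : r.IsPrime := hr.1.1
    have hbr : b ∈ r := hr.1.2 (Ideal.mem_span_singleton_self b)
    have hr0 : r ≠ ⊥ := by
      rintro rfl
      exact hb0 (by simpa using hbr)
    have hfr : f ∈ r := h r hrp hr0
    have hfr' : Ideal.span {f} ≤ r := by
      rw [Ideal.span_le]; simpa using hfr
    obtain ⟨q, hq, hqr⟩ := Ideal.exists_minimalPrimes_le hfr'
    have hqp : q.IsPrime := hq.1.1
    have hfq : f ∈ q := hq.1.2 (Ideal.mem_span_singleton_self f)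
    have hbq : b ∉ q := fun hbq => hb q hq hbq
    have hlt : q < r := lt_of_le_of_ne hqr (fun e => hbq (e ▸ hbr))
    have h0q : (⊥ : Ideal D) < q := bot_lt_iff_ne_bot.2 (by
      rintro rfl
      exact hf0 (by simpa using hfq))
    have hr1 : r.height ≤ 1 :=
      Ideal.height_le_one_of_isPrincipal_of_mem_minimalPrimes (Ideal.span {b}) r hr
    have h2 := Ideal.height_strict_mono_of_isPrime_of_isPrime hlt
    have h3 := Ideal.height_strict_mono_of_isPrime_of_isPrime h0q
    have h4 : q.height < 1 := lt_of_lt_of_le h2 hr1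
    have h5 : q.height = 0 := Order.lt_one_iff.1 h4
    rw [h5] at h3
    exact absurd h3 (by simp)
  obtain ⟨q, hq, hmq⟩ := hone
  have hqm : q = maximalIdeal D :=
    le_antisymm (le_maximalIdeal hq.1.1.ne_top) hmq
  have hrad : maximalIdeal D ≤ (Ideal.span {f}).radical := by
    rw [Ideal.radical_eq_sInf]
    refine le_sInf ?_
    rintro J ⟨hJ, hJp⟩
    obtain ⟨q', hq', hq'J⟩ := Ideal.exists_minimalPrimes_le hJ
    have h6 : q' ≤ q := by
      rw [hqm]; exact le_maximalIdeal hq'.1.1.ne_top
    have h7 : q ≤ q' := hq.2 hq'.1 h6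
    exact (hmq.trans h7).trans hq'J
  exact Ideal.exists_pow_le_of_le_radical_of_fg hrad (IsNoetherian.noetherian _)

/-- finite products of precomplete modules -/
theorem isPrecomplete_pi {A : Type*} [CommRing A] (I : Ideal A) [IsPrecomplete I A] {ι : Type*}
    [Fintype ι] : IsPrecomplete I (ι → A) := by
  classical
  have key : ∀ (n : ℕ) (x : ι → A), (∀ i, x i ∈ (I ^ n • ⊤ : Submodule A A)) →
      x ∈ (I ^ n • ⊤ : Submodule A (ι → A)) := by
    intro n x hx
    have : x = ∑ i, x i • (Pi.single i (1 : A) : ι → A) := by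
      ext j
      simp [Finset.sum_apply, Pi.single_apply]
    rw [this]
    refine Submodule.sum_mem _ fun i _ => Submodule.smul_mem_smul ?_ trivial
    have := hx i
    simpa using this
  refine ⟨fun {f} hf => ?_⟩
  have h1 : ∀ i, ∃ L : A, ∀ n, f n i ≡ L [SMOD (I ^ n • ⊤ : Submodule A A)] := by
    intro i
    refine IsPrecomplete.prec' (I := I) (M := A) (fun n => f n i) ?_
    intro m n hmn
    have h2 := hf hmn
    have h3 := SModEq.map h2 (LinearMap.proj i : (ι → A) →ₗ[A] A)
    refine SModEq.mono ?_ h3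
    rw [Submodule.map_smul'']
    exact Submodule.smul_mono le_rfl le_top
  choose L hL using h1
  refine ⟨L, fun n => ?_⟩
  rw [SModEq.sub_mem]
  refine key n _ fun i => ?_
  have := hL i n
  rw [SModEq.sub_mem] at this
  exact this

/-- every element is, modulo `m ^ n`, a `k`-combination of a fixed finite set -/
theorem exists_finset_approx {k D : Type*} [Field k] [CommRing D] [Algebra k D]
    [IsNoetherianRing D] (m : Ideal D) (hres : ∀ d : D, ∃ c : k, d - algebraMap k D c ∈ m)
    (n : ℕ) :
    ∃ S : Finset D, ∀ d : D, ∃ h ∈ Submodule.span k (S : Set D), d - h ∈ m ^ n := by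
  classical
  induction n with
  | zero => exact ⟨∅, fun d => ⟨0, Submodule.zero_mem _, by simp⟩⟩
  | succ n ih =>
    obtain ⟨S, hS⟩ := ih
    obtain ⟨T, hT⟩ := (IsNoetherian.noetherian (m ^ n) : (m ^ n).FG)
    have key : ∀ e ∈ m ^ n, ∃ h ∈ Submodule.span k (T : Set D), e - h ∈ m ^ (n + 1) := by
      intro e he
      rw [← hT] at he
      refine Submodule.span_induction
        (p := fun e _ => ∃ h ∈ Submodule.span k (T : Set D), e - h ∈ m ^ (n + 1))
        ?_ ?_ ?_ ?_ he
      · intro x hx
        exact ⟨x, Submodule.subset_span hx, by simp⟩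
      · exact ⟨0, Submodule.zero_mem _, by simp⟩
      · rintro x y _ _ ⟨hx, hx1, hx2⟩ ⟨hy, hy1, hy2⟩
        refine ⟨hx + hy, Submodule.add_mem _ hx1 hy1, ?_⟩
        have := Ideal.add_mem _ hx2 hy2
        convert this using 1
        ring
      · rintro a x _ ⟨hx, hx1, hx2⟩
        obtain ⟨c, hc⟩ := hres a
        refine ⟨c • hx, Submodule.smul_mem _ _ hx1, ?_⟩
        have h1 : hx ∈ m ^ n := by
          rw [← hT]
          have : (Submodule.span k (T : Set D) : Set D) ⊆ (Ideal.span (T : Set D) : Set D) := by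
            intro z hz
            have hz' : z ∈ (Submodule.span D (T : Set D)).restrictScalars k :=
              Submodule.span_le_restrictScalars k D (T : Set D) hz
            exact hz'
          exact this hx1
        have h2 : (a - algebraMap k D c) * hx ∈ m ^ (n + 1) := by
          rw [pow_succ']
          exact Ideal.mul_mem_mul hc h1
        have h3 := Ideal.add_mem _ (Ideal.mul_mem_left _ a hx2) h2
        convert h3 using 1
        have h4 : c • hx = algebraMap k D c * hx := Algebra.smul_def c hx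
        rw [h4, smul_eq_mul]
        ring
    refine ⟨S ∪ T, fun d => ?_⟩
    obtain ⟨h, hh, hd⟩ := hS d
    obtain ⟨h', hh', hd'⟩ := key _ hd
    refine ⟨h + h', ?_, ?_⟩
    · rw [Finset.coe_union, Submodule.span_union]
      exact Submodule.add_mem_sup hh hh'
    · convert hd' using 1
      ring

/-- finiteness over the power series ring in one variable -/
theorem finite_of_pow_le {k D : Type*} [Field k] [CommRing D] [IsDomain D] [Algebra k D]
    [IsNoetherianRing D] (m : Ideal D) (hres : ∀ d : D, ∃ c : k, d - algebraMap k D c ∈ m)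
    (N : ℕ) (θ : PowerSeries k →+* D) (hC : ∀ c, θ (PowerSeries.C c) = algebraMap k D c)
    (hN : m ^ N ≤ Ideal.span {θ PowerSeries.X}) (hX : Ideal.span {θ PowerSeries.X} ≠ ⊤) :
    θ.Finite := by
  classical
  obtain ⟨S, hS⟩ := exists_finset_approx m hres N
  let _ : Algebra (PowerSeries k) D := θ.toAlgebra
  have hmap : (Ideal.span {(PowerSeries.X : PowerSeries k)}).map
      (algebraMap (PowerSeries k) D) = Ideal.span {θ PowerSeries.X} := by
    rw [Ideal.map_span, Set.image_singleton]
    rfl
  have haus0 : IsHausdorff (Ideal.span {θ PowerSeries.X}) D := IsHausdorff.of_isDomain _ hX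
  rw [← hmap] at haus0
  have haus : IsHausdorff (Ideal.span {(PowerSeries.X : PowerSeries k)}) D :=
    IsHausdorff.map_algebraMap_iff.1 haus0
  have hprec : IsPrecomplete (Ideal.span {(PowerSeries.X : PowerSeries k)}) (PowerSeries k) :=
    (inferInstance : IsAdicComplete (Ideal.span {(PowerSeries.X : PowerSeries k)})
      (PowerSeries k)).toIsPrecomplete
  have hprec' : IsPrecomplete (Ideal.span {(PowerSeries.X : PowerSeries k)}) (S → PowerSeries k) :=
    isPrecomplete_pi _
  let g : (S → PowerSeries k) →ₗ[PowerSeries k] D :=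
    Fintype.linearCombination (PowerSeries k) (fun s : S => (s : D))
  have hg : ∀ x, g x = ∑ s, θ (x s) * (s : D) := by
    intro x
    simp only [g, Fintype.linearCombination_apply, Algebra.smul_def]
    rfl
  have hsurj : Function.Surjective (Submodule.mkQ
      (Ideal.span {(PowerSeries.X : PowerSeries k)} • (⊤ : Submodule (PowerSeries k) D)) ∘ₗ g) := by
    intro y
    obtain ⟨d, rfl⟩ := Submodule.mkQ_surjective _ y
    obtain ⟨h, hh, hd⟩ := hS d
    have hd' := hN hd
    rw [Ideal.mem_span_singleton'] at hd'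
    obtain ⟨a, ha⟩ := hd'
    obtain ⟨c, hc⟩ : ∃ c : S → k, ∑ s, c s • (s : D) = h := by
      exact Submodule.mem_span_finset'.1 hh
    refine ⟨fun s => PowerSeries.C (c s), ?_⟩
    rw [LinearMap.comp_apply, Submodule.mkQ_apply, Submodule.mkQ_apply, Submodule.Quotient.eq]
    have h1 : g (fun s => PowerSeries.C (c s)) = h := by
      rw [hg, ← hc]
      refine Finset.sum_congr rfl fun s _ => ?_
      rw [hC, Algebra.smul_def]
    rw [h1]
    have h2 : h - d = (PowerSeries.X : PowerSeries k) • (-a) := by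
      rw [Algebra.smul_def]
      change h - d = θ PowerSeries.X * (-a)
      linear_combination ha
    rw [h2]
    exact Submodule.smul_mem_smul (Ideal.mem_span_singleton_self _) trivial
  have hsurj' : Function.Surjective g := surjective_of_mkQ_comp_surjective hsurj
  exact Module.Finite.of_surjective g hsurj'

/-- injectivity of a map out of the power series ring in one variable over a field -/
theorem injective_of_X_ne_zero {k D : Type*} [Field k] [CommRing D] [IsDomain D]
    (θ : PowerSeries k →+* D) (hX : θ PowerSeries.X ≠ 0) : Function.Injective θ := by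
  rw [RingHom.injective_iff_ker_eq_bot]
  by_contra hne
  have hp : (RingHom.ker θ).IsPrime := RingHom.ker_isPrime θ
  have hm : (RingHom.ker θ).IsMaximal := hp.isMaximal hne
  have he : RingHom.ker θ = maximalIdeal (PowerSeries k) := eq_maximalIdeal hm
  have h1 : (PowerSeries.X : PowerSeries k) ∈ RingHom.ker θ := by
    rw [he, mem_maximalIdeal, mem_nonunits_iff, PowerSeries.isUnit_iff_constantCoeff]
    simp
  exact hX h1

open MvPowerSeries in
theorem exists_finite_aux (k : Type) [Field k] (r : ℕ) (P : Ideal (MvPowerSeries (Fin r) k))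
    [P.IsPrime] (f : MvPowerSeries (Fin r) k) (hf : f ∉ P) (hf0 : constantCoeff f = 0) :
    ∃ (P' : Ideal (MvPowerSeries (Fin r) k)), P'.IsPrime ∧ P ≤ P' ∧ f ∉ P' ∧
      ∃ θ : PowerSeries k →+* (MvPowerSeries (Fin r) k ⧸ P'),
        Function.Injective θ ∧ θ.Finite ∧ θ PowerSeries.X = Ideal.Quotient.mk P' f ∧
        (∀ c, θ (PowerSeries.C c) = Ideal.Quotient.mk P' (C c)) ∧
        ∀ i : Fin r, ∃ N : ℕ, (Ideal.Quotient.mk P' (X i)) ^ N ∈
          Ideal.span {Ideal.Quotient.mk P' f} := by
  classical
  -- a maximal prime not containing `f`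
  obtain ⟨P', ⟨hP'p, hPP', hfP'⟩, hmax⟩ := (set_has_maximal_iff_noetherian
    (R := MvPowerSeries (Fin r) k) (M := MvPowerSeries (Fin r) k)).2 inferInstance
    {Q : Ideal (MvPowerSeries (Fin r) k) | Q.IsPrime ∧ P ≤ Q ∧ f ∉ Q}
    ⟨P, inferInstance, le_rfl, hf⟩
  have hP'max : ∀ Q : Ideal (MvPowerSeries (Fin r) k), Q.IsPrime → P' < Q → f ∈ Q := by
    intro Q hQ hlt
    by_contra hfQ
    exact hmax Q ⟨hQ, hPP'.trans hlt.le, hfQ⟩ hlt
  refine ⟨P', hP'p, hPP', hfP', ?_⟩
  have hnt : Nontrivial (MvPowerSeries (Fin r) k ⧸ P') :=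
    Ideal.Quotient.nontrivial_iff.2 hP'p.ne_top
  have hloc : IsLocalRing (MvPowerSeries (Fin r) k ⧸ P') :=
    IsLocalRing.of_surjective' (Ideal.Quotient.mk P') Ideal.Quotient.mk_surjective
  have hdom : IsDomain (MvPowerSeries (Fin r) k ⧸ P') := Ideal.Quotient.isDomain P'
  have hmkm : ∀ g : MvPowerSeries (Fin r) k, constantCoeff g = 0 →
      Ideal.Quotient.mk P' g ∈ maximalIdeal (MvPowerSeries (Fin r) k ⧸ P') := by
    intro g hg
    rw [mem_maximalIdeal, mem_nonunits_iff]
    intro hu
    have hloc : IsLocalHom (Ideal.Quotient.mk P') :=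
      IsLocalHom.of_surjective _ Ideal.Quotient.mk_surjective
    have := (isUnit_map_iff (Ideal.Quotient.mk P') g).1 hu
    rw [MvPowerSeries.isUnit_iff_constantCoeff, hg] at this
    simp at this
  have hfne : Ideal.Quotient.mk P' f ≠ 0 := by
    rwa [Ne, Ideal.Quotient.eq_zero_iff_mem]
  have hall : ∀ q : Ideal (MvPowerSeries (Fin r) k ⧸ P'), q.IsPrime → q ≠ ⊥ →
      Ideal.Quotient.mk P' f ∈ q := by
    intro q hq hq0
    have h1 : (q.comap (Ideal.Quotient.mk P')).IsPrime := hq.comap _
    refine hP'max _ h1 (lt_of_le_of_ne ?_ ?_)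
    · intro x hx
      rw [Ideal.mem_comap, Ideal.Quotient.eq_zero_iff_mem.2 hx]
      exact q.zero_mem
    · intro he
      apply hq0
      rw [eq_bot_iff]
      intro x hx
      obtain ⟨y, rfl⟩ := Ideal.Quotient.mk_surjective x
      have : y ∈ q.comap (Ideal.Quotient.mk P') := hx
      rw [← he] at this
      exact Ideal.Quotient.eq_zero_iff_mem.2 this
  obtain ⟨N, hN⟩ := maximalIdeal_pow_le_span hfne (hmkm f hf0) hall
  have hsub : PowerSeries.HasSubst f := PowerSeries.HasSubst.of_constantCoeff_zero hf0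
  let θ : PowerSeries k →+* (MvPowerSeries (Fin r) k ⧸ P') :=
    (Ideal.Quotient.mk P').comp
      (PowerSeries.substAlgHom (R := k) hsub : PowerSeries k →ₐ[k] MvPowerSeries (Fin r) k).toRingHom
  have hθX : θ PowerSeries.X = Ideal.Quotient.mk P' f := by
    change Ideal.Quotient.mk P' (PowerSeries.substAlgHom (R := k) hsub PowerSeries.X) = _
    rw [PowerSeries.substAlgHom_X]
  have hθC : ∀ c, θ (PowerSeries.C c) = Ideal.Quotient.mk P' (C c) := by
    intro c
    change Ideal.Quotient.mk P' (PowerSeries.substAlgHom (R := k) hsub (PowerSeries.C c)) = _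
    rw [PowerSeries.C_eq_algebraMap, AlgHom.commutes]
    rfl
  refine ⟨θ, ?_, ?_, hθX, hθC, ?_⟩
  · exact injective_of_X_ne_zero θ (by rw [hθX]; exact hfne)
  · refine finite_of_pow_le (maximalIdeal (MvPowerSeries (Fin r) k ⧸ P')) ?_ N θ ?_ ?_ ?_
    · intro d
      obtain ⟨g, rfl⟩ := Ideal.Quotient.mk_surjective d
      refine ⟨constantCoeff g, ?_⟩
      have h1 : algebraMap k (MvPowerSeries (Fin r) k ⧸ P') (constantCoeff g) =
        Ideal.Quotient.mk P' (C (constantCoeff g)) := rfl
      rw [h1, ← map_sub]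
      exact hmkm _ (by simp)
    · intro c
      rw [hθC]
      rfl
    · rw [hθX]; exact hN
    · rw [hθX]
      intro h
      have h1 : Ideal.span {Ideal.Quotient.mk P' f} ≤
          maximalIdeal (MvPowerSeries (Fin r) k ⧸ P') := by
        rw [Ideal.span_le]
        simpa using hmkm f hf0
      rw [h] at h1
      exact (Ideal.IsPrime.ne_top (maximalIdeal.isMaximal _).isPrime) (top_le_iff.1 h1)
  · intro i
    exact ⟨N, hN (Ideal.pow_mem_pow (hmkm _ (by simp)) N)⟩

end Vale.Agent.P217
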