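import Mathlib.RingTheory.WittVector.Complete
import Mathlib.RingTheory.WittVector.DiscreteValuationRing
import Vale.Agent.Lib.P217.PEFinite

/-!
# P217 (characteristic zero part): finiteness over the Witt vectors (module Z1, first part)
-/

set_option linter.unusedSectionVars false

namespace Vale.Agent.P217

open MvPowerSeries IsLocalRing

/-- every element is, modulo `m ^ n`, an `A`-combination of a fixed finite set -/
theorem exists_finset_approx_ring {A D : Type*} [CommRing A] [CommRing D] [Algebra A D]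
    [IsNoetherianRing D] (m : Ideal D) (hres : ∀ d : D, ∃ c : A, d - algebraMap A D c ∈ m)
    (n : ℕ) :
    ∃ S : Finset D, ∀ d : D, ∃ h ∈ Submodule.span A (S : Set D), d - h ∈ m ^ n := by
  classical
  induction n with
  | zero => exact ⟨∅, fun d => ⟨0, Submodule.zero_mem _, by simp⟩⟩
  | succ n ih =>
    obtain ⟨S, hS⟩ := ih
    obtain ⟨T, hT⟩ := (IsNoetherian.noetherian (m ^ n) : (m ^ n).FG)
    have key : ∀ e ∈ m ^ n, ∃ h ∈ Submodule.span A (T : Set D), e - h ∈ m ^ (n + 1) := by
      intro e he
      rw [← hT] at he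
      refine Submodule.span_induction
        (p := fun e _ => ∃ h ∈ Submodule.span A (T : Set D), e - h ∈ m ^ (n + 1))
        ?_ ?_ ?_ ?_ he
      · intro x hx
        exact ⟨x, Submodule.subset_span hx, by simp⟩
      · exact ⟨0, Submodule.zero_mem _, by simp⟩
      · rintro x y _ _ ⟨hx, hx1, hx2⟩ ⟨hy, hy1, hy2⟩
        refine ⟨hx + hy, Submodule.add_mem _ hx1 hy1, ?_⟩
        have := Ideal.add_mem _ hx2 hy2
        convert this using 1
        ring
      · rintro a x _ ⟨hx, hx1, hx2⟩
        obtain ⟨c, hc⟩ := hres a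
        refine ⟨c • hx, Submodule.smul_mem _ _ hx1, ?_⟩
        have h1 : hx ∈ m ^ n := by
          rw [← hT]
          have : (Submodule.span A (T : Set D) : Set D) ⊆ (Ideal.span (T : Set D) : Set D) := by
            intro z hz
            have hz' : z ∈ (Submodule.span D (T : Set D)).restrictScalars A :=
              Submodule.span_le_restrictScalars A D (T : Set D) hz
            exact hz'
          exact this hx1
        have h2 : (a - algebraMap A D c) * hx ∈ m ^ (n + 1) := by
          rw [pow_succ']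
          exact Ideal.mul_mem_mul hc h1
        have h3 := Ideal.add_mem _ (Ideal.mul_mem_left _ a hx2) h2
        convert h3 using 1
        have h4 : c • hx = algebraMap A D c * hx := Algebra.smul_def c hx
        rw [h4, smul_eq_mul]
        ring
    refine ⟨S ∪ T, fun d => ?_⟩
    obtain ⟨h, hh, hd⟩ := hS d
    obtain ⟨h', hh', hd'⟩ := key _ hd
    refine ⟨h + h', ?_, ?_⟩
    · rw [Finset.coe_union, Submodule.span_union]
      exact Submodule.add_mem_sup hh hh'
    · convert hd' using 1
      ring

/-- finiteness over a complete ring -/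
theorem finite_of_pow_le_ring {A D : Type*} [CommRing A] [CommRing D] [IsDomain D]
    [IsNoetherianRing D] (m : Ideal D) (θ : A →+* D) (hres : ∀ d : D, ∃ c : A, d - θ c ∈ m)
    (N : ℕ) (t : A) [IsPrecomplete (Ideal.span {t}) A]
    (hN : m ^ N ≤ Ideal.span {θ t}) (hX : Ideal.span {θ t} ≠ ⊤) :
    θ.Finite := by
  classical
  let _ : Algebra A D := θ.toAlgebra
  obtain ⟨S, hS⟩ := exists_finset_approx_ring (A := A) m hres N
  have hmap : (Ideal.span {t}).map (algebraMap A D) = Ideal.span {θ t} := by
    rw [Ideal.map_span, Set.image_singleton]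
    rfl
  have haus0 : IsHausdorff (Ideal.span {θ t}) D := IsHausdorff.of_isDomain _ hX
  rw [← hmap] at haus0
  have haus : IsHausdorff (Ideal.span {t}) D :=
    IsHausdorff.map_algebraMap_iff.1 haus0
  have hprec' : IsPrecomplete (Ideal.span {t}) (S → A) := isPrecomplete_pi _
  let g : (S → A) →ₗ[A] D := Fintype.linearCombination A (fun s : S => (s : D))
  have hg : ∀ x, g x = ∑ s, θ (x s) * (s : D) := by
    intro x
    simp only [g, Fintype.linearCombination_apply, Algebra.smul_def]
    rfl
  have hsurj : Function.Surjective (Submodule.mkQ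
      (Ideal.span {t} • (⊤ : Submodule A D)) ∘ₗ g) := by
    intro y
    obtain ⟨d, rfl⟩ := Submodule.mkQ_surjective _ y
    obtain ⟨h, hh, hd⟩ := hS d
    have hd' := hN hd
    rw [Ideal.mem_span_singleton'] at hd'
    obtain ⟨a, ha⟩ := hd'
    obtain ⟨c, hc⟩ : ∃ c : S → A, ∑ s, c s • (s : D) = h := by
      exact Submodule.mem_span_finset'.1 hh
    refine ⟨c, ?_⟩
    rw [LinearMap.comp_apply, Submodule.mkQ_apply, Submodule.mkQ_apply, Submodule.Quotient.eq]
    have h1 : g c = h := by
      rw [hg, ← hc]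
      refine Finset.sum_congr rfl fun s _ => ?_
      rw [Algebra.smul_def]
      rfl
    rw [h1]
    have h2 : h - d = t • (-a) := by
      rw [Algebra.smul_def]
      change h - d = θ t * (-a)
      linear_combination ha
    rw [h2]
    exact Submodule.smul_mem_smul (Ideal.mem_span_singleton_self _) trivial
  have hsurj' : Function.Surjective g := surjective_of_mkQ_comp_surjective hsurj
  exact Module.Finite.of_surjective g hsurj'

theorem exists_finite_zero_aux (p : ℕ) [Fact p.Prime] (k : Type) [Field k] [Finite k] [CharP k p]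
    (r : ℕ) (P : Ideal (MvPowerSeries (Fin r) (WittVector p k))) [P.IsPrime]
    (hp : (p : MvPowerSeries (Fin r) (WittVector p k)) ∉ P)
    (f : MvPowerSeries (Fin r) (WittVector p k)) (hf : f ∉ P) :
    ∃ (P' : Ideal (MvPowerSeries (Fin r) (WittVector p k))), P'.IsPrime ∧ P ≤ P' ∧ f ∉ P' ∧
      (p : MvPowerSeries (Fin r) (WittVector p k)) ∉ P' ∧
      ((Ideal.Quotient.mk P').comp (C : WittVector p k →+* _)).Finite ∧
      ∀ i : Fin r, ∃ N : ℕ, (Ideal.Quotient.mk P' (X i)) ^ N ∈
        Ideal.span {(p : MvPowerSeries (Fin r) (WittVector p k) ⧸ P')} := by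
  classical
  set F : MvPowerSeries (Fin r) (WittVector p k) := p * f with hF
  have hFP : F ∉ P := fun h => (Ideal.IsPrime.mem_or_mem inferInstance h).elim hp hf
  -- a maximal prime not containing `p f`
  obtain ⟨P', ⟨hP'p, hPP', hFP'⟩, hmax⟩ := (set_has_maximal_iff_noetherian
    (R := MvPowerSeries (Fin r) (WittVector p k)) (M := MvPowerSeries (Fin r) (WittVector p k))).2
    inferInstance
    {Q : Ideal (MvPowerSeries (Fin r) (WittVector p k)) | Q.IsPrime ∧ P ≤ Q ∧ F ∉ Q}
    ⟨P, inferInstance, le_rfl, hFP⟩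
  have hP'max : ∀ Q : Ideal (MvPowerSeries (Fin r) (WittVector p k)), Q.IsPrime → P' < Q →
      F ∈ Q := by
    intro Q hQ hlt
    by_contra hfQ
    exact hmax Q ⟨hQ, hPP'.trans hlt.le, hfQ⟩ hlt
  have hfP' : f ∉ P' := fun h => hFP' (Ideal.mul_mem_left _ _ h)
  have hpP' : (p : MvPowerSeries (Fin r) (WittVector p k)) ∉ P' :=
    fun h => hFP' (Ideal.mul_mem_right _ _ h)
  refine ⟨P', hP'p, hPP', hfP', hpP', ?_⟩
  have hnt : Nontrivial (MvPowerSeries (Fin r) (WittVector p k) ⧸ P') :=
    Ideal.Quotient.nontrivial_iff.2 hP'p.ne_top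
  have hloc : IsLocalRing (MvPowerSeries (Fin r) (WittVector p k) ⧸ P') :=
    IsLocalRing.of_surjective' (Ideal.Quotient.mk P') Ideal.Quotient.mk_surjective
  have hdom : IsDomain (MvPowerSeries (Fin r) (WittVector p k) ⧸ P') :=
    Ideal.Quotient.isDomain P'
  have hlh : IsLocalHom (Ideal.Quotient.mk P') :=
    IsLocalHom.of_surjective _ Ideal.Quotient.mk_surjective
  have hmkm : ∀ g : MvPowerSeries (Fin r) (WittVector p k), ¬ IsUnit (constantCoeff g) →
      Ideal.Quotient.mk P' g ∈
        maximalIdeal (MvPowerSeries (Fin r) (WittVector p k) ⧸ P') := by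
    intro g hg
    rw [mem_maximalIdeal, mem_nonunits_iff]
    intro hu
    have := (isUnit_map_iff (Ideal.Quotient.mk P') g).1 hu
    rw [MvPowerSeries.isUnit_iff_constantCoeff] at this
    exact hg this
  have hpu : ¬ IsUnit (p : WittVector p k) := (WittVector.irreducible p (k := k)).not_isUnit
  have hpm : Ideal.Quotient.mk P' (p : MvPowerSeries (Fin r) (WittVector p k)) ∈
      maximalIdeal (MvPowerSeries (Fin r) (WittVector p k) ⧸ P') := by
    refine hmkm _ ?_
    rw [map_natCast]; exact hpu
  have hFne : Ideal.Quotient.mk P' F ≠ 0 := by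
    rwa [Ne, Ideal.Quotient.eq_zero_iff_mem]
  have hFm : Ideal.Quotient.mk P' F ∈
      maximalIdeal (MvPowerSeries (Fin r) (WittVector p k) ⧸ P') := by
    rw [hF, map_mul]
    exact Ideal.mul_mem_right _ _ hpm
  have hall : ∀ q : Ideal (MvPowerSeries (Fin r) (WittVector p k) ⧸ P'), q.IsPrime → q ≠ ⊥ →
      Ideal.Quotient.mk P' F ∈ q := by
    intro q hq hq0
    have h1 : (q.comap (Ideal.Quotient.mk P')).IsPrime := hq.comap _
    refine hP'max _ h1 (lt_of_le_of_ne ?_ ?_)
    · intro x hx
      rw [Ideal.mem_comap, Ideal.Quotient.eq_zero_iff_mem.2 hx]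
      exact q.zero_mem
    · intro he
      apply hq0
      rw [eq_bot_iff]
      intro x hx
      obtain ⟨y, rfl⟩ := Ideal.Quotient.mk_surjective x
      have : y ∈ q.comap (Ideal.Quotient.mk P') := hx
      rw [← he] at this
      exact Ideal.Quotient.eq_zero_iff_mem.2 this
  obtain ⟨N, hN⟩ := maximalIdeal_pow_le_span hFne hFm hall
  have hpc : Ideal.Quotient.mk P' (p : MvPowerSeries (Fin r) (WittVector p k)) =
      (p : MvPowerSeries (Fin r) (WittVector p k) ⧸ P') := map_natCast _ _
  have hle : Ideal.span {Ideal.Quotient.mk P' F} ≤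
      Ideal.span {(p : MvPowerSeries (Fin r) (WittVector p k) ⧸ P')} := by
    rw [Ideal.span_singleton_le_iff_mem, Ideal.mem_span_singleton, ← hpc, hF, map_mul]
    exact dvd_mul_right _ _
  have hN' := hN.trans hle
  refine ⟨?_, ?_⟩
  · refine finite_of_pow_le_ring (maximalIdeal _) _ ?_ N (p : WittVector p k) ?_ ?_
    · intro d
      obtain ⟨g, rfl⟩ := Ideal.Quotient.mk_surjective d
      refine ⟨constantCoeff g, ?_⟩
      rw [RingHom.comp_apply, ← map_sub]
      exact hmkm _ (by simp)
    · rw [map_natCast]; exact hN'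
    · rw [map_natCast]
      intro h
      have h1 : Ideal.span {(p : MvPowerSeries (Fin r) (WittVector p k) ⧸ P')} ≤
          maximalIdeal (MvPowerSeries (Fin r) (WittVector p k) ⧸ P') := by
        rw [Ideal.span_le, Set.singleton_subset_iff, ← hpc]
        exact hpm
      rw [h] at h1
      exact (Ideal.IsPrime.ne_top (maximalIdeal.isMaximal _).isPrime) (top_le_iff.1 h1)
  · intro i
    exact ⟨N, hN' (Ideal.pow_mem_pow (hmkm _ (by simp)) N)⟩

end Vale.Agent.P217
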