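import Vale.Agent.Lib.P217.PointExists
import Vale.Agent.Lib.P217.PZField
import Vale.Agent.Lib.P217.HeightQuot
import Vale.Agent.Lib.P217.PZFinite

/-!
# P217 (characteristic zero part): points in characteristic zero (module Z1)

* `exists_finite_zero`: as in `PEFinite.lean`. Choose a prime `P' ⊇ P` maximal among the primes not containing `p f`.  In `D = E/P'` (a complete Noetherian local
  domain with finite residue field) every nonzero prime contains `p f`, hence (same argument with `maximalIdeal_pow_le_span`) some power of the maximal ideal is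
  contained in `(p f)`; so every nonzero prime of `D` is the maximal ideal `𝔪_D`, which therefore is the only prime containing `p ≠ 0`, and
  `𝔪_D^N ⊆ (p)`.  So `D/(p)` is finite, `D` is `p`-adically complete, and is a finite module over `W = WittVector p k` (via the constants; complete Nakayama as in
  `finite_of_pow_le`); `W → D` is injective because `p ≠ 0` in the domain `D` (an ideal of `W` which is prime and does not contain `p` is zero).
* `exists_field_zero`: a domain `D` of characteristic zero finite over `W = WittVector p k`, `k` a finite field of characteristic `p`,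
  embeds in the unit ball of a complete algebraically closed ultrametric field with `‖p‖ < 1`.  E.g. `W` is finite over `WittVector p (ZMod p) ≃ ℤ_[p]`
  (`WittVector.equiv`), so `D` is finite over `ℤ_[p]`, its fraction field is algebraic over `ℚ_[p]` and embeds in `AlgebraicClosure ℚ_[p] ⊆ ℂ_[p]`
  (`PadicComplex`), integral elements have norm `≤ 1`.  Alternatively give `Frac W` its `p`-adic norm and use `exists_complete_closure` of `PEField.lean`.
* `exists_point_zero`: put them together; `‖x(u_i)‖ < 1` because `u_i^N ∈ (p) + P'`.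
-/

set_option linter.unusedSectionVars false

namespace Vale.Agent.P217

open MvPowerSeries Filter Topology

theorem exists_finite_zero (p : ℕ) [Fact p.Prime] (k : Type) [Field k] [Finite k] [CharP k p]
    (r : ℕ) (P : Ideal (MvPowerSeries (Fin r) (WittVector p k))) [P.IsPrime]
    (hp : (p : MvPowerSeries (Fin r) (WittVector p k)) ∉ P)
    (f : MvPowerSeries (Fin r) (WittVector p k)) (hf : f ∉ P) :
    ∃ (P' : Ideal (MvPowerSeries (Fin r) (WittVector p k))), P'.IsPrime ∧ P ≤ P' ∧ f ∉ P' ∧
      (p : MvPowerSeries (Fin r) (WittVector p k)) ∉ P' ∧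
      ((Ideal.Quotient.mk P').comp (C : WittVector p k →+* _)).Finite ∧
      ∀ i : Fin r, ∃ N : ℕ, (Ideal.Quotient.mk P' (X i)) ^ N ∈
        Ideal.span {(p : MvPowerSeries (Fin r) (WittVector p k) ⧸ P')} := by
  exact exists_finite_zero_aux p k r P hp f hf

theorem exists_field_zero (p : ℕ) [Fact p.Prime] (k : Type) [Field k] [Finite k] [CharP k p]
    (D : Type) [CommRing D] [IsDomain D] (θ : WittVector p k →+* D) (hθ : θ.Finite)
    (hp : (p : D) ≠ 0) :
    ∃ (K : Type) (_ : NontriviallyNormedField K) (_ : IsUltrametricDist K) (_ : CompleteSpace K)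
      (_ : IsAlgClosed K) (_ : CharZero K) (y : D →+* OO K), Function.Injective y ∧
      ‖(p : K)‖ < 1 :=
  exists_field_zero_aux p k D θ hθ hp

theorem exists_point_zero (p : ℕ) [Fact p.Prime] (n : ℕ) (P : Ideal (LTRing p n)) [P.IsPrime]
    (hp : (p : LTRing p n) ∉ P) (f : LTRing p n) (hf : f ∉ P) :
    ∃ (K : Type) (_ : NontriviallyNormedField K) (_ : IsUltrametricDist K) (_ : CompleteSpace K)
      (_ : IsAlgClosed K) (_ : CharZero K) (x : LTRing p n →+* OO K), ‖(p : K)‖ < 1 ∧
      (∀ i, ‖((x (X i) : OO K) : K)‖ < 1) ∧ (∀ g ∈ P, x g = 0) ∧ x f ≠ 0 := by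
  obtain ⟨P', hP', hPP', hfP', hpP', hfin, hnil⟩ := exists_finite_zero p _ _ P hp f hf
  have hp' : (p : LTRing p n ⧸ P') ≠ 0 := by
    intro h0
    apply hpP'
    rw [← Ideal.Quotient.eq_zero_iff_mem, map_natCast]
    exact h0
  obtain ⟨K, i1, i2, i3, i4, i5, y, hy, hlt⟩ :=
    exists_field_zero p _ (LTRing p n ⧸ P') _ hfin hp'
  refine ⟨K, i1, i2, i3, i4, i5, y.comp (Ideal.Quotient.mk P'), hlt, ?_, ?_, ?_⟩
  · intro i
    obtain ⟨N, hN⟩ := hnil i
    obtain ⟨c, hc⟩ := Ideal.mem_span_singleton'.mp hN
    by_contra hcon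
    push Not at hcon
    rw [RingHom.comp_apply] at hcon
    have h1 : (y (Ideal.Quotient.mk P' (X i))) ^ N = y c * (p : OO K) := by
      rw [← map_pow, ← hc, map_mul, map_natCast]
    have h2 : ‖((y (Ideal.Quotient.mk P' (X i)) : OO K) : K)‖ ^ N =
        ‖((y c : OO K) : K)‖ * ‖(p : K)‖ := by
      rw [← norm_pow, ← Subring.coe_pow, h1, Subring.coe_mul, norm_mul]
      simp
    have h3 : 1 ≤ ‖((y (Ideal.Quotient.mk P' (X i)) : OO K) : K)‖ ^ N := one_le_pow₀ hcon
    have h4 : ‖((y c : OO K) : K)‖ * ‖(p : K)‖ < 1 := by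
      calc ‖((y c : OO K) : K)‖ * ‖(p : K)‖
          ≤ 1 * ‖(p : K)‖ :=
            mul_le_mul_of_nonneg_right (norm_le_one _) (norm_nonneg _)
        _ < 1 := by rwa [one_mul]
    linarith
  · intro g hg
    rw [RingHom.comp_apply, Ideal.Quotient.eq_zero_iff_mem.mpr (hPP' hg), map_zero]
  · rw [RingHom.comp_apply]
    intro h0
    have h1 : Ideal.Quotient.mk P' f = 0 := hy (by rw [h0, map_zero])
    exact hfP' (Ideal.Quotient.eq_zero_iff_mem.mp h1)

end Vale.Agent.P217
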