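import Vale.Agent.Lib.P217.ActZ
import Vale.Agent.Lib.P217.DerivZLog
import Vale.Agent.Lib.P217.DispZ
import Vale.Agent.Lib.P217.LinDim
import Vale.Agent.Lib.P217.PointZ
import Vale.Agent.Lib.P217.Iso
import Vale.Agent.Lib.P217.Honda
import Vale.Agent.Lib.P217.DerivTS

/-!
# P217 (characteristic zero part): weakly invariant primes not containing `p` are zero (modules Z7, Z8)

Setting of `ChaiP.lean`: `E = LTRing p n`, `x : E → OO K` a point in characteristic zero with `‖x(u_i)‖ < 1`; `x = spec ι hξ` with `ι = x ∘ C`,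
`ξ i = x (X i)` (`ringHom_eq_ev`), `‖x f‖ ≤ c < 1` for `f` in the maximal ideal (`= (p, u_1, …)`). `Γ = Gk p n Γ₀`.
`U = UC (F.map (spec ι hξ)) p`, `L` the logarithm homomorphism of `F.map (spec ι hξ)` (`exists_logHom`), `Λ z = L (z 0)`.

* `logSpace`: suppose `f ∈ P` and `∂ := (coeff (single j₀ 1) (taylor f)) ≠ 0`. For `z : U` let `a z : Fin (n-1) → K` be as in
  `log_expansion`. Let `T' ⊆ (U → K)` be the subspace of the functions `z ↦ e Λ(z) + ∑ v_i a(z)_i` with `e ∈ K`, `v ∈ K^{n-1}`, `∑ v_i ∂_i f(x) = 0` where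
  `∂_i f(x) = coeff (single i 1) (taylor f)`. Its dimension is at most `1 + (n - 2) = n - 1` (image of a space of dimension `n - 1`).
  Claim: `Λ ∘ Φ ∈ T'` for the action `Φ` of every endomorphism `b` of `Γ`.  For large `m` let `(φ_m, t_m)` be the automorphism of `E` for
  `1 + p^m b` (`exists_actsBy`, `isHom_onePlusZ`, `coeff_one_onePlus`), `δ_m = x(φ_m(X i)) - ξ_i`, `‖δ_m‖ ≤ C ‖p‖^m`, `‖t_m'(0) - 1‖ ≤ C ‖p‖^m` (`disp_estimate`).
  `x(φ_m f) = 0` as `φ_m f ∈ P`, and `x(φ_m f) = ev δ_m (taylor f)` (`ev_taylor`, `ringHom_eq_ev`, `fix_W`), so `‖∑ ∂_i f(x) δ_{m,i}‖ ≤ (C ‖p‖^m)^2` (`norm_ev_le`).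
  By `log_expansion`, `Λ(Φ z) = ((t'-1)/p^m) Λ(z) + ∑ (t' δ_{m,i}/p^m) a(z)_i + O(‖p‖^m)`; correcting the coordinate `j₀` of
  `(t' δ_{m,i}/p^m)_i` by `O(‖p‖^m)` we get a sequence in `T'` converging pointwise to `Λ ∘ Φ`. A finite dimensional subspace of the Hausdorff topological vector
  space `U → K` is closed (`Submodule.closed_of_finiteDimensional`).
* `deriv_vanish`: so the span `M` of the `Λ ∘ Φ` has dimension `≤ n - 1`.  It satisfies the hypotheses of `dim_lower`: let `v : honda k → Γ` be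
  a strict isomorphism (`exists_strict_iso`, `k = GaloisField p n`), `vi` its inverse; `T` = action of `v ∘ (ζ X) ∘ vi`, `ζ` a generator of the
  multiplicative group of `k`, `S` = action of `v ∘ X^p ∘ vi`; `T^{p^n-1} = 1`, `S^n = p` (`X^{p^n} = [p]`), `S T = T^p S`, and for
  `0 < i < p^n - 1`, `T^i - 1` is the action of `v ∘ ((ζ^i X) -_H X) ∘ vi`, an endomorphism with derivative `ζ^i - 1 ≠ 0` at `0` (`actE_surjective`). `M ≠ 0`: there is a
  point `y ≠ 0` with `Pt.nm y ≤ ‖p‖^2`, its logarithm is nonzero (`isLog_small`), and it is `z 0` for some `z : U` (`psmul_surjective_of_pCong`).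
  Contradiction: so all first order Taylor coefficients at `x` of elements of `P` vanish.
* `pd`: formal partial derivatives; `taylor` commutes with them (both sides are additive, satisfy the Leibniz rule and are continuous; or compare coefficients by
  `coeff α (taylor f) = ∑_β choose … ξ^{β-α} f_β`). `pd_mem`: `P` is stable under `pd` by `deriv_vanish` and `exists_point_zero`.
* `eq_bot_of_p_notMem`: for `f ∈ P` all `α! coeff α (taylor f) = constantCoeff (taylor (pd^α f)) = x(pd^α f) = 0`, so `taylor f = 0`, so `f = 0`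
  (`taylor_injective_of`; `ι : W → OO K` is injective as `ι(p) ≠ 0`).
-/

set_option linter.unusedSectionVars false

namespace Vale.Agent.P217

open MvPowerSeries Filter Topology
open scoped MvPowerSeries.WithPiTopology

section
variable {p : ℕ} [Fact p.Prime] {n : ℕ} (hn : n ≠ 0) (Γ₀ : FormalGroup (ZMod p)) [Γ₀.IsComm]
  (hΓ : mulSeries Γ₀ p = PowerSeries.X ^ (p ^ n)) (F : FormalGroup (LTRing p n)) [F.IsComm]
  (hF : IsUniversalDeformation (Gk p n Γ₀) (residueMap p n) F)
  {K : Type} [NontriviallyNormedField K] [IsUltrametricDist K] [CompleteSpace K]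
  [IsAlgClosed K] (hp0 : (p : K) ≠ 0) (hp1 : ‖(p : K)‖ < 1)
  (ι : WittVector p (GaloisField p n) →+* OO K) {ξ : Fin (n - 1) → OO K}
  (hξ : ∀ i, ‖(ξ i : K)‖ < 1)

include hp1 in
theorem exists_bound_maximal : ∃ c : ℝ, 0 < c ∧ c < 1 ∧
    ∀ f : LTRing p n, residueMap p n f = 0 → ‖((spec ι hξ f : OO K) : K)‖ ≤ c := by
  exact exists_bound_maximal_aux hp1 ι hξ

include hn hΓ hF hp0 hp1

theorem exists_logSpace (P : Ideal (LTRing p n)) (hP : WeaklyInvariant p n Γ₀ F P)
    (hPx : ∀ g ∈ P, spec ι hξ g = 0) {c : ℝ} (hc0 : 0 < c) (hc1 : c < 1)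
    (hker : ∀ f : LTRing p n, residueMap p n f = 0 → ‖((spec ι hξ f : OO K) : K)‖ ≤ c)
    (L : Pt (F.map (spec ι hξ)) →+ K) (hL : ∀ y, IsLog p (F.map (spec ι hξ)) y (L y))
    (f : LTRing p n) (hf : f ∈ P) (j : Fin (n - 1))
    (hj : coeff (Finsupp.single j 1) (taylor ι hξ f) ≠ 0) :
    ∃ T' : Submodule K (UC (F.map (spec ι hξ)) p → K), FiniteDimensional K T' ∧
      Module.finrank K T' < n ∧
      ∀ (b : PowerSeries (GaloisField p n)) (_ : IsHom (Gk p n Γ₀) (Gk p n Γ₀) b)
        (Φ : UC (F.map (spec ι hξ)) p →+ UC (F.map (spec ι hξ)) p)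
        (_ : IsActE (residueMap p n) (spec ι hξ) c b Φ),
        (fun z => L ((Φ z).1 0)) ∈ T' := by
  exact exists_logSpace_aux hn Γ₀ hΓ F hF hp0 hp1 ι hξ P hP hPx hc0 hc1 hker L hL f hf j hj

theorem deriv_vanish (P : Ideal (LTRing p n)) (hP : WeaklyInvariant p n Γ₀ F P)
    (hPx : ∀ g ∈ P, spec ι hξ g = 0) (f : LTRing p n) (hf : f ∈ P) (j : Fin (n - 1)) :
    coeff (Finsupp.single j 1) (taylor ι hξ f) = 0 := by
  classical
  by_contra hj
  have hpp : p.Prime := Fact.out
  have hn0 : 0 < n := Nat.pos_of_ne_zero hn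
  have hq2 : 2 ≤ p ^ n := Nat.one_lt_pow hn hpp.one_lt
  obtain ⟨c, hc0, hc1, hker⟩ := exists_bound_maximal (p := p) (n := n) hp1 ι hξ
  have hFr : F.map (residueMap p n) = Gk p n Γ₀ := hF.reduction
  have hΓp : mulSeries (Gk p n Γ₀) p = PowerSeries.X ^ (p ^ n) := by
    rw [mulSeries_map, hΓ, map_pow, PowerSeries.map_X]
  have hcong := pCong_specE F (Gk p n Γ₀) hFr hΓp ι hξ hker
  obtain ⟨L, hL⟩ := exists_logHom hp0 hp1 hq2 hc0.le hc1 hcong
  obtain ⟨T', hT'fin, hT'lt, hT'⟩ := exists_logSpace hn Γ₀ hΓ F hF hp0 hp1 ι hξ P hP hPx hc0 hc1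
    hker L hL f hf j hj
  let _ : Fintype (GaloisField p n) := Fintype.ofFinite _
  have hcard : Fintype.card (GaloisField p n) = p ^ n := by
    rw [← Nat.card_eq_fintype_card, GaloisField.card p n hn]
  obtain ⟨T, S, bT, bS, hbT, hbS, hTa, hSa, hTT, hSS, hST, hinv⟩ :=
    DTS.exists_TS (residueMap_surjective p n) F (Gk p n Γ₀) hFr hn0 hcard hq2 hΓp ι hξ hc0 hc1
      hker
  set M : Submodule K (UC (F.map (spec ι hξ)) p → K) := Submodule.span K
    {g | ∃ (b : PowerSeries (GaloisField p n)) (_ : IsHom (Gk p n Γ₀) (Gk p n Γ₀) b)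
      (Φ : UC (F.map (spec ι hξ)) p →+ UC (F.map (spec ι hξ)) p),
      IsActE (residueMap p n) (spec ι hξ) c b Φ ∧ g = fun z => L ((Φ z).1 0)} with hM
  have hMT' : M ≤ T' := Submodule.span_le.2 (by
    rintro _ ⟨b, hb, Φ, hΦ, rfl⟩
    exact hT' b hb Φ hΦ)
  have hMfin : FiniteDimensional K M := Submodule.finiteDimensional_of_le hMT'
  have hcl : ∀ (b' : PowerSeries (GaloisField p n)) (_ : IsHom (Gk p n Γ₀) (Gk p n Γ₀) b')
      (Φ' : UC (F.map (spec ι hξ)) p →+ UC (F.map (spec ι hξ)) p)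
      (_ : IsActE (residueMap p n) (spec ι hξ) c b' Φ'), ∀ g ∈ M, g ∘ Φ' ∈ M := by
    intro b' hb' Φ' hΦ' g hg
    refine Submodule.span_induction (p := fun g _ => g ∘ Φ' ∈ M) ?_ ?_ ?_ ?_ hg
    · rintro _ ⟨b, hb, Φ, hΦ, rfl⟩
      exact Submodule.subset_span ⟨_, hb'.comp hb, Φ.comp Φ', actE_comp (residueMap_surjective p n)
        F (Gk p n Γ₀) hFr hq2 hΓp ι hξ hc0 hc1 hker hb hb' hΦ hΦ', rfl⟩
    · exact M.zero_mem
    · intro g₁ g₂ _ _ h1 h2
      exact M.add_mem h1 h2
    · intro a g _ h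
      exact M.smul_mem a h
  have hlow := dim_lower p n hpp hp0 T S hTT hSS hST hinv M ?_ ?_ (hcl bT hbT T hTa)
    (hcl bS hbS S hSa)
  · have h1 := Submodule.finrank_mono hMT'
    omega
  · obtain ⟨z, hz⟩ := DTS.exists_log_ne_zero hp0 hp1 hq2 hc0.le hc1 hcong L hL
    intro hbot
    have h1 : (fun z : UC (F.map (spec ι hξ)) p => L (z.1 0)) ∈ M :=
      Submodule.subset_span ⟨_, isHom_X _, AddMonoidHom.id _, actE_X (residueMap_surjective p n)
        F (Gk p n Γ₀) hFr hq2 hΓp ι hξ hc0 hc1 hker, rfl⟩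
    rw [hbot, Submodule.mem_bot] at h1
    exact hz (congrFun h1 z)
  · intro g hg
    refine Submodule.span_induction (p := fun g _ => ∀ u v, g (u + v) = g u + g v) ?_ ?_ ?_ ?_ hg
    · rintro _ ⟨b, hb, Φ, hΦ, rfl⟩ u v
      have h1 : (Φ (u + v)).1 0 = (Φ u).1 0 + (Φ v).1 0 := by
        rw [map_add]
        rfl
      change L ((Φ (u + v)).1 0) = L ((Φ u).1 0) + L ((Φ v).1 0)
      rw [h1, map_add]
    · intro u v
      simp
    · intro g₁ g₂ _ _ h1 h2 u v
      rw [Pi.add_apply, Pi.add_apply, Pi.add_apply, h1, h2]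
      ring
    · intro a g _ h u v
      rw [Pi.smul_apply, Pi.smul_apply, Pi.smul_apply, h, smul_add]

end

/-- formal partial derivative -/
noncomputable def pd {R : Type*} [CommRing R] {r : ℕ} (j : Fin r)
    (f : MvPowerSeries (Fin r) R) : MvPowerSeries (Fin r) R :=
  fun d => ((d j + 1 : ℕ) : R) * coeff (d + Finsupp.single j 1) f

namespace PdAux

section
variable {R : Type*} [CommRing R] {r : ℕ}

theorem coeff_pd (j : Fin r) (f : MvPowerSeries (Fin r) R) (d : Fin r →₀ ℕ) :
    coeff d (pd j f) = ((d j + 1 : ℕ) : R) * coeff (d + Finsupp.single j 1) f := rfl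

theorem pd_add (j : Fin r) (f g : MvPowerSeries (Fin r) R) :
    pd j (f + g) = pd j f + pd j g := by
  ext d
  rw [map_add, coeff_pd, coeff_pd, coeff_pd, map_add, mul_add]

theorem pd_zero (j : Fin r) : pd j (0 : MvPowerSeries (Fin r) R) = 0 := by
  ext d
  rw [coeff_pd, coeff_zero, mul_zero, coeff_zero]

theorem pd_sum (j : Fin r) {ι : Type*} (s : Finset ι) (f : ι → MvPowerSeries (Fin r) R) :
    pd j (∑ i ∈ s, f i) = ∑ i ∈ s, pd j (f i) := by
  classical
  induction s using Finset.induction_on with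
  | empty => rw [Finset.sum_empty, Finset.sum_empty, pd_zero]
  | insert a s ha ih => rw [Finset.sum_insert ha, Finset.sum_insert ha, pd_add, ih]

theorem pd_C (j : Fin r) (c : R) : pd j (C c : MvPowerSeries (Fin r) R) = 0 := by
  ext d
  have h : d + Finsupp.single j 1 ≠ 0 := by
    intro h
    have := DFunLike.congr_fun h j
    simp at this
  rw [coeff_pd, coeff_C_of_ne_zero h, mul_zero, coeff_zero]

theorem pd_C_mul (j : Fin r) (c : R) (f : MvPowerSeries (Fin r) R) :
    pd j (C c * f) = C c * pd j f := by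
  ext d
  rw [coeff_pd, coeff_C_mul, coeff_C_mul, coeff_pd]
  ring

/-- `∂_j (X_i g) = X_i ∂_j g + δ_{ij} g` -/
theorem pd_X_mul (j i : Fin r) (g : MvPowerSeries (Fin r) R) :
    pd j (X i * g) = X i * pd j g + (if i = j then g else 0) := by
  classical
  ext d
  rw [map_add, coeff_pd, X_def, coeff_monomial_mul, coeff_monomial_mul, one_mul, one_mul]
  by_cases hij : i = j
  · subst hij
    rw [if_pos rfl]
    have h1 : Finsupp.single i 1 ≤ d + Finsupp.single i 1 := le_add_self
    rw [if_pos h1, add_tsub_cancel_right]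
    by_cases hd : Finsupp.single i 1 ≤ d
    · rw [if_pos hd, coeff_pd, tsub_add_cancel_of_le hd]
      have h2 : (d - Finsupp.single i 1 : Fin r →₀ ℕ) i + 1 = d i := by
        have := hd i
        rw [Finsupp.single_eq_same] at this
        rw [Finsupp.tsub_apply, Finsupp.single_eq_same]
        omega
      rw [h2]
      push_cast
      ring
    · rw [if_neg hd, zero_add]
      have h2 : d i = 0 := by
        by_contra h
        apply hd
        rw [Finsupp.single_le_iff]
        omega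
      rw [h2]
      simp
  · rw [if_neg hij, coeff_zero, add_zero]
    have h0 : (Finsupp.single i 1 ≤ d + Finsupp.single j 1) ↔ Finsupp.single i 1 ≤ d := by
      rw [Finsupp.single_le_iff, Finsupp.single_le_iff, Finsupp.add_apply,
        Finsupp.single_apply, if_neg (Ne.symm hij), add_zero]
    by_cases hd : Finsupp.single i 1 ≤ d
    · rw [if_pos (h0.2 hd), if_pos hd, coeff_pd]
      have h2 : (d - Finsupp.single i 1 : Fin r →₀ ℕ) j = d j := by
        rw [Finsupp.tsub_apply, Finsupp.single_apply, if_neg hij, Nat.sub_zero]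
      have h3 : d + Finsupp.single j 1 - Finsupp.single i 1 =
          d - Finsupp.single i 1 + Finsupp.single j 1 := by
        rw [add_comm, add_tsub_assoc_of_le hd, add_comm]
      rw [h2, h3]
    · rw [if_neg fun h => hd (h0.1 h), if_neg hd, mul_zero]

end

end PdAux

open PdAux TaylorAux

theorem taylor_pd {K : Type*} [NontriviallyNormedField K] [IsUltrametricDist K]
    [CompleteSpace K] {R0 : Type*} [CommRing R0] {r : ℕ} (ι : R0 →+* OO K) {ξ : Fin r → OO K}
    (hξ : ∀ i, ‖(ξ i : K)‖ < 1) (j : Fin r) (f : MvPowerSeries (Fin r) R0) :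
    taylor ι hξ (pd j f) = pd j (taylor ι hξ f) := by
  classical
  obtain ⟨ρ, hρ0, hρ1, hρ⟩ := exists_rho hξ
  -- one step of the decomposition
  have hstep : ∀ (f : MvPowerSeries (Fin r) R0) (g : Fin r → MvPowerSeries (Fin r) R0),
      f = C (constantCoeff f) + ∑ i, X i * g i →
      taylor ι hξ (pd j f) - pd j (taylor ι hξ f) =
        ∑ i, (C (ξ i) + X i) * (taylor ι hξ (pd j (g i)) - pd j (taylor ι hξ (g i))) := by
    intro f g hfg
    have h1 : taylor ι hξ (pd j f) =
        ∑ i, ((C (ξ i) + X i) * taylor ι hξ (pd j (g i)) +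
          (if i = j then taylor ι hξ (g i) else 0)) := by
      conv_lhs => rw [hfg]
      rw [pd_add, pd_C, zero_add, pd_sum, map_sum]
      refine Finset.sum_congr rfl fun i _ => ?_
      rw [pd_X_mul, map_add, map_mul, taylor_X]
      congr 1
      split_ifs with h
      · rfl
      · rw [map_zero]
    have h2 : pd j (taylor ι hξ f) =
        ∑ i, ((C (ξ i) + X i) * pd j (taylor ι hξ (g i)) +
          (if i = j then taylor ι hξ (g i) else 0)) := by
      conv_lhs => rw [hfg]
      rw [map_add, taylor_C, pd_add, pd_C, zero_add, map_sum, pd_sum]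
      refine Finset.sum_congr rfl fun i _ => ?_
      rw [map_mul, taylor_X, add_mul, pd_add, pd_C_mul, pd_X_mul]
      ring
    rw [h1, h2, ← Finset.sum_sub_distrib]
    refine Finset.sum_congr rfl fun i _ => ?_
    ring
  have key : ∀ N : ℕ, ∀ f : MvPowerSeries (Fin r) R0, ∀ d : Fin r →₀ ℕ,
      coeff d (taylor ι hξ (pd j f) - pd j (taylor ι hξ f)) ∈
        ballIdeal K (ρ ^ (N - d.degree)) (pow_nonneg hρ0 _) := by
    intro N
    induction N with
    | zero =>
      intro f d
      rw [mem_ballIdeal, Nat.zero_sub, pow_zero]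
      exact norm_le_one _
    | succ N ih =>
      intro f d
      obtain ⟨g, hg⟩ := exists_decomp f
      rw [hstep f g hg, map_sum]
      refine Ideal.sum_mem _ fun i _ => ?_
      rw [add_mul, map_add, coeff_C_mul]
      refine Ideal.add_mem _ ?_ ?_
      · rw [mem_ballIdeal, Subring.coe_mul, norm_mul]
        have h2 := ih (g i) d
        rw [mem_ballIdeal] at h2
        calc _ ≤ ρ * ρ ^ (N - d.degree) := mul_le_mul (hρ i) h2 (norm_nonneg _) hρ0
          _ = ρ ^ (N - d.degree + 1) := (pow_succ' _ _).symm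
          _ ≤ ρ ^ (N + 1 - d.degree) := pow_le_pow_of_le_one hρ0 hρ1.le (by omega)
      · rw [X_def, coeff_monomial_mul, one_mul]
        split_ifs with hd
        · have h2 := ih (g i) (d - Finsupp.single i 1)
          have h3 : (d - Finsupp.single i 1).degree + 1 = d.degree := by
            conv_rhs => rw [← tsub_add_cancel_of_le hd]
            rw [map_add, Finsupp.degree_single]
          rw [mem_ballIdeal] at h2 ⊢
          rwa [show N + 1 - d.degree = N - (d - Finsupp.single i 1).degree by omega]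
        · exact Ideal.zero_mem _
  rw [← sub_eq_zero]
  ext1 d
  rw [coeff_zero]
  have hlim : Tendsto (fun N : ℕ => ρ ^ N) atTop (𝓝 0) :=
    tendsto_pow_atTop_nhds_zero_of_lt_one hρ0 hρ1
  have hle : ‖((coeff d (taylor ι hξ (pd j f) - pd j (taylor ι hξ f)) : OO K) : K)‖ ≤ 0 := by
    refine ge_of_tendsto' hlim fun N => ?_
    have h2 := key (N + d.degree) f d
    rwa [mem_ballIdeal, Nat.add_sub_cancel] at h2
  have h0 := le_antisymm hle (norm_nonneg _)
  rw [norm_eq_zero] at h0
  exact Subtype.ext h0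

/-- an ideal stable under the partial derivatives, vanishing at a point in characteristic zero, is zero -/
theorem eq_bot_of_pd_stable {K : Type*} [NontriviallyNormedField K] [IsUltrametricDist K]
    [CompleteSpace K] [CharZero K] {R0 : Type*} [CommRing R0] {r : ℕ} (ι : R0 →+* OO K)
    (hι : Function.Injective ι) {ξ : Fin r → OO K} (hξ : ∀ i, ‖(ξ i : K)‖ < 1)
    (P : Ideal (MvPowerSeries (Fin r) R0)) (hP : ∀ f ∈ P, ∀ j, pd j f ∈ P)
    (hPx : ∀ f ∈ P, spec ι hξ f = 0) : P = ⊥ := by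
  have key : ∀ N : ℕ, ∀ d : Fin r →₀ ℕ, d.degree = N → ∀ f ∈ P, coeff d (taylor ι hξ f) = 0 := by
    intro N
    induction N with
    | zero =>
      intro d hd f hf
      have h0 : d = 0 := (Finsupp.degree_eq_zero_iff d).1 hd
      rw [h0, coeff_zero_eq_constantCoeff_apply]
      have h1 := hPx f hf
      rw [← constantCoeff_comp_taylor, RingHom.comp_apply] at h1
      exact h1
    | succ N ih =>
      intro d hd f hf
      have h0 : d ≠ 0 := by
        rintro rfl
        simp at hd
      obtain ⟨j, hj⟩ := Finsupp.ne_iff.1 h0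
      rw [Finsupp.coe_zero, Pi.zero_apply] at hj
      have hle : Finsupp.single j 1 ≤ d := by
        rw [Finsupp.single_le_iff]
        omega
      have h1 : (d - Finsupp.single j 1) + Finsupp.single j 1 = d := tsub_add_cancel_of_le hle
      have h2 : (d - Finsupp.single j 1).degree = N := by
        have h3 : (d - Finsupp.single j 1).degree + 1 = d.degree := by
          conv_rhs => rw [← h1]
          rw [map_add, Finsupp.degree_single]
        omega
      have h4 := ih (d - Finsupp.single j 1) h2 (pd j f) (hP f hf j)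
      rw [taylor_pd, coeff_pd, h1] at h4
      rcases mul_eq_zero.1 h4 with h5 | h5
      · exfalso
        have h6 : (((((d - Finsupp.single j 1 : Fin r →₀ ℕ) j + 1 : ℕ) : OO K)) : K) = 0 := by
          rw [h5]; rfl
        rw [Subring.coe_natCast, Nat.cast_eq_zero] at h6
        omega
      · exact h5
  rw [eq_bot_iff]
  intro f hf
  rw [Ideal.mem_bot]
  refine taylor_injective_of ι hξ hι ?_
  rw [map_zero]
  ext1 d
  rw [key _ d rfl f hf, coeff_zero]

theorem eq_bot_of_p_notMem {p : ℕ} [Fact p.Prime] {n : ℕ} (hn : n ≠ 0)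
    (Γ₀ : FormalGroup (ZMod p)) [Γ₀.IsComm]
    (hΓ : mulSeries Γ₀ p = PowerSeries.X ^ (p ^ n)) (F : FormalGroup (LTRing p n))
    (hF : IsUniversalDeformation (Gk p n Γ₀) (residueMap p n) F)
    (P : Ideal (LTRing p n)) [P.IsPrime] (hP : WeaklyInvariant p n Γ₀ F P)
    (hp : (p : LTRing p n) ∉ P) : P = ⊥ := by
  have hcomm : F.IsComm := hF.comm
  -- points give back specializations
  have hspec : ∀ (K : Type) (_ : NontriviallyNormedField K) (_ : IsUltrametricDist K)
      (_ : CompleteSpace K) (x : LTRing p n →+* OO K)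
      (hx : ∀ i, ‖((x (X i) : OO K) : K)‖ < 1) (g : LTRing p n),
      x g = spec (x.comp C) (ξ := fun i => x (X i)) hx g := by
    intro K _ _ _ x hx g
    rw [spec_apply]
    exact ringHom_eq_ev x hx g
  have hpd : ∀ f ∈ P, ∀ j, pd j f ∈ P := by
    intro f hf j
    by_contra hcon
    obtain ⟨K, i1, i2, i3, i4, i5, x, hlt, hx, hxP, hxf⟩ := exists_point_zero p n P hp _ hcon
    have hp0 : (p : K) ≠ 0 := Nat.cast_ne_zero.mpr (Fact.out : p.Prime).ne_zero
    have h1 := deriv_vanish hn Γ₀ hΓ F hF hp0 hlt (x.comp C) (ξ := fun i => x (X i)) hx P hP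
      (fun g hg => by rw [← hspec K i1 i2 i3 x hx g]; exact hxP g hg) f hf j
    apply hxf
    rw [hspec K i1 i2 i3 x hx, ← constantCoeff_comp_taylor, RingHom.comp_apply, taylor_pd]
    change (((0 : Fin (n - 1) →₀ ℕ) j + 1 : ℕ) : OO K) *
      coeff (0 + Finsupp.single j 1) (taylor (x.comp C) (ξ := fun i => x (X i)) hx f) = 0
    rw [zero_add, h1, mul_zero]
  have h1P : (1 : LTRing p n) ∉ P := fun h => (Ideal.IsPrime.ne_top inferInstance)
    ((Ideal.eq_top_iff_one P).mpr h)
  obtain ⟨K, i1, i2, i3, i4, i5, x, hlt, hx, hxP, hxf⟩ := exists_point_zero p n P hp 1 h1P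
  have hp0 : (p : K) ≠ 0 := Nat.cast_ne_zero.mpr (Fact.out : p.Prime).ne_zero
  have hι : Function.Injective (x.comp (C : WittVector p (GaloisField p n) →+* LTRing p n)) := by
    rw [injective_iff_map_eq_zero]
    intro a ha
    by_contra hne
    obtain ⟨m, b, hb0, hb⟩ := WittVector.exists_eq_pow_p_mul a hne
    have hbu : IsUnit b := WittVector.isUnit_of_coeff_zero_ne_zero b hb0
    rw [hb, map_mul, map_pow, map_natCast] at ha
    have h2 : IsUnit ((x.comp C) b) := hbu.map _
    have h3 : ((p : OO K)) ^ m = 0 := by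
      have := h2.mul_left_eq_zero.mp ha
      exact this
    have h4 : (p : OO K) = 0 := eq_zero_of_pow_eq_zero h3
    apply hp0
    have h5 := congrArg (fun z : OO K => (z : K)) h4
    simpa using h5
  exact eq_bot_of_pd_stable (x.comp C) hι (ξ := fun i => x (X i)) hx P hpd
    (fun g hg => by rw [← hspec K i1 i2 i3 x hx g]; exact hxP g hg)

end Vale.Agent.P217
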