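import Vale.Agent.Lib.P217.ChaiP2

/-!
# P217: the height ideals are invariant
-/

set_option linter.unusedSectionVars false

namespace Vale.Agent.P217

open MvPowerSeries

section
variable {p : ℕ} [Fact p.Prime] {n : ℕ} (Γ₀ : FormalGroup (ZMod p)) [Γ₀.IsComm]
  (F : FormalGroup (LTRing p n))
  (hF : IsUniversalDeformation (Gk p n Γ₀) (residueMap p n) F)
  (hc : HasStandardCoordinates p n F)

include hF hc in
theorem isInvariant_heightIdeal' (h : ℕ) (hh : h ≤ n) :
    IsInvariant (Gk p n Γ₀) (residueMap p n) F (heightIdeal p n h) := by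
  rintro g σ φ ⟨-, hg1, -, t, ht, htg⟩
  have hcomm := hF.comm
  have ht1 : IsUnit (PowerSeries.coeff 1 t) :=
    un_isUnit_coeff_one (LTRing p n) (residueMap p n) (residueMap_surjective p n) t
      (by rw [htg]; exact hg1)
  have h1 := map_heightIdeal_le p n F hc (φ : LTRing p n →+* LTRing p n) t ht ht1 h hh
  obtain ⟨s, hs, hs1, -, -⟩ := exists_inverse_hom ht ht1
  have hs' := hs.map (φ.symm : LTRing p n →+* LTRing p n)
  have hid : ((φ.symm : LTRing p n →+* LTRing p n).comp (φ : LTRing p n →+* LTRing p n)) =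
      RingHom.id _ := by
    ext x
    simp
  rw [un_map_map, hid, un_map_id] at hs'
  have hs1' : IsUnit (PowerSeries.coeff 1 (s.map (φ.symm : LTRing p n →+* LTRing p n))) := by
    rw [PowerSeries.coeff_map]
    exact hs1.map _
  have h2 := map_heightIdeal_le p n F hc (φ.symm : LTRing p n →+* LTRing p n)
    (s.map (φ.symm : LTRing p n →+* LTRing p n)) hs' hs1' h hh
  refine le_antisymm (Ideal.map_le_iff_le_comap.2 fun f hf => h1 f hf) fun f hf => ?_
  have h3 := Ideal.mem_map_of_mem (φ : LTRing p n →+* LTRing p n) (h2 f hf)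
  simpa using h3

end
end Vale.Agent.P217
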