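import Vale.Agent.Lib.P217.DispZ

/-!
# P217: minimal primes over invariant ideals are weakly invariant
-/

set_option linter.unusedSectionVars false

namespace Vale.Agent.P217

open MvPowerSeries

/-- Krull: an element outside a prime ideal `P` of a Noetherian local ring is outside `P + 𝔪^N` for some `N`. -/
theorem FinalMin.exists_notMem_sup {E : Type*} [CommRing E] [IsLocalRing E] [IsNoetherianRing E]
    (P : Ideal E) (hP : P ≠ ⊤) {f : E} (hf : f ∉ P) :
    ∃ N : ℕ, f ∉ P ⊔ IsLocalRing.maximalIdeal E ^ N := by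
  by_contra hcon
  push Not at hcon
  have hnt : Nontrivial (E ⧸ P) := Ideal.Quotient.nontrivial_iff.mpr hP
  have hloc : IsLocalRing (E ⧸ P) :=
    IsLocalRing.of_surjective' (Ideal.Quotient.mk P) Ideal.Quotient.mk_surjective
  have hle : P ≤ IsLocalRing.maximalIdeal E := IsLocalRing.le_maximalIdeal hP
  have hmap : (IsLocalRing.maximalIdeal E).map (Ideal.Quotient.mk P) ≠ ⊤ := by
    intro htop
    have h1 := congrArg (Ideal.comap (Ideal.Quotient.mk P)) htop
    rw [Ideal.comap_map_of_surjective _ Ideal.Quotient.mk_surjective, Ideal.comap_top,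
      ← RingHom.ker_eq_comap_bot, Ideal.mk_ker, sup_eq_left.mpr hle] at h1
    exact (IsLocalRing.maximalIdeal.isMaximal E).ne_top h1
  have hinf := Ideal.iInf_pow_eq_bot_of_isLocalRing _ hmap
  have hfm : Ideal.Quotient.mk P f ∈
      ⨅ i : ℕ, (IsLocalRing.maximalIdeal E).map (Ideal.Quotient.mk P) ^ i := by
    rw [Ideal.mem_iInf]
    intro i
    have h1 : Ideal.Quotient.mk P f ∈
        (P ⊔ IsLocalRing.maximalIdeal E ^ i).map (Ideal.Quotient.mk P) :=
      Ideal.mem_map_of_mem _ (hcon i)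
    rw [Ideal.map_sup, Ideal.map_quotient_self, bot_sup_eq, Ideal.map_pow] at h1
    exact h1
  rw [hinf, Ideal.mem_bot, Ideal.Quotient.eq_zero_iff_mem] at hfm
  exact hf hfm

section
variable {p : ℕ} [Fact p.Prime] {n : ℕ} (hn : n ≠ 0) (Γ₀ : FormalGroup (ZMod p)) [Γ₀.IsComm]
  (F : FormalGroup (LTRing p n))
  (hF : IsUniversalDeformation (Gk p n Γ₀) (residueMap p n) F)

include hn hF in
theorem weaklyInvariant_minimalPrime' (I : Ideal (LTRing p n))
    (hI : IsInvariant (Gk p n Γ₀) (residueMap p n) F I) (P : Ideal (LTRing p n))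
    (hP : P ∈ I.minimalPrimes) : WeaklyInvariant p n Γ₀ F P := by
  classical
  have hFc : F.IsComm := hF.comm
  intro b hb
  have hfin : I.minimalPrimes.Finite := Ideal.finite_minimalPrimes_of_isNoetherianRing _ I
  -- for every other minimal prime choose an element of `P` and a power of the maximal ideal
  have hex : ∀ P' : Ideal (LTRing p n), ∃ fN : LTRing p n × ℕ, P' ∈ I.minimalPrimes → P' ≠ P →
      fN.1 ∈ P ∧ fN.1 ∉ P' ⊔ IsLocalRing.maximalIdeal (LTRing p n) ^ fN.2 := by
    intro P'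
    by_cases h1 : P' ∈ I.minimalPrimes ∧ P' ≠ P
    · obtain ⟨h1, h2⟩ := h1
      have hnle : ¬ P ≤ P' := by
        intro hle
        exact h2 (le_antisymm (h1.2 hP.1 hle) hle)
      obtain ⟨f, hfP, hfP'⟩ := SetLike.not_le_iff_exists.mp hnle
      have hprime : P'.IsPrime := h1.1.1
      obtain ⟨N, hN⟩ := FinalMin.exists_notMem_sup P' hprime.ne_top hfP'
      exact ⟨(f, N), fun _ _ => ⟨hfP, hN⟩⟩
    · exact ⟨(0, 0), fun h2 h3 => absurd ⟨h2, h3⟩ h1⟩
  choose fN hfN using hex
  refine ⟨(hfin.toFinset.sup fun P' => (fN P').2) + 1, ?_⟩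
  intro m hm φ hφ f hf
  have hm1 : 1 ≤ m := by omega
  have hIφ := hI _ _ φ hφ
  obtain ⟨_, _, hπφ, t, ht, htg⟩ := hφ
  -- `φ P` is a minimal prime over `I`
  have hsymm : I.comap (φ.symm : LTRing p n →+* LTRing p n) = I := by
    have h1 : I.comap (φ.symm : LTRing p n →+* LTRing p n) =
        I.map (φ : LTRing p n →+* LTRing p n) := Ideal.comap_symm φ
    rw [h1, hIφ]
  have hmem : P.comap (φ.symm : LTRing p n →+* LTRing p n) ∈ I.minimalPrimes := by
    have h1 := Ideal.comap_minimalPrimes_eq_of_surjective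
      (f := (φ.symm : LTRing p n →+* LTRing p n)) φ.symm.surjective I
    rw [hsymm] at h1
    rw [h1]
    exact ⟨P, hP, rfl⟩
  have hfφ : ∀ g ∈ P, φ g ∈ P.comap (φ.symm : LTRing p n →+* LTRing p n) := by
    intro g hg
    rw [Ideal.mem_comap]
    change φ.symm (φ g) ∈ P
    rw [RingEquiv.symm_apply_apply]
    exact hg
  by_cases heq : P.comap (φ.symm : LTRing p n →+* LTRing p n) = P
  · rw [← heq]
    exact hfφ f hf
  · exfalso
    obtain ⟨h1, h2⟩ := hfN _ hmem heq
    have hN : (fN (P.comap (φ.symm : LTRing p n →+* LTRing p n))).2 ≤ m + 1 := by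
      have h3 := Finset.le_sup (f := fun P' => (fN P').2) (hfin.mem_toFinset.mpr hmem)
      omega
    have hdisp := disp_adic (residueMap_surjective p n) hF hb hm1
      (φ : LTRing p n →+* LTRing p n) (fun g => by
        have := RingHom.congr_fun hπφ g
        simpa using this) t ht htg (fN (P.comap (φ.symm : LTRing p n →+* LTRing p n))).1
    have h4 := hfφ _ h1
    apply h2
    have h5 : (fN (P.comap (φ.symm : LTRing p n →+* LTRing p n))).1 =
        φ (fN (P.comap (φ.symm : LTRing p n →+* LTRing p n))).1 -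
          (φ (fN (P.comap (φ.symm : LTRing p n →+* LTRing p n))).1 -
            (fN (P.comap (φ.symm : LTRing p n →+* LTRing p n))).1) := by ring
    rw [h5]
    exact Ideal.sub_mem _ (Ideal.mem_sup_left h4)
      (Ideal.mem_sup_right (Ideal.pow_le_pow_right hN hdisp))

end
end Vale.Agent.P217
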