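import Vale.Agent.Lib.P217.ChaiP2
import Vale.Agent.Lib.P217.FinalInv
import Vale.Agent.Lib.P217.DerivZ
import Vale.Agent.Lib.P217.FinalMin

/-!
# P217: final assembly

* `isInvariant_heightIdeal`: for `ActsBy … g σ φ` with `t : φ_* F → F`, `map_heightIdeal_le` gives `φ(I_h) ⊆ I_h`. Apply `φ⁻¹` to `t`: an isomorphism
  `F → (φ⁻¹)_* F`; its inverse (`exists_inverse_hom`) `(φ⁻¹)_* F → F` gives `φ⁻¹(I_h) ⊆ I_h`. So `I_h.map φ = I_h`.
* `weaklyInvariant_minimalPrime`: `E` is Noetherian so there are finitely many minimal primes over `I` (`Ideal.finite_minimalPrimes_of_isNoetherianRing`). Let `b` be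
  an endomorphism and `P` a minimal prime over `I`. For each minimal prime `P' ≠ P` over `I` choose `f ∈ P`, `f ∉ P'` (`P ≤ P'` would imply equality). `P'` is closed: there is
  `N` with `f ∉ P' + 𝔪^N` (Krull: `⨅ N, P' ⊔ 𝔪^N = P'`).  For `m ≥ N` and `φ` acting by `1 + p^m b`, `φ f - f ∈ 𝔪^N` (`disp_adic`), so
  `φ f ∉ P'`. So for `m` large (a maximum over finitely many `P'`) and such `φ`, `P.map φ`, which is a minimal prime over `I.map φ = I`, contains `φ f ∉ P'`, so is different from
  all `P' ≠ P`, and is `P`.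
* `final_prime`: `exists_height_of_p_mem`, `eq_bot_of_p_notMem` (`heightIdeal p n 0 = ⊥`), `heightIdeal_isPrime`.
* `final_radical`: a proper radical invariant ideal is the intersection of its minimal primes (finite in number, nonempty), each is a height ideal; these form a
  chain, so the intersection is one of them.
-/

set_option linter.unusedSectionVars false

namespace Vale.Agent.P217

open MvPowerSeries

section
variable {p : ℕ} [Fact p.Prime] {n : ℕ} (hn : n ≠ 0) (Γ₀ : FormalGroup (ZMod p)) [Γ₀.IsComm]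
  (hΓ : mulSeries Γ₀ p = PowerSeries.X ^ (p ^ n)) (F : FormalGroup (LTRing p n))
  (hF : IsUniversalDeformation (Gk p n Γ₀) (residueMap p n) F)
  (hc : HasStandardCoordinates p n F)

include hF hc in
theorem isInvariant_heightIdeal (h : ℕ) (hh : h ≤ n) :
    IsInvariant (Gk p n Γ₀) (residueMap p n) F (heightIdeal p n h) := by
  exact isInvariant_heightIdeal' Γ₀ F hF hc h hh

include hn hΓ hF in
theorem weaklyInvariant_minimalPrime (I : Ideal (LTRing p n))
    (hI : IsInvariant (Gk p n Γ₀) (residueMap p n) F I) (P : Ideal (LTRing p n))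
    (hP : P ∈ I.minimalPrimes) : WeaklyInvariant p n Γ₀ F P := by
  exact weaklyInvariant_minimalPrime' hn Γ₀ F hF I hI P hP

include hn hΓ hF hc in
theorem final_prime (P : Ideal (LTRing p n)) :
    (P.IsPrime ∧ IsInvariant (Gk p n Γ₀) (residueMap p n) F P) ↔
      ∃ h ≤ n, P = heightIdeal p n h := by
  constructor
  · rintro ⟨hP, hinv⟩
    have hw := weaklyInvariant_of_isInvariant Γ₀ F P hinv
    by_cases hp : (p : LTRing p n) ∈ P
    · obtain ⟨h, _, h2, h3⟩ := exists_height_of_p_mem hn Γ₀ hΓ F hF hc P hw hp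
      exact ⟨h, h2, h3⟩
    · refine ⟨0, Nat.zero_le n, ?_⟩
      rw [eq_bot_of_p_notMem hn Γ₀ hΓ F hF P hw hp, heightIdeal, if_pos rfl]
  · rintro ⟨h, hh, rfl⟩
    exact ⟨heightIdeal_isPrime p n h hh, isInvariant_heightIdeal Γ₀ F hF hc h hh⟩

include hn hΓ hF hc in
theorem final_radical (I : Ideal (LTRing p n)) :
    (I.IsRadical ∧ IsInvariant (Gk p n Γ₀) (residueMap p n) F I) ↔
      I = ⊤ ∨ ∃ h ≤ n, I = heightIdeal p n h := by
  classical
  constructor
  · rintro ⟨hrad, hinv⟩
    by_cases htop : I = ⊤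
    · exact Or.inl htop
    · right
      have hheight : ∀ P ∈ I.minimalPrimes, ∃ h ≤ n, P = heightIdeal p n h := by
        intro P hP
        have hPp : P.IsPrime := hP.1.1
        have hw := weaklyInvariant_minimalPrime hn Γ₀ hΓ F hF I hinv P hP
        by_cases hp : (p : LTRing p n) ∈ P
        · obtain ⟨h, _, h2, h3⟩ := exists_height_of_p_mem hn Γ₀ hΓ F hF hc P hw hp
          exact ⟨h, h2, h3⟩
        · refine ⟨0, Nat.zero_le n, ?_⟩
          rw [eq_bot_of_p_notMem hn Γ₀ hΓ F hF P hw hp, heightIdeal, if_pos rfl]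
      obtain ⟨P₀, hP₀⟩ := Ideal.nonempty_minimalPrimes htop
      have hex : ∃ h, h ≤ n ∧ heightIdeal p n h ∈ I.minimalPrimes := by
        obtain ⟨h, h1, h2⟩ := hheight P₀ hP₀
        exact ⟨h, h1, h2 ▸ hP₀⟩
      obtain ⟨h1, h2⟩ := Nat.find_spec hex
      refine ⟨Nat.find hex, h1, ?_⟩
      have hI : sInf I.minimalPrimes = I := by
        rw [Ideal.sInf_minimalPrimes]
        exact hrad.radical
      apply le_antisymm
      · exact hI.ge.trans (sInf_le h2)
      · refine le_trans (le_sInf fun P hP => ?_) hI.le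
        obtain ⟨h, h3, h4⟩ := hheight P hP
        rw [h4]
        apply heightIdeal_mono
        exact Nat.find_min' hex ⟨h3, h4 ▸ hP⟩
  · rintro (rfl | ⟨h, hh, rfl⟩)
    · refine ⟨fun x _ => trivial, ?_⟩
      intro g σ φ _
      exact Ideal.map_top _
    · exact ⟨(heightIdeal_isPrime p n h hh).isRadical, isInvariant_heightIdeal Γ₀ F hF hc h hh⟩

end
end Vale.Agent.P217
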