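import Vale.Agent.Lib.P217.HazeEx2

/-!
# P217: Hazewinkel's law with parameters: value at `u = 0` and the multiplication by `p`
-/

set_option linter.unusedSectionVars false

namespace Vale.Agent.P217.HazeEx

open MvPowerSeries

variable {p n : ℕ} [Fact p.Prime]

/-! ### `u = 0` -/

/-- evaluation at zero -/
noncomputable def evQ (n : ℕ) : AQ n →+* ℚ := MvPolynomial.eval (fun _ => (0 : ℚ))

/-- evaluation at zero -/
noncomputable def evZ (n : ℕ) : AZ n →+* ℤ := MvPolynomial.eval (fun _ => (0 : ℤ))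

theorem evQ_io (x : AZ n) : evQ n (io n x) = Int.castRingHom ℚ (evZ n x) := by
  have h : (evQ n).comp (io n) = (Int.castRingHom ℚ).comp (evZ n) := by
    apply MvPolynomial.ringHom_ext
    · intro a
      simp [evQ, io, evZ]
    · intro i
      simp [evQ, io, evZ]
  exact congrArg (fun φ : AZ n →+* ℚ => φ x) h

theorem evQ_frQ (i : ℕ) (x : AQ n) : evQ n (frQ p n i x) = evQ n x := by
  have h : (evQ n).comp (frQ p n i) = evQ n := by
    apply MvPolynomial.ringHom_ext
    · intro a
      simp [evQ, frQ]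
    · intro j
      simp [evQ, frQ, (Fact.out : p.Prime).ne_zero]
  exact congrArg (fun φ : AQ n →+* ℚ => φ x) h

theorem evQ_smul (a : ℚ) (x : AQ n) : evQ n (a • x) = a * evQ n x := by
  rw [evQ, MvPolynomial.smul_eval]

theorem evQ_aQ (i : ℕ) : evQ n (aQ p n i) = if i = n - 1 then (p : ℚ)⁻¹ else 0 := by
  rw [aQ, evQ_smul, evQ_io, wZ]
  split_ifs with h1 h2 h3
  · omega
  · simp [evZ]
  · simp [evZ]
  · simp [evZ]

theorem evQ_lg (hn : 0 < n) (j : ℕ) :
    evQ n (lg p n j) = if n ∣ j then ((p : ℚ) ^ (j / n))⁻¹ else 0 := by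
  induction j using Nat.strong_induction_on with
  | _ j ih =>
    cases j with
    | zero => simp [lg_zero]
    | succ j =>
      rw [lg_succ, map_sum]
      have h1 : ∀ i ∈ Finset.range (j + 1), evQ n (aQ p n i * frQ p n (i + 1) (lg p n (j - i))) =
          if i = n - 1 then (p : ℚ)⁻¹ * evQ n (lg p n (j - i)) else 0 := by
        intro i _
        rw [map_mul, evQ_frQ, evQ_aQ]
        split_ifs <;> simp
      rw [Finset.sum_congr rfl h1, Finset.sum_ite_eq' (Finset.range (j + 1)) (n - 1)]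
      by_cases hj : n ≤ j + 1
      · rw [if_pos (Finset.mem_range.2 (by omega)), ih _ (by omega)]
        obtain ⟨m, hm⟩ : ∃ m, j + 1 = m + n := ⟨j + 1 - n, by omega⟩
        have h2 : j - (n - 1) = m := by omega
        rw [h2, hm]
        have h3 : n ∣ m + n ↔ n ∣ m := Nat.dvd_add_left (dvd_refl n)
        by_cases h4 : n ∣ m
        · rw [if_pos h4, if_pos (h3.2 h4), Nat.add_div_right _ hn, pow_succ, mul_inv, mul_comm]
        · rw [if_neg h4, if_neg (fun h => h4 (h3.1 h)), mul_zero]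
      · rw [if_neg (fun h => hj (by have := Finset.mem_range.1 h; omega)), if_neg]
        intro h
        exact hj (Nat.le_of_dvd (by omega) h)

theorem lf_evQ (hn : 0 < n) : (lf p n).map (evQ n) = hlog p n := by
  rw [pt_map]
  have hh : hlog p n = HondaEx.hl p n := rfl
  ext i
  by_cases hi : ∃ m, i = p ^ m
  · obtain ⟨m, rfl⟩ := hi
    rw [coeff_pt, evQ_lg hn]
    by_cases hm : n ∣ m
    · obtain ⟨k, rfl⟩ := hm
      rw [if_pos (dvd_mul_right n k), Nat.mul_div_cancel_left _ hn, hh, HondaEx.coeff_hl_Q hn]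
    · rw [if_neg hm, coeff_hlog_eq_zero]
      intro k hk
      exact hm ⟨k, P_inj hk⟩
  · rw [coeff_pt_eq_zero _ (fun k hk => hi ⟨k, hk⟩), coeff_hlog_eq_zero]
    intro k hk
    exact hi ⟨_, hk⟩

theorem map_evZ_eq (hn : 0 < n) (F : FormalGroup (AZ n))
    (hF : (lf p n).subst (F.toPowerSeries.map (io n)) = L2 (lf p n)) :
    F.map (evZ n) = hondaZ p n hn := by
  have hinj : Function.Injective (Int.castRingHom ℚ) := Int.cast_injective
  have h0 : PowerSeries.constantCoeff (hlog p n) = 0 := by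
    rw [← lf_evQ hn, pt_map]
    exact constantCoeff_pt _
  have h1 : IsUnit (PowerSeries.coeff 1 (hlog p n)) := by
    rw [coeff_one_hlog p n (Fact.out : p.Prime).two_le hn]
    exact isUnit_one
  have hFc : constantCoeff (F.toPowerSeries.map (io n)) = 0 := by
    rw [constantCoeff_map, F.zero_constantCoeff, map_zero]
  have key : (F.map (evZ n)).toPowerSeries = (hondaZ p n hn).toPowerSeries := by
    apply map_inj _ hinj
    have e1 : (F.map (evZ n)).toPowerSeries.map (Int.castRingHom ℚ) =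
        (F.toPowerSeries.map (io n)).map (evQ n) := by
      ext1 e
      rw [FormalGroup.map_toPowerSeries]
      simp only [coeff_map]
      exact (evQ_io _).symm
    rw [e1]
    have h2 := congrArg (MvPowerSeries.map (evQ n)) hF
    rw [L2_map, PowerSeries.map_subst (hs hFc), lf_evQ hn] at h2
    have h3 := (hondaZ_spec p n hn).log
    apply f_inj h0 h1
    · exact const_map _ hFc
    · rw [constantCoeff_map, (hondaZ p n hn).zero_constantCoeff, map_zero]
    · rw [h2]
      exact h3.symm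
  ext e
  rw [key]

/-! ### multiplication by `p` -/

/-- killing the first variables -/
noncomputable def piZ (n : ℕ) (i : Fin (n - 1)) : AZ n →+* AZ n :=
  (MvPolynomial.aeval (fun j : Fin (n - 1) =>
    if (j : ℕ) < i then (0 : AZ n) else MvPolynomial.X j)).toRingHom

/-- killing the first variables -/
noncomputable def piQ (n : ℕ) (i : Fin (n - 1)) : AQ n →+* AQ n :=
  (MvPolynomial.aeval (fun j : Fin (n - 1) =>
    if (j : ℕ) < i then (0 : AQ n) else MvPolynomial.X j)).toRingHom

theorem piZ_X (i j : Fin (n - 1)) : piZ n i (MvPolynomial.X j) =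
    if (j : ℕ) < i then (0 : AZ n) else MvPolynomial.X j := MvPolynomial.aeval_X _ _

theorem piQ_X (i j : Fin (n - 1)) : piQ n i (MvPolynomial.X j) =
    if (j : ℕ) < i then (0 : AQ n) else MvPolynomial.X j := MvPolynomial.aeval_X _ _

theorem io_X (j : Fin (n - 1)) : io n (MvPolynomial.X j) = MvPolynomial.X j :=
  MvPolynomial.map_X _ _

theorem piQ_io (i : Fin (n - 1)) (x : AZ n) : piQ n i (io n x) = io n (piZ n i x) := by
  have h : (piQ n i).comp (io n) = (io n).comp (piZ n i) := by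
    apply MvPolynomial.ringHom_ext
    · intro a
      simp only [eq_intCast, map_intCast]
    · intro j
      rw [RingHom.comp_apply, RingHom.comp_apply, io_X, piQ_X, piZ_X]
      split_ifs
      · rw [map_zero]
      · rw [io_X]
  exact congrArg (fun φ : AZ n →+* AQ n => φ x) h

theorem frQ_X (m : ℕ) (j : Fin (n - 1)) :
    frQ p n m (MvPolynomial.X j) = MvPolynomial.X j ^ (p ^ m) := MvPolynomial.expand_X _ _

theorem frQ_C (m : ℕ) (a : ℚ) : frQ p n m (MvPolynomial.C a) = MvPolynomial.C a :=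
  MvPolynomial.expand_C _ _

theorem piQ_C (i : Fin (n - 1)) (a : ℚ) : piQ n i (MvPolynomial.C a) = MvPolynomial.C a :=
  MvPolynomial.aeval_C _ _

theorem piQ_frQ (i : Fin (n - 1)) (m : ℕ) (x : AQ n) :
    piQ n i (frQ p n m x) = frQ p n m (piQ n i x) := by
  have h : (piQ n i).comp (frQ p n m) = (frQ p n m).comp (piQ n i) := by
    apply MvPolynomial.ringHom_ext
    · intro a
      rw [RingHom.comp_apply, RingHom.comp_apply, frQ_C, piQ_C, frQ_C]
    · intro j
      rw [RingHom.comp_apply, RingHom.comp_apply, frQ_X, map_pow, piQ_X]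
      split_ifs
      · rw [map_zero, zero_pow (P_ne (p := p) m)]
      · rw [frQ_X]
  exact congrArg (fun φ : AQ n →+* AQ n => φ x) h

theorem smul_eq_C_mul' (a : ℚ) (x : AQ n) : a • x = MvPolynomial.C a * x :=
  MvPolynomial.smul_eq_C_mul _ _

theorem piQ_smul (i : Fin (n - 1)) (a : ℚ) (x : AQ n) : piQ n i (a • x) = a • piQ n i x := by
  rw [smul_eq_C_mul', map_mul, piQ_C, smul_eq_C_mul']

theorem piQ_aQ_lt (i : Fin (n - 1)) {m : ℕ} (hm : m < i) : piQ n i (aQ p n m) = 0 := by
  have hm' : m < n - 1 := hm.trans i.2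
  rw [aQ, piQ_smul, wZ, dif_pos hm', io_X, piQ_X]
  rw [if_pos (show ((⟨m, hm'⟩ : Fin (n - 1)) : ℕ) < i from hm), smul_zero]

theorem piQ_aQ_eq (i : Fin (n - 1)) : piQ n i (aQ p n i) =
    ((p : ℚ)⁻¹) • (MvPolynomial.X i : AQ n) := by
  rw [aQ, piQ_smul, wZ, dif_pos i.2, io_X, piQ_X]
  rw [if_neg (show ¬ (((⟨(i : ℕ), i.2⟩ : Fin (n - 1)) : ℕ) < i) from lt_irrefl _)]

theorem piQ_lg_lt (i : Fin (n - 1)) {k : ℕ} (hk0 : 0 < k) (hk : k ≤ i) :
    piQ n i (lg p n k) = 0 := by
  obtain ⟨j, rfl⟩ : ∃ j, k = j + 1 := ⟨k - 1, by omega⟩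
  rw [lg_succ, map_sum]
  refine Finset.sum_eq_zero fun m hm => ?_
  have hm' := Finset.mem_range.1 hm
  rw [map_mul, piQ_aQ_lt i (by omega), zero_mul]

theorem piQ_lg_eq (i : Fin (n - 1)) : piQ n i (lg p n (i + 1)) =
    ((p : ℚ)⁻¹) • (MvPolynomial.X i : AQ n) := by
  rw [lg_succ, map_sum, Finset.sum_eq_single (i : ℕ)]
  · rw [map_mul, piQ_aQ_eq, Nat.sub_self, lg_zero, map_one, map_one, mul_one]
  · intro m hm hne
    have hm' := Finset.mem_range.1 hm
    rw [map_mul, piQ_aQ_lt i (by omega), zero_mul]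
  · intro h
    exfalso
    exact h (Finset.mem_range.2 (by omega))

/-- the leading coefficient of a power -/
theorem coeff_pow_self {K : Type*} [CommRing K] (g : PowerSeries K)
    (hg : PowerSeries.constantCoeff g = 0) (m : ℕ) :
    PowerSeries.coeff m (g ^ m) = (PowerSeries.coeff 1 g) ^ m := by
  obtain ⟨y, rfl⟩ := PowerSeries.X_dvd_iff.2 hg
  have h1 : PowerSeries.coeff 1 (PowerSeries.X * y) = PowerSeries.constantCoeff y := by
    rw [show (1 : ℕ) = 0 + 1 from rfl, PowerSeries.coeff_succ_X_mul,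
      PowerSeries.coeff_zero_eq_constantCoeff_apply]
  rw [h1, mul_pow]
  have h2 := PowerSeries.coeff_X_pow_mul (y ^ m) m 0
  rw [zero_add] at h2
  rw [h2, PowerSeries.coeff_zero_eq_constantCoeff_apply, map_pow]

/-- the comparison of the coefficients of `X^{p^{i+1}}` -/
theorem coeff_mulp (F : FormalGroup (AZ n))
    (hF : (lf p n).subst (F.toPowerSeries.map (io n)) = L2 (lf p n)) (i : Fin (n - 1)) :
    piQ n i (io n (PowerSeries.coeff (p ^ ((i : ℕ) + 1)) (mulSeries F p))) +
      (((p : ℚ)⁻¹) • (MvPolynomial.X i : AQ n)) * (p : AQ n) ^ (p ^ ((i : ℕ) + 1)) =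
      (p : AQ n) * (((p : ℚ)⁻¹) • (MvPolynomial.X i : AQ n)) := by
  classical
  set h := (i : ℕ) + 1 with hh
  have h1 := f_mulSeries (io n) hf0 F hF p
  have hg0 : constantCoeff (MvPowerSeries.map (io n) (mulSeries F p)) = 0 :=
    const_map _ (mulSeries_constantCoeff _ p)
  have hX0 : constantCoeff (PowerSeries.X : PowerSeries (AQ n)) = 0 := constantCoeff_X ()
  have h2 := congrArg (MvPowerSeries.map (piQ n i)) h1
  rw [PowerSeries.map_subst (hs hg0), pt_map] at h2
  have h3 : MvPowerSeries.map (piQ n i)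
      ((p : AQ n) • (lf p n).subst (PowerSeries.X : PowerSeries (AQ n))) =
      (p : AQ n) • (pt p (fun k => piQ n i (lg p n k))).subst
        (PowerSeries.X : PowerSeries (AQ n)) := by
    have h4 : MvPowerSeries.map (piQ n i) (PowerSeries.X : PowerSeries (AQ n)) =
        (PowerSeries.X : PowerSeries (AQ n)) := PowerSeries.map_X _
    have h5 : MvPowerSeries.map (piQ n i)
        ((lf p n).subst (PowerSeries.X : PowerSeries (AQ n))) =
        (pt p (fun k => piQ n i (lg p n k))).subst (PowerSeries.X : PowerSeries (AQ n)) := by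
      rw [PowerSeries.map_subst (hs hX0), pt_map, h4]
    refine MvPowerSeries.ext fun e => ?_
    rw [coeff_map, coeff_smul, map_mul, map_natCast, ← coeff_map, h5, coeff_smul]
  rw [h3] at h2
  set g : PowerSeries (AQ n) := MvPowerSeries.map (piQ n i)
    (MvPowerSeries.map (io n) (mulSeries F p)) with hgdef
  have hgc : constantCoeff g = 0 := const_map _ hg0
  have hdeg : (Finsupp.single () (p ^ h)).degree = p ^ h := Finsupp.degree_single _ _
  have h6 := congrArg (coeff (Finsupp.single () (p ^ h))) h2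
  rw [coeff_smul, coeff_f _ hgc, coeff_f _ hX0, hdeg] at h6
  have hXk : ∀ k, coeff (Finsupp.single () (p ^ h))
      ((PowerSeries.X : PowerSeries (AQ n)) ^ p ^ k) = if k = h then 1 else 0 := by
    intro k
    have := PowerSeries.coeff_X_pow (R := AQ n) (p ^ h) (p ^ k)
    rw [PowerSeries.coeff] at this
    rw [this]
    by_cases hk : k = h
    · rw [hk, if_pos rfl, if_pos rfl]
    · rw [if_neg (fun h' => hk (P_inj h').symm), if_neg hk]
  have hmem : h ∈ Finset.range (p ^ h + 1) := by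
    rw [Finset.mem_range]
    have := lt_P (p := p) h
    omega
  have hR : ∑ k ∈ Finset.range (p ^ h + 1), piQ n i (lg p n k) *
      coeff (Finsupp.single () (p ^ h)) ((PowerSeries.X : PowerSeries (AQ n)) ^ p ^ k) =
      ((p : ℚ)⁻¹) • (MvPolynomial.X i : AQ n) := by
    rw [Finset.sum_eq_single h]
    · rw [hXk, if_pos rfl, mul_one, hh, piQ_lg_eq]
    · intro k _ hk
      rw [hXk, if_neg hk, mul_zero]
    · intro h'
      exact absurd hmem h'
  have hg1 : PowerSeries.coeff 1 g = (p : AQ n) := by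
    have h7 : PowerSeries.coeff 1 g = piQ n i (io n (PowerSeries.coeff 1 (mulSeries F p))) := rfl
    rw [h7, mulSeries_coeff_one, map_natCast, map_natCast]
  have hL : ∑ k ∈ Finset.range (p ^ h + 1), piQ n i (lg p n k) *
      coeff (Finsupp.single () (p ^ h)) (g ^ p ^ k) =
      coeff (Finsupp.single () (p ^ h)) g +
      (((p : ℚ)⁻¹) • (MvPolynomial.X i : AQ n)) * (p : AQ n) ^ (p ^ h) := by
    have hsub : ({0, h} : Finset ℕ) ⊆ Finset.range (p ^ h + 1) := by
      intro k hk
      rw [Finset.mem_insert, Finset.mem_singleton] at hk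
      rcases hk with rfl | rfl
      · rw [Finset.mem_range]; omega
      · exact hmem
    rw [← Finset.sum_subset hsub, Finset.sum_pair (by omega), lg_zero, map_one, one_mul, pow_zero,
      pow_one]
    · congr 1
      rw [hh, piQ_lg_eq]
      congr 1
      have h8 := coeff_pow_self g hgc (p ^ h)
      rw [hg1] at h8
      exact h8
    · intro k _ hk
      rw [Finset.mem_insert, Finset.mem_singleton] at hk
      push Not at hk
      rcases Nat.lt_or_ge k h with hlt | hge
      · rw [piQ_lg_lt i (by omega) (by omega), zero_mul]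
      · have h9 : h < k := by omega
        rw [coeff_pow_eq_zero hgc, mul_zero]
        rw [hdeg]
        exact Nat.pow_lt_pow_right (Fact.out : p.Prime).one_lt h9
  rw [hL, hR] at h6
  exact h6

theorem sub_piZ_mem (i : Fin (n - 1)) (x : AZ n) : x - piZ n i x ∈
    Ideal.span {x : AZ n | ∃ j : Fin (n - 1), (j : ℕ) < i ∧ x = MvPolynomial.X j} := by
  set I := Ideal.span {x : AZ n | ∃ j : Fin (n - 1), (j : ℕ) < i ∧ x = MvPolynomial.X j} with hI
  rw [← Ideal.Quotient.eq_zero_iff_mem, map_sub, sub_eq_zero]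
  have h : Ideal.Quotient.mk I = (Ideal.Quotient.mk I).comp (piZ n i) := by
    apply MvPolynomial.ringHom_ext
    · intro a
      have h1 : (MvPolynomial.C a : AZ n) = (a : AZ n) := by simp
      rw [h1]
      simp only [map_intCast]
    · intro j
      rw [RingHom.comp_apply, piZ_X]
      split_ifs with hj
      · rw [map_zero, Ideal.Quotient.eq_zero_iff_mem]
        exact Ideal.subset_span ⟨j, hj, rfl⟩
      · rfl
  exact congrArg (fun φ : AZ n →+* AZ n ⧸ I => φ x) h

theorem coeff_mulp_mem (F : FormalGroup (AZ n))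
    (hF : (lf p n).subst (F.toPowerSeries.map (io n)) = L2 (lf p n)) (i : Fin (n - 1)) :
    PowerSeries.coeff (p ^ ((i : ℕ) + 1)) (mulSeries F p) - MvPolynomial.X i ∈
      Ideal.span ({(p : AZ n)} ∪
        {x : AZ n | ∃ j : Fin (n - 1), (j : ℕ) < i ∧ x = MvPolynomial.X j}) := by
  have hp0 : (p : ℚ) ≠ 0 := by exact_mod_cast (Fact.out : p.Prime).ne_zero
  set c := PowerSeries.coeff (p ^ ((i : ℕ) + 1)) (mulSeries F p) with hc
  have h1 := coeff_mulp F hF i
  rw [← hc, piQ_io] at h1
  have h2 : (p : AQ n) * (((p : ℚ)⁻¹) • (MvPolynomial.X i : AQ n)) = MvPolynomial.X i := by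
    have h3 : ∀ y : AQ n, (p : AQ n) * y = (p : ℚ) • y := fun y => by
      rw [Algebra.smul_def, map_natCast]
    rw [h3, smul_smul, mul_inv_cancel₀ hp0, one_smul]
  obtain ⟨m, hm⟩ : ∃ m, p ^ ((i : ℕ) + 1) = m + 2 := by
    have h4 := lt_P (p := p) ((i : ℕ) + 1)
    exact ⟨p ^ ((i : ℕ) + 1) - 2, by omega⟩
  have h5 : (((p : ℚ)⁻¹) • (MvPolynomial.X i : AQ n)) * (p : AQ n) ^ (p ^ ((i : ℕ) + 1)) =
      io n ((p : AZ n) * ((p : AZ n) ^ m * MvPolynomial.X i)) := by
    rw [hm, pow_succ, pow_succ, map_mul, map_mul, map_pow, map_natCast, io_X]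
    calc (((p : ℚ)⁻¹) • (MvPolynomial.X i : AQ n)) * ((p : AQ n) ^ m * (p : AQ n) * (p : AQ n))
        = ((p : AQ n) * (((p : ℚ)⁻¹) • (MvPolynomial.X i : AQ n))) * (p : AQ n) ^ m * (p : AQ n) :=
          by ring
      _ = _ := by rw [h2]; ring
  rw [h2, h5, ← io_X, ← map_add] at h1
  have h6 := io_inj n h1
  have h7 : c - MvPolynomial.X i = (c - piZ n i c) -
      (p : AZ n) * ((p : AZ n) ^ m * MvPolynomial.X i) := by
    linear_combination h6
  rw [h7]
  refine Ideal.sub_mem _ ?_ ?_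
  · exact Ideal.span_mono Set.subset_union_right (sub_piZ_mem i c)
  · exact Ideal.mul_mem_right _ _ (Ideal.subset_span (Set.mem_union_left _ rfl))

theorem exists_haze_aux (p : ℕ) [Fact p.Prime] (n : ℕ) (hn : 0 < n) :
    ∃ F : FormalGroup (MvPolynomial (Fin (n - 1)) ℤ), F.IsComm ∧
      F.map (MvPolynomial.eval (fun _ => (0 : ℤ))) = hondaZ p n hn ∧
      ∀ i : Fin (n - 1), PowerSeries.coeff (p ^ ((i : ℕ) + 1)) (mulSeries F p) -
        MvPolynomial.X i ∈ Ideal.span ({(p : MvPolynomial (Fin (n - 1)) ℤ)} ∪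
          {x | ∃ j : Fin (n - 1), (j : ℕ) < i ∧ x = MvPolynomial.X j}) := by
  obtain ⟨F, hc, hF⟩ := exists_haze_law p n hn
  exact ⟨F, hc, map_evZ_eq hn F hF, coeff_mulp_mem F hF⟩

end Vale.Agent.P217.HazeEx
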