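import Vale.Agent.Lib.P217.Honda
import Vale.Agent.Lib.P217.HazeEx3

/-!
# P217 (existence of the universal deformation): Hazewinkel's formal group law with parameters (module U1)

`A₀ = ℤ[u_1, …, u_{n-1}]` (`X i` is `u_{i+1}`), `σ = MvPolynomial.expand p` (`u_i ↦ u_i^p`, a Frobenius lift: `σ a ≡ a^p` modulo `p`), `v_i = u_i` for `1 ≤ i < n`,
`v_n = 1`. Let `f ∈ ℚ[u][[X]]` be the solution of `f(X) = X + ∑_{i=1}^n (v_i / p) f^{(σ^i)}(X^{p^i})`: `f = ∑_j l_j X^{p^j}`, `l_0 = 1`,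
`l_j = ∑_{i=1}^{min(n,j)} (v_i/p) σ^i(l_{j-i})`, `p^j l_j ∈ A₀`.  Put `F(X,Y) = f^{-1}(f(X) + f(Y))` over `ℚ[u]`.
Integrality: `F = X + Y + ∑_i (v_i/p) (f^{(σ^i)}(F^{(σ^i)}(X^{p^i},Y^{p^i})) - f^{(σ^i)}(F^{p^i}))`; if the coefficients of `F` in degrees `< d` are integral then in
degree `≤ d` the two arguments are congruent modulo `p` (only the part of `F` of degree `< d` matters), and `A ≡ B` modulo `p` implies
`A^{p^j} ≡ B^{p^j}` modulo `p^{j+1}`, so `f^{(σ^i)}(A) ≡ f^{(σ^i)}(B)` modulo `p`. (Compare `HondaEx.lean`, which is the case `u = 0`.)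
At `u = 0` the logarithm is `hlog p n`, and a formal group law over `ℤ` is determined by its logarithm, so `F.map (eval 0) = hondaZ`.
`[p]_F`: modulo the ideal generated by `u_1, …, u_{h-1}` (stable under `σ`) in `ℚ[u]`: `f ≡ X + (u_h/p) X^{p^h}` modulo degree `> p^h`, and from `f([p]X) = p f(X)`,
`[p](X) ≡ pX + u_h (1 - p^{p^h - 1}) X^{p^h}` modulo degree `> p^h`: so the coefficient of `X^{p^h}` in `[p]_F` minus `u_h` is in
`A₀ ∩ (p, u_1, …, u_{h-1}) ℚ[u]`… more precisely its image in `A₀/(u_1..u_{h-1}) = ℤ[u_h, …] ⊂ ℚ[u_h, …]` is `-p^{p^h-1} u_h`, divisible by `p`.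
-/

set_option linter.unusedSectionVars false

namespace Vale.Agent.P217

open MvPowerSeries

theorem exists_haze (p : ℕ) [Fact p.Prime] (n : ℕ) (hn : 0 < n) :
    ∃ F : FormalGroup (MvPolynomial (Fin (n - 1)) ℤ), F.IsComm ∧
      F.map (MvPolynomial.eval (fun _ => (0 : ℤ))) = hondaZ p n hn ∧
      ∀ i : Fin (n - 1), PowerSeries.coeff (p ^ ((i : ℕ) + 1)) (mulSeries F p) -
        MvPolynomial.X i ∈ Ideal.span ({(p : MvPolynomial (Fin (n - 1)) ℤ)} ∪
          {x | ∃ j : Fin (n - 1), (j : ℕ) < i ∧ x = MvPolynomial.X j}) :=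
  HazeEx.exists_haze_aux p n hn

end Vale.Agent.P217
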