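import Mathlib.Order.CompletePartialOrder
import Mathlib.RingTheory.MvPowerSeries.Expand
import Vale.Agent.Lib.P217.Formal

/-!
# P217: Hazewinkel's functional equation with parameters (proof of module U1)
-/

set_option linter.unusedSectionVars false

namespace Vale.Agent.P217.HazeEx

open MvPowerSeries

section generic

variable {K : Type*} [CommRing K] {σ : Type*}

/-- `∑ c_k X^{p^k}` -/
noncomputable def pt (p : ℕ) (c : ℕ → K) : PowerSeries K :=
  PowerSeries.mk fun i => ∑ k ∈ Finset.range (i + 1), if i = p ^ k then c k else 0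

variable {p : ℕ} [Fact p.Prime]

theorem lt_P (k : ℕ) : k < p ^ k := Nat.lt_pow_self (Fact.out : p.Prime).one_lt

theorem P_inj {k l : ℕ} (h : p ^ k = p ^ l) : k = l :=
  Nat.pow_right_injective (Fact.out : p.Prime).two_le h

theorem P_ne (i : ℕ) : p ^ i ≠ 0 := pow_ne_zero i (Fact.out : p.Prime).ne_zero

theorem coeff_pt (c : ℕ → K) (k : ℕ) : PowerSeries.coeff (p ^ k) (pt p c) = c k := by
  rw [pt, PowerSeries.coeff_mk, Finset.sum_eq_single k]
  · simp
  · intro l _ hl
    rw [if_neg]
    intro h
    exact hl (P_inj h).symm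
  · intro h
    exfalso
    apply h
    rw [Finset.mem_range]
    have := lt_P (p := p) k
    omega

theorem coeff_pt_ne {c : ℕ → K} {i : ℕ} (h : PowerSeries.coeff i (pt p c) ≠ 0) :
    ∃ k, i = p ^ k := by
  rw [pt, PowerSeries.coeff_mk] at h
  obtain ⟨k, _, hk⟩ := Finset.exists_ne_zero_of_sum_ne_zero h
  refine ⟨k, ?_⟩
  by_contra hcon
  rw [if_neg hcon] at hk
  exact hk rfl

theorem coeff_pt_eq_zero (c : ℕ → K) {i : ℕ} (h : ∀ k, i ≠ p ^ k) :
    PowerSeries.coeff i (pt p c) = 0 := by
  by_contra h1
  obtain ⟨k, hk⟩ := coeff_pt_ne h1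
  exact h k hk

theorem constantCoeff_pt (c : ℕ → K) : PowerSeries.constantCoeff (pt p c) = 0 := by
  rw [← PowerSeries.coeff_zero_eq_constantCoeff_apply]
  exact coeff_pt_eq_zero c fun k h => P_ne (p := p) k h.symm

theorem coeff_one_pt (c : ℕ → K) : PowerSeries.coeff 1 (pt p c) = c 0 := by
  have := coeff_pt (p := p) c 0
  rwa [pow_zero] at this

theorem pt_map {K' : Type*} [CommRing K'] (φ : K →+* K') (c : ℕ → K) :
    (pt p c).map φ = pt p (fun k => φ (c k)) := by
  ext i
  rw [PowerSeries.coeff_map, pt, pt, PowerSeries.coeff_mk, PowerSeries.coeff_mk, map_sum]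
  refine Finset.sum_congr rfl fun k _ => ?_
  split_ifs
  · rfl
  · exact map_zero φ

theorem hs {A : MvPowerSeries σ K} (hA : constantCoeff A = 0) : PowerSeries.HasSubst A :=
  PowerSeries.HasSubst.of_constantCoeff_zero hA

theorem coeff_pow_eq_zero {A : MvPowerSeries σ K} (hA : constantCoeff A = 0) {e : σ →₀ ℕ} {m : ℕ}
    (hm : e.degree < m) : coeff e (A ^ m) = 0 := by
  by_contra h
  have h4 := le_order_pow_of_constantCoeff_eq_zero (f := A) m hA
  have h5 := order_le h
  have h6 : m ≤ e.degree := by exact_mod_cast h4.trans h5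
  omega

/-- coefficients of `f(A)` -/
theorem coeff_f (c : ℕ → K) {A : MvPowerSeries σ K} (hA : constantCoeff A = 0) (e : σ →₀ ℕ) :
    coeff e ((pt p c).subst A) =
      ∑ k ∈ Finset.range (e.degree + 1), c k * coeff e (A ^ (p ^ k)) := by
  classical
  rw [PowerSeries.coeff_subst (hs hA)]
  rw [finsum_eq_sum_of_support_subset (s := (Finset.range (e.degree + 1)).image
    (fun k => p ^ k))]
  · rw [Finset.sum_image (fun k _ l _ h => P_inj (p := p) h)]
    apply Finset.sum_congr rfl
    intro k _
    rw [coeff_pt, smul_eq_mul]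
  · intro d hd
    rw [Function.mem_support] at hd
    have h1 : PowerSeries.coeff d (pt p c) ≠ 0 := by
      intro h; apply hd; rw [h, zero_smul]
    have h2 : coeff e (A ^ d) ≠ 0 := by
      intro h; apply hd; rw [h, smul_zero]
    obtain ⟨k, rfl⟩ := coeff_pt_ne h1
    have h3 : (p ^ k : ℕ) ≤ e.degree := by
      by_contra hlt
      exact h2 (coeff_pow_eq_zero hA (by omega))
    have h4 := lt_P (p := p) k
    simp only [Finset.coe_image, Set.mem_image, Finset.mem_coe, Finset.mem_range]
    exact ⟨k, by omega, rfl⟩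

theorem const_pow {A : MvPowerSeries σ K} (hA : constantCoeff A = 0)
    {m : ℕ} (hm : m ≠ 0) : constantCoeff (A ^ m) = 0 := by
  rw [map_pow, hA, zero_pow hm]

theorem const_expand {A : MvPowerSeries σ K} (i : ℕ)
    (hA : constantCoeff A = 0) : constantCoeff (expand (p ^ i) (P_ne i) A) = 0 := by
  rw [constantCoeff_expand, hA]

theorem const_map {K' : Type*} [CommRing K'] (φ : K →+* K') {A : MvPowerSeries σ K}
    (hA : constantCoeff A = 0) : constantCoeff (A.map φ) = 0 := by
  rw [constantCoeff_map, hA, map_zero]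

theorem geom_const {A B : MvPowerSeries σ K}
    (hA : constantCoeff A = 0) (hB : constantCoeff B = 0) {m : ℕ} (hm : 2 ≤ m) :
    constantCoeff (∑ i ∈ Finset.range m, A ^ i * B ^ (m - 1 - i)) = 0 := by
  rw [map_sum]
  apply Finset.sum_eq_zero
  intro i hi
  rw [map_mul, map_pow, map_pow, hA, hB]
  by_cases h : i = 0
  · subst h
    rw [zero_pow (by omega : m - 1 - 0 ≠ 0), mul_zero]
  · rw [zero_pow h, zero_mul]

theorem pow_sub_order {A B : MvPowerSeries σ K}
    (hA : constantCoeff A = 0) (hB : constantCoeff B = 0) {m : ℕ} (hm : 2 ≤ m) {d : ℕ}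
    (hd : (d : ℕ∞) ≤ (A - B).order) : ((d + 1 : ℕ) : ℕ∞) ≤ (A ^ m - B ^ m).order := by
  rw [← geom_sum₂_mul]
  have h1 : (1 : ℕ∞) ≤ (∑ i ∈ Finset.range m, A ^ i * B ^ (m - 1 - i)).order :=
    one_le_order_iff_constCoeff_eq_zero.2 (geom_const hA hB hm)
  refine le_trans ?_ le_order_mul
  push_cast
  rw [add_comm]
  exact add_le_add h1 hd

/-- `f(A) - f(B)` has at least the order of `A - B` -/
theorem f_sub_order (c : ℕ → K) {A B : MvPowerSeries σ K}
    (hA : constantCoeff A = 0) (hB : constantCoeff B = 0) {d : ℕ}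
    (hd : (d : ℕ∞) ≤ (A - B).order) :
    (d : ℕ∞) ≤ ((pt p c).subst A - (pt p c).subst B).order := by
  apply nat_le_order
  intro e he
  rw [map_sub, coeff_f c hA, coeff_f c hB, ← Finset.sum_sub_distrib]
  refine Finset.sum_eq_zero fun k _ => ?_
  rw [← mul_sub, ← map_sub]
  have h3 : (d : ℕ∞) ≤ (A ^ p ^ k - B ^ p ^ k).order := by
    rcases Nat.eq_zero_or_pos k with rfl | hk
    · rwa [pow_zero, pow_one, pow_one]
    · have h2 : 2 ≤ p ^ k := by
        have := lt_P (p := p) k
        omega
      have h4 := pow_sub_order hA hB h2 hd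
      exact le_trans (by exact_mod_cast Nat.le_succ d) h4
  rw [coeff_of_lt_order (lt_of_lt_of_le (by exact_mod_cast he) h3), mul_zero]

/-- induction principle for fixed points of contracting operators -/
theorem contr_ind (P : (σ →₀ ℕ) → K → Prop) (hP0 : ∀ e, P e 0)
    (U : MvPowerSeries σ K → MvPowerSeries σ K) (Φ : MvPowerSeries σ K)
    (hΦ : constantCoeff Φ = 0) (hU : U Φ = Φ)
    (hc : ∀ (d : ℕ) (A B : MvPowerSeries σ K), 1 ≤ d → constantCoeff A = 0 → constantCoeff B = 0 →
      (d : ℕ∞) ≤ (A - B).order → ((d + 1 : ℕ) : ℕ∞) ≤ (U A - U B).order)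
    (hI : ∀ A : MvPowerSeries σ K, constantCoeff A = 0 → (∀ e, P e (coeff e A)) →
      ∀ e, P e (coeff e (U A))) : ∀ e, P e (coeff e Φ) := by
  have key : ∀ N : ℕ, 1 ≤ N → ∀ e : σ →₀ ℕ, e.degree < N → P e (coeff e Φ) := by
    intro N hN
    induction N, hN using Nat.le_induction with
    | base =>
      intro e he
      have : e = 0 := by
        rw [← Finsupp.degree_eq_zero_iff]; omega
      subst this
      rw [coeff_zero_eq_constantCoeff_apply, hΦ]
      exact hP0 0
    | succ N hN ih =>
      intro e he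
      let A : MvPowerSeries σ K := fun e => if e.degree < N then coeff e Φ else 0
      have hAe : ∀ e, coeff e A = if e.degree < N then coeff e Φ else 0 := fun e => rfl
      have hA0 : constantCoeff A = 0 := by
        rw [← coeff_zero_eq_constantCoeff_apply, hAe, coeff_zero_eq_constantCoeff_apply, hΦ]
        simp
      have hPA : ∀ e, P e (coeff e A) := by
        intro e
        rw [hAe]
        split_ifs with h
        · exact ih e h
        · exact hP0 e
      have h1 : (N : ℕ∞) ≤ (Φ - A).order := by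
        apply nat_le_order
        intro e he
        rw [map_sub, hAe, if_pos he, sub_self]
      have h2 := hc N Φ A hN hΦ hA0 h1
      have h3 : coeff e (U Φ - U A) = 0 :=
        coeff_of_lt_order (lt_of_lt_of_le (by exact_mod_cast he) h2)
      rw [map_sub, hU, sub_eq_zero] at h3
      rw [h3]
      exact hI A hA0 hPA e
  intro e
  exact key (e.degree + 1) (by omega) e (by omega)

/-! ### The formal group law with logarithm `f` -/

variable {f : PowerSeries K} (hf0 : PowerSeries.constantCoeff f = 0)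
  (hf1 : IsUnit (PowerSeries.coeff 1 f))

include hf0 in
theorem hs_f : PowerSeries.HasSubst f := PowerSeries.HasSubst.of_constantCoeff_zero' hf0

include hf0 in
theorem f_ex {A : MvPowerSeries σ K} (hA : constantCoeff A = 0) :
    f.subst ((f.substInvOfIsUnit hf1).subst A) = A := by
  rw [← PowerSeries.subst_comp_subst_apply (PowerSeries.HasSubst.of_constantCoeff_zero'
      (PowerSeries.constantCoeff_substInvOfIsUnit _ _)) (hs hA),
    PowerSeries.subst_substInvOfIsUnit_right _ hf0, PowerSeries.subst_X (hs hA)]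

include hf0 in
theorem ex_f {A : MvPowerSeries σ K} (hA : constantCoeff A = 0) :
    (f.substInvOfIsUnit hf1).subst (f.subst A) = A := by
  rw [← PowerSeries.subst_comp_subst_apply (hs_f hf0) (hs hA),
    PowerSeries.subst_substInvOfIsUnit_left _ hf0, PowerSeries.subst_X (hs hA)]

include hf0 hf1 in
theorem f_inj {A B : MvPowerSeries σ K} (hA : constantCoeff A = 0) (hB : constantCoeff B = 0)
    (h : f.subst A = f.subst B) : A = B := by
  rw [← ex_f hf0 hf1 hA, h, ex_f hf0 hf1 hB]

theorem const_subst {A : MvPowerSeries σ K} (hA : constantCoeff A = 0) {g : PowerSeries K}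
    (hg : PowerSeries.constantCoeff g = 0) : constantCoeff (g.subst A) = 0 :=
  PowerSeries.constantCoeff_subst_eq_zero hA _ hg

/-- the sum of the logarithms -/
noncomputable def L2 (f : PowerSeries K) : MvPowerSeries (Fin 2) K :=
  f.subst (X 0 : MvPowerSeries (Fin 2) K) + f.subst (X 1 : MvPowerSeries (Fin 2) K)

include hf0 in
theorem const_L2 : constantCoeff (L2 f) = 0 := by
  rw [L2, map_add, const_subst (constantCoeff_X _) hf0,
    const_subst (constantCoeff_X _) hf0, add_zero]

/-- the formal group law -/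
noncomputable def Phi (f : PowerSeries K) (hf1 : IsUnit (PowerSeries.coeff 1 f)) :
    MvPowerSeries (Fin 2) K := (f.substInvOfIsUnit hf1).subst (L2 f)

include hf0 in
theorem const_Phi : constantCoeff (Phi f hf1) = 0 :=
  const_subst (const_L2 hf0) (PowerSeries.constantCoeff_substInvOfIsUnit _ _)

include hf0 in
theorem f_Phi : f.subst (Phi f hf1) = L2 f := f_ex hf0 hf1 (const_L2 hf0)

/-- `f(Φ(A,B)) = f(A) + f(B)` -/
theorem f_pair {Φ : MvPowerSeries (Fin 2) K} (hΦ : constantCoeff Φ = 0)
    (hfΦ : f.subst Φ = L2 f) {A B : MvPowerSeries σ K} (hA : constantCoeff A = 0)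
    (hB : constantCoeff B = 0) :
    f.subst (subst ![A, B] Φ) = f.subst A + f.subst B := by
  have hAB := hasSubst_pair (hs hA) (hs hB)
  have h1 := congrArg (subst ![A, B]) hfΦ
  rw [subst_psubst (hs hΦ) hAB, L2, subst_add hAB,
    subst_psubst (hasSubst_X 0) hAB, subst_psubst (hasSubst_X 1) hAB, subst_X hAB,
    subst_X hAB] at h1
  exact h1

theorem const_pair {Φ : MvPowerSeries (Fin 2) K} (hΦ : constantCoeff Φ = 0)
    {A B : MvPowerSeries σ K} (hA : constantCoeff A = 0)
    (hB : constantCoeff B = 0) : constantCoeff (subst ![A, B] Φ) = 0 := by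
  have h1 : ∀ s, constantCoeff ((![A, B] : Fin 2 → MvPowerSeries σ K) s) = 0 := by
    intro s
    fin_cases s
    · exact hA
    · exact hB
  exact constantCoeff_subst_eq_zero (hasSubst_pair (hs hA) (hs hB)) h1 hΦ

end generic

/-! ### Descent of a formal group law along an injective map -/

section descent

variable {R K : Type*} [CommRing R] [CommRing K] (ι : R →+* K) (hι : Function.Injective ι)

include hι in
theorem map_inj {σ : Type*} {A B : MvPowerSeries σ R} (h : A.map ι = B.map ι) : A = B := by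
  ext e
  apply hι
  have := congrArg (coeff e) h
  rwa [coeff_map, coeff_map] at this

theorem exists_lift {σ : Type*} {A : MvPowerSeries σ K}
    (h : ∀ e, coeff e A ∈ ι.range) : ∃ A' : MvPowerSeries σ R, A'.map ι = A := by
  choose z hz using h
  let B : MvPowerSeries σ R := fun e => z e
  have hB : ∀ e, coeff e B = z e := fun _ => rfl
  refine ⟨B, ?_⟩
  ext e
  rw [coeff_map, hB, hz]

include hι in
theorem const_of_map {σ : Type*} {A : MvPowerSeries σ R} (h : constantCoeff (A.map ι) = 0) :
    constantCoeff A = 0 := by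
  rw [constantCoeff_map] at h
  exact hι (h.trans (map_zero ι).symm)

/-- the formal group law over `R` -/
theorem exists_descent {f : PowerSeries K} (hf0 : PowerSeries.constantCoeff f = 0)
    (hf1 : IsUnit (PowerSeries.coeff 1 f)) (H : MvPowerSeries (Fin 2) R)
    (hfH : f.subst (H.map ι) = L2 f) (hH0 : constantCoeff H = 0)
    (hH1 : coeff (Finsupp.single 0 1) H = 1) (hH2 : coeff (Finsupp.single 1 1) H = 1)
    (hι : Function.Injective ι) :
    ∃ F : FormalGroup R, F.toPowerSeries = H ∧ F.IsComm := by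
  have hHc : constantCoeff (H.map ι) = 0 := by rw [constantCoeff_map, hH0, map_zero]
  have toQ_pair : ∀ {σ : Type} {A B : MvPowerSeries σ R}, constantCoeff A = 0 →
      constantCoeff B = 0 →
      (subst ![A, B] H).map ι = subst ![A.map ι, B.map ι] (H.map ι) := by
    intro σ A B hA hB
    exact map_subst_pair ι (hs hA) (hs hB) H
  have cm : ∀ {σ : Type} {A : MvPowerSeries σ R}, constantCoeff A = 0 →
      constantCoeff (A.map ι) = 0 := fun h => const_map ι h
  have hX : ∀ s : Fin 3, constantCoeff (X s : MvPowerSeries (Fin 3) R) = 0 :=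
    fun s => constantCoeff_X s
  have hX2 : ∀ s : Fin 2, constantCoeff (X s : MvPowerSeries (Fin 2) R) = 0 :=
    fun s => constantCoeff_X s
  refine ⟨{ toPowerSeries := H, zero_constantCoeff := hH0, lin_coeff_X := hH1,
            lin_coeff_Y := hH2, assoc := ?_ }, rfl, ⟨?_⟩⟩
  · have c1 := const_pair hH0 (hX 0) (hX 1)
    have c2 := const_pair hH0 (hX 1) (hX 2)
    apply map_inj ι hι
    rw [toQ_pair c1 (hX 2), toQ_pair (hX 0) (hX 1), toQ_pair (hX 0) c2, toQ_pair (hX 1) (hX 2)]
    have d1 := const_pair hHc (cm (hX 0)) (cm (hX 1))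
    have d2 := const_pair hHc (cm (hX 1)) (cm (hX 2))
    apply f_inj hf0 hf1 (const_pair hHc d1 (cm (hX 2))) (const_pair hHc (cm (hX 0)) d2)
    rw [f_pair hHc hfH d1 (cm (hX 2)), f_pair hHc hfH (cm (hX 0)) (cm (hX 1)),
      f_pair hHc hfH (cm (hX 0)) d2, f_pair hHc hfH (cm (hX 1)) (cm (hX 2)), add_assoc]
  · apply map_inj ι hι
    change H.map ι = (subst ![X 1, X 0] H).map ι
    rw [toQ_pair (hX2 1) (hX2 0)]
    apply f_inj hf0 hf1 hHc (const_pair hHc (cm (hX2 1)) (cm (hX2 0)))
    rw [f_pair hHc hfH (cm (hX2 1)) (cm (hX2 0)), hfH, L2, map_X, map_X, add_comm]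

theorem f_mulSeries {f : PowerSeries K} (hf0 : PowerSeries.constantCoeff f = 0)
    (F : FormalGroup R) (hfH : f.subst (F.toPowerSeries.map ι) = L2 f) (m : ℕ) :
    f.subst (MvPowerSeries.map ι (mulSeries F m)) =
      (m : K) • f.subst (PowerSeries.X : PowerSeries K) := by
  have hX : constantCoeff (PowerSeries.X : PowerSeries R) = 0 := constantCoeff_X ()
  have hXQ : constantCoeff (PowerSeries.X : PowerSeries K) = 0 := constantCoeff_X ()
  have hHc : constantCoeff (F.toPowerSeries.map ι) = 0 := by
    rw [constantCoeff_map, F.zero_constantCoeff, map_zero]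
  induction m with
  | zero =>
    rw [mulSeries_zero, map_zero, Nat.cast_zero, zero_smul]
    exact PowerSeries.subst_zero_of_constantCoeff_zero hf0
  | succ m ih =>
    have h0 : constantCoeff (mulSeries F m) = 0 := mulSeries_constantCoeff _ m
    have h0' : constantCoeff (MvPowerSeries.map ι (mulSeries F m)) = 0 := by
      rw [constantCoeff_map, h0, map_zero]
    have h1 : mulSeries F (m + 1) =
        subst ![mulSeries F m, PowerSeries.X] F.toPowerSeries := mulSeries_succ _ m
    have hXm : MvPowerSeries.map ι (PowerSeries.X : PowerSeries R) =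
        (PowerSeries.X : PowerSeries K) := PowerSeries.map_X _
    rw [h1, map_subst_pair ι (hs h0) (hs hX), hXm, f_pair hHc hfH h0' hXQ, ih, Nat.cast_succ,
      add_smul, one_smul]

end descent

end Vale.Agent.P217.HazeEx
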