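import Vale.Agent.Lib.P217.HazeEx
import Vale.Agent.Lib.P217.Honda

/-!
# P217: Hazewinkel's functional equation with parameters, the logarithm and the integrality
-/

set_option linter.unusedSectionVars false

namespace Vale.Agent.P217.HazeEx

open MvPowerSeries

/-- integral parameter ring -/
abbrev AZ (n : ℕ) : Type := MvPolynomial (Fin (n - 1)) ℤ

/-- rational parameter ring -/
abbrev AQ (n : ℕ) : Type := MvPolynomial (Fin (n - 1)) ℚ

/-- the inclusion -/
noncomputable def io (n : ℕ) : AZ n →+* AQ n := MvPolynomial.map (Int.castRingHom ℚ)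

theorem io_inj (n : ℕ) : Function.Injective (io n) :=
  MvPolynomial.map_injective _ Int.cast_injective

/-- the Frobenius lifts -/
noncomputable def frZ (p n i : ℕ) : AZ n →+* AZ n :=
  (MvPolynomial.expand (p ^ i) : AZ n →ₐ[ℤ] AZ n).toRingHom

/-- the Frobenius lifts, rationally -/
noncomputable def frQ (p n i : ℕ) : AQ n →+* AQ n :=
  (MvPolynomial.expand (p ^ i) : AQ n →ₐ[ℚ] AQ n).toRingHom

theorem frQ_io (p n i : ℕ) (x : AZ n) : frQ p n i (io n x) = io n (frZ p n i x) :=
  (MvPolynomial.map_expand (p ^ i) (Int.castRingHom ℚ) x).symm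

/-- the parameters `v_{i+1}` -/
noncomputable def wZ (n i : ℕ) : AZ n :=
  if h : i < n - 1 then MvPolynomial.X ⟨i, h⟩ else if i = n - 1 then 1 else 0

theorem wZ_zero {n i : ℕ} (hn : 0 < n) (h : n ≤ i) : wZ n i = 0 := by
  rw [wZ, dif_neg (by omega), if_neg (by omega)]

/-- `v_{i+1} / p` -/
noncomputable def aQ (p n i : ℕ) : AQ n := ((p : ℚ)⁻¹) • io n (wZ n i)

/-- the coefficients of the logarithm -/
noncomputable def lg (p n : ℕ) : ℕ → AQ n
  | 0 => 1
  | j + 1 => ∑ i : Fin (j + 1), aQ p n i * frQ p n (i + 1) (lg p n (j - i))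
  decreasing_by omega

theorem lg_zero (p n : ℕ) : lg p n 0 = 1 := by rw [lg]

theorem lg_succ (p n j : ℕ) : lg p n (j + 1) =
    ∑ i ∈ Finset.range (j + 1), aQ p n i * frQ p n (i + 1) (lg p n (j - i)) := by
  rw [lg, Finset.sum_range (fun i => aQ p n i * frQ p n (i + 1) (lg p n (j - i)))]

variable {p n : ℕ} [Fact p.Prime] (hn : 0 < n)

theorem p_mul_aQ (i : ℕ) : (p : AQ n) * aQ p n i = io n (wZ n i) := by
  have hp0 : (p : ℚ) ≠ 0 := by exact_mod_cast (Fact.out : p.Prime).ne_zero
  have h : (p : AQ n) * aQ p n i = (p : ℚ) • aQ p n i := by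
    rw [Algebra.smul_def, map_natCast]
  rw [h, aQ, smul_smul, mul_inv_cancel₀ hp0, one_smul]

theorem lg_int (j : ℕ) : (p : AQ n) ^ j * lg p n j ∈ (io n).range := by
  induction j using Nat.strong_induction_on with
  | _ j ih =>
    cases j with
    | zero =>
      rw [lg_zero, pow_zero, one_mul]
      exact (io n).range.one_mem
    | succ j =>
      rw [lg_succ, Finset.mul_sum]
      refine (io n).range.sum_mem fun i hi => ?_
      have hi' : i ≤ j := Nat.lt_succ_iff.1 (Finset.mem_range.1 hi)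
      obtain ⟨z, hz⟩ := ih (j - i) (by omega)
      have h1 : (p : AQ n) ^ (j + 1) * (aQ p n i * frQ p n (i + 1) (lg p n (j - i))) =
          io n (wZ n i) * (p : AQ n) ^ i * frQ p n (i + 1) ((p : AQ n) ^ (j - i) *
            lg p n (j - i)) := by
        rw [map_mul, map_pow, map_natCast, ← p_mul_aQ (p := p)]
        have h2 : (p : AQ n) ^ (j + 1) = p * (p : AQ n) ^ i * (p : AQ n) ^ (j - i) := by
          rw [mul_assoc, ← pow_add, ← pow_succ']
          congr 1
          omega
        rw [h2]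
        ring
      rw [h1, ← hz, frQ_io]
      refine ⟨wZ n i * (p : AZ n) ^ i * frZ p n (i + 1) z, ?_⟩
      rw [map_mul, map_mul, map_pow, map_natCast]

theorem fr_lg_int (i j : ℕ) : (p : AQ n) ^ j * frQ p n i (lg p n j) ∈ (io n).range := by
  obtain ⟨z, hz⟩ := lg_int (p := p) (n := n) j
  refine ⟨frZ p n i z, ?_⟩
  rw [← frQ_io, hz, map_mul, map_pow, map_natCast]

/-- the logarithm -/
noncomputable abbrev lf (p n : ℕ) : PowerSeries (AQ n) := pt p (lg p n)

/-- the twisted logarithms -/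
noncomputable abbrev lfi (p n i : ℕ) : PowerSeries (AQ n) := pt p (fun k => frQ p n i (lg p n k))

theorem lf_map (i : ℕ) : (lf p n).map (frQ p n i) = lfi p n i := pt_map _ _

variable {σ : Type*}

include hn in
/-- the functional equation -/
theorem f_eq {A : MvPowerSeries σ (AQ n)} (hA : constantCoeff A = 0) :
    (lf p n).subst A = A + ∑ i ∈ Finset.range n,
      aQ p n i • (lfi p n (i + 1)).subst (A ^ (p ^ (i + 1))) := by
  ext e
  have hAi : ∀ i, constantCoeff (A ^ p ^ (i + 1)) = 0 := fun i => const_pow hA (P_ne _)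
  rw [map_add, map_sum, coeff_f _ hA, Finset.sum_range_succ', lg_zero, one_mul, pow_zero, pow_one,
    add_comm]
  congr 1
  set D := e.degree with hD
  have hT : ∀ i k, D ≤ i + k → coeff e (A ^ p ^ (i + k + 1)) = 0 := by
    intro i k h
    apply coeff_pow_eq_zero hA
    have := lt_P (p := p) (i + k + 1)
    omega
  let T : ℕ → ℕ → AQ n := fun i k =>
    aQ p n i * frQ p n (i + 1) (lg p n k) * coeff e (A ^ p ^ (i + k + 1))
  have hT0 : ∀ i k, D ≤ i + k → T i k = 0 := fun i k h => by
    simp only [T, hT i k h, mul_zero]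
  have hTn : ∀ i k, n ≤ i → T i k = 0 := fun i k h => by
    simp only [T, aQ, wZ_zero hn h, map_zero, smul_zero, zero_mul]
  have hL : ∑ m ∈ Finset.range D, lg p n (m + 1) * coeff e (A ^ p ^ (m + 1)) =
      ∑ m ∈ Finset.range D, ∑ i ∈ Finset.range (m + 1), T i (m - i) := by
    refine Finset.sum_congr rfl fun m _ => ?_
    rw [lg_succ, Finset.sum_mul]
    refine Finset.sum_congr rfl fun i hi => ?_
    have hi' : i ≤ m := Nat.lt_succ_iff.1 (Finset.mem_range.1 hi)
    simp only [T]
    rw [show i + (m - i) + 1 = m + 1 by omega]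
  have hR : ∑ i ∈ Finset.range n, coeff e (aQ p n i • (lfi p n (i + 1)).subst
      (A ^ (p ^ (i + 1)))) = ∑ i ∈ Finset.range n, ∑ k ∈ Finset.range (D + 1), T i k := by
    refine Finset.sum_congr rfl fun i _ => ?_
    rw [coeff_smul, coeff_f _ (hAi i), Finset.mul_sum]
    refine Finset.sum_congr rfl fun k _ => ?_
    simp only [T]
    rw [← pow_mul, ← pow_add, show i + 1 + k = i + k + 1 by ring, mul_assoc]
  rw [hL, hR, Finset.sum_range_diag_flip]
  have hL2 : ∑ m ∈ Finset.range D, ∑ k ∈ Finset.range (D - m), T m k =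
      ∑ m ∈ Finset.range (D + n), ∑ k ∈ Finset.range (D + 1), T m k := by
    have h1 : ∀ m ∈ Finset.range D, ∑ k ∈ Finset.range (D - m), T m k =
        ∑ k ∈ Finset.range (D + 1), T m k := by
      intro m _
      refine Finset.sum_subset (Finset.range_subset_range.2 (by omega)) fun k _ hk => ?_
      rw [Finset.mem_range] at hk
      exact hT0 m k (by omega)
    rw [Finset.sum_congr rfl h1]
    refine Finset.sum_subset (Finset.range_subset_range.2 (by omega)) fun m _ hm => ?_
    rw [Finset.mem_range] at hm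
    exact Finset.sum_eq_zero fun k _ => hT0 m k (by omega)
  have hR2 : ∑ i ∈ Finset.range n, ∑ k ∈ Finset.range (D + 1), T i k =
      ∑ m ∈ Finset.range (D + n), ∑ k ∈ Finset.range (D + 1), T m k := by
    refine Finset.sum_subset (Finset.range_subset_range.2 (by omega)) fun m _ hm => ?_
    rw [Finset.mem_range] at hm
    exact Finset.sum_eq_zero fun k _ => hTn m k (by omega)
  rw [hL2, hR2]

theorem hf0 : PowerSeries.constantCoeff (lf p n) = 0 := constantCoeff_pt _

theorem hf1 : IsUnit (PowerSeries.coeff 1 (lf p n)) := by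
  rw [coeff_one_pt, lg_zero]
  exact isUnit_one

/-- the formal group law over `ℚ[u]` -/
noncomputable abbrev Ph (p n : ℕ) [Fact p.Prime] : MvPowerSeries (Fin 2) (AQ n) :=
  Phi (lf p n) hf1

theorem const_Ph : constantCoeff (Ph p n) = 0 := const_Phi hf0 hf1

theorem f_Ph : (lf p n).subst (Ph p n) = L2 (lf p n) := f_Phi hf0 hf1

/-- the contracting operator -/
noncomputable def UU (p n : ℕ) [Fact p.Prime] (A : MvPowerSeries (Fin 2) (AQ n)) :
    MvPowerSeries (Fin 2) (AQ n) :=
  X 0 + X 1 + ∑ i ∈ Finset.range n, aQ p n i •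
    ((lfi p n (i + 1)).subst (expand (p ^ (i + 1)) (P_ne _) (A.map (frQ p n (i + 1)))) -
      (lfi p n (i + 1)).subst (A ^ (p ^ (i + 1))))

theorem L2_map {K K' : Type*} [CommRing K] [CommRing K'] (φ : K →+* K') (f : PowerSeries K) :
    (L2 f).map φ = L2 (f.map φ) := by
  rw [L2, L2, map_add, PowerSeries.map_subst (hasSubst_X 0), PowerSeries.map_subst (hasSubst_X 1),
    map_X, map_X]

include hn in
theorem UU_Ph : UU p n (Ph p n) = Ph p n := by
  have h1 := f_eq (p := p) hn (const_Ph (p := p) (n := n))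
  have h2 : ∀ s : Fin 2, (lf p n).subst (X s : MvPowerSeries (Fin 2) (AQ n)) = X s +
      ∑ i ∈ Finset.range n, aQ p n i • (lfi p n (i + 1)).subst (X s ^ (p ^ (i + 1))) := by
    intro s
    exact f_eq hn (constantCoeff_X s)
  have h3 : ∀ i : ℕ, (lfi p n (i + 1)).subst (expand (p ^ (i + 1)) (P_ne _)
      ((Ph p n).map (frQ p n (i + 1)))) = (lfi p n (i + 1)).subst
        ((X 0 : MvPowerSeries (Fin 2) (AQ n)) ^ (p ^ (i + 1))) +
        (lfi p n (i + 1)).subst ((X 1 : MvPowerSeries (Fin 2) (AQ n)) ^ (p ^ (i + 1))) := by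
    intro i
    have h4 := congrArg (MvPowerSeries.map (frQ p n (i + 1))) (f_Ph (p := p) (n := n))
    rw [L2_map, PowerSeries.map_subst (hs const_Ph), lf_map] at h4
    have h5 := congrArg (expand (p ^ (i + 1)) (P_ne _)) h4
    have e1 : ∀ {A : MvPowerSeries (Fin 2) (AQ n)}, constantCoeff A = 0 →
        expand (p ^ (i + 1)) (P_ne _) ((lfi p n (i + 1)).subst A) =
        (lfi p n (i + 1)).subst (expand (p ^ (i + 1)) (P_ne _) A) := by
      intro A hA
      exact expand_subst (p ^ (i + 1)) (P_ne _) (hs hA).const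
    rw [e1 (const_map _ const_Ph), L2, map_add, e1 (constantCoeff_X 0), e1 (constantCoeff_X 1),
      expand_X, expand_X] at h5
    exact h5
  have h4 := f_Ph (p := p) (n := n)
  rw [h1, L2, h2 0, h2 1] at h4
  rw [UU]
  simp only [h3, smul_sub, smul_add, Finset.sum_sub_distrib, Finset.sum_add_distrib]
  linear_combination (exp := 1) -h4

theorem UU_contr {d : ℕ} {A B : MvPowerSeries (Fin 2) (AQ n)} (hd : 1 ≤ d)
    (hA : constantCoeff A = 0) (hB : constantCoeff B = 0) (h : (d : ℕ∞) ≤ (A - B).order) :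
    ((d + 1 : ℕ) : ℕ∞) ≤ (UU p n A - UU p n B).order := by
  apply nat_le_order
  intro e he
  have he' : ((e.degree : ℕ) : ℕ∞) < ((d + 1 : ℕ) : ℕ∞) := by exact_mod_cast he
  have h1 : UU p n A - UU p n B = ∑ i ∈ Finset.range n, aQ p n i •
      (((lfi p n (i + 1)).subst (expand (p ^ (i + 1)) (P_ne _) (A.map (frQ p n (i + 1)))) -
        (lfi p n (i + 1)).subst (expand (p ^ (i + 1)) (P_ne _) (B.map (frQ p n (i + 1))))) -
      ((lfi p n (i + 1)).subst (A ^ (p ^ (i + 1))) -
        (lfi p n (i + 1)).subst (B ^ (p ^ (i + 1))))) := by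
    rw [UU, UU]
    simp only [smul_sub, Finset.sum_sub_distrib]
    ring
  rw [h1, map_sum]
  refine Finset.sum_eq_zero fun i _ => ?_
  have hq : 2 ≤ p ^ (i + 1) := by
    have := lt_P (p := p) (i + 1)
    omega
  have h2 : ((d + 1 : ℕ) : ℕ∞) ≤
      ((lfi p n (i + 1)).subst (expand (p ^ (i + 1)) (P_ne _) (A.map (frQ p n (i + 1)))) -
        (lfi p n (i + 1)).subst (expand (p ^ (i + 1)) (P_ne _)
          (B.map (frQ p n (i + 1))))).order := by
    apply f_sub_order _ (const_expand _ (const_map _ hA)) (const_expand _ (const_map _ hB))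
    rw [← map_sub, ← map_sub, order_expand]
    have h3 : (d : ℕ∞) ≤ ((A - B).map (frQ p n (i + 1))).order := by
      apply nat_le_order
      intro e' he'
      rw [coeff_map, coeff_of_lt_order (lt_of_lt_of_le (by exact_mod_cast he') h), map_zero]
    calc ((d + 1 : ℕ) : ℕ∞) ≤ ((p ^ (i + 1) * d : ℕ) : ℕ∞) := by
          have : d + 1 ≤ p ^ (i + 1) * d := by nlinarith
          exact_mod_cast this
      _ = p ^ (i + 1) • (d : ℕ∞) := by rw [nsmul_eq_mul]; push_cast; rfl
      _ ≤ p ^ (i + 1) • ((A - B).map (frQ p n (i + 1))).order := by gcongr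
  have h3 : ((d + 1 : ℕ) : ℕ∞) ≤
      ((lfi p n (i + 1)).subst (A ^ (p ^ (i + 1))) -
        (lfi p n (i + 1)).subst (B ^ (p ^ (i + 1)))).order := by
    apply f_sub_order _ (const_pow hA (P_ne _)) (const_pow hB (P_ne _))
    exact pow_sub_order hA hB hq h
  rw [coeff_smul, map_sub, coeff_of_lt_order (lt_of_lt_of_le he' h2),
    coeff_of_lt_order (lt_of_lt_of_le he' h3), sub_zero, mul_zero]

/-- the congruence lemma -/
theorem f_congr (c : ℕ → AQ n) (hc : ∀ k, (p : AQ n) ^ k * c k ∈ (io n).range)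
    {A B : MvPowerSeries σ (AZ n)} (hA : constantCoeff A = 0) (hB : constantCoeff B = 0)
    (h : ((p : ℕ) : MvPowerSeries σ (AZ n)) ∣ A - B) (e : σ →₀ ℕ) :
    ∃ z : AZ n, coeff e ((pt p c).subst (A.map (io n)) - (pt p c).subst (B.map (io n))) =
      p * io n z := by
  have hA' : constantCoeff (A.map (io n)) = 0 := const_map _ hA
  have hB' : constantCoeff (B.map (io n)) = 0 := const_map _ hB
  rw [map_sub, coeff_f _ hA', coeff_f _ hB', ← Finset.sum_sub_distrib]
  have h1 : ∀ k, ∃ z : AZ n, c k * coeff e ((A.map (io n)) ^ p ^ k) -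
      c k * coeff e ((B.map (io n)) ^ p ^ k) = p * io n z := by
    intro k
    have h2 : ((p : MvPowerSeries σ (AZ n)) ^ (k + 1)) ∣ A ^ p ^ k - B ^ p ^ k :=
      dvd_sub_pow_of_dvd_sub h k
    obtain ⟨Z, hZ⟩ := h2
    obtain ⟨x, hx⟩ := hc k
    refine ⟨x * coeff e Z, ?_⟩
    have h3 : coeff e (A ^ p ^ k - B ^ p ^ k) = (p : AZ n) ^ (k + 1) * coeff e Z := by
      have h4 : ((p : MvPowerSeries σ (AZ n)) ^ (k + 1)) = C ((p : AZ n) ^ (k + 1)) := by
        rw [map_pow, map_natCast]
      rw [hZ, h4, coeff_C_mul]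
    rw [← mul_sub, ← map_sub, ← map_pow, ← map_pow, ← map_sub, coeff_map, h3, map_mul, map_pow,
      map_natCast, map_mul, hx, pow_succ]
    ring
  choose z hz using h1
  refine ⟨∑ k ∈ Finset.range (e.degree + 1), z k, ?_⟩
  rw [Finset.sum_congr rfl (fun k _ => hz k), ← Finset.mul_sum, map_sum]

theorem expand_zmod_iter {τ : Type*} (i : ℕ) (y : MvPolynomial τ (ZMod p)) :
    MvPolynomial.expand (p ^ i) y = y ^ (p ^ i) := by
  induction i with
  | zero => simp
  | succ i ih =>
    rw [pow_succ', MvPolynomial.expand_mul, ih, MvPolynomial.expand_zmod, ← pow_mul, mul_comm]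

/-- Frobenius congruence -/
theorem expand_congr (i : ℕ) (A : MvPowerSeries σ (AZ n)) :
    ((p : ℕ) : MvPowerSeries σ (AZ n)) ∣
      expand (p ^ i) (P_ne _) (A.map (frZ p n i)) - A ^ (p ^ i) := by
  have hp := (Fact.out : p.Prime)
  have h0 : ∀ e, ∃ z, coeff e (expand (p ^ i) (P_ne _) (A.map (frZ p n i)) - A ^ (p ^ i)) =
      (p : AZ n) * z := by
    intro e
    let ρ : AZ n →+* MvPolynomial (Fin (n - 1)) (ZMod p) :=
      MvPolynomial.map (Int.castRingHom (ZMod p))
    have h1 : coeff e (MvPowerSeries.map ρ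
        (expand (p ^ i) (P_ne _) (A.map (frZ p n i)) - A ^ (p ^ i))) = 0 := by
      have h2 : (A.map (frZ p n i)).map ρ =
          (A.map ρ).map (iterateFrobenius (MvPolynomial (Fin (n - 1)) (ZMod p)) p i) := by
        ext1 e'
        simp only [coeff_map]
        rw [iterateFrobenius_def, ← expand_zmod_iter]
        exact MvPolynomial.map_expand (p ^ i) (Int.castRingHom (ZMod p)) _
      rw [map_sub (MvPowerSeries.map ρ), map_expand, h2, map_pow, ← map_expand,
        map_iterateFrobenius_expand p hp.ne_zero _ i]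
      simp
    rw [coeff_map] at h1
    have h3 := (MvPolynomial.C_dvd_iff_zmod p _).2 h1
    obtain ⟨z, hz⟩ := h3
    refine ⟨z, ?_⟩
    rw [hz]
    simp
  choose z hz using h0
  let Z : MvPowerSeries σ (AZ n) := fun e => z e
  refine ⟨Z, ?_⟩
  ext1 e
  have h4 : ((p : ℕ) : MvPowerSeries σ (AZ n)) = C (p : AZ n) := by rw [map_natCast]
  rw [hz, h4, coeff_C_mul]
  rfl

include hn in
theorem Ph_int (e : Fin 2 →₀ ℕ) : coeff e (Ph p n) ∈ (io n).range := by
  refine contr_ind (fun _ x => x ∈ (io n).range) (fun _ => (io n).range.zero_mem) (UU p n)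
    (Ph p n) const_Ph (UU_Ph hn) (fun d A B hd hA hB h => UU_contr hd hA hB h) ?_ e
  intro A hA hAi e
  obtain ⟨A', rfl⟩ := exists_lift (io n) hAi
  have hA' : constantCoeff A' = 0 := const_of_map (io n) (io_inj n) hA
  rw [UU, map_add, map_sum]
  refine (io n).range.add_mem ?_ ((io n).range.sum_mem fun i _ => ?_)
  · have h2 : (X 0 + X 1 : MvPowerSeries (Fin 2) (AQ n)) =
        (X 0 + X 1 : MvPowerSeries (Fin 2) (AZ n)).map (io n) := by simp
    rw [h2, coeff_map]
    exact ⟨_, rfl⟩
  · obtain ⟨z, hz⟩ := f_congr (p := p) (fun k => frQ p n (i + 1) (lg p n k))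
      (fr_lg_int (p := p) (n := n) (i + 1))
      (const_expand (p := p) (i + 1) (const_map (frZ p n (i + 1)) hA'))
      (const_pow hA' (P_ne (p := p) (i + 1))) (expand_congr (i + 1) A') e
    have h1 : (A'.map (io n)).map (frQ p n (i + 1)) = (A'.map (frZ p n (i + 1))).map (io n) := by
      ext1 e'
      simp only [coeff_map]
      exact frQ_io _ _ _ _
    rw [map_expand, map_pow, ← h1] at hz
    rw [coeff_smul, hz, ← mul_assoc, mul_comm (aQ p n i) (p : AQ n), p_mul_aQ, ← map_mul]
    exact ⟨_, rfl⟩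

theorem coeff_Ph_single (hn : 0 < n) (s : Fin 2) : coeff (Finsupp.single s 1) (Ph p n) = 1 := by
  classical
  have h1 : ((1 : ℕ) : ℕ∞) ≤ (Ph p n - 0).order := by
    rw [sub_zero, Nat.cast_one]
    exact one_le_order_iff_constCoeff_eq_zero.2 const_Ph
  have h2 := UU_contr (p := p) le_rfl (const_Ph (p := p) (n := n)) (map_zero _) h1
  have h3 : coeff (Finsupp.single s 1) (UU p n (Ph p n) - UU p n 0) = 0 := by
    apply coeff_of_lt_order (lt_of_lt_of_le _ h2)
    rw [Finsupp.degree_single]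
    exact_mod_cast one_lt_two
  have h4 : UU p n 0 = X 0 + X 1 := by
    rw [UU]
    simp only [map_zero, zero_pow (P_ne (p := p) _), sub_self, smul_zero, Finset.sum_const_zero,
      add_zero]
  rw [UU_Ph hn, h4, map_sub, sub_eq_zero] at h3
  rw [h3, map_add, coeff_X, coeff_X]
  fin_cases s
  · have : ¬ (Finsupp.single (0 : Fin 2) 1 = Finsupp.single 1 1) := by
      intro h
      have := DFunLike.congr_fun h 0
      simp at this
    simp [this]
  · have : ¬ (Finsupp.single (1 : Fin 2) 1 = Finsupp.single 0 1) := by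
      intro h
      have := DFunLike.congr_fun h 1
      simp at this
    simp [this]

/-- existence of the integral law -/
theorem exists_haze_law (p : ℕ) [Fact p.Prime] (n : ℕ) (hn : 0 < n) :
    ∃ F : FormalGroup (AZ n), F.IsComm ∧
      (lf p n).subst (F.toPowerSeries.map (io n)) = L2 (lf p n) := by
  obtain ⟨H, hH⟩ := exists_lift (io n) (Ph_int (p := p) hn)
  have h0 : constantCoeff H = 0 :=
    const_of_map (io n) (io_inj n) (by rw [hH]; exact const_Ph)
  have h1 : ∀ s : Fin 2, coeff (Finsupp.single s 1) H = 1 := by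
    intro s
    apply io_inj n
    have h := coeff_Ph_single (p := p) hn s
    rw [← hH, coeff_map] at h
    rw [h, map_one]
  have hfH : (lf p n).subst (H.map (io n)) = L2 (lf p n) := by rw [hH]; exact f_Ph
  obtain ⟨F, hF, hc⟩ := exists_descent (io n) hf0 hf1 H hfH h0 (h1 0) (h1 1) (io_inj n)
  exact ⟨F, hc, by rw [hF]; exact hfH⟩

end Vale.Agent.P217.HazeEx
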