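import Mathlib.LinearAlgebra.Matrix.NonsingularInverse
import Mathlib.Order.CompletePartialOrder
import Mathlib.RingTheory.MvPowerSeries.Substitution

/-!
# P217: formal inverse function theorem over a field

Proof: the map `Ψ ↦ Ψ(q)` respects the filtration by the order, and on the graded pieces it is
onto; so it is onto, by completeness.
-/

namespace Vale.Agent.P217

open MvPowerSeries

namespace IFT

variable {k : Type*} [Field k] {σ : Type*}

/-- `a` and `b` agree up to order `N` -/
def Cong (N : ℕ) (a b : MvPowerSeries σ k) : Prop := (N : ℕ∞) ≤ (a - b).order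

theorem order_add {N : ℕ} {a b : MvPowerSeries σ k} (ha : (N : ℕ∞) ≤ a.order)
    (hb : (N : ℕ∞) ≤ b.order) : (N : ℕ∞) ≤ (a + b).order :=
  (le_min ha hb).trans min_order_le_add

theorem order_sub {N : ℕ} {a b : MvPowerSeries σ k} (ha : (N : ℕ∞) ≤ a.order)
    (hb : (N : ℕ∞) ≤ b.order) : (N : ℕ∞) ≤ (a - b).order := by
  rw [sub_eq_add_neg]
  exact order_add ha (by rwa [order_neg])

theorem order_sum {ι : Type*} {N : ℕ} (s : Finset ι) (f : ι → MvPowerSeries σ k)
    (h : ∀ i ∈ s, (N : ℕ∞) ≤ (f i).order) : (N : ℕ∞) ≤ (∑ i ∈ s, f i).order := by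
  classical
  induction s using Finset.induction_on with
  | empty => simp
  | insert i s hi ih =>
    rw [Finset.sum_insert hi]
    exact order_add (h i (Finset.mem_insert_self _ _))
      (ih fun j hj => h j (Finset.mem_insert_of_mem hj))

theorem order_mul {M N : ℕ} {a b : MvPowerSeries σ k} (ha : (M : ℕ∞) ≤ a.order)
    (hb : (N : ℕ∞) ≤ b.order) : ((M + N : ℕ) : ℕ∞) ≤ (a * b).order := by
  refine le_trans ?_ le_order_mul
  push_cast
  exact add_le_add ha hb

theorem order_mul_left {N : ℕ} (a : MvPowerSeries σ k) {b : MvPowerSeries σ k}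
    (hb : (N : ℕ∞) ≤ b.order) : (N : ℕ∞) ≤ (a * b).order := by
  have h := order_mul (M := 0) (a := a) (by simp) hb
  simpa using h

theorem Cong.add {N : ℕ} {a b a' b' : MvPowerSeries σ k} (h : Cong N a b) (h' : Cong N a' b') :
    Cong N (a + a') (b + b') := by
  unfold Cong at *
  have : a + a' - (b + b') = (a - b) + (a' - b') := by ring
  rw [this]
  exact order_add h h'

theorem Cong.sum {ι : Type*} {N : ℕ} (s : Finset ι) (f g : ι → MvPowerSeries σ k)
    (h : ∀ i ∈ s, Cong N (f i) (g i)) : Cong N (∑ i ∈ s, f i) (∑ i ∈ s, g i) := by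
  unfold Cong at *
  rw [← Finset.sum_sub_distrib]
  exact order_sum s _ h

theorem Cong.mul_left {N : ℕ} (c : MvPowerSeries σ k) {a b : MvPowerSeries σ k}
    (h : Cong N a b) : Cong N (c * a) (c * b) := by
  unfold Cong at *
  rw [← mul_sub]
  exact order_mul_left c h

theorem Cong.mul {M N : ℕ} {a a' b b' : MvPowerSeries σ k} (ha : (M : ℕ∞) ≤ a.order)
    (hb' : (N : ℕ∞) ≤ b'.order) (haa : Cong (M + 1) a a') (hbb : Cong (N + 1) b b') :
    Cong (M + N + 1) (a * b) (a' * b') := by
  unfold Cong at *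
  have h : a * b - a' * b' = a * (b - b') + (a - a') * b' := by ring
  rw [h]
  refine order_add ?_ ?_
  · have := order_mul ha hbb
    rwa [← add_assoc] at this
  · have := order_mul haa hb'
    rwa [add_right_comm] at this

theorem order_pow {a : MvPowerSeries σ k} (ha : (1 : ℕ∞) ≤ a.order) (n : ℕ) :
    (n : ℕ∞) ≤ (a ^ n).order := by
  induction n with
  | zero => simp
  | succ n ih =>
    rw [pow_succ]
    exact order_mul ih (by simpa using ha)

theorem Cong.pow {a x : MvPowerSeries σ k} (ha : (1 : ℕ∞) ≤ a.order) (hx : (1 : ℕ∞) ≤ x.order)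
    (h : Cong 2 a x) (n : ℕ) : Cong (n + 1) (a ^ n) (x ^ n) := by
  induction n with
  | zero =>
    unfold Cong
    simp
  | succ n ih =>
    rw [pow_succ, pow_succ]
    exact Cong.mul (M := n) (N := 1) (order_pow ha n) (by simpa using hx) ih h

theorem order_prod_pow {ι : Type*} (s : Finset ι) (a : ι → MvPowerSeries σ k)
    (ha : ∀ i, (1 : ℕ∞) ≤ (a i).order) (d : ι → ℕ) :
    ((∑ i ∈ s, d i : ℕ) : ℕ∞) ≤ (∏ i ∈ s, a i ^ d i).order := by
  classical
  induction s using Finset.induction_on with
  | empty => simp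
  | insert i s hi ih =>
    rw [Finset.sum_insert hi, Finset.prod_insert hi]
    exact order_mul (order_pow (ha i) _) ih

theorem Cong.prod {ι : Type*} (s : Finset ι) (a x : ι → MvPowerSeries σ k)
    (ha : ∀ i, (1 : ℕ∞) ≤ (a i).order) (hx : ∀ i, (1 : ℕ∞) ≤ (x i).order)
    (h : ∀ i, Cong 2 (a i) (x i)) (d : ι → ℕ) :
    Cong (∑ i ∈ s, d i + 1) (∏ i ∈ s, a i ^ d i) (∏ i ∈ s, x i ^ d i) := by
  classical
  induction s using Finset.induction_on with
  | empty =>
    unfold Cong
    simp
  | insert i s hi ih =>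
    rw [Finset.sum_insert hi, Finset.prod_insert hi, Finset.prod_insert hi]
    exact Cong.mul (order_pow (ha i) _) (order_prod_pow s x hx d) (Cong.pow (ha i) (hx i) (h i) _)
      ih

theorem monomial_eq_prod [Fintype σ] (d : σ →₀ ℕ) (c : k) :
    (monomial d c : MvPowerSeries σ k) = C c * ∏ j : σ, X j ^ d j := by
  have h1 : ∏ j : σ, (X j : MvPowerSeries σ k) ^ d j = monomial d 1 := by
    have h2 := MvPolynomial.monomial_eq (s := d) (a := (1 : k))
    rw [MvPolynomial.C_1, one_mul, Finsupp.prod_fintype _ _ (fun _ => pow_zero _)] at h2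
    have h3 := congrArg (fun p : MvPolynomial σ k => (p : MvPowerSeries σ k)) h2
    simp only [MvPolynomial.coe_monomial] at h3
    rw [h3]
    have h4 := map_prod (MvPolynomial.coeToMvPowerSeries.ringHom (σ := σ) (R := k))
      (fun j => MvPolynomial.X j ^ d j) Finset.univ
    simp only [MvPolynomial.coeToMvPowerSeries.ringHom_apply, map_pow] at h4
    rw [h4]
    simp [MvPolynomial.coe_X]
  rw [h1, ← smul_eq_C_mul, ← map_smul, smul_eq_mul, mul_one]

/-- The homogeneous part of degree `N`. -/
theorem order_sub_homog [Fintype σ] [DecidableEq σ] {N : ℕ} {F : MvPowerSeries σ k}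
    (hF : (N : ℕ∞) ≤ F.order) :
    Cong (N + 1) F (∑ d ∈ Finset.finsuppAntidiag (Finset.univ : Finset σ) N,
      monomial d (coeff d F)) := by
  unfold Cong
  refine nat_le_order fun e he => ?_
  rw [map_sub, map_sum]
  have hdeg : ∀ d : σ →₀ ℕ, d ∈ Finset.finsuppAntidiag (Finset.univ : Finset σ) N ↔
      Finsupp.degree d = N := by
    intro d
    rw [Finset.mem_finsuppAntidiag, Finsupp.degree_eq_sum]
    simp
  simp only [coeff_monomial]
  rw [Finset.sum_ite_eq]
  split_ifs with h
  · rw [sub_self]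
  · rw [hdeg] at h
    rw [sub_zero]
    refine coeff_of_lt_order (lt_of_lt_of_le ?_ hF)
    exact_mod_cast (by omega : Finsupp.degree e < N)

variable [Fintype σ] [DecidableEq σ] {q : σ → MvPowerSeries σ k}

omit [DecidableEq σ] in
theorem hasSubst_q (h0 : ∀ i, constantCoeff (q i) = 0) : HasSubst q :=
  hasSubst_of_constantCoeff_zero h0

omit [DecidableEq σ] in
theorem order_subst (h0 : ∀ i, constantCoeff (q i) = 0) {N : ℕ} {F : MvPowerSeries σ k}
    (hF : (N : ℕ∞) ≤ F.order) : (N : ℕ∞) ≤ (subst q F).order := by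
  refine le_trans ?_ (le_order_subst (hasSubst_q h0) F)
  have h1 : (1 : ℕ∞) ≤ ⨅ i, (q i).order :=
    le_iInf fun i => one_le_order_iff_constCoeff_eq_zero.2 (h0 i)
  calc (N : ℕ∞) ≤ F.order := hF
    _ = 1 * F.order := (one_mul _).symm
    _ ≤ _ := mul_le_mul_left h1 _

/-- the linear forms inverse to the linear parts of the `q i` -/
theorem exists_linear (h0 : ∀ i, constantCoeff (q i) = 0)
    (hJ : (Matrix.of fun i j : σ => coeff (Finsupp.single j 1) (q i)).det ≠ 0) :
    ∃ l : σ → MvPowerSeries σ k, (∀ j, (1 : ℕ∞) ≤ (l j).order) ∧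
      ∀ j, Cong 2 (subst q (l j)) (X j) := by
  set A : Matrix σ σ k := Matrix.of fun i j : σ => coeff (Finsupp.single j 1) (q i) with hA
  have hinv : A⁻¹ * A = 1 := Matrix.nonsing_inv_mul A (Ne.isUnit hJ)
  refine ⟨fun j => ∑ i, C (A⁻¹ j i) * X i, fun j => ?_, fun j => ?_⟩
  · rw [one_le_order_iff_constCoeff_eq_zero]
    simp
  · have h1 : subst q (∑ i, C (A⁻¹ j i) * X i : MvPowerSeries σ k) =
        ∑ i, C (A⁻¹ j i) * q i := by
      rw [← substAlgHom_apply (hasSubst_q h0), map_sum]
      refine Finset.sum_congr rfl fun i _ => ?_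
      rw [map_mul, substAlgHom_X, substAlgHom_apply, subst_C]
    rw [h1]
    unfold Cong
    refine nat_le_order fun e he => ?_
    rw [map_sub, map_sum]
    simp only [coeff_C_mul]
    have he' : Finsupp.degree e = 0 ∨ Finsupp.degree e = 1 := by omega
    rcases he' with he' | he'
    · rw [Finsupp.degree_eq_zero_iff] at he'
      subst he'
      have h2 : ∀ i, coeff 0 (q i) = 0 := fun i => h0 i
      simp [h2]
    · obtain ⟨j', rfl⟩ := (Finsupp.sum_eq_one_iff e).1 he'
      have h3 : ∑ i, A⁻¹ j i * coeff (Finsupp.single j' 1) (q i) = (A⁻¹ * A) j j' := rfl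
      rw [h3, hinv, coeff_index_single_X, Matrix.one_apply, sub_eq_zero]
      simp [eq_comm]

theorem exists_step (h0 : ∀ i, constantCoeff (q i) = 0)
    (hJ : (Matrix.of fun i j : σ => coeff (Finsupp.single j 1) (q i)).det ≠ 0)
    (N : ℕ) (F : MvPowerSeries σ k) (hF : (N : ℕ∞) ≤ F.order) :
    ∃ G : MvPowerSeries σ k, (N : ℕ∞) ≤ G.order ∧ Cong (N + 1) F (subst q G) := by
  obtain ⟨l, hl1, hl2⟩ := exists_linear h0 hJ
  have hdeg : ∀ d ∈ Finset.finsuppAntidiag (Finset.univ : Finset σ) N, ∑ j, d j = N := by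
    intro d hd
    rw [Finset.mem_finsuppAntidiag] at hd
    exact hd.1
  refine ⟨∑ d ∈ Finset.finsuppAntidiag (Finset.univ : Finset σ) N,
    C (coeff d F) * ∏ j, l j ^ d j, ?_, ?_⟩
  · refine order_sum _ _ fun d hd => order_mul_left _ ?_
    have := order_prod_pow Finset.univ l hl1 d
    rwa [hdeg d hd] at this
  · have h1 : subst q (∑ d ∈ Finset.finsuppAntidiag (Finset.univ : Finset σ) N,
        C (coeff d F) * ∏ j, l j ^ d j) =
        ∑ d ∈ Finset.finsuppAntidiag (Finset.univ : Finset σ) N,
          C (coeff d F) * ∏ j, subst q (l j) ^ d j := by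
      simp only [← substAlgHom_apply (hasSubst_q h0), map_sum, map_mul, map_prod, map_pow]
      refine Finset.sum_congr rfl fun d _ => ?_
      rw [substAlgHom_apply, subst_C]
    rw [h1]
    have h2 : Cong (N + 1) (∑ d ∈ Finset.finsuppAntidiag (Finset.univ : Finset σ) N,
          C (coeff d F) * ∏ j, subst q (l j) ^ d j)
        (∑ d ∈ Finset.finsuppAntidiag (Finset.univ : Finset σ) N, monomial d (coeff d F)) := by
      refine Cong.sum _ _ _ fun d hd => ?_
      rw [monomial_eq_prod]
      refine Cong.mul_left _ ?_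
      have h3 := Cong.prod Finset.univ (fun j => subst q (l j)) (fun j => (X j : MvPowerSeries σ k))
        (fun j => by
          have := order_subst h0 (N := 1) (F := l j) (by simpa using hl1 j)
          simpa using this)
        (fun j => by rw [one_le_order_iff_constCoeff_eq_zero]; simp) hl2 d
      rwa [hdeg d hd] at h3
    have h4 := order_sub_homog hF
    unfold Cong at *
    have h5 := order_sub h4 h2
    have h6 : ∀ a b c : MvPowerSeries σ k, (a - b) - (c - b) = a - c := fun a b c => by ring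
    rwa [h6] at h5

/-- the sequence of approximations -/
noncomputable def approx (h0 : ∀ i, constantCoeff (q i) = 0)
    (hJ : (Matrix.of fun i j : σ => coeff (Finsupp.single j 1) (q i)).det ≠ 0)
    (f : MvPowerSeries σ k) : (N : ℕ) → {P : MvPowerSeries σ k // Cong N f (subst q P)}
  | 0 => ⟨0, by unfold Cong; simp⟩
  | N + 1 =>
    let P := approx h0 hJ f N
    ⟨P.1 + (exists_step h0 hJ N (f - subst q P.1) P.2).choose, by
      have h := (exists_step h0 hJ N (f - subst q P.1) P.2).choose_spec.2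
      unfold Cong at *
      rw [subst_add (hasSubst_q h0), ← sub_sub]
      exact h⟩

theorem approx_succ (h0 : ∀ i, constantCoeff (q i) = 0)
    (hJ : (Matrix.of fun i j : σ => coeff (Finsupp.single j 1) (q i)).det ≠ 0)
    (f : MvPowerSeries σ k) (N : ℕ) :
    Cong N (approx h0 hJ f (N + 1)).1 (approx h0 hJ f N).1 := by
  have h := (exists_step h0 hJ N (f - subst q (approx h0 hJ f N).1)
    (approx h0 hJ f N).2).choose_spec.1
  unfold Cong
  rw [approx]
  simp only
  rw [add_sub_cancel_left]
  exact h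

theorem approx_le (h0 : ∀ i, constantCoeff (q i) = 0)
    (hJ : (Matrix.of fun i j : σ => coeff (Finsupp.single j 1) (q i)).det ≠ 0)
    (f : MvPowerSeries σ k) {M N : ℕ} (h : M ≤ N) :
    Cong M (approx h0 hJ f N).1 (approx h0 hJ f M).1 := by
  induction N, h using Nat.le_induction with
  | base =>
    unfold Cong
    simp
  | succ N hN ih =>
    have h1 := approx_succ h0 hJ f N
    unfold Cong at *
    have h2 : (M : ℕ∞) ≤ ((approx h0 hJ f (N + 1)).1 - (approx h0 hJ f N).1).order :=
      le_trans (by exact_mod_cast hN) h1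
    have h3 := order_add h2 ih
    rwa [sub_add_sub_cancel] at h3

end IFT

open IFT in
/-- If the Jacobian matrix of `q` at `0` is invertible, every power series is a power series in
the `q i`. -/
theorem formal_ift {k : Type*} [Field k] {σ : Type*} [Fintype σ] [DecidableEq σ]
    (q : σ → MvPowerSeries σ k) (h0 : ∀ i, constantCoeff (q i) = 0)
    (hJ : (Matrix.of fun i j : σ => coeff (Finsupp.single j 1) (q i)).det ≠ 0)
    (f : MvPowerSeries σ k) : ∃ Ψ : MvPowerSeries σ k, f = subst q Ψ := by
  let Ψ : MvPowerSeries σ k := fun d => coeff d (approx h0 hJ f (Finsupp.degree d + 1)).1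
  have hΨ : ∀ N : ℕ, Cong N Ψ (approx h0 hJ f N).1 := by
    intro N
    refine nat_le_order fun d hd => ?_
    have h1 := approx_le h0 hJ f (show Finsupp.degree d + 1 ≤ N by omega)
    have h2 : coeff d ((approx h0 hJ f N).1 - (approx h0 hJ f (Finsupp.degree d + 1)).1) = 0 :=
      coeff_of_lt_order (lt_of_lt_of_le (by exact_mod_cast Nat.lt_succ_self _) h1)
    rw [map_sub] at h2 ⊢
    have h3 : coeff d Ψ = coeff d (approx h0 hJ f (Finsupp.degree d + 1)).1 := rfl
    rw [h3, ← neg_sub, h2, neg_zero]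
  refine ⟨Ψ, ?_⟩
  have key : ∀ N : ℕ, (N : ℕ∞) ≤ (f - subst q Ψ).order := by
    intro N
    have h1 := (approx h0 hJ f N).2
    have h2 := order_subst h0 (hΨ N)
    unfold Cong at h1
    rw [subst_sub (hasSubst_q h0)] at h2
    have h3 := order_sub h1 h2
    have h4 : ∀ a b c : MvPowerSeries σ k, (a - b) - (c - b) = a - c := fun a b c => by ring
    rwa [h4] at h3
  have htop : (f - subst q Ψ).order = ⊤ := by
    rw [ENat.eq_top_iff_forall_ge]
    exact key
  rw [order_eq_top_iff, sub_eq_zero] at htop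
  exact htop

end Vale.Agent.P217
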