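import Mathlib.Algebra.BigOperators.Field
import Vale.Agent.Lib.P217.Coord
import Vale.Agent.Lib.P217.Torsion

/-!
# P217: the Jacobian of the coordinate functions (module A11b)

Setting of `Coord.lean`, with `[p]_F(X) = V(X^Q)`, `Q = p^h`, in standard coordinates:
`coeff (p^j) V ≡ u_j` modulo `(u_i, i < j)`, and `V ≡ X^{p^r}` modulo the maximal ideal.

`W_j` is the series over `OO K` whose coefficients are the coefficients of `Δ_j` in the Taylor expansions
of the coefficients of `V`.

* `linear_part`: if `z 0 = 0` then `zt 0 = p • zt 1 = V_u((zt 1)^Q)` and `zt 1 ≡ z 1` modulo `(Δ)`, so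
  `(zt 1)^Q ≡ (z 1)^Q` modulo `(Δ)^2` (characteristic `p`, `Q ≥ 2`), so the coefficient of `Δ_j` in
  `zt 0` is `W_j((z 1)^Q)`.

* `jacobian_ne_zero`. Suppose the determinant of `(W_j(ν_i^Q))` vanishes, `ν_i` the basis of the
  `p`-torsion. Then there is `κ ≠ 0` in `K^r`, which we scale so that `max ‖κ_j‖ = 1`, with
  `∑_j κ_j W_j(ν_i^Q) = 0` for all `i`. Put `W = ∑_j κ_j W_j` over `OO K`.
  (a) `y ↦ W(y^Q)` is additive on the `p`-torsion points of `Fx`: this holds for each `W_j`: for torsion points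
  `y, y'`, view them as constant points of `Fu`; `p • (y + y') = p • y + p • y'` in `Pt Fu`. The constant coefficients of
  `p • y`, `p • y'` vanish, so the `Δ_j` coefficient of the right side is the sum of those of `p • y` and `p • y'`,
  which are `W_j(y^Q)`, `W_j(y'^Q)`. And `y +_{Fu} y' ≡ y +_{Fx} y'` modulo `(Δ)`, so the left side is
  `V_u((y +_{Fx} y')^Q)` modulo `(Δ)^2`.
  (b) So `W(Y)` vanishes at all `y^Q`, `y` a torsion point: these are `p^r` distinct elements of norm `< 1`.
  (c) Some coefficient of `W` in degree `i < p^r` has norm `1`: the coefficient of `Y^{p^j}` in `W_l` is,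
  modulo `‖·‖ < 1`, the image under `ι` of the coefficient of `u_l` in `coeff (p^j) V`
  (`coeff_single_taylor`), i.e. `1` if `l = j` and `0` if `l > j`. So let `l` be maximal with
  `‖κ_l‖ = 1`; then the coefficient of `Y^{p^l}` in `W` has norm `1`
  [terms with index `> l` have `‖κ‖ < 1`; terms with index `l' < l` : the coefficient of `u_{l'}` in
  `coeff (p^l) V` may be nonzero].  Take instead `l` minimal with `‖κ_l‖ = 1`: for `j = l`,
  terms `l' < l` have `‖κ_{l'}‖ < 1`, terms `l' > l` have coefficient of norm `< 1`; so the coefficient of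
  `Y^{p^l}` in `W` has norm `1`.
  (d) `zeroSet_ncard_le` gives at most `p^l < p^r` zeros: contradiction.
-/

set_option linter.unusedSectionVars false

namespace Vale.Agent.P217

open MvPowerSeries Filter Topology
open scoped MvPowerSeries.WithPiTopology

/-! ### linear coefficients -/

theorem coeff_single_mul {R : Type*} [CommRing R] {σ : Type*} (a b : MvPowerSeries σ R) (j : σ) :
    coeff (Finsupp.single j 1) (a * b) =
      coeff (Finsupp.single j 1) a * constantCoeff b + constantCoeff a *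
        coeff (Finsupp.single j 1) b := by
  classical
  rw [coeff_mul, Finsupp.antidiagonal_single, Finset.sum_map]
  rw [Finset.Nat.antidiagonal_succ]
  simp [add_comm]

theorem coeff_single_pow {R : Type*} [CommRing R] {σ : Type*} (a : MvPowerSeries σ R) (j : σ)
    (n : ℕ) : coeff (Finsupp.single j 1) (a ^ n) =
      n * constantCoeff a ^ (n - 1) * coeff (Finsupp.single j 1) a := by
  induction n with
  | zero =>
    classical
    rw [pow_zero, coeff_one, if_neg (by simp)]
    simp
  | succ n ih =>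
    rw [pow_succ, coeff_single_mul, ih, map_pow]
    rcases Nat.eq_zero_or_pos n with hn | hn
    · subst hn; simp
    · obtain ⟨m, rfl⟩ : ∃ m, n = m + 1 := ⟨n - 1, by omega⟩
      simp only [Nat.add_sub_cancel]
      push_cast
      ring

theorem coeff_single_eq_zero_of_mem_span {R : Type*} [CommRing R] {σ : Type*} [LinearOrder σ]
    (l j : σ) (hlj : l ≤ j) (f : MvPowerSeries σ R)
    (hf : f ∈ Ideal.span {x | ∃ i : σ, i < l ∧ x = (X i : MvPowerSeries σ R)}) :
    coeff (Finsupp.single j 1) f = 0 := by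
  classical
  refine Submodule.span_induction ?_ ?_ ?_ ?_ hf
  · rintro x ⟨i, hi, rfl⟩
    rw [coeff_X, if_neg]
    intro h
    have : j = i := (Finsupp.single_left_injective one_ne_zero) h
    exact absurd (this ▸ hi) (not_lt.mpr hlj)
  · simp
  · intro x y _ _ hx hy
    rw [map_add, hx, hy, add_zero]
  · intro a x hx' hx
    rw [smul_eq_mul, coeff_single_mul, hx, mul_zero, add_zero]
    have h0 : constantCoeff x = 0 := by
      refine Submodule.span_induction ?_ ?_ ?_ ?_ hx'
      · rintro x ⟨i, hi, rfl⟩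
        simp
      · simp
      · intro x y _ _ hx hy
        rw [map_add, hx, hy, add_zero]
      · intro a x _ hx
        rw [smul_eq_mul, map_mul, hx, mul_zero]
    rw [h0, mul_zero]

theorem p_smul_val_of {B : Type*} [CommRing B] [UniformSpace B] [AdicRing B] {G : FormalGroup B}
    [G.IsComm] {p h : ℕ} (hp : 0 < p) {U : PowerSeries B}
    (hU : mulSeries G p = U.subst (PowerSeries.X ^ (p ^ h) : PowerSeries B)) (y : Pt G) :
    (p • y).val = ev1 (y.val ^ (p ^ h)) U := by
  rw [Pt.nsmul_val, hU, ev1_comp y.tn]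
  · congr 1
    have h1 := ev_pow (hasEval_unit y.tn) (X () : MvPowerSeries Unit B) (p ^ h)
    rw [ev_X] at h1
    exact h1
  · rw [map_pow, PowerSeries.constantCoeff_X]
    exact zero_pow (Nat.pow_pos hp).ne'

theorem mulSeries_map_subst {R S : Type*} [CommRing R] [CommRing S] (φ : R →+* S)
    {F : FormalGroup R} {V : PowerSeries R} {p h : ℕ} (hp : 0 < p)
    (hV : mulSeries F p = V.subst (PowerSeries.X ^ (p ^ h) : PowerSeries R)) :
    mulSeries (F.map φ) p = (V.map φ).subst (PowerSeries.X ^ (p ^ h) : PowerSeries S) := by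
  have hs : PowerSeries.HasSubst (PowerSeries.X ^ (p ^ h) : PowerSeries R) :=
    PowerSeries.HasSubst.X_pow (Nat.pow_pos hp).ne'
  have h1 := PowerSeries.map_subst hs (h := φ) V
  rw [mulSeries_map, hV]
  refine h1.trans ?_
  congr 1
  have h2 : (PowerSeries.X ^ (p ^ h) : PowerSeries R).map φ = PowerSeries.X ^ (p ^ h) := by
    rw [map_pow, PowerSeries.map_X]
  exact h2

theorem tn_pow {B : Type*} [CommRing B] [UniformSpace B] [AdicRing B] {x : B}
    (hx : IsTopologicallyNilpotent x) {n : ℕ} (hn : 0 < n) : IsTopologicallyNilpotent (x ^ n) := by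
  obtain ⟨m, rfl⟩ : ∃ m, n = m + 1 := ⟨n - 1, by omega⟩
  rw [pow_succ']
  exact Pt.tn_mul hx _

theorem prod_single_unit {B : Type*} [CommMonoid B] (b : B) (n : ℕ) :
    (Finsupp.single () n).prod (fun (_ : Unit) e => b ^ e) = b ^ n :=
  Finsupp.prod_single_index (h := fun _ e => b ^ e) (pow_zero b)

theorem unit_finsupp_eq_single (d : Unit →₀ ℕ) : ∃ n, d = Finsupp.single () n :=
  ⟨d (), by ext; simp⟩

section
variable {K : Type*} [NontriviallyNormedField K] [IsUltrametricDist K] [CompleteSpace K]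
  [IsAlgClosed K] {p : ℕ} [Fact p.Prime] [CharP K p]
  {k : Type*} [Field k] [CharP k p] {r h : ℕ} [Fact (0 < h)]

/-- the hypotheses on `[p]_F` over `k[[u_1, …, u_r]]` -/
structure VData (p h : ℕ) {k : Type*} [Field k] {r : ℕ} (F : FormalGroup (MvPowerSeries (Fin r) k))
    (V : PowerSeries (MvPowerSeries (Fin r) k)) : Prop where
  comm : F.IsComm
  V0 : PowerSeries.constantCoeff V = 0
  hV : mulSeries F p = V.subst (PowerSeries.X ^ (p ^ h) : PowerSeries (MvPowerSeries (Fin r) k))
  coord : ∀ j : Fin r, PowerSeries.coeff (p ^ (j : ℕ)) V - X j ∈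
    Ideal.span {x | ∃ i : Fin r, i < j ∧ x = X i}
  red : V.map (constantCoeff : MvPowerSeries (Fin r) k →+* k) = PowerSeries.X ^ (p ^ r)

variable (ι : k →+* OO K) {ξ : Fin r → OO K} (hξ : ∀ i, ‖(ξ i : K)‖ < 1)
  {F : FormalGroup (MvPowerSeries (Fin r) k)} [F.IsComm]
  {V : PowerSeries (MvPowerSeries (Fin r) k)}

theorem jac_exists_radius {K : Type*} [NontriviallyNormedField K] [IsUltrametricDist K] {r : ℕ}
    {ξ : Fin r → OO K} (hξ : ∀ i, ‖(ξ i : K)‖ < 1) :
    ∃ c : ℝ, 0 ≤ c ∧ c < 1 ∧ ∀ i, ‖(ξ i : K)‖ ≤ c := by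
  induction r with
  | zero => exact ⟨0, le_rfl, zero_lt_one, fun i => i.elim0⟩
  | succ r ih =>
    obtain ⟨c, h0, h1, hc⟩ := ih (ξ := fun i => ξ i.succ) (fun i => hξ i.succ)
    refine ⟨max c ‖(ξ 0 : K)‖, le_max_of_le_left h0, max_lt h1 (hξ 0), fun i => ?_⟩
    refine Fin.cases (le_max_right _ _) (fun i => ?_) i
    exact le_max_of_le_left (hc i)

/-- specialization of the data at a point with `u_1 ≠ 0` -/
theorem htData_spec (hr : 0 < r) (H : VData p h F V) (hne : ξ ⟨0, hr⟩ ≠ 0) :
    HtData p (F.map (spec ι hξ)) h r (V.map (spec ι hξ)) := by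
  obtain ⟨c, hc0, hc1, hc⟩ := jac_exists_radius hξ
  have hp : 0 < p := (Fact.out : p.Prime).pos
  have hred : ∀ i, constantCoeff (PowerSeries.coeff i V) = if i = p ^ r then (1 : k) else 0 := by
    intro i
    have h1 := congrArg (PowerSeries.coeff i) H.red
    rw [PowerSeries.coeff_map, PowerSeries.coeff_X_pow] at h1
    exact h1
  refine ⟨?_, ?_, mulSeries_map_subst _ hp H.hV, ?_, ?_, ?_⟩
  · infer_instance
  · have h1 : PowerSeries.constantCoeff (V.map (spec ι hξ)) =
        spec ι hξ (PowerSeries.constantCoeff V) := by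
      rw [← PowerSeries.coeff_zero_eq_constantCoeff_apply, PowerSeries.coeff_map,
        PowerSeries.coeff_zero_eq_constantCoeff_apply]
    rw [h1, H.V0, map_zero]
  · rw [PowerSeries.coeff_map]
    have h1 := H.coord ⟨0, hr⟩
    have h2 : {x : MvPowerSeries (Fin r) k | ∃ i : Fin r, i < ⟨0, hr⟩ ∧ x = X i} = ∅ := by
      ext x
      simp only [Set.mem_ofPred_eq, Set.mem_empty_iff_false, iff_false, not_exists, not_and]
      intro i hi
      exact absurd hi (by simp [Fin.lt_def])
    rw [h2, Ideal.span_empty, Ideal.mem_bot, sub_eq_zero] at h1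
    simp only [pow_zero] at h1
    rw [h1, spec_apply, MvPowerSeries.map_X, ev_X]
    exact hne
  · intro i hi
    rw [PowerSeries.coeff_map]
    have h1 := norm_spec_sub_le ι hξ hc hc0 (PowerSeries.coeff i V)
    rw [hred, if_neg hi.ne, map_zero, sub_zero] at h1
    exact h1.trans_lt hc1
  · rw [PowerSeries.coeff_map]
    have h1 := norm_spec_sub_le ι hξ hc hc0 (PowerSeries.coeff (p ^ r) V)
    rw [hred, if_pos rfl, map_one] at h1
    have h2 := h1.trans_lt hc1
    have h3 : ((spec ι hξ (PowerSeries.coeff (p ^ r) V) : OO K) : K) =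
        1 + ((spec ι hξ (PowerSeries.coeff (p ^ r) V) - 1 : OO K) : K) := by
      push_cast; ring
    rw [h3]
    have h4 : ‖(1 : K)‖ ≠ ‖((spec ι hξ (PowerSeries.coeff (p ^ r) V) - 1 : OO K) : K)‖ := by
      rw [norm_one]; exact h2.ne'
    rw [IsUltrametricDist.norm_add_eq_max_of_norm_ne_norm h4, norm_one, max_eq_left h2.le]

/-- the series `W_j` -/
noncomputable def Wser (V : PowerSeries (MvPowerSeries (Fin r) k)) (j : Fin r) :
    PowerSeries (OO K) :=
  PowerSeries.mk fun i => coeff (Finsupp.single j 1) (taylor ι hξ (PowerSeries.coeff i V))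

theorem jac_charP_OO (K : Type*) [NontriviallyNormedField K] [IsUltrametricDist K] (p : ℕ)
    [CharP K p] : CharP (OO K) p :=
  RingHom.charP (OO K).subtype Subtype.val_injective p

theorem coeff_ev1_pow (V : PowerSeries (MvPowerSeries (Fin r) k))
    {w : MvPowerSeries (Fin r) (OO K)} (hw : IsTopologicallyNilpotent w) (j : Fin r) :
    coeff (Finsupp.single j 1) (ev1 (w ^ (p ^ h)) (V.map (taylor ι hξ))) =
      ev1 ((constantCoeff w) ^ (p ^ h)) (Wser ι hξ V j) := by
  have hp : 0 < p := (Fact.out : p.Prime).pos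
  have hQ : 0 < p ^ h := Nat.pow_pos hp
  have hw' : HasEval (fun _ : Unit => w ^ (p ^ h)) := hasEval_unit (tn_pow hw hQ)
  have hw0 : IsTopologicallyNilpotent (constantCoeff w) := hw.map continuous_constantCoeff_OO
  have hw0' : HasEval (fun _ : Unit => (constantCoeff w) ^ (p ^ h)) :=
    hasEval_unit (tn_pow hw0 hQ)
  have h1 := (ev_hasSum hw' (V.map (taylor ι hξ))).map
    (coeff (R := OO K) (Finsupp.single j 1)).toAddMonoidHom
    (MvPowerSeries.WithPiTopology.continuous_coeff (OO K) (Finsupp.single j 1))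
  have h2 := ev_hasSum hw0' (Wser ι hξ V j)
  have _ := jac_charP_OO K p
  have key : ((coeff (R := OO K) (Finsupp.single j 1)).toAddMonoidHom ∘ fun d : Unit →₀ ℕ =>
      coeff d (V.map (taylor ι hξ)) * d.prod (fun _ e => (w ^ (p ^ h)) ^ e)) =
      fun d : Unit →₀ ℕ => coeff d (Wser ι hξ V j) *
        d.prod (fun _ e => ((constantCoeff w) ^ (p ^ h)) ^ e) := by
    funext d
    obtain ⟨n, rfl⟩ := unit_finsupp_eq_single d
    have e1 : (Finsupp.single () n).prod (fun (_ : Unit) e => (w ^ (p ^ h)) ^ e) =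
        (w ^ n) ^ (p ^ h) := by
      rw [prod_single_unit, ← pow_mul, ← pow_mul, mul_comm]
    have e2 : (Finsupp.single () n).prod
        (fun (_ : Unit) e => ((constantCoeff w) ^ (p ^ h)) ^ e) =
        ((constantCoeff w) ^ n) ^ (p ^ h) := by
      rw [prod_single_unit, ← pow_mul, ← pow_mul, mul_comm]
    have e3 : coeff (Finsupp.single () n) (Wser ι hξ V j) =
        coeff (Finsupp.single j 1) (taylor ι hξ (PowerSeries.coeff n V)) :=
      PowerSeries.coeff_mk n _
    have e4 : coeff (Finsupp.single () n) (V.map (taylor ι hξ)) =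
        taylor ι hξ (PowerSeries.coeff n V) := PowerSeries.coeff_map _ n V
    have e5 : ((p ^ h : ℕ) : OO K) = 0 := by
      rw [Nat.cast_pow, CharP.cast_eq_zero, zero_pow (Fact.out : 0 < h).ne']
    change coeff (Finsupp.single j 1) (coeff (Finsupp.single () n) (V.map (taylor ι hξ)) *
      (Finsupp.single () n).prod (fun (_ : Unit) e => (w ^ (p ^ h)) ^ e)) = _
    rw [e1, e4, coeff_single_mul, coeff_single_pow, e5, zero_mul, zero_mul, mul_zero, add_zero,
      map_pow, map_pow]
    change _ = coeff (Finsupp.single () n) (Wser ι hξ V j) *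
      (Finsupp.single () n).prod (fun (_ : Unit) e => ((constantCoeff w) ^ (p ^ h)) ^ e)
    rw [e2, e3]
  rw [key] at h1
  exact h1.unique h2

theorem linear_part (H : VData p h F V) (z : UC (F.map (spec ι hξ)) p) (hz : z.1 0 = 0)
    (zt : UC (F.map (taylor ι hξ)) p) (hzt : ∀ l, constantCoeff (zt.1 l).val = (z.1 l).val)
    (j : Fin r) :
    coeff (Finsupp.single j 1) (zt.1 0).val = ev1 ((z.1 1).val ^ (p ^ h)) (Wser ι hξ V j) := by
  have hp : 0 < p := (Fact.out : p.Prime).pos
  have h1 : zt.1 0 = p • zt.1 1 := (zt.2 0).symm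
  rw [h1, p_smul_val_of hp (mulSeries_map_subst (taylor ι hξ) hp H.hV), coeff_ev1_pow ι hξ _
    (zt.1 1).tn, hzt]

theorem comp_map_spec {σ : Type*} (f : MvPowerSeries σ (MvPowerSeries (Fin r) k)) :
    (MvPowerSeries.map (taylor ι hξ) f).map (constantCoeff :
      MvPowerSeries (Fin r) (OO K) →+* OO K) = MvPowerSeries.map (spec ι hξ) f := by
  rw [← constantCoeff_comp_taylor]
  ext d
  simp [MvPowerSeries.coeff_map]

theorem cc_add (w w' : Pt (F.map (taylor ι hξ))) (y y' : Pt (F.map (spec ι hξ)))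
    (hw : constantCoeff w.val = y.val) (hw' : constantCoeff w'.val = y'.val) :
    constantCoeff (w + w').val = (y + y').val := by
  have h1 := map_ev continuous_constantCoeff_OO (hasEval_pair w.tn w'.tn)
    (F.map (taylor ι hξ)).toPowerSeries
  rw [Pt.add_val, Pt.add_val, h1]
  have e1 : (fun s => constantCoeff (![w.val, w'.val] s)) = ![y.val, y'.val] := by
    funext s; fin_cases s
    · exact hw
    · exact hw'
  rw [e1]
  congr 1
  exact comp_map_spec ι hξ F.toPowerSeries

theorem cc_p_smul (hV : mulSeries F p = V.subst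
      (PowerSeries.X ^ (p ^ h) : PowerSeries (MvPowerSeries (Fin r) k)))
    (w : Pt (F.map (taylor ι hξ))) (y : Pt (F.map (spec ι hξ)))
    (hw : constantCoeff w.val = y.val) : constantCoeff (p • w).val = (p • y).val := by
  have hp : 0 < p := (Fact.out : p.Prime).pos
  have hQ : 0 < p ^ h := Nat.pow_pos hp
  rw [p_smul_val_of hp (mulSeries_map_subst _ hp hV), p_smul_val_of hp
    (mulSeries_map_subst _ hp hV)]
  have h1 := map_ev continuous_constantCoeff_OO (hasEval_unit (tn_pow w.tn hQ))
    (V.map (taylor ι hξ))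
  refine h1.trans ?_
  rw [map_pow, hw]
  unfold ev1
  congr 1
  exact comp_map_spec ι hξ V

theorem jacobian_ne_zero (hr : 0 < r) (H : VData p h F V) (hne : ξ ⟨0, hr⟩ ≠ 0)
    (ν : Fin r → Pt (F.map (spec ι hξ))) (hν : ∀ i, p • ν i = 0)
    (hspan : ∀ y : Pt (F.map (spec ι hξ)), p • y = 0 → ∃ c : Fin r → ℕ, y = ∑ i, c i • ν i) :
    (Matrix.of fun i j : Fin r => ev1 ((ν i).val ^ (p ^ h)) (Wser ι hξ V j)).det ≠ 0 := by
  intro hdet
  have hpp : p.Prime := Fact.out
  have hp : 0 < p := hpp.pos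
  have hQ : 0 < p ^ h := Nat.pow_pos hp
  have hch := jac_charP_OO K p
  have HT := htData_spec ι hξ hr H hne
  have hVu := mulSeries_map_subst (taylor ι hξ) hp H.hV
  -- the relation
  obtain ⟨κ0, hκ0, hκM⟩ := Matrix.exists_mulVec_eq_zero_iff.mpr hdet
  obtain ⟨κ, l, hκ1, hκlt, hκ⟩ : ∃ (κ : Fin r → OO K) (l : Fin r), ‖(κ l : K)‖ = 1 ∧
      (∀ j < l, ‖(κ j : K)‖ < 1) ∧
      ∀ i, ∑ j, κ j * ev1 ((ν i).val ^ (p ^ h)) (Wser ι hξ V j) = 0 := by
    have : Nonempty (Fin r) := ⟨⟨0, hr⟩⟩
    obtain ⟨j0, hj0⟩ := Finite.exists_max (fun j => ‖(κ0 j : K)‖)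
    have hpos : 0 < ‖(κ0 j0 : K)‖ := by
      rw [norm_pos_iff]
      intro h0
      apply hκ0
      funext j
      have h1 := hj0 j
      rw [h0, norm_zero] at h1
      have h2 : (κ0 j : K) = 0 := norm_le_zero_iff.mp h1
      exact Subtype.ext h2
    have hne0 : (κ0 j0 : K) ≠ 0 := norm_pos_iff.mp hpos
    set κ : Fin r → OO K := fun j => ⟨(κ0 j : K) / κ0 j0, by
      rw [mem_OO, norm_div, div_le_one hpos]
      exact hj0 j⟩ with hκdef
    obtain ⟨l, hl, hmin⟩ := WellFounded.has_min
      (wellFounded_lt : WellFounded ((· < ·) : Fin r → Fin r → Prop))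
      {j | ‖(κ j : K)‖ = 1} ⟨j0, by
        change ‖(κ0 j0 : K) / κ0 j0‖ = 1
        rw [div_self hne0, norm_one]⟩
    refine ⟨κ, l, hl, fun j hj => ?_, fun i => ?_⟩
    · exact lt_of_le_of_ne (norm_le_one (κ j)) (fun h => hmin j h hj)
    · have h1 := congrFun hκM i
      have h2 : ∑ j, ev1 ((ν i).val ^ (p ^ h)) (Wser ι hξ V j) * κ0 j = 0 := h1
      have h3 := congrArg (fun x : OO K => (x : K) / κ0 j0) h2
      simp only [AddSubmonoidClass.coe_finsetSum, Subring.coe_mul, ZeroMemClass.coe_zero,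
        zero_div, Finset.sum_div] at h3
      apply Subtype.ext
      simp only [AddSubmonoidClass.coe_finsetSum, Subring.coe_mul, ZeroMemClass.coe_zero]
      rw [← h3]
      refine Finset.sum_congr rfl fun j _ => ?_
      rw [hκdef]
      ring
  -- the series
  set W : PowerSeries (OO K) := ∑ j, PowerSeries.C (κ j) * Wser ι hξ V j with hW
  have hevW : ∀ x : OO K, ‖(x : K)‖ < 1 →
      ev1 x W = ∑ j, κ j * ev1 x (Wser ι hξ V j) := by
    intro x hx
    have hb := hasEval_OO hx
    have h1 : ∀ j, ev1 x (PowerSeries.C (κ j) * Wser ι hξ V j) =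
        κ j * ev1 x (Wser ι hξ V j) := by
      intro j
      have := ev_mul hb (C (κ j)) (Wser ι hξ V j)
      rw [ev_C] at this
      exact this
    have h2 : ev1 x W = ∑ j, ev1 x (PowerSeries.C (κ j) * Wser ι hξ V j) := by
      have := map_sum (evHom hb) (fun j => PowerSeries.C (κ j) * Wser ι hξ V j) Finset.univ
      rw [coe_evHom] at this
      refine this.trans (Finset.sum_congr rfl fun j _ => ?_)
      rw [coe_evHom]
      rfl
    rw [h2]
    exact Finset.sum_congr rfl fun j _ => h1 j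
  -- additivity
  have hadd : ∀ y y' : Pt (F.map (spec ι hξ)), p • y = 0 → p • y' = 0 → ∀ j,
      ev1 ((y + y').val ^ (p ^ h)) (Wser ι hξ V j) =
        ev1 (y.val ^ (p ^ h)) (Wser ι hξ V j) + ev1 (y'.val ^ (p ^ h)) (Wser ι hξ V j) := by
    intro y y' hy hy' j
    have hC : ∀ x : Pt (F.map (spec ι hξ)),
        IsTopologicallyNilpotent (C x.val : MvPowerSeries (Fin r) (OO K)) := fun x =>
      x.tn.map MvPowerSeries.WithPiTopology.continuous_C
    set Y : Pt (F.map (taylor ι hξ)) := ⟨C y.val, hC y⟩ with hY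
    set Y' : Pt (F.map (taylor ι hξ)) := ⟨C y'.val, hC y'⟩ with hY'
    have ha := cc_p_smul ι hξ H.hV Y y (constantCoeff_C y.val)
    have hb := cc_p_smul ι hξ H.hV Y' y' (constantCoeff_C y'.val)
    rw [hy, Pt.zero_val] at ha
    rw [hy', Pt.zero_val] at hb
    have hs : constantCoeff (Y + Y').val = (y + y').val :=
      cc_add ι hξ Y Y' y y' (constantCoeff_C y.val) (constantCoeff_C y'.val)
    have h1 : p • (Y + Y') = p • Y + p • Y' := nsmul_add _ _ _
    obtain ⟨g, hg⟩ := Pt.exists_add_val (p • Y) (p • Y')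
    have h2 : coeff (Finsupp.single j 1) (p • (Y + Y')).val =
        coeff (Finsupp.single j 1) (p • Y + p • Y').val := by rw [h1]
    rw [hg, map_add, map_add, coeff_single_mul, coeff_single_mul, map_mul, ha, hb, mul_zero,
      zero_mul, mul_zero, add_zero, zero_mul, zero_mul, add_zero, add_zero,
      p_smul_val_of hp hVu, p_smul_val_of hp hVu, p_smul_val_of hp hVu,
      coeff_ev1_pow ι hξ _ (Y + Y').tn, coeff_ev1_pow ι hξ _ Y.tn,
      coeff_ev1_pow ι hξ _ Y'.tn, hs] at h2
    have e1 : constantCoeff Y.val = y.val := constantCoeff_C y.val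
    have e2 : constantCoeff Y'.val = y'.val := constantCoeff_C y'.val
    rw [e1, e2] at h2
    exact h2
  have hWj0 : ∀ j, PowerSeries.constantCoeff (Wser ι hξ V j) = 0 := by
    intro j
    rw [← PowerSeries.coeff_zero_eq_constantCoeff_apply, Wser, PowerSeries.coeff_mk,
      PowerSeries.coeff_zero_eq_constantCoeff_apply, H.V0, map_zero, map_zero]
  have hpowlt : ∀ y : Pt (F.map (spec ι hξ)), ‖((y.val ^ (p ^ h) : OO K) : K)‖ < 1 := fun y =>
    tn_iff.mp (tn_pow y.tn hQ)
  -- all torsion points give zeros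
  let S : AddSubmonoid (Pt (F.map (spec ι hξ))) :=
    { carrier := {y | p • y = 0 ∧ ev1 (y.val ^ (p ^ h)) W = 0}
      add_mem' := by
        rintro y y' ⟨hy, hy1⟩ ⟨hy', hy1'⟩
        refine ⟨by rw [nsmul_add, hy, hy', add_zero], ?_⟩
        rw [hevW _ (hpowlt _)] at hy1 hy1' ⊢
        rw [← add_zero (0 : OO K)]
        nth_rewrite 1 [← hy1]
        rw [← hy1', ← Finset.sum_add_distrib]
        refine Finset.sum_congr rfl fun j _ => ?_
        rw [hadd y y' hy hy' j, mul_add]
      zero_mem' := by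
        refine ⟨nsmul_zero _, ?_⟩
        rw [hevW _ (hpowlt _)]
        refine Finset.sum_eq_zero fun j _ => ?_
        rw [Pt.zero_val, zero_pow hQ.ne', ev1_zero _ (hWj0 j), mul_zero] }
  have hS : ∀ y : Pt (F.map (spec ι hξ)), p • y = 0 → y ∈ S := by
    intro y hy
    obtain ⟨c, rfl⟩ := hspan y hy
    refine sum_mem fun i _ => nsmul_mem ?_ _
    refine ⟨hν i, ?_⟩
    rw [hevW _ (hpowlt _)]
    exact hκ i
  -- the coefficient of degree p^l
  have hcoef : ‖((PowerSeries.coeff (p ^ (l : ℕ)) W : OO K) : K)‖ = 1 := by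
    set f := PowerSeries.coeff (p ^ (l : ℕ)) V with hf
    have h1 : PowerSeries.coeff (p ^ (l : ℕ)) W =
        ∑ j, κ j * coeff (Finsupp.single j 1) (taylor ι hξ f) := by
      rw [hW, map_sum]
      refine Finset.sum_congr rfl fun j _ => ?_
      rw [PowerSeries.coeff_C_mul, Wser, PowerSeries.coeff_mk]
    have hlin : ∀ j, l ≤ j → coeff (Finsupp.single j 1) f = if j = l then 1 else 0 := by
      intro j hj
      have h2 := coeff_single_eq_zero_of_mem_span l j hj _ (H.coord l)
      rw [map_sub, sub_eq_zero, coeff_X] at h2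
      rw [hf, h2]
      by_cases hjl : j = l
      · subst hjl; simp
      · rw [if_neg hjl, if_neg]
        intro h3
        exact hjl ((Finsupp.single_left_injective one_ne_zero) h3)
    have hterm : ∀ j ∈ Finset.univ.erase l,
        ‖((κ j * coeff (Finsupp.single j 1) (taylor ι hξ f) : OO K) : K)‖ < 1 := by
      intro j hj
      have hjl : j ≠ l := Finset.ne_of_mem_erase hj
      rw [Subring.coe_mul, norm_mul]
      rcases lt_or_gt_of_ne hjl with h2 | h2
      · exact mul_lt_one_of_nonneg_of_lt_one_left (norm_nonneg _) (hκlt j h2) (norm_le_one _)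
      · have h3 := coeff_single_taylor ι hξ f j
        rw [hlin j h2.le, if_neg hjl, map_zero, sub_zero] at h3
        exact mul_lt_one_of_nonneg_of_lt_one_right (norm_le_one _) (norm_nonneg _) h3
    have hrest : ‖((∑ j ∈ Finset.univ.erase l,
        κ j * coeff (Finsupp.single j 1) (taylor ι hξ f) : OO K) : K)‖ < 1 := by
      refine Finset.sum_induction _ (fun x : OO K => ‖(x : K)‖ < 1) ?_ ?_ hterm
      · intro a b ha hb
        rw [Subring.coe_add]
        exact (IsUltrametricDist.norm_add_le_max _ _).trans_lt (max_lt ha hb)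
      · simp
    have hmain : ‖((κ l * coeff (Finsupp.single l 1) (taylor ι hξ f) : OO K) : K)‖ = 1 := by
      have h3 := coeff_single_taylor ι hξ f l
      rw [hlin l le_rfl, if_pos rfl, map_one] at h3
      have h4 : ((coeff (Finsupp.single l 1) (taylor ι hξ f) : OO K) : K) =
          1 + ((coeff (Finsupp.single l 1) (taylor ι hξ f) - 1 : OO K) : K) := by
        push_cast; ring
      have h5 : ‖(1 : K)‖ ≠ ‖((coeff (Finsupp.single l 1) (taylor ι hξ f) - 1 : OO K) : K)‖ := by
        rw [norm_one]; exact h3.ne'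
      rw [Subring.coe_mul, norm_mul, hκ1, one_mul, h4,
        IsUltrametricDist.norm_add_eq_max_of_norm_ne_norm h5, norm_one, max_eq_left h3.le]
    rw [h1, ← Finset.add_sum_erase _ _ (Finset.mem_univ l), Subring.coe_add,
      IsUltrametricDist.norm_add_eq_max_of_norm_ne_norm (by rw [hmain]; exact hrest.ne'), hmain,
      max_eq_left hrest.le]
  obtain ⟨hfin, hcard⟩ := zeroSet_ncard_le W (p ^ (l : ℕ)) hcoef
  have hfin' : Finite (zeroSet W) := hfin
  have hinj : Function.Injective (fun y : {y : Pt (F.map (spec ι hξ)) // p ^ 1 • y = 0} =>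
      (⟨y.1.val ^ (p ^ h), hpowlt y.1, (hS y.1 (by simpa using y.2)).2⟩ : zeroSet W)) := by
    intro y y' hyy
    have h1 : y.1.val ^ (p ^ h) = y'.1.val ^ (p ^ h) := congrArg Subtype.val hyy
    have h2 : y.1.val = y'.1.val := by
      have := iterateFrobenius_inj (OO K) p h
      exact this h1
    exact Subtype.ext (Pt.ext h2)
  have h1 := Nat.card_le_card_of_injective _ hinj
  rw [card_torsion HT 1, mul_one] at h1
  have h2 : Nat.card (zeroSet W) = (zeroSet W).ncard := rfl
  rw [h2] at h1
  have h3 : p ^ (l : ℕ) < p ^ r := Nat.pow_lt_pow_right hpp.one_lt l.2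
  omega

end
end Vale.Agent.P217
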