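import Mathlib.Algebra.CharP.Subring
import Vale.Agent.Lib.P217.Torsion
import Vale.Agent.Lib.P217.FixF

/-!
# P217: conjugation of formal group laws by power series, descent, and the series `λ`
(auxiliary results for `Lambda.lean`)
-/

set_option linter.unusedSectionVars false

namespace Vale.Agent.P217

open MvPowerSeries Filter Topology

section conj
variable {R : Type*} [CommRing R]

theorem coeff_subst_X_zero (P : MvPowerSeries (Fin 2) R) (n : ℕ) :
    PowerSeries.coeff n (subst ![PowerSeries.X, 0] P : PowerSeries R) =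
      MvPowerSeries.coeff (Finsupp.single 0 n) P := by
  have hs : MvPowerSeries.HasSubst (![PowerSeries.X, 0] : Fin 2 → PowerSeries R) :=
    HasSubst.X_zero
  rw [PowerSeries.coeff, coeff_subst hs, finsum_eq_single _ (Finsupp.single 0 n)]
  · simp [Finsupp.prod_single_index, PowerSeries.X, X_pow_eq]
  · intro d hd
    by_cases hd₁ : d 1 = 0
    · by_cases hd₂ : d 0 = n
      · exfalso
        apply hd
        ext s
        fin_cases s
        · simp [hd₂]
        · simp [hd₁]
      · have h1 : (d.prod fun s e => (![PowerSeries.X, 0] s : PowerSeries R) ^ e) =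
            PowerSeries.X ^ (d 0) := by
          rw [Finsupp.prod_fintype _ _ (by simp)]
          simp [hd₁]
        have h2 : MvPowerSeries.coeff (Finsupp.single () n)
            (d.prod fun s e => (![PowerSeries.X, 0] s : PowerSeries R) ^ e) = 0 := by
          rw [h1]
          have := PowerSeries.coeff_X_pow (R := R) n (d 0)
          rw [PowerSeries.coeff] at this
          rw [this, if_neg (fun h => hd₂ h.symm)]
        rw [h2, smul_zero]
    · have h1 : (d.prod fun s e => (![PowerSeries.X, 0] s : PowerSeries R) ^ e) = 0 := by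
        rw [Finsupp.prod_fintype _ _ (by simp)]
        simp [hd₁]
      rw [h1]
      simp

theorem coeff_subst_zero_X (P : MvPowerSeries (Fin 2) R) (n : ℕ) :
    PowerSeries.coeff n (subst ![0, PowerSeries.X] P : PowerSeries R) =
      MvPowerSeries.coeff (Finsupp.single 1 n) P := by
  have hs : MvPowerSeries.HasSubst (![0, PowerSeries.X] : Fin 2 → PowerSeries R) :=
    HasSubst.zero_X
  rw [PowerSeries.coeff, coeff_subst hs, finsum_eq_single _ (Finsupp.single 1 n)]
  · simp [Finsupp.prod_single_index, PowerSeries.X, X_pow_eq]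
  · intro d hd
    by_cases hd₁ : d 0 = 0
    · by_cases hd₂ : d 1 = n
      · exfalso
        apply hd
        ext s
        fin_cases s
        · simp [hd₁]
        · simp [hd₂]
      · have h1 : (d.prod fun s e => (![0, PowerSeries.X] s : PowerSeries R) ^ e) =
            PowerSeries.X ^ (d 1) := by
          rw [Finsupp.prod_fintype _ _ (by simp)]
          simp [hd₁]
        have h2 : MvPowerSeries.coeff (Finsupp.single () n)
            (d.prod fun s e => (![0, PowerSeries.X] s : PowerSeries R) ^ e) = 0 := by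
          rw [h1]
          have := PowerSeries.coeff_X_pow (R := R) n (d 1)
          rw [PowerSeries.coeff] at this
          rw [this, if_neg (fun h => hd₂ h.symm)]
        rw [h2, smul_zero]
    · have h1 : (d.prod fun s e => (![0, PowerSeries.X] s : PowerSeries R) ^ e) = 0 := by
        rw [Finsupp.prod_fintype _ _ (by simp)]
        simp [hd₁]
      rw [h1]
      simp

/-- the series `l(F(m(X), m(Y)))` -/
noncomputable def conjSeries (F : FormalGroup R) (l m : PowerSeries R) :
    MvPowerSeries (Fin 2) R :=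
  PowerSeries.subst (subst ![PowerSeries.subst (X 0 : MvPowerSeries (Fin 2) R) m,
    PowerSeries.subst (X 1 : MvPowerSeries (Fin 2) R) m] F.toPowerSeries) l

theorem conjSeries_apply {F : FormalGroup R} {l m : PowerSeries R}
    (hm : PowerSeries.constantCoeff m = 0) {σ : Type*} {a b : MvPowerSeries σ R}
    (ha : PowerSeries.HasSubst a) (hb : PowerSeries.HasSubst b) :
    subst ![a, b] (conjSeries F l m) =
      PowerSeries.subst (subst ![PowerSeries.subst a m, PowerSeries.subst b m]
        F.toPowerSeries) l := by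
  have hab := hasSubst_pair ha hb
  have h0 := hasSubst_psubst (hasSubst_X (R := R) (0 : Fin 2)) hm
  have h1 := hasSubst_psubst (hasSubst_X (R := R) (1 : Fin 2)) hm
  rw [conjSeries, subst_psubst (hasSubst_subst (hasSubst_pair h0 h1) (hasSubst_F F)) hab,
    subst_pair_subst h0 h1 hab, subst_psubst (hasSubst_X 0) hab, subst_psubst (hasSubst_X 1) hab,
    subst_X hab, subst_X hab]
  rfl

theorem hasSubst_Fpair (F : FormalGroup R) {σ : Type*} {a b : MvPowerSeries σ R}
    (ha : PowerSeries.HasSubst a) (hb : PowerSeries.HasSubst b) :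
    PowerSeries.HasSubst (subst ![a, b] F.toPowerSeries) :=
  hasSubst_subst (hasSubst_pair ha hb) (hasSubst_F F)

/-- composition of one-variable series with a multivariate one -/
theorem psubst_psubst {σ : Type*} {a : MvPowerSeries σ R} (ha : PowerSeries.HasSubst a)
    {l m : PowerSeries R} (hl : PowerSeries.constantCoeff l = 0)
    (hml : PowerSeries.subst l m = PowerSeries.X) :
    PowerSeries.subst (PowerSeries.subst a l) m = a := by
  rw [← PowerSeries.subst_comp_subst_apply (PowerSeries.HasSubst.of_constantCoeff_zero' hl) ha,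
    hml, PowerSeries.subst_X ha]

/-- conjugation of a formal group law by an invertible series -/
noncomputable def conj (F : FormalGroup R) (l m : PowerSeries R)
    (hl : PowerSeries.constantCoeff l = 0) (hm : PowerSeries.constantCoeff m = 0)
    (hlm : PowerSeries.subst m l = PowerSeries.X) (hml : PowerSeries.subst l m = PowerSeries.X) :
    FormalGroup R where
  toPowerSeries := conjSeries F l m
  zero_constantCoeff := by
    have h0 := PowerSeries.constantCoeff_subst_eq_zero
      (a := (X 0 : MvPowerSeries (Fin 2) R)) (by simp) m hm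
    have h1 := PowerSeries.constantCoeff_subst_eq_zero
      (a := (X 1 : MvPowerSeries (Fin 2) R)) (by simp) m hm
    rw [conjSeries]
    refine PowerSeries.constantCoeff_subst_eq_zero ?_ l hl
    obtain ⟨H, hH⟩ := exists_toPowerSeries_eq F
    rw [subst_pair_eq hH (hasSubst_psubst (hasSubst_X 0) hm) (hasSubst_psubst (hasSubst_X 1) hm),
      map_add, map_add, map_mul, map_mul, h0, h1]
    simp
  lin_coeff_X := by
    have h := coeff_subst_X_zero (conjSeries F l m) 1
    rw [conjSeries_apply hm PowerSeries.HasSubst.X' PowerSeries.HasSubst.zero,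
      PowerSeries.subst_zero_of_constantCoeff_zero hm] at h
    have hX : PowerSeries.subst (PowerSeries.X : PowerSeries R) m = m := PowerSeries.X_subst m
    have hm' := PowerSeries.HasSubst.of_constantCoeff_zero' hm
    have h2 : (subst ![m, 0] F.toPowerSeries : PowerSeries R) = m := by
      obtain ⟨H, hH⟩ := exists_toPowerSeries_eq F
      rw [subst_pair_eq hH hm' PowerSeries.HasSubst.zero]
      simp
    rw [hX, h2, hlm, PowerSeries.coeff_one_X] at h
    exact h.symm
  lin_coeff_Y := by
    have h := coeff_subst_zero_X (conjSeries F l m) 1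
    rw [conjSeries_apply hm PowerSeries.HasSubst.zero PowerSeries.HasSubst.X',
      PowerSeries.subst_zero_of_constantCoeff_zero hm] at h
    have hX : PowerSeries.subst (PowerSeries.X : PowerSeries R) m = m := PowerSeries.X_subst m
    have hm' := PowerSeries.HasSubst.of_constantCoeff_zero' hm
    have h2 : (subst ![0, m] F.toPowerSeries : PowerSeries R) = m := by
      obtain ⟨H, hH⟩ := exists_toPowerSeries_eq F
      rw [subst_pair_eq hH PowerSeries.HasSubst.zero hm']
      simp
    rw [hX, h2, hlm, PowerSeries.coeff_one_X] at h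
    exact h.symm
  assoc := by
    have hY : ∀ i : Fin 3, PowerSeries.HasSubst (X i : MvPowerSeries (Fin 3) R) := hasSubst_X
    have hmY : ∀ i : Fin 3,
        PowerSeries.HasSubst (PowerSeries.subst (X i : MvPowerSeries (Fin 3) R) m) :=
      fun i => hasSubst_psubst (hY i) hm
    have key : ∀ i j : Fin 3, PowerSeries.HasSubst
        (subst ![(X i : MvPowerSeries (Fin 3) R), X j] (conjSeries F l m)) := by
      intro i j
      rw [conjSeries_apply hm (hY i) (hY j)]
      exact hasSubst_psubst (hasSubst_Fpair F (hmY i) (hmY j)) hl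
    rw [conjSeries_apply hm (key 0 1) (hY 2), conjSeries_apply hm (hY 0) (key 1 2),
      conjSeries_apply hm (hY 0) (hY 1), conjSeries_apply hm (hY 1) (hY 2),
      psubst_psubst (hasSubst_Fpair F (hmY 0) (hmY 1)) hl hml,
      psubst_psubst (hasSubst_Fpair F (hmY 1) (hmY 2)) hl hml]
    congr 1
    exact F.assoc' (hmY 0) (hmY 1) (hmY 2)

theorem conj_isComm (F : FormalGroup R) [F.IsComm] (l m : PowerSeries R)
    (hl : PowerSeries.constantCoeff l = 0) (hm : PowerSeries.constantCoeff m = 0)
    (hlm : PowerSeries.subst m l = PowerSeries.X) (hml : PowerSeries.subst l m = PowerSeries.X) :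
    (conj F l m hl hm hlm hml).IsComm where
  comm := by
    change conjSeries F l m = subst ![X 1, X 0] (conjSeries F l m)
    rw [conjSeries_apply hm (hasSubst_X 1) (hasSubst_X 0), conjSeries]
    congr 1
    exact FormalGroup.comm' F (hasSubst_psubst (hasSubst_X 0) hm) (hasSubst_psubst (hasSubst_X 1) hm)

theorem conj_isHom (F : FormalGroup R) (l m : PowerSeries R)
    (hl : PowerSeries.constantCoeff l = 0) (hm : PowerSeries.constantCoeff m = 0)
    (hlm : PowerSeries.subst m l = PowerSeries.X) (hml : PowerSeries.subst l m = PowerSeries.X) :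
    IsHom F (conj F l m hl hm hlm hml) l := by
  refine ⟨hl, ?_⟩
  change _ = subst _ (conjSeries F l m)
  rw [conjSeries_apply hm (hasSubst_psubst (hasSubst_X 0) hl) (hasSubst_psubst (hasSubst_X 1) hl),
    psubst_psubst (hasSubst_X 0) hl hml, psubst_psubst (hasSubst_X 1) hl hml, subst_pair_X]

/-- two targets of the same homomorphism with invertible series agree -/
theorem isHom_target_unique {F G G' : FormalGroup R} {f g : PowerSeries R} (hf : IsHom F G f)
    (hf' : IsHom F G' f) (hg : PowerSeries.constantCoeff g = 0)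
    (hfg : PowerSeries.subst g f = PowerSeries.X) : G = G' := by
  have h0 := hasSubst_psubst (hasSubst_X (R := R) (0 : Fin 2)) hg
  have h1 := hasSubst_psubst (hasSubst_X (R := R) (1 : Fin 2)) hg
  have e := hf.apply h0 h1
  have e' := hf'.apply h0 h1
  rw [psubst_psubst (hasSubst_X 0) hg hfg, psubst_psubst (hasSubst_X 1) hg hfg, subst_pair_X]
    at e e'
  exact FormalGroup.ext (e.symm.trans e')

end conj

section descent
variable {R S : Type*} [CommRing R] [CommRing S] {φ : R →+* S} (hφ : Function.Injective φ)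
include hφ

theorem mv_map_injective {σ : Type*} {a b : MvPowerSeries σ R} (h : a.map φ = b.map φ) :
    a = b := by
  ext d
  apply hφ
  rw [← MvPowerSeries.coeff_map, ← MvPowerSeries.coeff_map, h]

theorem ps_map_injective {a b : PowerSeries R}
    (h : PowerSeries.map φ a = PowerSeries.map φ b) : a = b := by
  ext d
  apply hφ
  rw [← PowerSeries.coeff_map, ← PowerSeries.coeff_map, h]

theorem exists_descent (G : FormalGroup S) (hG : ∀ d, ∃ c, φ c = MvPowerSeries.coeff d
    G.toPowerSeries) : ∃ G' : FormalGroup R, G'.map φ = G := by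
  obtain ⟨c, hc⟩ : ∃ c : MvPowerSeries (Fin 2) R, ∀ d, φ (MvPowerSeries.coeff d c) =
      MvPowerSeries.coeff d G.toPowerSeries := by
    choose c hc using hG
    exact ⟨c, hc⟩
  have hmap : MvPowerSeries.map φ (c : MvPowerSeries (Fin 2) R) = G.toPowerSeries := by
    ext d
    rw [MvPowerSeries.coeff_map]
    exact hc d
  have hcc : MvPowerSeries.constantCoeff (c : MvPowerSeries (Fin 2) R) = 0 := by
    apply hφ
    have h := congrArg MvPowerSeries.constantCoeff hmap
    rw [MvPowerSeries.constantCoeff_map, G.zero_constantCoeff] at h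
    rw [h, map_zero]
  have hs : PowerSeries.HasSubst (c : MvPowerSeries (Fin 2) R) :=
    PowerSeries.HasSubst.of_constantCoeff_zero hcc
  have hY : ∀ i : Fin 3, PowerSeries.HasSubst (X i : MvPowerSeries (Fin 3) R) := hasSubst_X
  refine ⟨⟨c, hcc, ?_, ?_, ?_⟩, FormalGroup.ext hmap⟩
  · apply hφ
    have h := congrArg (MvPowerSeries.coeff (Finsupp.single 0 1)) hmap
    rw [MvPowerSeries.coeff_map, G.lin_coeff_X] at h
    rw [h, map_one]
  · apply hφ
    have h := congrArg (MvPowerSeries.coeff (Finsupp.single 1 1)) hmap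
    rw [MvPowerSeries.coeff_map, G.lin_coeff_Y] at h
    rw [h, map_one]
  · apply mv_map_injective hφ
    have h01 : PowerSeries.HasSubst (subst ![(X 0 : MvPowerSeries (Fin 3) R), X 1]
        (c : MvPowerSeries (Fin 2) R)) := hasSubst_subst (hasSubst_pair (hY 0) (hY 1)) hs
    have h12 : PowerSeries.HasSubst (subst ![(X 1 : MvPowerSeries (Fin 3) R), X 2]
        (c : MvPowerSeries (Fin 2) R)) := hasSubst_subst (hasSubst_pair (hY 1) (hY 2)) hs
    rw [map_subst_pair φ h01 (hY 2), map_subst_pair φ (hY 0) h12,
      map_subst_pair φ (hY 0) (hY 1), map_subst_pair φ (hY 1) (hY 2), hmap]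
    simp only [MvPowerSeries.map_X]
    exact G.assoc

theorem isComm_of_map {G : FormalGroup R} (hG : (G.map φ).IsComm) : G.IsComm where
  comm := by
    apply mv_map_injective hφ
    rw [map_subst_pair φ (hasSubst_X 1) (hasSubst_X 0), map_X, map_X]
    exact hG.comm

theorem isHom_of_map {F G : FormalGroup R} {f : PowerSeries R}
    (h : IsHom (F.map φ) (G.map φ) (f.map φ)) : IsHom F G f := by
  have h0 : PowerSeries.constantCoeff f = 0 := by
    apply hφ
    have h1 := h.1
    rw [← PowerSeries.coeff_zero_eq_constantCoeff_apply, PowerSeries.coeff_map,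
      PowerSeries.coeff_zero_eq_constantCoeff_apply] at h1
    rw [h1, map_zero]
  refine ⟨h0, ?_⟩
  apply mv_map_injective hφ
  rw [PowerSeries.map_subst (hasSubst_F F), map_subst_pair φ
    (hasSubst_psubst (hasSubst_X 0) h0) (hasSubst_psubst (hasSubst_X 1) h0),
    PowerSeries.map_subst (hasSubst_X 0), PowerSeries.map_subst (hasSubst_X 1), map_X, map_X]
  exact h.2

end descent

section recursion

/-- recursion on all smaller values -/
noncomputable def seqRec {A : Type*} [Zero A] (S : ℕ → (ℕ → A) → A) (n : ℕ) : A :=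
  S n (fun i => if _h : i < n then seqRec S i else 0)
termination_by n

theorem exists_seq {A : Type*} [Zero A] (P : ℕ → (ℕ → A) → A → Prop)
    (hP : ∀ j g, ∃ x, P j g x)
    (hloc : ∀ j g g' x, (∀ i < j, g i = g' i) → P j g x → P j g' x) :
    ∃ f : ℕ → A, ∀ j, P j f (f j) := by
  choose S hS using hP
  refine ⟨seqRec S, fun j => ?_⟩
  have h := hS j (fun i => if _h : i < j then seqRec S i else 0)
  have e : seqRec S j = S j (fun i => if _h : i < j then seqRec S i else 0) := by
    rw [seqRec]
  rw [← e] at h
  refine hloc j _ _ _ ?_ h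
  intro i hi
  simp [hi]

theorem coeff_subst_eq_sum {R : Type*} [CommRing R] (f V : PowerSeries R)
    (hV : PowerSeries.constantCoeff V = 0) (j : ℕ) :
    PowerSeries.coeff j (PowerSeries.subst V f) =
      ∑ i ∈ Finset.range j, PowerSeries.coeff i f * PowerSeries.coeff j (V ^ i) +
        PowerSeries.coeff j f * PowerSeries.coeff 1 V ^ j := by
  obtain ⟨W, rfl⟩ := PowerSeries.X_dvd_iff.mpr hV
  have h1 : ∀ i, j < i → PowerSeries.coeff j ((PowerSeries.X * W) ^ i) = 0 := by
    intro i hi
    rw [mul_pow]
    exact PowerSeries.X_pow_dvd_iff.1 (dvd_mul_right _ _) j hi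
  have h2 : PowerSeries.coeff j ((PowerSeries.X * W) ^ j) =
      PowerSeries.coeff 1 (PowerSeries.X * W) ^ j := by
    have e1 : PowerSeries.coeff 1 (PowerSeries.X * W) = PowerSeries.coeff 0 W :=
      PowerSeries.coeff_succ_X_mul 0 W
    rw [e1, mul_pow, PowerSeries.coeff_X_pow_mul', if_pos le_rfl, Nat.sub_self,
      PowerSeries.coeff_zero_eq_constantCoeff_apply, PowerSeries.coeff_zero_eq_constantCoeff_apply,
      map_pow]
  rw [PowerSeries.coeff_subst' (PowerSeries.HasSubst.of_constantCoeff_zero' hV),
    finsum_eq_sum_of_support_subset (s := Finset.range (j + 1)), Finset.sum_range_succ, h2]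
  · rfl
  · intro i hi
    simp only [Function.mem_support] at hi
    rw [Finset.coe_range, Set.mem_Iio]
    by_contra hlt
    apply hi
    rw [h1 i (by omega), smul_zero]

end recursion

section
variable {K : Type*} [NontriviallyNormedField K] [IsUltrametricDist K] [CompleteSpace K]
  [IsAlgClosed K] {p : ℕ} [Fact p.Prime] [CharP K p]

theorem exists_root_OO {Q : ℕ} (hQ : 2 ≤ Q) (b c : OO K) : ∃ x : OO K, x ^ Q = b * x + c := by
  let P : Polynomial K := Polynomial.X ^ Q -
    (Polynomial.C (b : K) * Polynomial.X + Polynomial.C (c : K))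
  have hlt : (Polynomial.C (b : K) * Polynomial.X + Polynomial.C (c : K)).degree <
      (Q : WithBot ℕ) := by
    refine lt_of_le_of_lt Polynomial.degree_linear_le ?_
    exact_mod_cast (by omega : 1 < Q)
  have hdeg : P.degree = (Q : WithBot ℕ) := by
    simp only [P]
    rw [Polynomial.degree_sub_eq_left_of_degree_lt]
    · exact Polynomial.degree_X_pow Q
    · rw [Polynomial.degree_X_pow]
      exact hlt
  obtain ⟨x, hx⟩ := IsAlgClosed.exists_root P (by
    rw [hdeg]
    exact_mod_cast (by omega : Q ≠ 0))
  have hx' : x ^ Q = (b : K) * x + (c : K) := by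
    simp only [P, Polynomial.IsRoot, Polynomial.eval_sub, Polynomial.eval_pow,
      Polynomial.eval_X, Polynomial.eval_add, Polynomial.eval_mul, Polynomial.eval_C] at hx
    exact sub_eq_zero.mp hx
  have hn : ‖x‖ ≤ 1 := by
    by_contra hlt
    rw [not_le] at hlt
    have h1 : ‖x‖ ^ Q ≤ ‖x‖ := by
      rw [← norm_pow, hx']
      refine (IsUltrametricDist.norm_add_le_max _ _).trans (max_le ?_ ?_)
      · rw [norm_mul]
        calc ‖(b : K)‖ * ‖x‖ ≤ 1 * ‖x‖ := by gcongr; exact norm_le_one b
          _ = ‖x‖ := one_mul _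
      · exact (norm_le_one c).trans hlt.le
    have h3 : ‖x‖ ^ 1 < ‖x‖ ^ Q := pow_lt_pow_right₀ hlt (by omega)
    rw [pow_one] at h3
    exact absurd (lt_of_lt_of_le h3 h1) (lt_irrefl _)
  exact ⟨⟨x, hn⟩, Subtype.ext hx'⟩

theorem exists_root_OO' {Q : ℕ} (hQ : 2 ≤ Q) {b : OO K} (hb : b ≠ 0) :
    ∃ x : OO K, x ≠ 0 ∧ x ^ Q = b * x := by
  obtain ⟨x, hx⟩ := IsAlgClosed.exists_pow_nat_eq (b : K) (show 0 < Q - 1 by omega)
  have hn : ‖x‖ ≤ 1 := by
    by_contra hlt
    rw [not_le] at hlt
    have h3 : 1 < ‖x‖ ^ (Q - 1) := one_lt_pow₀ hlt (by omega)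
    rw [← norm_pow, hx] at h3
    exact absurd (norm_le_one b) (not_le.mpr h3)
  have hb' : (b : K) ≠ 0 := fun h => hb (Subtype.ext h)
  refine ⟨⟨x, hn⟩, ?_, ?_⟩
  · intro h
    have h1 : x = 0 := congrArg Subtype.val h
    rw [h1, zero_pow (by omega)] at hx
    exact hb' hx.symm
  · apply Subtype.ext
    change x ^ Q = (b : K) * x
    rw [← hx, ← pow_succ]
    congr 1
    omega

instance : CharP (OO K) p := inferInstance

/-- the series `λ` -/
theorem exists_lam {h : ℕ} (hh : 0 < h) (V : PowerSeries (OO K))
    (hV : PowerSeries.constantCoeff V = 0) (ha : PowerSeries.coeff 1 V ≠ 0) :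
    ∃ lam : PowerSeries (OO K), PowerSeries.constantCoeff lam = 0 ∧
      PowerSeries.coeff 1 lam ≠ 0 ∧
      PowerSeries.subst V lam = lam.map (iterateFrobenius (OO K) p h) := by
  have hQ : 2 ≤ p ^ h := by
    have h1 : p ^ 1 ≤ p ^ h := Nat.pow_le_pow_right (Fact.out : p.Prime).pos hh
    rw [pow_one] at h1
    exact le_trans (Fact.out : p.Prime).two_le h1
  obtain ⟨f, hf⟩ := exists_seq (A := OO K) (fun j g x =>
    (j = 0 → x = 0) ∧ (j = 1 → x ≠ 0) ∧
      (j ≠ 0 → x ^ (p ^ h) = PowerSeries.coeff 1 V ^ j * x +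
        ∑ i ∈ Finset.range j, (if i = 0 then 0 else g i) * PowerSeries.coeff j (V ^ i))) (by
    intro j g
    rcases Nat.lt_trichotomy j 1 with hj | hj | hj
    · have hj0 : j = 0 := by omega
      exact ⟨0, fun _ => rfl, fun h => absurd h (by omega), fun h => absurd hj0 h⟩
    · subst hj
      obtain ⟨x, hx, hx'⟩ := exists_root_OO' hQ ha
      refine ⟨x, fun h => absurd h one_ne_zero, fun _ => hx, fun _ => ?_⟩
      rw [hx']
      simp
    · obtain ⟨x, hx⟩ := exists_root_OO hQ (PowerSeries.coeff 1 V ^ j)
        (∑ i ∈ Finset.range j, (if i = 0 then 0 else g i) * PowerSeries.coeff j (V ^ i))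
      exact ⟨x, fun h => absurd h (by omega), fun h => absurd h (by omega), fun _ => hx⟩) (by
    intro j g g' x hg hx
    refine ⟨hx.1, hx.2.1, fun hj => ?_⟩
    rw [hx.2.2 hj]
    congr 1
    refine Finset.sum_congr rfl fun i hi => ?_
    rw [hg i (Finset.mem_range.mp hi)])
  have hf0 : f 0 = 0 := (hf 0).1 rfl
  refine ⟨PowerSeries.mk f, ?_, ?_, ?_⟩
  · rw [← PowerSeries.coeff_zero_eq_constantCoeff_apply, PowerSeries.coeff_mk, hf0]
  · rw [PowerSeries.coeff_mk]
    exact (hf 1).2.1 rfl
  · ext1 j
    rw [coeff_subst_eq_sum _ _ hV, PowerSeries.coeff_map, PowerSeries.coeff_mk,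
      iterateFrobenius_def]
    by_cases hj : j = 0
    · subst hj
      rw [hf0, zero_pow (by omega)]
      simp
    · rw [(hf j).2.2 hj, add_comm, mul_comm (f j)]
      congr 1
      refine Finset.sum_congr rfl fun i _ => ?_
      rw [PowerSeries.coeff_mk]
      by_cases hi : i = 0
      · subst hi
        rw [hf0]
        simp
      · rw [if_neg hi]

end

end Vale.Agent.P217
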