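import Vale.Agent.Lib.P217.Torsion
import Vale.Agent.Lib.P217.FixF
import Vale.Agent.Lib.P217.LambdaConj

/-!
# P217: the homomorphism `λ : F → G` to a formal group law over `F_Q` (module A12)

Setting of `Torsion.lean` (`HtData`), `Q = p^h`, `h ≥ 1`, `a = V'(0) ≠ 0`.

`exists_lambda`.  Construct `λ = ∑_{j ≥ 1} λ_j X^j` with `λ(V(Y)) = λ^{(Q)}(Y) := ∑ λ_j^Q Y^j` by
recursion: the coefficient of `Y^j` is `a^j λ_j + (polynomial in λ_i, i < j, over OO K) = λ_j^Q`.
For `j = 1` take `λ_1 ≠ 0` with `λ_1^{Q-1} = a`; for `j > 1` take any root in `K` of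
`y^Q - a^j y - c_j`; it lies in `OO K` (monic equation over `OO K`).  Then
`λ([p]_F(X)) = λ(V(X^Q)) = λ^{(Q)}(X^Q) = λ(X)^Q`.
Over `K` put `G = λ F(λ^{-1} X, λ^{-1} Y)`, a formal group law.
With `F^{(Q)} = F.map (iterateFrobenius)` and `V : F^{(Q)} → F` a homomorphism
(`isHom_of_frobenius_factor`), `G^{(Q)} ∘ (λ^{(Q)}, λ^{(Q)}) = λ^{(Q)} ∘ F^{(Q)} = λ ∘ V ∘ F^{(Q)} =
λ ∘ F ∘ (V, V) = G ∘ (λ V, λ V) = G ∘ (λ^{(Q)}, λ^{(Q)})`, so `G^{(Q)} = G`: the coefficients of `G` are in
`FixF K p h`.  `[p]_G ∘ λ = λ ∘ [p]_F = λ^Q`, so `[p]_G = X^Q`.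

`lambda_eq_zero`: the kernel of `λ` on points is torsion: `‖λ(y)‖ = ‖λ_1‖ ‖y‖` for small `y`, and
`λ(p^m • y) = λ(y)^{Q^m}`, `p^m • y → 0`.
-/

set_option linter.unusedSectionVars false

namespace Vale.Agent.P217

open MvPowerSeries Filter Topology

section
variable {K : Type*} [NontriviallyNormedField K] [IsUltrametricDist K] [CompleteSpace K]
  [IsAlgClosed K] {p : ℕ} [Fact p.Prime] [CharP K p]
variable {F : FormalGroup (OO K)} [F.IsComm] {h r : ℕ} [Fact (0 < h)] {V : PowerSeries (OO K)}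

/-- `lam : F → G` is a homomorphism to a formal group law over `FixF K p h` with `[p]_G = X^{p^h}`. -/
structure LamData (F : FormalGroup (OO K)) (G : FormalGroup (FixF K p h))
    (lam : PowerSeries (OO K)) : Prop where
  comm : G.IsComm
  pG : mulSeries G p = PowerSeries.X ^ (p ^ h)
  hom : IsHom F (G.map (algebraMap (FixF K p h) (OO K))) lam
  ne : PowerSeries.coeff 1 lam ≠ 0
  frob : lam.subst (mulSeries F p) = lam ^ (p ^ h)

theorem exists_lambda (H : HtData p F h r V) :
    ∃ (G : FormalGroup (FixF K p h)) (lam : PowerSeries (OO K)), LamData F G lam := by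
  have hh : 0 < h := Fact.out
  have hQ0 : p ^ h ≠ 0 := pow_ne_zero _ (Fact.out : p.Prime).ne_zero
  obtain ⟨lam, hl0, hl1, hlV⟩ := exists_lam (p := p) hh V H.V0 H.ne
  have hVs : PowerSeries.HasSubst V := PowerSeries.HasSubst.of_constantCoeff_zero' H.V0
  have hXs : PowerSeries.HasSubst (PowerSeries.X ^ (p ^ h) : PowerSeries (OO K)) :=
    PowerSeries.HasSubst.X_pow hQ0
  have hfrob : lam.subst (mulSeries F p) = lam ^ (p ^ h) := by
    rw [H.hV, ← PowerSeries.subst_comp_subst_apply hVs hXs, hlV, ← pow_eq_subst]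
  -- over `K`
  let φ : OO K →+* K := (OO K).subtype
  have hφ : Function.Injective φ := Subtype.val_injective
  set lK : PowerSeries K := lam.map φ with hlK
  have hK0 : PowerSeries.constantCoeff lK = 0 := by
    rw [hlK, ← PowerSeries.coeff_zero_eq_constantCoeff_apply, PowerSeries.coeff_map,
      PowerSeries.coeff_zero_eq_constantCoeff_apply, hl0, map_zero]
  have hK1 : PowerSeries.coeff 1 lK ≠ 0 := by
    rw [hlK, PowerSeries.coeff_map]
    exact fun h' => hl1 (hφ (h'.trans (map_zero φ).symm))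
  have hKu : IsUnit (PowerSeries.coeff 1 lK) := isUnit_iff_ne_zero.mpr hK1
  set mK : PowerSeries K := lK.substInvOfIsUnit hKu with hmK
  have hm0 : PowerSeries.constantCoeff mK = 0 := PowerSeries.constantCoeff_substInvOfIsUnit _ _
  have hlm : PowerSeries.subst mK lK = PowerSeries.X :=
    PowerSeries.subst_substInvOfIsUnit_right lK hK0 hKu
  have hml : PowerSeries.subst lK mK = PowerSeries.X :=
    PowerSeries.subst_substInvOfIsUnit_left lK hK0 hKu
  set GK : FormalGroup K := conj (F.map φ) lK mK hK0 hm0 hlm hml with hGK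
  have hGKcomm : GK.IsComm := conj_isComm (F.map φ) lK mK hK0 hm0 hlm hml
  have hom : IsHom (F.map φ) GK lK := conj_isHom (F.map φ) lK mK hK0 hm0 hlm hml
  -- `[p]_G = X^Q`
  have hlKs : PowerSeries.HasSubst lK := PowerSeries.HasSubst.of_constantCoeff_zero' hK0
  have hmKs : PowerSeries.HasSubst mK := PowerSeries.HasSubst.of_constantCoeff_zero' hm0
  have hpG : mulSeries GK p = PowerSeries.X ^ (p ^ h) := by
    have h1 := hom.comp_mulSeries p
    rw [mulSeries_map] at h1
    have h2 : PowerSeries.subst (PowerSeries.map φ (mulSeries F p)) lK = lK ^ (p ^ h) := by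
      have h3 := congrArg (PowerSeries.map φ) hfrob
      rw [map_pow] at h3
      have h4 : PowerSeries.map φ (PowerSeries.subst (mulSeries F p) lam) =
          PowerSeries.subst (PowerSeries.map φ (mulSeries F p)) lK :=
        PowerSeries.map_subst (hasSubst_mulSeries F p) lam
      rw [← h4, h3]
    rw [h2] at h1
    have h5 := congrArg (PowerSeries.subst mK) h1
    rw [PowerSeries.subst_pow hmKs, hlm, PowerSeries.subst_comp_subst_apply hlKs hmKs, hlm] at h5
    rw [h5]
    exact (PowerSeries.X_subst _).symm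
  -- `G^{(Q)} = G`
  let fr : K →+* K := iterateFrobenius K p h
  have hVhom : IsHom (F.map (iterateFrobenius (OO K) p h)) F V :=
    isHom_of_frobenius_factor p (isHom_mulSeries F p) h V H.V0 H.hV
  have e1 : IsHom ((F.map φ).map fr) (GK.map fr) (lK.map fr) := hom.map fr
  have e2 : (F.map φ).map fr = (F.map (iterateFrobenius (OO K) p h)).map φ := by
    apply FormalGroup.ext
    ext d
    simp only [FormalGroup.map_toPowerSeries, MvPowerSeries.coeff_map]
    rfl
  have e3 : PowerSeries.subst (V.map φ) lK = lK.map fr := by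
    have h1 := congrArg (PowerSeries.map φ) hlV
    have h2 : PowerSeries.map φ (PowerSeries.subst V lam) =
        PowerSeries.subst (PowerSeries.map φ V) lK := PowerSeries.map_subst hVs lam
    rw [h2] at h1
    rw [h1]
    ext d
    simp only [PowerSeries.coeff_map, hlK]
    rfl
  have e4 : IsHom ((F.map φ).map fr) GK (lK.map fr) := by
    rw [e2, ← e3]
    exact (hVhom.map φ).comp hom
  have hfr0 : PowerSeries.constantCoeff (lK.map fr) = 0 := e1.1
  have hfru : IsUnit (PowerSeries.coeff 1 (lK.map fr)) := by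
    rw [PowerSeries.coeff_map]
    exact hKu.map fr
  have e5 : GK.map fr = GK := isHom_target_unique e1 e4
    (PowerSeries.constantCoeff_substInvOfIsUnit _ hfru)
    (PowerSeries.subst_substInvOfIsUnit_right _ hfr0 hfru)
  -- descent
  have hψ : Function.Injective (FixF K p h).subtype := Subtype.val_injective
  obtain ⟨G, hG⟩ := exists_descent hψ GK (fun d => by
    have h1 : fr (MvPowerSeries.coeff d GK.toPowerSeries) =
        MvPowerSeries.coeff d GK.toPowerSeries := by
      conv_rhs => rw [← e5]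
      rw [FormalGroup.map_toPowerSeries, MvPowerSeries.coeff_map]
    exact ⟨⟨MvPowerSeries.coeff d GK.toPowerSeries, h1⟩, rfl⟩)
  refine ⟨G, lam, ?_, ?_, ?_, hl1, hfrob⟩
  · exact isComm_of_map hψ (by rw [hG]; exact hGKcomm)
  · apply ps_map_injective hψ
    rw [← mulSeries_map, hG, hpG, map_pow, PowerSeries.map_X]
  · apply isHom_of_map hφ
    have h1 : (G.map (algebraMap (FixF K p h) (OO K))).map φ = GK := by
      rw [← hG]
      apply FormalGroup.ext
      ext d
      simp only [FormalGroup.map_toPowerSeries, MvPowerSeries.coeff_map]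
      rfl
    rw [h1]
    exact hom

/-- a series with invertible-size linear coefficient has no small nonzero zeros -/
theorem eq_zero_of_ev1_eq_zero {F : FormalGroup (OO K)} {lam : PowerSeries (OO K)}
    (h0 : PowerSeries.constantCoeff lam = 0) (z : Pt F)
    (hz : Pt.nm z < ‖((PowerSeries.coeff 1 lam : OO K) : K)‖) (h : ev1 z.val lam = 0) :
    z = 0 := by
  have hb := hasEval_unit z.tn
  obtain ⟨f, hf⟩ := PowerSeries.X_dvd_iff.mpr h0
  have hf1 : PowerSeries.constantCoeff f = PowerSeries.coeff 1 lam := by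
    rw [hf]
    have := PowerSeries.coeff_succ_X_mul 0 f
    rw [this]; simp
  have e1 : ev1 z.val lam = z.val * ev1 z.val f := by
    rw [hf]
    have := ev_mul hb (X () : MvPowerSeries Unit (OO K)) f
    rw [ev_X] at this
    exact this
  set c : OO K := PowerSeries.coeff 1 lam with hc
  have e2 : ev1 z.val f = c + ev1 z.val (f - PowerSeries.C c) := by
    have := ev_sub hb f (C c)
    rw [ev_C] at this
    have h3 : ev1 z.val (f - PowerSeries.C c) = ev1 z.val f - c := this
    rw [h3]; ring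
  have e3 : ‖((ev1 z.val (f - PowerSeries.C c) : OO K) : K)‖ < ‖(c : K)‖ :=
    (norm_ev1_le _ z.val z.norm_lt (by rw [map_sub, hf1]; simp)).trans_lt hz
  have e4 : ev1 z.val f ≠ 0 := by
    intro h4
    rw [e2] at h4
    have h5 : c = -(ev1 z.val (f - PowerSeries.C c)) := eq_neg_of_add_eq_zero_left h4
    have h6 : ‖(c : K)‖ = ‖((ev1 z.val (f - PowerSeries.C c) : OO K) : K)‖ := by
      conv_lhs => rw [h5]
      rw [Subring.coe_neg, norm_neg]
    rw [h6] at e3
    exact lt_irrefl _ e3
  rw [e1] at h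
  rcases mul_eq_zero.mp h with h7 | h7
  · ext
    rw [h7, Pt.zero_val]
  · exact absurd h7 e4

/-- points in the kernel of `lam` are torsion -/
theorem lambda_eq_zero (H : HtData p F h r V) {G : FormalGroup (FixF K p h)}
    {lam : PowerSeries (OO K)} (hl : LamData F G lam) (y : Pt F) (hy : ev1 y.val lam = 0) :
    ∃ m : ℕ, p ^ m • y = 0 := by
  have hp1 : 1 < p := (Fact.out : p.Prime).one_lt
  have hQ : 1 < p ^ h := Nat.one_lt_pow (Fact.out : 0 < h).ne' hp1
  -- `lam` vanishes at all `p ^ m • y`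
  have hstep : ∀ z : Pt F, ev1 z.val lam = 0 → ev1 (p • z).val lam = 0 := by
    intro z hz
    have h1 := ev1_comp z.tn lam (mulSeries F p) (mulSeries_constantCoeff F p)
    rw [hl.frob] at h1
    rw [Pt.nsmul_val, ← h1]
    have h2 : ev1 z.val (lam ^ (p ^ h)) = ev1 z.val lam ^ (p ^ h) :=
      ev_pow (hasEval_unit z.tn) lam (p ^ h)
    rw [h2, hz]
    exact zero_pow (by omega)
  have hall : ∀ m : ℕ, ev1 (p ^ m • y).val lam = 0 := by
    intro m
    induction m with
    | zero => rw [pow_zero, one_smul]; exact hy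
    | succ m ih =>
      have h1 : p ^ (m + 1) • y = p • (p ^ m • y) := by
        rw [pow_succ', mul_smul]
      rw [h1]
      exact hstep _ ih
  -- `p ^ m • y` tends to `0`
  have hc : 0 < ‖((PowerSeries.coeff 1 lam : OO K) : K)‖ := by
    rw [norm_pos_iff]
    intro h0
    exact hl.ne (Subtype.ext h0)
  have h1 : Tendsto (fun m : ℕ => Pt.nm y ^ ((p ^ h) ^ m)) atTop (𝓝 0) :=
    (tendsto_pow_atTop_nhds_zero_of_lt_one (Pt.nm_nonneg y) (Pt.nm_lt_one y)).comp
      (tendsto_pow_atTop_atTop_of_one_lt hQ)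
  obtain ⟨m, hm⟩ := (h1.eventually (gt_mem_nhds hc)).exists
  refine ⟨m, eq_zero_of_ev1_eq_zero hl.hom.1 _ ?_ (hall m)⟩
  exact (nm_pow_smul_le H m y).trans_lt hm

end
end Vale.Agent.P217
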