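import Mathlib.Data.Int.ConditionallyCompleteOrder
import Mathlib.Data.Int.Star
import Mathlib.Order.CompletePartialOrder
import Mathlib.RingTheory.Henselian
import Vale.Agent.Lib.P217.FrobFactor

/-!
# P217: formal deformation of `λ` (module A12b)

`A = K[[Δ]]`, `W(X) = V(X^Q)` over `A`, `a = V'(0) ∈ A` with `a(0) ≠ 0`.  Given a solution `lam` over
`K` of `lam(W_0(X)) = lam(X)^Q` (`W_0` = value of `W` at `Δ = 0`), construct
a solution `L` over `A` reducing to `lam`, coefficient by coefficient: the equation is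
`L(V(Y)) = ∑ L_j^Q Y^j`, whose coefficient at `Y^j` is
`L_j^Q - a^j L_j = c_j` with `c_j` a polynomial in the `L_i`, `i < j`, over `A`.
The constant term `lam_j` is a solution modulo `(Δ)`; write `L_j = lam_j + z`, so that
`z^Q - a^j z = c'` with `c' ∈ (Δ)`; the solution is `z = -∑_{i ≥ 0} c'^{Q^i} / a^{j(1+Q+...+Q^i)}`
(convergent in the `(Δ)`-adic topology), or use that `A` is Henselian / a contraction argument.
-/

set_option linter.unusedSectionVars false

namespace Vale.Agent.P217

open MvPowerSeries

section solve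

variable {K : Type*} [Field K] {σ : Type*}

/-- `a` is small to order `n` -/
private def Sm (n : ℕ) (w : MvPowerSeries σ K) : Prop := (n : ℕ∞) ≤ w.order

private theorem Sm.add {n : ℕ} {v w : MvPowerSeries σ K} (hv : Sm n v) (hw : Sm n w) :
    Sm n (v + w) :=
  le_trans (le_min hv hw) min_order_le_add

private theorem Sm.mul {n : ℕ} {w : MvPowerSeries σ K} (v : MvPowerSeries σ K) (hw : Sm n w) :
    Sm n (v * w) :=
  le_trans (le_trans hw le_add_self) le_order_mul

private theorem Sm.neg {n : ℕ} {w : MvPowerSeries σ K} (hw : Sm n w) : Sm n (-w) := by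
  unfold Sm; rw [order_neg]; exact hw

private theorem Sm.sub {n : ℕ} {v w : MvPowerSeries σ K} (hv : Sm n v) (hw : Sm n w) :
    Sm n (v - w) := by
  rw [sub_eq_add_neg]; exact hv.add hw.neg

private theorem Sm.mono {n m : ℕ} (h : n ≤ m) {w : MvPowerSeries σ K} (hw : Sm m w) : Sm n w :=
  le_trans (by exact_mod_cast h) hw

private theorem Sm.pow {n m : ℕ} {w : MvPowerSeries σ K} (hw : Sm n w) : Sm (m * n) (w ^ m) := by
  unfold Sm at *
  refine le_trans ?_ (le_order_pow m)
  rw [nsmul_eq_mul]
  push_cast
  gcongr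

private theorem Sm.coeff {n : ℕ} {w : MvPowerSeries σ K} (hw : Sm n w) {d : σ →₀ ℕ}
    (hd : d.degree < n) : MvPowerSeries.coeff d w = 0 :=
  coeff_of_lt_order (lt_of_lt_of_le (by exact_mod_cast hd) hw)

private theorem Sm.of {n : ℕ} {w : MvPowerSeries σ K}
    (h : ∀ d : σ →₀ ℕ, d.degree < n → MvPowerSeries.coeff d w = 0) : Sm n w :=
  nat_le_order h

private theorem eq_zero_of_Sm {w : MvPowerSeries σ K} (h : ∀ n, Sm n w) : w = 0 := by
  ext d
  exact (h (d.degree + 1)).coeff (Nat.lt_succ_self _)

/-- Hensel's lemma for `z ^ Q - b z = c` over power series -/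
private theorem solve (p : ℕ) [Fact p.Prime] [CharP K p] (h : ℕ) (hh : 0 < h)
    (b c : MvPowerSeries σ K) (l : K) (hb : constantCoeff b ≠ 0)
    (hl : l ^ (p ^ h) - constantCoeff b * l = constantCoeff c) :
    ∃ z : MvPowerSeries σ K, constantCoeff z = l ∧ z ^ (p ^ h) - b * z = c := by
  have hchar : CharP (MvPowerSeries σ K) p :=
    charP_of_injective_ringHom (f := (C : K →+* MvPowerSeries σ K)) C_injective p
  set Q := p ^ h with hQ
  have hQ2 : 2 ≤ Q := by
    calc 2 ≤ p := (Fact.out : p.Prime).two_le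
      _ = p ^ 1 := (pow_one p).symm
      _ ≤ p ^ h := Nat.pow_le_pow_right (Fact.out : p.Prime).pos hh
  have hbi : b * b⁻¹ = 1 := MvPowerSeries.mul_inv_cancel b hb
  -- the iteration
  let z : ℕ → MvPowerSeries σ K := fun n =>
    Nat.rec (C l) (fun _ w => b⁻¹ * (w ^ Q - c)) n
  have z0 : z 0 = C l := rfl
  have zs : ∀ n, z (n + 1) = b⁻¹ * (z n ^ Q - c) := fun n => rfl
  have hstep : ∀ n, Sm (n + 1) (z (n + 1) - z n) := by
    intro n
    induction n with
    | zero =>
      refine one_le_order_iff_constCoeff_eq_zero.mpr ?_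
      rw [zs, z0, map_sub, map_mul, map_sub, map_pow, constantCoeff_C,
        MvPowerSeries.constantCoeff_inv, ← hl]
      field_simp
      ring
    | succ n ih =>
      have e : z (n + 1 + 1) - z (n + 1) = b⁻¹ * (z (n + 1) - z n) ^ Q := by
        rw [zs (n + 1), sub_pow_char_pow (p := p)]
        conv_lhs => rw [zs n]
        ring
      rw [e]
      refine Sm.mul _ (Sm.mono ?_ ih.pow)
      nlinarith
  have hdiff : ∀ n m, n ≤ m → Sm (n + 1) (z m - z n) := by
    intro n m hnm
    induction m, hnm using Nat.le_induction with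
    | base =>
      rw [sub_self]
      exact Sm.of fun d _ => by simp
    | succ m hm ih =>
      have e : z (m + 1) - z n = (z (m + 1) - z m) + (z m - z n) := by ring
      rw [e]
      exact ((hstep m).mono (by omega)).add ih
  let w : MvPowerSeries σ K := fun d => coeff d (z d.degree)
  have hw : ∀ d, coeff d w = coeff d (z d.degree) := fun d => rfl
  have hlim : ∀ n, Sm (n + 1) (w - z n) := by
    intro n
    refine Sm.of fun d hd => ?_
    rw [map_sub, hw]
    have := (hdiff d.degree n (by omega)).coeff (d := d) (by omega)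
    rw [map_sub] at this
    rw [← neg_eq_zero, neg_sub]
    exact this
  refine ⟨w, ?_, ?_⟩
  · rw [← coeff_zero_eq_constantCoeff_apply, hw]
    simp [z0]
  · rw [← sub_eq_zero]
    refine eq_zero_of_Sm fun n => ?_
    have e : w ^ Q - b * w - c =
        (w - z n) ^ Q - b * (w - z n) + (b * (z (n + 1) - z n)) := by
      rw [sub_pow_char_pow (p := p), zs, ← hQ, mul_sub b (b⁻¹ * _), ← mul_assoc, hbi]
      ring
    rw [e]
    have h1 : Sm n (w - z n) := (hlim n).mono (by omega)
    refine ((h1.pow.mono ?_).sub (h1.mul b)).add (((hstep n).mono (by omega)).mul b)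
    nlinarith

end solve

section series

variable {R : Type*} [CommRing R]

private theorem expand_inj {Q : ℕ} (hQ : Q ≠ 0) {f g : PowerSeries R}
    (h : PowerSeries.expand Q hQ f = PowerSeries.expand Q hQ g) : f = g := by
  ext n
  rw [← PowerSeries.coeff_expand_mul Q hQ f, h, PowerSeries.coeff_expand_mul]

private theorem pow_eq_expand (p : ℕ) [hp : Fact p.Prime] [CharP R p] (h : ℕ)
    (hQ : p ^ h ≠ 0) (f : PowerSeries R) :
    f ^ (p ^ h) = PowerSeries.expand (p ^ h) hQ (f.map (iterateFrobenius R p h)) := by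
  rw [← PowerSeries.map_expand]
  exact (MvPowerSeries.map_iterateFrobenius_expand (σ := Unit) p hp.out.ne_zero f h).symm

private theorem subst_expand {Q : ℕ} (hQ : Q ≠ 0) {f : PowerSeries R}
    (hf : PowerSeries.constantCoeff f = 0) (g : PowerSeries R) :
    g.subst (PowerSeries.expand Q hQ f) = PowerSeries.expand Q hQ (g.subst f) :=
  (PowerSeries.expand_subst Q hQ (PowerSeries.HasSubst.of_constantCoeff_zero' hf) g).symm

private theorem coeff_pow_of_lt {f : PowerSeries R} (hf : PowerSeries.constantCoeff f = 0)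
    {i j : ℕ} (hij : j < i) : PowerSeries.coeff j (f ^ i) = 0 :=
  PowerSeries.X_pow_dvd_iff.mp (pow_dvd_pow_of_dvd (PowerSeries.X_dvd_iff.mpr hf) i) j hij

private theorem coeff_pow_self' {f : PowerSeries R} (hf : PowerSeries.constantCoeff f = 0)
    (j : ℕ) : PowerSeries.coeff j (f ^ j) = PowerSeries.coeff 1 f ^ j := by
  obtain ⟨U, rfl⟩ := PowerSeries.X_dvd_iff.mpr hf
  rw [mul_pow, PowerSeries.coeff_X_pow_mul', if_pos le_rfl, Nat.sub_self,
    PowerSeries.coeff_zero_eq_constantCoeff_apply, map_pow]
  congr 1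
  rw [← PowerSeries.coeff_zero_eq_constantCoeff_apply]
  exact (PowerSeries.coeff_succ_X_mul 0 U).symm

private theorem coeff_subst_sum {f : PowerSeries R} (hf : PowerSeries.constantCoeff f = 0)
    (g : PowerSeries R) (j : ℕ) :
    PowerSeries.coeff j (g.subst f) = PowerSeries.coeff 1 f ^ j * PowerSeries.coeff j g +
      ∑ i ∈ Finset.range j, PowerSeries.coeff i g * PowerSeries.coeff j (f ^ i) := by
  rw [PowerSeries.coeff_subst' (PowerSeries.HasSubst.of_constantCoeff_zero' hf),
    finsum_eq_sum_of_support_subset (s := Finset.range (j + 1)), Finset.sum_range_succ,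
    coeff_pow_self' hf, add_comm]
  · simp only [smul_eq_mul, mul_comm]
  · intro i hi
    by_contra hcon
    simp only [Finset.coe_range, Set.mem_Iio, not_lt] at hcon
    exact hi (by simp [coeff_pow_of_lt hf (i := i) (j := j) (by omega)])

end series

theorem deform_lambda {K : Type*} [Field K] (p : ℕ) [Fact p.Prime] [CharP K p] (h : ℕ)
    (hh : 0 < h) {σ : Type*} [Finite σ] (W V : PowerSeries (MvPowerSeries σ K))
    (hV0 : PowerSeries.constantCoeff V = 0)
    (hW : W = V.subst (PowerSeries.X ^ (p ^ h) : PowerSeries (MvPowerSeries σ K)))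
    (ha : MvPowerSeries.constantCoeff (PowerSeries.coeff 1 V) ≠ 0)
    (lam : PowerSeries K) (hlam0 : PowerSeries.constantCoeff lam = 0)
    (hlam : lam.subst (W.map MvPowerSeries.constantCoeff) = lam ^ (p ^ h)) :
    ∃ L : PowerSeries (MvPowerSeries σ K), PowerSeries.constantCoeff L = 0 ∧
      L.map MvPowerSeries.constantCoeff = lam ∧ L.subst W = L ^ (p ^ h) := by
  have hchar : CharP (MvPowerSeries σ K) p :=
    charP_of_injective_ringHom (f := (C : K →+* MvPowerSeries σ K)) C_injective p
  have hQ : p ^ h ≠ 0 := pow_ne_zero h (Fact.out : p.Prime).ne_zero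
  rw [← PowerSeries.expand_apply _ hQ] at hW
  have hV0' : PowerSeries.constantCoeff (V.map (MvPowerSeries.constantCoeff (σ := σ) (R := K)))
      = 0 := by
    rw [← PowerSeries.coeff_zero_eq_constantCoeff_apply, PowerSeries.coeff_map,
      PowerSeries.coeff_zero_eq_constantCoeff_apply, hV0, map_zero]
  -- the equation over `K`
  have hlam' : lam.subst (V.map (MvPowerSeries.constantCoeff (σ := σ) (R := K))) =
      lam.map (iterateFrobenius K p h) := by
    apply expand_inj hQ
    rw [← subst_expand hQ hV0', ← pow_eq_expand, ← hlam, hW, PowerSeries.map_expand]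
  -- the recursion
  have hex : ∀ (j : ℕ) (c : MvPowerSeries σ K) (l : K),
      ∃ z : MvPowerSeries σ K, l ^ (p ^ h) -
        MvPowerSeries.constantCoeff (PowerSeries.coeff 1 V ^ j) * l =
          MvPowerSeries.constantCoeff c →
        MvPowerSeries.constantCoeff z = l ∧ z ^ (p ^ h) - PowerSeries.coeff 1 V ^ j * z = c := by
    intro j c l
    by_cases hc : l ^ (p ^ h) -
        MvPowerSeries.constantCoeff (PowerSeries.coeff 1 V ^ j) * l =
          MvPowerSeries.constantCoeff c
    · obtain ⟨z, hz⟩ := solve p h hh (PowerSeries.coeff 1 V ^ j) c l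
        (by rw [map_pow]; exact pow_ne_zero _ ha) hc
      exact ⟨z, fun _ => hz⟩
    · exact ⟨0, fun h' => absurd h' hc⟩
  choose S hS using hex
  obtain ⟨L, hL⟩ : ∃ L : ℕ → MvPowerSeries σ K, ∀ j, L j =
      S j (∑ i ∈ Finset.range j, L i * PowerSeries.coeff j (V ^ i)) (PowerSeries.coeff j lam) := by
    let L : ℕ → MvPowerSeries σ K := fun j => Nat.strongRec (motive := fun _ => MvPowerSeries σ K)
      (fun j ih => S j (∑ i : Fin j, ih i.1 i.2 * PowerSeries.coeff j (V ^ i.1))
        (PowerSeries.coeff j lam)) j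
    refine ⟨L, fun j => ?_⟩
    have : L j = S j (∑ i : Fin j, L i.1 * PowerSeries.coeff j (V ^ i.1))
        (PowerSeries.coeff j lam) := by
      simp only [L]
      rw [Nat.strongRec_eq]
    rw [this, Finset.sum_range]
  have key : ∀ j, MvPowerSeries.constantCoeff (L j) = PowerSeries.coeff j lam ∧
      L j ^ (p ^ h) - PowerSeries.coeff 1 V ^ j * L j =
        ∑ i ∈ Finset.range j, L i * PowerSeries.coeff j (V ^ i) := by
    intro j
    induction j using Nat.strong_induction_on with
    | _ j ih =>
      rw [hL j]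
      apply hS
      have e := congrArg (PowerSeries.coeff j) hlam'
      rw [coeff_subst_sum hV0', PowerSeries.coeff_map, PowerSeries.coeff_map,
        iterateFrobenius_def] at e
      rw [← e, map_pow, add_sub_cancel_left, map_sum]
      refine Finset.sum_congr rfl fun i hi => ?_
      rw [map_mul, (ih i (Finset.mem_range.mp hi)).1, ← map_pow, PowerSeries.coeff_map]
  have hcoe : ∀ j, PowerSeries.coeff j (PowerSeries.mk L) = L j := fun j =>
    PowerSeries.coeff_mk j L
  refine ⟨PowerSeries.mk L, ?_, ?_, ?_⟩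
  · have h0 := (key 0).2
    have h1 := (key 0).1
    rw [← PowerSeries.coeff_zero_eq_constantCoeff_apply, hcoe]
    rw [PowerSeries.coeff_zero_eq_constantCoeff_apply, hlam0] at h1
    simp only [pow_zero, one_mul, Finset.range_zero, Finset.sum_empty] at h0
    have hu : IsUnit (L 0 ^ (p ^ h - 1) - 1) := by
      rw [MvPowerSeries.isUnit_iff_constantCoeff, map_sub, map_pow, h1, zero_pow]
      · simp
      · have : 2 ≤ p ^ h := by
          calc 2 ≤ p := (Fact.out : p.Prime).two_le
            _ = p ^ 1 := (pow_one p).symm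
            _ ≤ p ^ h := Nat.pow_le_pow_right (Fact.out : p.Prime).pos hh
        omega
    have h2 : (L 0 ^ (p ^ h - 1) - 1) * L 0 = 0 := by
      rw [sub_mul, one_mul, pow_sub_one_mul hQ]
      exact h0
    exact (hu.mul_right_eq_zero).mp h2
  · ext j
    rw [PowerSeries.coeff_map, hcoe, (key j).1]
  · rw [hW, subst_expand hQ hV0, pow_eq_expand p h hQ]
    congr 1
    ext1 j
    rw [coeff_subst_sum hV0, PowerSeries.coeff_map, iterateFrobenius_def]
    simp only [hcoe]
    rw [← (key j).2]
    ring

end Vale.Agent.P217
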