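import Mathlib.Algebra.BigOperators.Field
import Vale.Agent.Lib.P217.LogPt

/-!
# P217 (characteristic zero part): first order expansion of the logarithm in a family (module Z3)

`B = OO K[[Δ_1, …, Δ_r]]`, `F` a formal group law over `B`, `N` a point of `F` (its value `N.val` is topologically nilpotent:
constant coefficient of norm `< 1`). `F(0)` satisfies `[p] ≡ X^q` modulo `c < 1`.

For `0 < ε ≤ 1` let `EB ε a` be the ideal of the `u` with `‖coeff_α u‖ ≤ a / ε^{|α|}`.
Since `constantCoeff (p^l • N).val → 0`, there is `l₀` with `‖constantCoeff (p^{l₀} • N).val‖ ≤ ‖p‖^3`. Take `ε = ‖p‖^3`: then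
`p^{l₀} • N` lies in `EB ε (‖p‖^3)`.  As `[p]_F(X) = pX + X^2 (…)`, `p • u - p u` lies in `EB ε (a^2)` if `u` lies in `EB ε a`, so by
induction `p^{l₀+i} • N` lies in `EB ε (‖p‖^{3+i})` and `p^{l₀+i+1} • N - p (p^{l₀+i} • N)` in `EB ε (‖p‖^{6+2i})`.  So for
every additive functional `T` with `‖T u‖ ≤ A a` on `EB ε a` the sequence `T(p^l • N)/p^l` converges in `K`. This is applied to the
values at `δ` with `‖δ_i‖ ≤ ε` and to the coefficients of degree `≤ 1`; the terms with `|α| ≥ 2` are at most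
`‖p‖^{3-l₀} (s/ε)^2` if `‖δ_i‖ ≤ s ≤ ε`.
-/

set_option linter.unusedSectionVars false

namespace Vale.Agent.P217

open MvPowerSeries Filter Topology
open scoped MvPowerSeries.WithPiTopology

/-- `[p](y) = p y + y^2 (…)` -/
theorem lf_p_smul_val {B : Type*} [CommRing B] [UniformSpace B] [AdicRing B] {F : FormalGroup B}
    [F.IsComm] (p : ℕ) (y : Pt F) :
    ∃ h : B, (p • y).val = (p : B) * y.val + y.val ^ 2 * h := by
  have hb := hasEval_unit y.tn
  have hd : (PowerSeries.X : PowerSeries B) ^ 2 ∣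
      mulSeries F p - PowerSeries.C (p : B) * PowerSeries.X := by
    rw [PowerSeries.X_pow_dvd_iff]
    intro m hm
    interval_cases m
    · have h0 := mulSeries_constantCoeff F p
      rw [← PowerSeries.coeff_zero_eq_constantCoeff_apply] at h0
      rw [map_sub, h0]
      simp
    · rw [map_sub, mulSeries_coeff_one]
      simp
  obtain ⟨G, hG⟩ := hd
  refine ⟨ev1 y.val G, ?_⟩
  rw [Pt.nsmul_val]
  have e : mulSeries F p = PowerSeries.C (p : B) * PowerSeries.X + PowerSeries.X ^ 2 * G := by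
    rw [← hG]; ring
  rw [e]
  have h1 := ev_add hb ((C (p : B) : MvPowerSeries Unit B) * X ()) ((X ()) ^ 2 * G)
  rw [ev_mul hb, ev_mul hb, ev_pow hb, ev_X, ev_C] at h1
  exact h1

section
variable {K : Type*} [NontriviallyNormedField K] [IsUltrametricDist K] [CompleteSpace K] {r : ℕ}

theorem lf_norm_coeff_mul_le {ε a b : ℝ} (hε : 0 < ε) (ha : 0 ≤ a) (hb : 0 ≤ b)
    {f g : MvPowerSeries (Fin r) (OO K)}
    (hf : ∀ α : Fin r →₀ ℕ, ‖((coeff α f : OO K) : K)‖ ≤ a / ε ^ α.degree)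
    (hg : ∀ α : Fin r →₀ ℕ, ‖((coeff α g : OO K) : K)‖ ≤ b / ε ^ α.degree)
    (α : Fin r →₀ ℕ) : ‖((coeff α (f * g) : OO K) : K)‖ ≤ a * b / ε ^ α.degree := by
  rw [coeff_mul]
  rw [AddSubmonoidClass.coe_finsetSum]
  refine IsUltrametricDist.norm_sum_le_of_forall_le_of_nonneg (by positivity) fun x hx => ?_
  rw [Subring.coe_mul, norm_mul]
  have hd : x.1.degree + x.2.degree = α.degree := by
    rw [← Finset.HasAntidiagonal.mem_antidiagonal.1 hx, map_add]
  calc ‖((coeff x.1 f : OO K) : K)‖ * ‖((coeff x.2 g : OO K) : K)‖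
      ≤ (a / ε ^ x.1.degree) * (b / ε ^ x.2.degree) :=
        mul_le_mul (hf _) (hg _) (norm_nonneg _) (by positivity)
    _ = a * b / ε ^ α.degree := by
        rw [← hd, pow_add]
        field_simp

theorem lf_norm_coeff_le {ε : ℝ} (hε : 0 < ε) (hε1 : ε ≤ 1) (f : MvPowerSeries (Fin r) (OO K))
    (α : Fin r →₀ ℕ) : ‖((coeff α f : OO K) : K)‖ ≤ 1 / ε ^ α.degree := by
  refine (norm_le_one _).trans ?_
  rw [le_div_iff₀ (by positivity), one_mul]
  exact pow_le_one₀ hε.le hε1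

/-- the ideals `{f : ‖coeff_α f‖ ≤ a / ε^{|α|}}` -/
def EB (K : Type*) [NontriviallyNormedField K] [IsUltrametricDist K] [CompleteSpace K] (r : ℕ)
    (ε : ℝ) (hε : 0 < ε) (hε1 : ε ≤ 1) (a : ℝ) (ha : 0 ≤ a) :
    Ideal (MvPowerSeries (Fin r) (OO K)) where
  carrier := {f | ∀ α : Fin r →₀ ℕ, ‖((coeff α f : OO K) : K)‖ ≤ a / ε ^ α.degree}
  add_mem' {f g} hf hg := by
    intro α
    rw [map_add, Subring.coe_add]
    exact (IsUltrametricDist.norm_add_le_max _ _).trans (max_le (hf α) (hg α))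
  zero_mem' := by
    intro α
    simp only [map_zero, Subring.coe_zero, norm_zero]
    positivity
  smul_mem' f g hg := by
    intro α
    rw [smul_eq_mul]
    have := lf_norm_coeff_mul_le hε zero_le_one ha (lf_norm_coeff_le hε hε1 f) hg α
    rwa [one_mul] at this

theorem mem_EB {ε : ℝ} {hε : 0 < ε} {hε1 : ε ≤ 1} {a : ℝ} {ha : 0 ≤ a}
    {f : MvPowerSeries (Fin r) (OO K)} :
    f ∈ EB K r ε hε hε1 a ha ↔
      ∀ α : Fin r →₀ ℕ, ‖((coeff α f : OO K) : K)‖ ≤ a / ε ^ α.degree :=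
  Iff.rfl

theorem mul_mem_EB {ε : ℝ} {hε : 0 < ε} {hε1 : ε ≤ 1} {a b : ℝ} {ha : 0 ≤ a} {hb : 0 ≤ b}
    {f g : MvPowerSeries (Fin r) (OO K)} (hf : f ∈ EB K r ε hε hε1 a ha)
    (hg : g ∈ EB K r ε hε hε1 b hb) : f * g ∈ EB K r ε hε hε1 (a * b) (mul_nonneg ha hb) :=
  lf_norm_coeff_mul_le hε ha hb hf hg

theorem EB_mono {ε : ℝ} {hε : 0 < ε} {hε1 : ε ≤ 1} {a b : ℝ} {ha : 0 ≤ a} {hb : 0 ≤ b}
    (hab : a ≤ b) : EB K r ε hε hε1 a ha ≤ EB K r ε hε hε1 b hb := by
  intro f hf α
  refine (hf α).trans ?_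
  gcongr

/-- the size of the values -/
theorem norm_ev_le_of_EB {ε : ℝ} {hε : 0 < ε} {hε1 : ε ≤ 1} {a : ℝ} {ha : 0 ≤ a} {m : ℝ}
    (hm0 : 0 ≤ m) (hm : m ≤ ε) {δ : Fin r → OO K} (hδ : ∀ i, ‖(δ i : K)‖ ≤ m) (hδ' : HasEval δ)
    {f : MvPowerSeries (Fin r) (OO K)} (hf : f ∈ EB K r ε hε hε1 a ha) (N : ℕ)
    (hN : ∀ d : Fin r →₀ ℕ, d.degree < N → coeff d f = 0) :
    ‖((ev δ f : OO K) : K)‖ ≤ a * (m / ε) ^ N := by
  have hnn : 0 ≤ a * (m / ε) ^ N := by positivity
  refine ev_mem_of_closed hδ' f (ballIdeal K (a * (m / ε) ^ N) hnn) (isClosed_ballIdeal _ _) ?_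
  intro d
  by_cases hd : d.degree < N
  · rw [hN d hd, zero_mul]
    exact Ideal.zero_mem _
  · rw [mem_ballIdeal, Subring.coe_mul, norm_mul]
    have h1 : ((d.prod (fun s e => δ s ^ e) : OO K) : K) = ∏ s ∈ d.support, (δ s : K) ^ d s := by
      unfold Finsupp.prod
      rw [SubmonoidClass.coe_finsetProd]
      simp
    have h2 : ‖((d.prod (fun s e => δ s ^ e) : OO K) : K)‖ ≤ m ^ d.degree := by
      rw [h1, norm_prod]
      calc ∏ s ∈ d.support, ‖(δ s : K) ^ d s‖ ≤ ∏ s ∈ d.support, m ^ d s := by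
            refine Finset.prod_le_prod (fun _ _ => norm_nonneg _) (fun s _ => ?_)
            rw [norm_pow]
            exact pow_le_pow_left₀ (norm_nonneg _) (hδ s) _
        _ = m ^ d.degree := by
            rw [Finset.prod_pow_eq_pow_sum]
            rfl
    calc ‖((coeff d f : OO K) : K)‖ * ‖((d.prod (fun s e => δ s ^ e) : OO K) : K)‖
        ≤ (a / ε ^ d.degree) * m ^ d.degree :=
          mul_le_mul (hf d) h2 (norm_nonneg _) (by positivity)
      _ = a * (m / ε) ^ d.degree := by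
          rw [div_pow]
          field_simp
      _ ≤ a * (m / ε) ^ N := by
          apply mul_le_mul_of_nonneg_left _ ha
          apply pow_le_pow_of_le_one (by positivity) _ (not_lt.mp hd)
          rw [div_le_one hε]
          exact hm

theorem lf_degree_eq_one {d : Fin r →₀ ℕ} (h : d.degree = 1) : ∃ i, d = Finsupp.single i 1 := by
  have hd0 : d ≠ 0 := by
    intro h0
    rw [h0] at h
    simp at h
  obtain ⟨i, hi⟩ := Finsupp.ne_iff.1 hd0
  have hi' : d i ≠ 0 := hi
  have hle : Finsupp.single i 1 ≤ d := by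
    rw [Finsupp.single_le_iff]
    omega
  refine ⟨i, ?_⟩
  have e : Finsupp.single i 1 + (d - Finsupp.single i 1) = d := add_tsub_cancel_of_le hle
  have h2 := congrArg Finsupp.degree e
  rw [map_add, Finsupp.degree_single, h] at h2
  have h3 : (d - Finsupp.single i 1).degree = 0 := by omega
  have h4 := (Finsupp.degree_eq_zero_iff _).1 h3
  rw [h4, add_zero] at e
  exact e.symm

/-- the first order expansion of a value -/
theorem norm_ev_sub_le_of_EB {ε : ℝ} {hε : 0 < ε} {hε1 : ε ≤ 1} {a : ℝ} {ha : 0 ≤ a} {m : ℝ}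
    (hm0 : 0 ≤ m) (hm : m ≤ ε) {δ : Fin r → OO K} (hδ : ∀ i, ‖(δ i : K)‖ ≤ m) (hδ' : HasEval δ)
    {f : MvPowerSeries (Fin r) (OO K)} (hf : f ∈ EB K r ε hε hε1 a ha) :
    ‖((ev δ f : OO K) : K) - ((coeff 0 f : OO K) : K) -
      ∑ i, ((coeff (Finsupp.single i 1) f : OO K) : K) * (δ i : K)‖ ≤ a * (m / ε) ^ 2 := by
  classical
  set g : MvPowerSeries (Fin r) (OO K) :=
    f - C (coeff 0 f) - ∑ i, C (coeff (Finsupp.single i 1) f) * X i with hg
  have hcg : ∀ d : Fin r →₀ ℕ, coeff d g = if d.degree < 2 then 0 else coeff d f := by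
    intro d
    have hsum : coeff d (∑ i, C (coeff (Finsupp.single i 1) f) * X i) =
        ∑ i, if d = Finsupp.single i 1 then coeff (Finsupp.single i 1) f else 0 := by
      rw [map_sum]
      refine Finset.sum_congr rfl fun i _ => ?_
      rw [coeff_C_mul, coeff_X]
      split_ifs <;> simp
    rw [hg, map_sub, map_sub, hsum]
    split_ifs with hd
    · rcases Nat.eq_zero_or_pos d.degree with h0 | h0
      · have hd0 : d = 0 := (Finsupp.degree_eq_zero_iff d).1 h0
        subst hd0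
        rw [coeff_zero_C, sub_self, zero_sub, neg_eq_zero]
        refine Finset.sum_eq_zero fun i _ => ?_
        rw [if_neg]
        intro h
        have := DFunLike.congr_fun h i
        simp at this
      · have h1 : d.degree = 1 := by omega
        obtain ⟨i, hi⟩ := lf_degree_eq_one h1
        have hd0 : d ≠ 0 := by
          intro h
          rw [h] at h0
          simp at h0
        rw [coeff_C_of_ne_zero hd0, sub_zero, Finset.sum_eq_single i]
        · rw [hi]
          simp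
        · intro j _ hj
          rw [if_neg]
          intro h
          rw [hi] at h
          exact hj ((Finsupp.single_left_injective one_ne_zero h).symm)
        · intro h
          exact absurd (Finset.mem_univ i) h
    · have hd0 : d ≠ 0 := by
        intro h
        rw [h] at hd
        simp at hd
      rw [coeff_C_of_ne_zero hd0, sub_zero]
      rw [Finset.sum_eq_zero, sub_zero]
      intro i _
      rw [if_neg]
      intro h
      rw [h, Finsupp.degree_single] at hd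
      omega
  have hgE : g ∈ EB K r ε hε hε1 a ha := by
    intro d
    rw [hcg d]
    split_ifs
    · simp only [Subring.coe_zero, norm_zero]
      positivity
    · exact hf d
  have h1 := norm_ev_le_of_EB hm0 hm hδ hδ' hgE 2 (fun d hd => by rw [hcg d, if_pos hd])
  have h2 : ev δ g = ev δ f - coeff 0 f - ∑ i, coeff (Finsupp.single i 1) f * δ i := by
    rw [hg, ← coe_evHom hδ', map_sub, map_sub, map_sum, coe_evHom, coe_evHom, ev_C]
    congr 1
    refine Finset.sum_congr rfl fun i _ => ?_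
    rw [map_mul, coe_evHom, coe_evHom, ev_C, ev_X]
  rw [h2] at h1
  have h3 : ((ev δ f - coeff 0 f - ∑ i, coeff (Finsupp.single i 1) f * δ i : OO K) : K) =
      ((ev δ f : OO K) : K) - ((coeff 0 f : OO K) : K) -
      ∑ i, ((coeff (Finsupp.single i 1) f : OO K) : K) * (δ i : K) := by
    push_cast
    rfl
  rw [h3] at h1
  exact h1

/-- the constant coefficient of `p^l • N` tends to zero -/
theorem lf_tendsto_constantCoeff {p : ℕ}
    (F : FormalGroup (MvPowerSeries (Fin r) (OO K))) [F.IsComm] {q : ℕ} {c : ℝ} (hq2 : 2 ≤ q)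
    (hc0 : 0 < c) (hc1 : c < 1)
    (hPC : ∀ i, ‖((constantCoeff (PowerSeries.coeff i (mulSeries F p - PowerSeries.X ^ q)) :
      OO K) : K)‖ ≤ c) (N : Pt F) {η : ℝ} (hη : 0 < η) :
    ∃ l₀ : ℕ, ‖((constantCoeff (p ^ l₀ • N).val : OO K) : K)‖ ≤ η := by
  have hcont : Continuous (constantCoeff : MvPowerSeries (Fin r) (OO K) →+* OO K) :=
    MvPowerSeries.WithPiTopology.continuous_constantCoeff (OO K)
  set x := Pt.map constantCoeff hcont N with hx
  set c' := max c (Pt.nm x) with hc'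
  have hc'0 : 0 ≤ c' := hc0.le.trans (le_max_left _ _)
  have hc'1 : c' < 1 := max_lt hc1 (Pt.nm_lt_one x)
  have hPC' : PCong p q c' (F.map (constantCoeff : MvPowerSeries (Fin r) (OO K) →+* OO K)) := by
    intro i
    rw [mulSeries_map]
    have h2 := hPC i
    have h3 : PowerSeries.coeff i (PowerSeries.map constantCoeff (mulSeries F p) -
        PowerSeries.X ^ q) = constantCoeff (PowerSeries.coeff i (mulSeries F p -
          PowerSeries.X ^ q)) := by
      rw [← PowerSeries.coeff_map]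
      refine congrArg (PowerSeries.coeff i) ?_
      rw [map_sub, map_pow, PowerSeries.map_X]
    rw [h3]
    exact h2.trans (le_max_left _ _)
  have h1 := (tendsto_pow_atTop_nhds_zero_of_lt_one hc'0 hc'1).eventually (gt_mem_nhds hη)
  obtain ⟨l₀, hl₀⟩ := h1.exists
  refine ⟨l₀, ?_⟩
  have h2 := uc_nm_pow_smul_le hq2 hc'0 hc'1 hPC' x (le_max_right _ _) l₀
  have h3 : Pt.nm (p ^ l₀ • x) = ‖((constantCoeff (p ^ l₀ • N).val : OO K) : K)‖ := by
    rw [hx, ← map_nsmul]
    rfl
  rw [h3] at h2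
  exact h2.trans hl₀.le

end

theorem log_family {K : Type*} [NontriviallyNormedField K] [IsUltrametricDist K]
    [CompleteSpace K] {p : ℕ} (hp0 : (p : K) ≠ 0) (hp1 : ‖(p : K)‖ < 1) {r : ℕ}
    (F : FormalGroup (MvPowerSeries (Fin r) (OO K))) [F.IsComm] {q : ℕ} {c : ℝ} (hq2 : 2 ≤ q)
    (hc0 : 0 < c) (hc1 : c < 1)
    (hPC : ∀ i, ‖((constantCoeff (PowerSeries.coeff i (mulSeries F p - PowerSeries.X ^ q)) :
      OO K) : K)‖ ≤ c) (N : Pt F) :
    ∃ (a₀ : K) (a : Fin r → K) (C ε : ℝ), 0 ≤ C ∧ 0 < ε ∧ ε < 1 ∧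
      ∀ δ : Fin r → OO K, (∀ i, ‖(δ i : K)‖ ≤ ε) →
        ∃ v : K, Tendsto (fun l : ℕ => ((ev δ (p ^ l • N).val : OO K) : K) / (p : K) ^ l) atTop
          (𝓝 v) ∧
        ∀ s : ℝ, (∀ i, ‖(δ i : K)‖ ≤ s) → ‖v - a₀ - ∑ i, a i * (δ i : K)‖ ≤ C * s ^ 2 := by
  set P : ℝ := ‖(p : K)‖ with hP
  have hP0 : 0 < P := norm_pos_iff.2 hp0
  obtain ⟨l₀, hl₀⟩ := lf_tendsto_constantCoeff F hq2 hc0 hc1 hPC N (pow_pos hP0 3)
  set ε : ℝ := P ^ 3 with hε'
  have hε : 0 < ε := pow_pos hP0 3
  have hε1 : ε < 1 := pow_lt_one₀ hP0.le hp1 (by norm_num)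
  set y : ℕ → MvPowerSeries (Fin r) (OO K) := fun i => (p ^ (l₀ + i) • N).val with hy
  have hystep : ∀ i, ∃ h, y (i + 1) = (p : MvPowerSeries (Fin r) (OO K)) * y i + y i ^ 2 * h := by
    intro i
    obtain ⟨h, hh⟩ := lf_p_smul_val p (p ^ (l₀ + i) • N)
    refine ⟨h, ?_⟩
    rw [← hh, smul_smul, ← pow_succ']
    rfl
  have hPn : ∀ n : ℕ, 0 ≤ P ^ n := fun n => (pow_pos hP0 n).le
  -- the constant `p` lies in the ideal of radius `P`
  have hpE : (p : MvPowerSeries (Fin r) (OO K)) ∈ EB K r ε hε hε1.le P hP0.le := by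
    classical
    intro d
    have e1 : (p : MvPowerSeries (Fin r) (OO K)) = C (p : OO K) := by simp
    rw [e1]
    by_cases hd : d = 0
    · subst hd
      rw [coeff_zero_C]
      simp [hP]
    · rw [coeff_C_of_ne_zero hd]
      simp only [Subring.coe_zero, norm_zero]
      positivity
  have hyE : ∀ i, y i ∈ EB K r ε hε hε1.le (P ^ (3 + i)) (hPn _) := by
    intro i
    induction i with
    | zero =>
      intro d
      by_cases hd : d = 0
      · subst hd
        simp only [map_zero, pow_zero, div_one, add_zero]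
        exact hl₀
      · have h1 : 1 ≤ d.degree := by
          rcases Nat.eq_zero_or_pos d.degree with h0 | h0
          · exact absurd ((Finsupp.degree_eq_zero_iff d).1 h0) hd
          · exact h0
        refine (norm_le_one _).trans ?_
        rw [add_zero, ← hε', le_div_iff₀ (by positivity), one_mul]
        calc ε ^ d.degree ≤ ε ^ 1 := pow_le_pow_of_le_one hε.le hε1.le h1
          _ = ε := pow_one ε
    | succ i ih =>
      obtain ⟨h, hh⟩ := hystep i
      rw [hh]
      refine Ideal.add_mem _ ?_ ?_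
      · exact EB_mono (by rw [← pow_succ']; exact le_of_eq (by ring)) (mul_mem_EB hpE ih)
      · refine Ideal.mul_mem_right _ _ ?_
        rw [pow_two]
        refine EB_mono ?_ (mul_mem_EB ih ih)
        rw [← pow_add]
        exact pow_le_pow_of_le_one hP0.le hp1.le (by omega)
  have hdE : ∀ i, y (i + 1) - p • y i ∈ EB K r ε hε hε1.le (P ^ (6 + 2 * i)) (hPn _) := by
    intro i
    obtain ⟨h, hh⟩ := hystep i
    have e : y (i + 1) - p • y i = y i ^ 2 * h := by
      rw [hh, nsmul_eq_mul]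
      ring
    rw [e]
    refine Ideal.mul_mem_right _ _ ?_
    rw [pow_two]
    refine EB_mono ?_ (mul_mem_EB (hyE i) (hyE i))
    rw [← pow_add]
    exact le_of_eq (by ring)
  -- convergence for a functional
  have hconv : ∀ (T : MvPowerSeries (Fin r) (OO K) →+ K) (A : ℝ),
      (∀ (b : ℝ) (hb : 0 ≤ b), ∀ f ∈ EB K r ε hε hε1.le b hb, ‖T f‖ ≤ A * b) →
      ∃ v : K, Tendsto (fun l : ℕ => T ((p ^ l • N).val) / (p : K) ^ l) atTop (𝓝 v) := by
    intro T A hT
    have hc : CauchySeq (fun i : ℕ => T (y i) / (p : K) ^ (l₀ + i)) := by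
      refine cauchySeq_of_le_geometric P (A * P ^ 5 / P ^ l₀) hp1 fun i => ?_
      rw [dist_comm, dist_eq_norm]
      have e1 : T (y (i + 1)) / (p : K) ^ (l₀ + (i + 1)) - T (y i) / (p : K) ^ (l₀ + i) =
          T (y (i + 1) - p • y i) / (p : K) ^ (l₀ + i + 1) := by
        rw [map_sub, map_nsmul, nsmul_eq_mul, ← add_assoc, pow_succ, sub_div]
        congr 1
        field_simp
      rw [e1, norm_div, norm_pow, ← hP]
      have h1 := hT _ (hPn _) _ (hdE i)
      have hA : 0 ≤ A := by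
        have := hT 1 zero_le_one 0 (Ideal.zero_mem _)
        rw [map_zero, norm_zero, mul_one] at this
        exact this
      calc ‖T (y (i + 1) - p • y i)‖ / P ^ (l₀ + i + 1)
          ≤ (A * P ^ (6 + 2 * i)) / P ^ (l₀ + i + 1) := by gcongr
        _ = A * P ^ 5 / P ^ l₀ * P ^ i := by
            have e2 : P ^ (6 + 2 * i) = P ^ 5 * P ^ i * P ^ (i + 1) := by ring
            have e3 : P ^ (l₀ + i + 1) = P ^ l₀ * P ^ (i + 1) := by ring
            rw [e2, e3]
            have h7 : P ^ (i + 1) ≠ 0 := (pow_pos hP0 _).ne'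
            have h8 : P ^ l₀ ≠ 0 := (pow_pos hP0 _).ne'
            field_simp
    obtain ⟨v, hv⟩ := cauchySeq_tendsto_of_complete hc
    refine ⟨v, ?_⟩
    rw [← tendsto_add_atTop_iff_nat l₀]
    refine hv.congr fun i => ?_
    simp only [hy]
    rw [add_comm l₀ i]
  -- the coefficients
  let T0 : (Fin r →₀ ℕ) → (MvPowerSeries (Fin r) (OO K) →+ K) := fun d =>
    ((OO K).subtype.toAddMonoidHom).comp (coeff d : _ →ₗ[OO K] OO K).toAddMonoidHom
  have hT0 : ∀ d f, T0 d f = ((coeff d f : OO K) : K) := fun d f => rfl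
  have hcoef : ∀ d : Fin r →₀ ℕ, ∃ v : K,
      Tendsto (fun l : ℕ => ((coeff d (p ^ l • N).val : OO K) : K) / (p : K) ^ l) atTop (𝓝 v) := by
    intro d
    refine hconv (T0 d) (1 / ε ^ d.degree) fun b hb f hf => ?_
    rw [hT0]
    refine (hf d).trans (le_of_eq ?_)
    ring
  choose a ha using hcoef
  refine ⟨a 0, fun i => a (Finsupp.single i 1), P ^ 3 / P ^ l₀ / ε ^ 2, ε, by positivity, hε, hε1,
    fun δ hδ => ?_⟩
  have hδ' : HasEval δ := hasEval_xi fun i => (hδ i).trans_lt hε1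
  let T1 : MvPowerSeries (Fin r) (OO K) →+ K :=
    ((OO K).subtype.toAddMonoidHom).comp (evHom hδ').toAddMonoidHom
  have hT1 : ∀ f, T1 f = ((ev δ f : OO K) : K) := fun f => by
    change ((evHom hδ' f : OO K) : K) = _
    rw [coe_evHom]
  obtain ⟨v, hv⟩ := hconv T1 1 (fun b hb f hf => by
    rw [hT1, one_mul]
    have := norm_ev_le_of_EB hε.le le_rfl hδ hδ' hf 0 (fun d hd => absurd hd (Nat.not_lt_zero _))
    simpa using this)
  simp only [hT1] at hv
  refine ⟨v, hv, fun s hs => ?_⟩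
  -- the size of `δ`
  set m : ℝ := max 0 (min s ε) with hm
  have hm0 : 0 ≤ m := le_max_left _ _
  have hmε : m ≤ ε := max_le hε.le (min_le_right _ _)
  have hδm : ∀ i, ‖(δ i : K)‖ ≤ m := fun i => (le_min (hs i) (hδ i)).trans (le_max_right _ _)
  have hms : m ^ 2 ≤ s ^ 2 := by
    rcases le_or_gt 0 s with h0 | h0
    · have : m ≤ s := max_le h0 (min_le_left _ _)
      exact pow_le_pow_left₀ hm0 this 2
    · have : m = 0 := max_eq_left ((min_le_left _ _).trans h0.le)
      rw [this, zero_pow two_ne_zero]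
      exact sq_nonneg s
  -- pass to the limit
  have hlim : Tendsto (fun l : ℕ => ‖((ev δ (p ^ l • N).val : OO K) : K) / (p : K) ^ l -
      ((coeff 0 (p ^ l • N).val : OO K) : K) / (p : K) ^ l -
      ∑ i, ((coeff (Finsupp.single i 1) (p ^ l • N).val : OO K) : K) / (p : K) ^ l * (δ i : K)‖)
      atTop (𝓝 ‖v - a 0 - ∑ i, a (Finsupp.single i 1) * (δ i : K)‖) := by
    refine Tendsto.norm (Tendsto.sub (Tendsto.sub hv (ha 0)) ?_)
    exact tendsto_finsetSum _ fun i _ => (ha _).mul_const _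
  refine le_of_tendsto hlim ?_
  rw [eventually_atTop]
  refine ⟨l₀, fun l hl => ?_⟩
  obtain ⟨i, rfl⟩ := Nat.exists_eq_add_of_le hl
  have h1 := norm_ev_sub_le_of_EB hm0 hmε hδm hδ' (hyE i)
  have e1 : ((ev δ (p ^ (l₀ + i) • N).val : OO K) : K) / (p : K) ^ (l₀ + i) -
      ((coeff 0 (p ^ (l₀ + i) • N).val : OO K) : K) / (p : K) ^ (l₀ + i) -
      ∑ j, ((coeff (Finsupp.single j 1) (p ^ (l₀ + i) • N).val : OO K) : K) /
        (p : K) ^ (l₀ + i) * (δ j : K) =
      (((ev δ (y i) : OO K) : K) - ((coeff 0 (y i) : OO K) : K) -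
      ∑ j, ((coeff (Finsupp.single j 1) (y i) : OO K) : K) * (δ j : K)) / (p : K) ^ (l₀ + i) := by
    rw [sub_div, sub_div, Finset.sum_div]
    congr 1
    refine Finset.sum_congr rfl fun j _ => ?_
    simp only [hy]
    ring
  rw [e1, norm_div, norm_pow, ← hP]
  calc _ ≤ P ^ (3 + i) * (m / ε) ^ 2 / P ^ (l₀ + i) := by gcongr
    _ = P ^ 3 / P ^ l₀ / ε ^ 2 * m ^ 2 := by
        rw [pow_add, pow_add, div_pow]
        field_simp
    _ ≤ P ^ 3 / P ^ l₀ / ε ^ 2 * s ^ 2 := mul_le_mul_of_nonneg_left hms (by positivity)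

end Vale.Agent.P217
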