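import Vale.Agent.Lib.P217.Taylor
import Vale.Agent.Lib.P217.PEField
import Vale.Agent.Lib.P217.PEFinite

/-!
# P217: existence of points (module A7)

`exists_point`: a prime `P` of `k[[u_1..u_r]]` (`k` finite) and `f ∉ P` without constant term: there
is a complete algebraically closed ultrametric field `K` and a point `ξ` of the open polydisc over
`K` at which all elements of `P` vanish but `f` does not.

Proof plan.  `R = k[[u]]`.
(1) By Zorn/Noetherianity choose a prime `P' ⊇ P` maximal among the primes not containing `f`.  In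
`D = R/P'` every nonzero prime contains (the class of) `f`.  Claim: the maximal ideal of `D` is the
only prime containing `f`, hence nilpotent modulo `f`: let `q_1, …, q_s` be the minimal primes over
`(f)`; if the maximal ideal is not one of them, prime avoidance gives `b` in it outside all `q_i`; a
minimal prime `r` over `(b)` has height `≤ 1` (Krull's Hauptidealsatz, in Mathlib) and is nonzero, so
contains `f`, so contains some `q_i ≠ 0`, so `r = q_i ∌ b`; contradiction.
(2) So `D/(f)` is a finite-dimensional `k`-vector space and `D` is `f`-adically complete (it is complete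
for its maximal ideal), so `D` is a finite module over `k[[T]]` via `T ↦ f`
(alternatively: every element of `D` is a combination `∑ b_i c_i(f)` of lifts `b_i` of a `k`-basis
of `D/(f)`, by successive approximation), and `k[[T]] → D` is injective since `f` is
not nilpotent.  (`exists_finite`)
(3) `k[[T]] = ` unit ball of `k((T))`; let `K` be the completion of an algebraic closure of `k((T))` with
the spectral norm (as for `ℂ_[p]` in Mathlib `NumberTheory/Padics/Complex.lean`;
`IsAlgClosed.of_denseRange`).  `D` is integral over `k[[T]]` so it embeds in the closed unit ball.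
(4) `‖ξ_i‖ < 1` because `u_i^N ∈ (f) + P'` for some `N`. Conclude with `ringHom_eq_ev`.
-/

set_option linter.unusedSectionVars false

namespace Vale.Agent.P217

open MvPowerSeries Filter Topology

/-- step (1), (2) -/
theorem exists_finite (k : Type) [Field k] (r : ℕ) (P : Ideal (MvPowerSeries (Fin r) k))
    [P.IsPrime] (f : MvPowerSeries (Fin r) k) (hf : f ∉ P) (hf0 : constantCoeff f = 0) :
    ∃ (P' : Ideal (MvPowerSeries (Fin r) k)), P'.IsPrime ∧ P ≤ P' ∧ f ∉ P' ∧
      ∃ θ : PowerSeries k →+* (MvPowerSeries (Fin r) k ⧸ P'),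
        Function.Injective θ ∧ θ.Finite ∧ θ PowerSeries.X = Ideal.Quotient.mk P' f ∧
        (∀ c, θ (PowerSeries.C c) = Ideal.Quotient.mk P' (C c)) ∧
        ∀ i : Fin r, ∃ N : ℕ, (Ideal.Quotient.mk P' (X i)) ^ N ∈
          Ideal.span {Ideal.Quotient.mk P' f} := by
  exact exists_finite_aux k r P f hf hf0

/-- step (3): a domain finite over `k[[T]]` embeds in the unit ball of a complete algebraically
closed ultrametric field, with `‖T‖ < 1`. -/
theorem exists_field (p : ℕ) [Fact p.Prime] (k : Type) [Field k] [CharP k p] (D : Type)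
    [CommRing D] [IsDomain D] (θ : PowerSeries k →+* D) (hθ : Function.Injective θ)
    (hfin : θ.Finite) :
    ∃ (K : Type) (_ : NontriviallyNormedField K) (_ : IsUltrametricDist K) (_ : CompleteSpace K)
      (_ : IsAlgClosed K) (_ : CharP K p) (y : D →+* OO K), Function.Injective y ∧
      ‖((y (θ PowerSeries.X) : OO K) : K)‖ < 1 := by
  exact exists_field' p k D θ hθ hfin

theorem exists_point (p : ℕ) [Fact p.Prime] (k : Type) [Field k] [CharP k p] (r : ℕ)
    (P : Ideal (MvPowerSeries (Fin r) k)) [P.IsPrime] (f : MvPowerSeries (Fin r) k) (hf : f ∉ P)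
    (hf0 : constantCoeff f = 0) :
    ∃ (K : Type) (_ : NontriviallyNormedField K) (_ : IsUltrametricDist K) (_ : CompleteSpace K)
      (_ : IsAlgClosed K) (_ : CharP K p) (ι : k →+* OO K) (ξ : Fin r → OO K),
      (∀ i, ‖(ξ i : K)‖ < 1) ∧ (∀ g ∈ P, ev ξ (g.map ι) = 0) ∧ ev ξ (f.map ι) ≠ 0 := by
  obtain ⟨P', hP', hPP', hfP', θ, hθ, hfin, hθX, _, hnil⟩ := exists_finite k r P f hf hf0
  obtain ⟨K, i1, i2, i3, i4, i5, y, hy, hlt⟩ :=
    exists_field p k (MvPowerSeries (Fin r) k ⧸ P') θ hθ hfin
  rw [hθX] at hlt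
  have hξ : ∀ i : Fin r, ‖((y.comp (Ideal.Quotient.mk P') (X i) : OO K) : K)‖ < 1 := by
    intro i
    obtain ⟨N, hN⟩ := hnil i
    obtain ⟨c, hc⟩ := Ideal.mem_span_singleton'.mp hN
    by_contra hcon
    push Not at hcon
    have h1 : (y (Ideal.Quotient.mk P' (X i))) ^ N = y c * y (Ideal.Quotient.mk P' f) := by
      rw [← map_pow, ← hc, map_mul]
    have h2 : ‖((y (Ideal.Quotient.mk P' (X i)) : OO K) : K)‖ ^ N =
        ‖((y c : OO K) : K)‖ * ‖((y (Ideal.Quotient.mk P' f) : OO K) : K)‖ := by
      rw [← norm_pow, ← norm_mul, ← Subring.coe_pow, h1, Subring.coe_mul]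
    have h3 : 1 ≤ ‖((y (Ideal.Quotient.mk P' (X i)) : OO K) : K)‖ ^ N := one_le_pow₀ hcon
    have h4 : ‖((y c : OO K) : K)‖ * ‖((y (Ideal.Quotient.mk P' f) : OO K) : K)‖ < 1 := by
      calc ‖((y c : OO K) : K)‖ * ‖((y (Ideal.Quotient.mk P' f) : OO K) : K)‖
          ≤ 1 * ‖((y (Ideal.Quotient.mk P' f) : OO K) : K)‖ :=
            mul_le_mul_of_nonneg_right (norm_le_one _) (norm_nonneg _)
        _ < 1 := by rwa [one_mul]
    linarith
  have hev := ringHom_eq_ev (y.comp (Ideal.Quotient.mk P')) hξ
  refine ⟨K, i1, i2, i3, i4, i5, (y.comp (Ideal.Quotient.mk P')).comp C,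
    fun i => y.comp (Ideal.Quotient.mk P') (X i), hξ, ?_, ?_⟩
  · intro g hg
    rw [← hev g, RingHom.comp_apply, Ideal.Quotient.eq_zero_iff_mem.mpr (hPP' hg), map_zero]
  · rw [← hev f, RingHom.comp_apply]
    intro h0
    have h1 : Ideal.Quotient.mk P' f = 0 := hy (by rw [h0, map_zero])
    exact hfP' (Ideal.Quotient.eq_zero_iff_mem.mp h1)

end Vale.Agent.P217
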