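import Vale.Agent.Lib.P217.RelAux

/-!
# P217: additive power series in several variables are sums of endomorphisms
-/

set_option linter.unusedSectionVars false

namespace Vale.Agent.P217

open MvPowerSeries Filter Topology

section formal
variable {R : Type*} [CommRing R]

theorem subst_zero_zero (G : FormalGroup R) {υ : Type*} :
    subst ![(0 : MvPowerSeries υ R), 0] G.toPowerSeries = 0 := by
  obtain ⟨H, hH⟩ := exists_toPowerSeries_eq G
  have h0 : PowerSeries.HasSubst (0 : MvPowerSeries υ R) :=
    PowerSeries.HasSubst.of_constantCoeff_zero (by simp)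
  rw [subst_pair_eq hH h0 h0]
  ring

/-- the sum of two groups of variables -/
noncomputable def addVars (G : FormalGroup R) (τ : Type*) (i : τ) : MvPowerSeries (τ ⊕ τ) R :=
  subst ![X (Sum.inl i), X (Sum.inr i)] G.toPowerSeries

theorem addVars_constantCoeff (G : FormalGroup R) {τ : Type*} (i : τ) :
    constantCoeff (addVars G τ i) = 0 := by
  obtain ⟨H, hH⟩ := exists_toPowerSeries_eq G
  unfold addVars
  rw [subst_pair_eq hH (hasSubst_X _) (hasSubst_X _)]
  simp

theorem hasSubst_cc {σ τ : Type*} [Finite σ] {g : σ → MvPowerSeries τ R}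
    (hg : ∀ i, constantCoeff (g i) = 0) : HasSubst g := hasSubst_of_constantCoeff_zero hg

theorem cc_subst {σ τ : Type*} [Finite σ] {g : σ → MvPowerSeries τ R}
    (hg : ∀ i, constantCoeff (g i) = 0) {f : MvPowerSeries σ R} (hf : constantCoeff f = 0) :
    constantCoeff (subst g f) = 0 :=
  constantCoeff_subst_eq_zero (hasSubst_cc hg) hg hf

/-- the restriction of a series to the line of the variable `i` -/
noncomputable def line {τ : Type*} [DecidableEq τ] (s : MvPowerSeries τ R) (i : τ) :
    PowerSeries R := subst (fun k => if k = i then (PowerSeries.X : PowerSeries R) else 0) s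

theorem cc_lineVar {τ υ : Type*} [DecidableEq τ] (i : τ) (a : MvPowerSeries υ R)
    (ha : constantCoeff a = 0) (k : τ) : constantCoeff (if k = i then a else 0) = 0 := by
  split_ifs
  · exact ha
  · simp

theorem line_cc {τ : Type*} [Finite τ] [DecidableEq τ] {s : MvPowerSeries τ R}
    (hs : constantCoeff s = 0) (i : τ) : PowerSeries.constantCoeff (line s i) = 0 :=
  cc_subst (cc_lineVar i _ (by exact PowerSeries.constantCoeff_X)) hs

theorem psubst_line {τ υ : Type*} [Finite τ] [DecidableEq τ] (s : MvPowerSeries τ R) (i : τ)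
    (a : MvPowerSeries υ R) (ha : constantCoeff a = 0) :
    PowerSeries.subst a (line s i) = subst (fun k => if k = i then a else 0) s := by
  have hX : constantCoeff (PowerSeries.X : PowerSeries R) = 0 := PowerSeries.constantCoeff_X
  have h1 : HasSubst (fun k => if k = i then (PowerSeries.X : PowerSeries R) else 0) :=
    hasSubst_cc (cc_lineVar i _ hX)
  have h2 : HasSubst (fun _ : Unit => a) := hasSubst_cc fun _ => ha
  have h3 := subst_comp_subst_apply h1 h2 s
  refine h3.trans ?_
  congr 1
  funext k
  split_ifs
  · exact subst_X h2 ()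
  · rw [← coe_substAlgHom h2, map_zero]

/-- additive series restrict to endomorphisms on the coordinate lines -/
theorem isHom_line {τ : Type*} [Finite τ] [DecidableEq τ] (G : FormalGroup R)
    {s : MvPowerSeries τ R} (hs : constantCoeff s = 0)
    (hadd : subst (addVars G τ) s = subst ![subst (fun i => X (Sum.inl i)) s,
      subst (fun i => X (Sum.inr i)) s] G.toPowerSeries) (i : τ) : IsHom G G (line s i) := by
  refine ⟨line_cc hs i, ?_⟩
  let e : τ ⊕ τ → MvPowerSeries (Fin 2) R := Sum.elim (fun k => if k = i then X 0 else 0)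
    (fun k => if k = i then X 1 else 0)
  have he : ∀ k, constantCoeff (e k) = 0 := by
    intro k
    cases k with
    | inl k => exact cc_lineVar i _ (by simp) k
    | inr k => exact cc_lineVar i _ (by simp) k
  have hes := hasSubst_cc he
  have h1 := congrArg (subst e) hadd
  rw [subst_comp_subst_apply (hasSubst_cc (addVars_constantCoeff G)) hes] at h1
  have hl : ∀ i : τ, constantCoeff (X (Sum.inl i) : MvPowerSeries (τ ⊕ τ) R) = 0 := by simp
  have hr : ∀ i : τ, constantCoeff (X (Sum.inr i) : MvPowerSeries (τ ⊕ τ) R) = 0 := by simp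
  have hsl : PowerSeries.HasSubst (subst (fun i => X (Sum.inl i)) s : MvPowerSeries (τ ⊕ τ) R) :=
    PowerSeries.HasSubst.of_constantCoeff_zero (cc_subst hl hs)
  have hsr : PowerSeries.HasSubst (subst (fun i => X (Sum.inr i)) s : MvPowerSeries (τ ⊕ τ) R) :=
    PowerSeries.HasSubst.of_constantCoeff_zero (cc_subst hr hs)
  rw [subst_pair_subst hsl hsr hes] at h1
  rw [subst_comp_subst_apply (hasSubst_cc hl) hes, subst_comp_subst_apply (hasSubst_cc hr) hes]
    at h1
  have e1 : (fun k => subst e (addVars G τ k)) = fun k => if k = i then G.toPowerSeries else 0 := by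
    funext k
    unfold addVars
    rw [subst_pair_subst (hasSubst_X _) (hasSubst_X _) hes, subst_X hes, subst_X hes]
    change subst ![(if k = i then X 0 else 0 : MvPowerSeries (Fin 2) R), if k = i then X 1 else 0]
      G.toPowerSeries = _
    split_ifs
    · exact subst_pair_X _
    · exact subst_zero_zero G
  have e2 : (fun k => subst e (X (Sum.inl k) : MvPowerSeries (τ ⊕ τ) R)) =
      fun k => if k = i then X 0 else 0 := by
    funext k
    rw [subst_X hes]
    rfl
  have e3 : (fun k => subst e (X (Sum.inr k) : MvPowerSeries (τ ⊕ τ) R)) =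
      fun k => if k = i then X 1 else 0 := by
    funext k
    rw [subst_X hes]
    rfl
  rw [e1, e2, e3] at h1
  rw [psubst_line s i _ G.zero_constantCoeff, psubst_line s i _ (by simp),
    psubst_line s i _ (by simp)]
  exact h1

end formal

section generic
variable {B : Type*} [CommRing B] [UniformSpace B] [AdicRing B] {κ : Type*} [CommRing κ]
  (A : κ →+* B)

/-- evaluation of a substituted series, with coefficients in a smaller ring -/
theorem ev_map_subst {σ τ : Type*} [Finite σ] {g : σ → MvPowerSeries τ κ}
    (hg : ∀ i, constantCoeff (g i) = 0) {b : τ → B} (hb : HasEval b) (f : MvPowerSeries σ κ) :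
    ev b ((subst g f).map A) = ev (fun i => ev b ((g i).map A)) (f.map A) := by
  have h1 : ∀ i, constantCoeff ((g i).map A) = 0 := by
    intro i
    rw [constantCoeff_map, hg, map_zero]
  rw [map_subst (hasSubst_cc hg), ev_subst (hasSubst_cc h1) hb]

theorem ev_map_pair {τ : Type*} {f g : MvPowerSeries τ κ} (hf : constantCoeff f = 0)
    (hg : constantCoeff g = 0) {b : τ → B} (hb : HasEval b) (P : MvPowerSeries (Fin 2) κ) :
    ev b ((subst ![f, g] P).map A) = ev ![ev b (f.map A), ev b (g.map A)] (P.map A) := by
  rw [ev_map_subst A (by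
    intro i
    fin_cases i
    · exact hf
    · exact hg) hb]
  congr 1
  funext i
  fin_cases i <;> rfl

end generic

section
variable {K : Type*} [NontriviallyNormedField K] [IsUltrametricDist K] [CompleteSpace K]
  {p : ℕ} [Fact p.Prime] [CharP K p] {h : ℕ} [Fact (0 < h)]

theorem additive_series {τ : Type*} [Fintype τ] [DecidableEq τ] (G : FormalGroup (FixF K p h))
    [G.IsComm] (hG : mulSeries G p = PowerSeries.X ^ (p ^ h))
    (Ω : AddSubgroup (τ → Pt (G.map (algebraMap (FixF K p h) (OO K)))))
    (h1 : ∀ φ : MvPowerSeries τ (FixF K p h), (∀ ω ∈ Ω, ev (fun i => (ω i).val)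
      (φ.map (algebraMap (FixF K p h) (OO K))) = 0) → φ = 0)
    (s : MvPowerSeries τ (FixF K p h)) (hs : constantCoeff s = 0)
    (hadd : ∀ ω ∈ Ω, ∀ ω' ∈ Ω, ev (fun i => ((ω + ω') i).val)
      (s.map (algebraMap (FixF K p h) (OO K))) =
      ev ![ev (fun i => (ω i).val) (s.map (algebraMap (FixF K p h) (OO K))),
        ev (fun i => (ω' i).val) (s.map (algebraMap (FixF K p h) (OO K)))]
        (G.toPowerSeries.map (algebraMap (FixF K p h) (OO K)))) :
    ∃ (χ : τ → PowerSeries (FixF K p h)) (hχ : ∀ i, IsHom G G (χ i)),
      ∀ x : τ → Pt (G.map (algebraMap (FixF K p h) (OO K))),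
        ev (fun i => (x i).val) (s.map (algebraMap (FixF K p h) (OO K))) =
          (∑ i, Pt.hom ((hχ i).map (algebraMap (FixF K p h) (OO K))) (x i)).val := by
  have hl : ∀ i : τ, constantCoeff (X (Sum.inl i) : MvPowerSeries (τ ⊕ τ) (FixF K p h)) = 0 := by
    simp
  have hr : ∀ i : τ, constantCoeff (X (Sum.inr i) : MvPowerSeries (τ ⊕ τ) (FixF K p h)) = 0 := by
    simp
  -- evaluation of both sides
  have evL : ∀ x y : τ → Pt (G.map (algebraMap (FixF K p h) (OO K))), ev (Sum.elim (fun i => (x i).val) (fun i => (y i).val))
      ((subst (addVars G τ) s).map (algebraMap (FixF K p h) (OO K))) = ev (fun i => ((x + y) i).val) (s.map (algebraMap (FixF K p h) (OO K))) := by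
    intro x y
    have hb : HasEval (Sum.elim (fun i => (x i).val) (fun i => (y i).val)) :=
      hasEval_of_finite (by
        intro k
        cases k with
        | inl k => exact (x k).tn
        | inr k => exact (y k).tn)
    rw [ev_map_subst (algebraMap (FixF K p h) (OO K)) (addVars_constantCoeff G) hb]
    congr 1
    funext i
    unfold addVars
    rw [ev_map_pair (algebraMap (FixF K p h) (OO K)) (hl i) (hr i) hb, map_X, map_X, ev_X, ev_X]
    rfl
  have evR' : ∀ x y : τ → Pt (G.map (algebraMap (FixF K p h) (OO K))), ev (Sum.elim (fun i => (x i).val) (fun i => (y i).val))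
      ((subst ![subst (fun i => X (Sum.inl i)) s, subst (fun i => X (Sum.inr i)) s]
        G.toPowerSeries : MvPowerSeries (τ ⊕ τ) (FixF K p h)).map (algebraMap (FixF K p h) (OO K))) =
      ev ![ev (fun i => (x i).val) (s.map (algebraMap (FixF K p h) (OO K))), ev (fun i => (y i).val) (s.map (algebraMap (FixF K p h) (OO K)))]
        (G.toPowerSeries.map (algebraMap (FixF K p h) (OO K))) := by
    intro x y
    have hb : HasEval (Sum.elim (fun i => (x i).val) (fun i => (y i).val)) :=
      hasEval_of_finite (by
        intro k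
        cases k with
        | inl k => exact (x k).tn
        | inr k => exact (y k).tn)
    rw [ev_map_pair (algebraMap (FixF K p h) (OO K)) (cc_subst hl hs) (cc_subst hr hs) hb, ev_map_subst (algebraMap (FixF K p h) (OO K)) hl hb,
      ev_map_subst (algebraMap (FixF K p h) (OO K)) hr hb]
    simp only [map_X, ev_X, Sum.elim_inl, Sum.elim_inr]
  have key : subst (addVars G τ) s = subst ![subst (fun i => X (Sum.inl i)) s,
      subst (fun i => X (Sum.inr i)) s] G.toPowerSeries := by
    rw [← sub_eq_zero]
    apply prod_vanish G hG Ω Ω h1 h1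
    intro ω hω ω' hω'
    have hb : HasEval (Sum.elim (fun i => (ω i).val) (fun i => (ω' i).val)) :=
      hasEval_of_finite (by
        intro k
        cases k with
        | inl k => exact (ω k).tn
        | inr k => exact (ω' k).tn)
    rw [map_sub, ev_sub hb, evL, evR', hadd ω hω ω' hω', sub_self]
  refine ⟨line s, isHom_line G hs key, ?_⟩
  have hs' : constantCoeff (s.map (algebraMap (FixF K p h) (OO K))) = 0 := by rw [constantCoeff_map, hs, map_zero]
  let S : (τ → Pt (G.map (algebraMap (FixF K p h) (OO K)))) →+ Pt (G.map (algebraMap (FixF K p h) (OO K))) :=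
    { toFun := fun x => ⟨ev (fun i => (x i).val) (s.map (algebraMap (FixF K p h) (OO K))),
        ev_tn (hasEval_of_finite fun i => (x i).tn) _ hs'⟩
      map_zero' := by
        apply Pt.ext
        change ev (fun _ => (0 : OO K)) (s.map (algebraMap (FixF K p h) (OO K))) = 0
        rw [ev_at_zero, hs']
      map_add' := by
        intro x y
        apply Pt.ext
        change ev (fun i => ((x + y) i).val) (s.map (algebraMap (FixF K p h) (OO K))) = _
        rw [← evL, key, evR']
        rfl }
  have hS : ∀ i y, S (Pi.single i y) = Pt.hom ((isHom_line G hs key i).map (algebraMap (FixF K p h) (OO K))) y := by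
    intro i y
    apply Pt.ext
    change ev (fun k => ((Pi.single i y : τ → Pt (G.map (algebraMap (FixF K p h) (OO K)))) k).val) (s.map (algebraMap (FixF K p h) (OO K))) =
      ev (fun _ : Unit => y.val) ((line s i).map (algebraMap (FixF K p h) (OO K)))
    unfold line
    have hX : constantCoeff (PowerSeries.X : PowerSeries (FixF K p h)) = 0 :=
      PowerSeries.constantCoeff_X
    have h2 := ev_map_subst (algebraMap (FixF K p h) (OO K)) (cc_lineVar (τ := τ) i _ hX) (hasEval_unit y.tn) s
    refine Eq.trans ?_ h2.symm
    congr 1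
    funext k
    by_cases hk : k = i
    · subst hk
      rw [Pi.single_eq_same, if_pos rfl]
      have h3 : MvPowerSeries.map (algebraMap (FixF K p h) (OO K)) (PowerSeries.X : PowerSeries (FixF K p h)) = X () :=
        PowerSeries.map_X (algebraMap (FixF K p h) (OO K))
      rw [h3, ev_X]
    · rw [Pi.single_eq_of_ne hk, if_neg hk, map_zero, ev_zero (hasEval_unit y.tn)]
      rfl
  intro x
  have h3 : S x = ∑ i, Pt.hom ((isHom_line G hs key i).map (algebraMap (FixF K p h) (OO K))) (x i) := by
    rw [← Finset.univ_sum_single x, map_sum]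
    apply Finset.sum_congr rfl
    intro i _
    rw [hS, Finset.univ_sum_single]
  exact congrArg Pt.val h3

end
end Vale.Agent.P217
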