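import Vale.Agent.Lib.P217.Rigid
import Vale.Agent.Lib.P217.IFT
import Vale.Agent.Lib.P217.Pt
import Vale.Agent.Lib.P217.RelAux2
import Vale.Agent.Lib.P217.ClaimA

/-!
# P217: subgroups of `G^σ` that are not Zariski dense satisfy additive relations (modules A16, A17)

`κ = FixF K p h`, `Q = p ^ h`, `G` is a formal group law over `κ` with `[p]_G = X^Q`, and `Ω` is a
subgroup of `G(𝔪_K)^σ`.  `Van Ω φ` says that the power series `φ` (coefficients in `κ`) vanishes on
`Ω`.

* `claimA`: if some nonzero `φ` vanishes on `Ω`, then some `φ` with nonzero linear part does.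

  Proof. Let `J` be the ideal of all `φ` vanishing on `Ω`, `𝔪` the ideal of series without constant
  term, and suppose that all elements of `J` have zero linear part (the constant term is zero since
  `0 ∈ Ω`).
  (1) `J` is closed: if for all `N` there is `φ_N ∈ J` with `φ - φ_N ∈ 𝔪^N` then `φ ∈ J`.
  (2) For `φ ∈ J` write `φ(X +_G Y) = ∑_α φ_α(Y) X^α` (addition of `G` in each coordinate).  For
  `ω ∈ Ω` the series `h_ω(X) = ∑ φ_α(ω) X^α` (coefficients in `OO K`) vanishes on `Ω`, since `Ω` is a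
  group.  Since `ω'^{Q^m} = p^m • ω'` is in `Ω` for `ω' ∈ Ω`, `rigidity` applies to `Ψ = h_ω`
  (take `ρ = max_i ‖ω'_i‖`, or any `ρ ∈ (0,1)` if this is `0`; the tail of `h_ω` in degrees `≥ N`
  is at most `ρ^{N Q^m}` at `ω'^{Q^m}`): so `∑_α ℓ(φ_α(ω)) X^α ∈ J` for every `κ`-linear
  `ℓ : K → κ`.
  (3) Let `θ` be a `κ`-linear functional on power series which vanishes on `J` and on `𝔪^N`, and put
  `Φ_θ(Y) = ∑_{|α| < N} θ(X^α) φ_α(Y)`. By (2), `ℓ(Φ_θ(ω)) = θ(∑ ℓ(φ_α(ω)) X^α) = 0` for all `ℓ`,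
  so `Φ_θ(ω) = 0` for `ω ∈ Ω`: `Φ_θ ∈ J`.  So its linear part vanishes:
  `θ(D_i φ) = 0`, where `D_i φ = ∂_{Y_i}|_{Y = 0} φ(X +_G Y) = u(X_i) ∂φ/∂X_i` and
  `u(T) = (∂_2 G)(T, 0)` is a unit power series (constant term `1`).
  As this holds for all `θ` (and `N`), `D_i φ ∈ J + 𝔪^N` for all `N`, so `D_i φ ∈ J` by (1), so
  `∂φ/∂X_i ∈ J`.
  (4) Let `0 ≠ φ ∈ J` be of minimal order `d`; `d ≥ 1`. The ideal `J` is stable under the operators
  `X_i ∂_i`, and `∏_i (1 - (X_i ∂_i)^{p-1})` maps `∑ c_α X^α` to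
  `∑_{p | α} c_α X^α = ψ^p`, `ψ = ∑_{p | α} c_α^{1/p} X^{α/p}` (`κ` is perfect).
  So `ψ^p ∈ J` and hence `ψ ∈ J` (`OO K` is a domain).  The part of degree `d` of `∂_i φ` in
  degree `d - 1` vanishes (as `∂_i φ ∈ J` has order `≥ d` or is zero), so all exponents of the
  homogeneous part of degree `d` of `φ` are divisible by `p`; therefore `ψ ≠ 0` has order
  `d / p < d`: contradiction.

* `exists_relation`: if some nonzero `φ` vanishes on `Ω`, one coordinate is a sum of endomorphisms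
  of `G` over `κ` applied to the other coordinates.

  Proof.  For a subset `I` of `σ` say that `I` is generating if for all `j ∉ I` there is a power series
  `s_j` over `κ` in the variables `X_i`, `i ∈ I`, without constant term, with `ω_j = s_j(ω_I)` for
  all `ω ∈ Ω`.  `σ` is generating; choose a minimal generating `I`.  The ideal of series in the
  variables `X_I` vanishing on the projection `Ω_I` is zero: otherwise by `claimA` it contains some
  `φ` with `∂φ/∂X_j(0) ≠ 0`, `j ∈ I`, by `formal_ift` applied to the coordinates `φ` and `X_i`,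
  `i ∈ I \ {j}`, `X_j = Ψ(X_{I \ j}, φ)`, so `ω_j = Ψ(ω_{I \ j}, 0)` on `Ω` and `I \ {j}` is
  generating (substitute).  In particular `I ≠ σ`. Choose `j ∉ I`.  The series
  `s_j(X +_G Y) - (s_j(X) +_G s_j(Y))` in the variables `X_I, Y_I` vanishes on `Ω_I × Ω_I`; hence it is zero:
  for fixed `ω'` its value `Φ(X, ω')` vanishes on `Ω_I`, so by `rigidity` all `ℓ(Φ(X, ω'))` vanish on
  `Ω_I`, so are zero, so `Φ(X, ω') = 0`, so every coefficient `Φ_α(Y)` vanishes on `Ω_I` so is zero.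
  Then `s_j(X_I) = ∑^G_{i ∈ I} χ_i(X_i)`, `χ_i(T) = s_j(0, …, T, …, 0)`, and `χ_i` is an
  endomorphism.
-/

set_option linter.unusedSectionVars false

namespace Vale.Agent.P217

open MvPowerSeries Filter Topology

universe u

section
variable {K : Type*} [NontriviallyNormedField K] [IsUltrametricDist K] [CompleteSpace K]
  {p : ℕ} [Fact p.Prime] [CharP K p] {h : ℕ} [Fact (0 < h)]

/-- base change of a formal group law from `FixF K p h` to `OO K` -/
noncomputable abbrev GO (G : FormalGroup (FixF K p h)) : FormalGroup (OO K) :=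
  G.map (algebraMap (FixF K p h) (OO K))

/-- the power series `φ` vanishes on `Ω` -/
def Van {σ : Type*} {G : FormalGroup (FixF K p h)} [(GO G).IsComm]
    (Ω : AddSubgroup (σ → Pt (GO G))) (φ : MvPowerSeries σ (FixF K p h)) : Prop :=
  ∀ ω ∈ Ω, ev (fun i => (ω i).val) (φ.map (algebraMap (FixF K p h) (OO K))) = 0

theorem claimA {σ : Type*} [Fintype σ] (G : FormalGroup (FixF K p h)) [G.IsComm]
    (hG : mulSeries G p = PowerSeries.X ^ (p ^ h))
    (Ω : AddSubgroup (σ → Pt (GO G))) (φ : MvPowerSeries σ (FixF K p h)) (hφ : φ ≠ 0)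
    (hv : Van Ω φ) :
    ∃ ψ : MvPowerSeries σ (FixF K p h), Van Ω ψ ∧ ∃ i, coeff (Finsupp.single i 1) ψ ≠ 0 :=
  ClaimA.claimA_aux G hG Ω φ hφ hv

theorem isHom_zero (G : FormalGroup (FixF K p h)) : IsHom G G 0 := by
  refine ⟨map_zero _, ?_⟩
  have h0 : ∀ (a : MvPowerSeries (Fin 2) (FixF K p h)), PowerSeries.HasSubst a →
      PowerSeries.subst a (0 : PowerSeries (FixF K p h)) = 0 := fun a ha => subst_zero' ha
  rw [h0 _ (hasSubst_F G), h0 _ (hasSubst_X 0), h0 _ (hasSubst_X 1), subst_zero_zero]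

/-- extension by zero of a family of endomorphisms -/
theorem extend_rel {σ : Type*} [Fintype σ] [DecidableEq σ] (G : FormalGroup (FixF K p h)) [G.IsComm]
    (j : σ) (χ' : {i // i ≠ j} → PowerSeries (FixF K p h)) (hχ' : ∀ i, IsHom G G (χ' i)) :
    ∃ (χ : σ → PowerSeries (FixF K p h)) (hχ : ∀ i, IsHom G G (χ i)), χ j = 0 ∧
      (∀ i : {i // i ≠ j}, χ i.1 = χ' i) ∧ ∀ x : σ → Pt (GO G),
        ∑ i, Pt.hom ((hχ i).map (algebraMap (FixF K p h) (OO K))) (x i) =
          ∑ i : {i // i ≠ j}, Pt.hom ((hχ' i).map (algebraMap (FixF K p h) (OO K))) (x i.1) := by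
  let χ : σ → PowerSeries (FixF K p h) := fun i => if hi : i ≠ j then χ' ⟨i, hi⟩ else 0
  have hχj : χ j = 0 := dif_neg (fun hj => hj rfl)
  have hχi : ∀ i : {i // i ≠ j}, χ i.1 = χ' i := fun i => dif_pos i.2
  have hχ : ∀ i, IsHom G G (χ i) := by
    intro i
    by_cases hi : i ≠ j
    · rw [show χ i = χ' ⟨i, hi⟩ from dif_pos hi]
      exact hχ' _
    · rw [show χ i = 0 from dif_neg hi]
      exact isHom_zero G
  refine ⟨χ, hχ, hχj, hχi, fun x => ?_⟩
  rw [Fintype.sum_eq_add_sum_subtype_ne _ j]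
  have h1 : Pt.hom ((hχ j).map (algebraMap (FixF K p h) (OO K))) (x j) = 0 := by
    apply Pt.ext
    rw [Pt.hom_val, hχj, map_zero]
    exact ev_zero (hasEval_unit (x j).tn)
  rw [h1, zero_add]
  apply Finset.sum_congr rfl
  intro i _
  apply Pt.ext
  rw [Pt.hom_val, Pt.hom_val, hχi]

theorem det_ne_zero {σ : Type*} [Fintype σ] [DecidableEq σ] {k : Type*} [Field k] (j : σ)
    (ψ : MvPowerSeries σ k) (hj : coeff (Finsupp.single j 1) ψ ≠ 0) :
    (Matrix.of fun i l : σ => coeff (Finsupp.single l 1)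
      (if i = j then ψ else X i : MvPowerSeries σ k)).det ≠ 0 := by
  intro hdet
  obtain ⟨v, hv, hv0⟩ := Matrix.exists_mulVec_eq_zero_iff.2 hdet
  have h1 : ∀ i, i ≠ j → v i = 0 := by
    intro i hi
    have h2 := congrFun hv0 i
    simp only [Matrix.mulVec, dotProduct, Matrix.of_apply, if_neg hi, coeff_X, Pi.zero_apply]
      at h2
    rw [Finset.sum_eq_single i] at h2
    · simpa using h2
    · intro l _ hl
      rw [if_neg, zero_mul]
      intro h3
      exact hl (Finsupp.single_left_injective one_ne_zero h3)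
    · intro h3
      exact absurd (Finset.mem_univ i) h3
  have h2 := congrFun hv0 j
  simp only [Matrix.mulVec, dotProduct, Matrix.of_apply, if_true, Pi.zero_apply] at h2
  rw [Finset.sum_eq_single j] at h2
  · rcases mul_eq_zero.1 h2 with h3 | h3
    · exact hj h3
    · apply hv
      funext i
      by_cases hi : i = j
      · rw [hi]
        exact h3
      · exact h1 i hi
  · intro l _ hl
    rw [h1 l hl, mul_zero]
  · intro h3
    exact absurd (Finset.mem_univ j) h3

theorem algebraMap_inj (c : FixF K p h) (hc : algebraMap (FixF K p h) (OO K) c = 0) : c = 0 := by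
  have h1 : ((algebraMap (FixF K p h) (OO K) c : OO K) : K) = 0 := by rw [hc]; rfl
  rw [coe_algebraMap_FixF] at h1
  exact Subtype.ext h1

theorem Van.constantCoeff {σ : Type*} [Finite σ] {G : FormalGroup (FixF K p h)} [(GO G).IsComm]
    {Ω : AddSubgroup (σ → Pt (GO G))} {φ : MvPowerSeries σ (FixF K p h)} (hv : Van Ω φ) :
    MvPowerSeries.constantCoeff φ = 0 := by
  have h1 := hv 0 Ω.zero_mem
  have h2 : ev (fun _ : σ => (0 : OO K)) (φ.map (algebraMap (FixF K p h) (OO K))) = 0 := h1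
  rw [ev_at_zero, constantCoeff_map] at h2
  exact algebraMap_inj _ h2

theorem exists_relation_aux (G : FormalGroup (FixF K p h)) [G.IsComm]
    (hG : mulSeries G p = PowerSeries.X ^ (p ^ h)) (n : ℕ) :
    ∀ (σ : Type u) [Fintype σ] (_ : Fintype.card σ = n) (Ω : AddSubgroup (σ → Pt (GO G)))
      (φ : MvPowerSeries σ (FixF K p h)) (_ : φ ≠ 0) (_ : Van Ω φ),
    ∃ (j : σ) (χ : σ → PowerSeries (FixF K p h)) (hχ : ∀ i, IsHom G G (χ i)), χ j = 0 ∧
      ∀ ω ∈ Ω, ω j = ∑ i, Pt.hom ((hχ i).map (algebraMap (FixF K p h) (OO K))) (ω i) := by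
  classical
  induction n using Nat.strong_induction_on with
  | _ n ih =>
  intro σ _ hn Ω φ hφ hv
  obtain ⟨ψ, hψ, j, hj⟩ := claimA G hG Ω φ hφ hv
  have hψ0 := hψ.constantCoeff
  let q : σ → MvPowerSeries σ (FixF K p h) := fun i => if i = j then ψ else X i
  have hq0 : ∀ i, MvPowerSeries.constantCoeff (q i) = 0 := by
    intro i
    change MvPowerSeries.constantCoeff (if i = j then ψ else X i) = 0
    split_ifs
    · exact hψ0
    · simp
  obtain ⟨Ψ, hΨ⟩ := formal_ift q hq0 (det_ne_zero j ψ hj) (X j)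
  let g : σ → MvPowerSeries {i // i ≠ j} (FixF K p h) := fun i =>
    if hi : i ≠ j then X ⟨i, hi⟩ else 0
  have hg0 : ∀ i, MvPowerSeries.constantCoeff (g i) = 0 := by
    intro i
    by_cases hi : i ≠ j
    · rw [show g i = X ⟨i, hi⟩ from dif_pos hi]
      simp
    · rw [show g i = 0 from dif_neg hi]
      simp
  let s := subst g Ψ
  have hrel : ∀ ω ∈ Ω, (ω j).val = ev (fun i : {i // i ≠ j} => (ω i.1).val)
      (s.map (algebraMap (FixF K p h) (OO K))) := by
    intro ω hω
    have hb : HasEval (fun i => (ω i).val) := hasEval_of_finite fun i => (ω i).tn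
    have hb' : HasEval (fun i : {i // i ≠ j} => (ω i.1).val) :=
      hasEval_of_finite fun i => (ω i.1).tn
    have h1 := congrArg (fun f => ev (fun i => (ω i).val)
      (MvPowerSeries.map (algebraMap (FixF K p h) (OO K)) f)) hΨ
    change ev _ (MvPowerSeries.map _ (X j)) = ev _ (MvPowerSeries.map _ (subst q Ψ)) at h1
    rw [map_X, ev_X, ev_map_subst _ hq0 hb] at h1
    rw [h1, ev_map_subst _ hg0 hb']
    congr 1
    funext i
    by_cases hi : i = j
    · have h2 : q i = ψ := if_pos hi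
      have h3 : g i = 0 := dif_neg (fun h => h hi)
      rw [h2, h3, map_zero, ev_zero hb']
      exact hψ ω hω
    · have h2 : q i = X i := if_neg hi
      have h3 : g i = X ⟨i, hi⟩ := dif_pos hi
      rw [h2, h3, map_X, map_X, ev_X, ev_X]
  have hs0 : MvPowerSeries.constantCoeff s = 0 := by
    have h1 := hrel 0 Ω.zero_mem
    have h2 : (0 : OO K) = ev (fun _ : {i // i ≠ j} => (0 : OO K))
      (s.map (algebraMap (FixF K p h) (OO K))) := h1
    rw [ev_at_zero, constantCoeff_map] at h2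
    exact algebraMap_inj _ h2.symm
  let pr : (σ → Pt (GO G)) →+ ({i // i ≠ j} → Pt (GO G)) :=
    { toFun := fun x i => x i.1
      map_zero' := rfl
      map_add' := fun _ _ => rfl }
  by_cases h' : ∃ φ' : MvPowerSeries {i // i ≠ j} (FixF K p h), φ' ≠ 0 ∧ Van (Ω.map pr) φ'
  · obtain ⟨φ', h1, h2⟩ := h'
    have hcard : Fintype.card {i // i ≠ j} < n := by
      rw [← hn]
      exact Fintype.card_subtype_lt (x := j) (fun h => h rfl)
    obtain ⟨j', χ', hχ', hz, hr⟩ := ih _ hcard {i // i ≠ j} rfl (Ω.map pr) φ' h1 h2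
    obtain ⟨χ, hχ, -, hχi, hsum⟩ := extend_rel G j χ' hχ'
    refine ⟨j'.1, χ, hχ, (hχi j').trans hz, fun ω hω => ?_⟩
    rw [hsum]
    exact hr (pr ω) (AddSubgroup.mem_map_of_mem pr hω)
  · push Not at h'
    obtain ⟨χ', hχ', hval⟩ := additive_series G hG (Ω.map pr) (fun φ' hφ' => by
      by_contra hne
      exact h' φ' hne hφ') s hs0 (by
      rintro _ ⟨ω, hω, rfl⟩ _ ⟨ω', hω', rfl⟩
      have h1 := hrel _ (Ω.add_mem hω hω')
      have h2 := hrel _ hω
      have h3 := hrel _ hω'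
      change ev (fun i : {i // i ≠ j} => ((ω + ω') i.1).val) _ = ev ![
        ev (fun i : {i // i ≠ j} => (ω i.1).val) _, ev (fun i : {i // i ≠ j} => (ω' i.1).val) _] _
      rw [← h1, ← h2, ← h3]
      rfl)
    obtain ⟨χ, hχ, hχj, -, hsum⟩ := extend_rel G j χ' hχ'
    refine ⟨j, χ, hχ, hχj, fun ω hω => ?_⟩
    rw [hsum]
    apply Pt.ext
    rw [hrel ω hω]
    exact hval (pr ω)

theorem exists_relation {σ : Type*} [Fintype σ] (G : FormalGroup (FixF K p h)) [G.IsComm]
    (hG : mulSeries G p = PowerSeries.X ^ (p ^ h))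
    (Ω : AddSubgroup (σ → Pt (GO G))) (φ : MvPowerSeries σ (FixF K p h)) (hφ : φ ≠ 0)
    (hv : Van Ω φ) :
    ∃ (j : σ) (χ : σ → PowerSeries (FixF K p h)) (hχ : ∀ i, IsHom G G (χ i)), χ j = 0 ∧
      ∀ ω ∈ Ω, ω j = ∑ i, Pt.hom ((hχ i).map (algebraMap (FixF K p h) (OO K))) (ω i) :=
  exists_relation_aux G hG _ σ rfl Ω φ hφ hv

end
end Vale.Agent.P217
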