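import Vale.Agent.Lib.P217.Jacobian
import Vale.Agent.Lib.P217.Lambda
import Vale.Agent.Lib.P217.LambdaU
import Vale.Agent.Lib.P217.Asym
import Vale.Agent.Lib.P217.Relation
import Vale.Agent.Lib.P217.PointExists

/-!
# P217: auxiliary lemmas for `MainP.lean`
-/

set_option linter.unusedSectionVars false

namespace Vale.Agent.P217

open MvPowerSeries Filter Topology
open scoped MvPowerSeries.WithPiTopology

/-! ### sums of homomorphisms -/

section hom
variable {R : Type*} [CommRing R] {F G : FormalGroup R} [F.IsComm] [G.IsComm]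

theorem ma_hs_of_zero {σ : Type*} {f : MvPowerSeries σ R} (hf : constantCoeff f = 0) :
    PowerSeries.HasSubst f := PowerSeries.HasSubst.of_constantCoeff_zero hf

theorem ma_constantCoeff_pair {σ : Type*} {f g : MvPowerSeries σ R} (hf : constantCoeff f = 0)
    (hg : constantCoeff g = 0) (G : FormalGroup R) :
    constantCoeff (subst ![f, g] G.toPowerSeries) = 0 := by
  apply constantCoeff_subst_eq_zero (hasSubst_pair (ma_hs_of_zero hf) (ma_hs_of_zero hg))
  · intro s
    fin_cases s
    · exact hf
    · exact hg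
  · exact G.zero_constantCoeff

theorem ma_isHom_add {P Q : G.Point Unit} (hP : IsHom F G P.val) (hQ : IsHom F G Q.val) :
    IsHom F G (P + Q).val := by
  refine ⟨?_, ?_⟩
  · rw [FormalGroup.add_apply]
    exact ma_constantCoeff_pair hP.1 hQ.1 G
  · have e0 : ∀ (a : MvPowerSeries (Fin 2) R), PowerSeries.HasSubst a →
        PowerSeries.subst a (P + Q).val =
          subst ![PowerSeries.subst a P.val, PowerSeries.subst a Q.val] G.toPowerSeries := by
      intro a ha
      rw [FormalGroup.add_apply]
      exact psubst_pair P.prop Q.prop ha _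
    rw [e0 _ (hasSubst_F F), e0 _ (hasSubst_X 0), e0 _ (hasSubst_X 1), hP.2, hQ.2]
    let p0 : G.Point (Fin 2) := ⟨PowerSeries.subst (X 0) P.val,
      hasSubst_psubst (hasSubst_X 0) hP.1⟩
    let p1 : G.Point (Fin 2) := ⟨PowerSeries.subst (X 1) P.val,
      hasSubst_psubst (hasSubst_X 1) hP.1⟩
    let q0 : G.Point (Fin 2) := ⟨PowerSeries.subst (X 0) Q.val,
      hasSubst_psubst (hasSubst_X 0) hQ.1⟩
    let q1 : G.Point (Fin 2) := ⟨PowerSeries.subst (X 1) Q.val,
      hasSubst_psubst (hasSubst_X 1) hQ.1⟩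
    have h : (p0 + p1) + (q0 + q1) = (p0 + q0) + (p1 + q1) := by abel
    exact congrArg Subtype.val h

theorem ma_isHom_zero : IsHom F G (0 : G.Point Unit).val := by
  have h0 : (0 : G.Point Unit).val = 0 := rfl
  rw [h0]
  refine ⟨map_zero _, ?_⟩
  rw [subst_zero' (hasSubst_F F), subst_zero' (hasSubst_X 0), subst_zero' (hasSubst_X 1)]
  let z : G.Point (Fin 2) := 0
  have h : (0 : G.Point (Fin 2)) = z + z := by simp [z]
  exact congrArg Subtype.val h

theorem ma_isHom_neg {P : G.Point Unit} (hP : IsHom F G P.val) : IsHom F G (-P).val := by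
  refine ⟨?_, ?_⟩
  · rw [Point.neg_val]
    exact PowerSeries.constantCoeff_subst_eq_zero hP.1 _ (invSeries_constantCoeff G)
  · have e0 : ∀ (a : MvPowerSeries (Fin 2) R), PowerSeries.HasSubst a →
        PowerSeries.subst a (-P).val =
          PowerSeries.subst (PowerSeries.subst a P.val) (invSeries G) := by
      intro a ha
      rw [Point.neg_val, PowerSeries.subst_comp_subst_apply P.prop ha]
    rw [e0 _ (hasSubst_F F), e0 _ (hasSubst_X 0), e0 _ (hasSubst_X 1), hP.2]
    let p0 : G.Point (Fin 2) := ⟨PowerSeries.subst (X 0) P.val,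
      hasSubst_psubst (hasSubst_X 0) hP.1⟩
    let p1 : G.Point (Fin 2) := ⟨PowerSeries.subst (X 1) P.val,
      hasSubst_psubst (hasSubst_X 1) hP.1⟩
    have h : -(p0 + p1) = -p0 + -p1 := by abel
    exact congrArg Subtype.val h

theorem ma_isHom_nsmul {P : G.Point Unit} (hP : IsHom F G P.val) (m : ℕ) :
    IsHom F G (m • P).val := by
  induction m with
  | zero => rw [zero_nsmul]; exact ma_isHom_zero
  | succ m ih => rw [succ_nsmul]; exact ma_isHom_add ih hP

end hom

/-! ### congruences for the group laws -/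

section cong
variable {K : Type*} [NontriviallyNormedField K] [IsUltrametricDist K] [CompleteSpace K]
  {c : ℝ} (hc0 : 0 ≤ c) {Fx G : FormalGroup (OO K)} [Fx.IsComm] [G.IsComm]

/-- the sums for two congruent group laws are congruent -/
theorem ma_ev_pair_sub_mem (hcong : ∀ d, ‖((coeff d (Fx.toPowerSeries - G.toPowerSeries) :
      OO K) : K)‖ ≤ c) {x y x' y' : OO K}
    (hx : ‖(x : K)‖ < 1) (hy : ‖(y : K)‖ < 1) (hx' : ‖(x' : K)‖ < 1) (hy' : ‖(y' : K)‖ < 1)
    (hxx : x - x' ∈ ballIdeal K c hc0) (hyy : y - y' ∈ ballIdeal K c hc0) :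
    ev ![x, y] Fx.toPowerSeries - ev ![x', y'] G.toPowerSeries ∈ ballIdeal K c hc0 := by
  have h1 := ev_hasSum (hasEval_pair (tn_iff.mpr hx) (tn_iff.mpr hy)) Fx.toPowerSeries
  have h2 := ev_hasSum (hasEval_pair (tn_iff.mpr hx') (tn_iff.mpr hy')) G.toPowerSeries
  refine (isClosed_ballIdeal (K := K) c hc0).mem_of_tendsto (h1.sub h2) ?_
  refine Eventually.of_forall fun s => Ideal.sum_mem _ fun d _ => ?_
  rw [← Ideal.Quotient.eq_zero_iff_mem, map_sub, sub_eq_zero, map_mul, map_mul]
  have e1 : Ideal.Quotient.mk (ballIdeal K c hc0) (coeff d Fx.toPowerSeries) =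
      Ideal.Quotient.mk (ballIdeal K c hc0) (coeff d G.toPowerSeries) := by
    rw [Ideal.Quotient.eq, ← map_sub]
    exact hcong d
  rw [e1]
  congr 1
  rw [Finsupp.prod_fintype _ _ (by simp), Finsupp.prod_fintype _ _ (by simp), map_prod, map_prod]
  refine Finset.prod_congr rfl fun i _ => ?_
  rw [map_pow, map_pow]
  congr 1
  rw [Ideal.Quotient.eq]
  fin_cases i
  · exact hxx
  · exact hyy

end cong

/-! ### compatible sequences starting with a torsion point -/

section uc
variable {K : Type*} [NontriviallyNormedField K] [IsUltrametricDist K] [CompleteSpace K]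
  [IsAlgClosed K] {p : ℕ} [Fact p.Prime] [CharP K p]
  {F : FormalGroup (OO K)} [F.IsComm] {h r : ℕ} {V : PowerSeries (OO K)}

theorem ma_exists_uc_of_torsion (H : HtData p F h r V) (ν : Pt F) (hν : p • ν = 0) :
    ∃ z : UC F p, z.1 0 = 0 ∧ z.1 1 = ν := by
  choose g hg using p_smul_surjective H
  refine ⟨⟨fun l => match l with
    | 0 => 0
    | l + 1 => g^[l] ν, ?_⟩, rfl, rfl⟩
  intro l
  cases l with
  | zero => exact hν
  | succ l =>
    change p • g^[l + 1] ν = g^[l] ν
    rw [Function.iterate_succ_apply']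
    exact hg _

end uc

/-! ### formal composition -/

section comp
variable {A : Type*} [CommRing A] {σ : Type*}

theorem ma_coeff_mul_pow_eq_zero {e : MvPowerSeries σ A} (he : constantCoeff e = 0)
    (f : MvPowerSeries σ A) {d : σ →₀ ℕ} {j : ℕ} (hd : d.degree < j) :
    coeff d (f * e ^ j) = 0 := by
  classical
  rw [coeff_mul]
  refine Finset.sum_eq_zero fun x hx => ?_
  rw [Finset.HasAntidiagonal.mem_antidiagonal] at hx
  have h1 : x.2.degree ≤ d.degree := by
    rw [← hx, map_add]
    exact Nat.le_add_left _ _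
  rw [coeff_eq_zero_of_constantCoeff_nilpotent (m := 1) (by rw [he, pow_one]) (by omega),
    mul_zero]

/-- `L(e)` -/
noncomputable def compSer (L : PowerSeries (MvPowerSeries σ A)) (e : MvPowerSeries σ A) :
    MvPowerSeries σ A :=
  fun d => coeff d (∑ j ∈ Finset.range (d.degree + 1), PowerSeries.coeff j L * e ^ j)

theorem coeff_compSer (L : PowerSeries (MvPowerSeries σ A)) (e : MvPowerSeries σ A)
    (d : σ →₀ ℕ) : coeff d (compSer L e) =
      coeff d (∑ j ∈ Finset.range (d.degree + 1), PowerSeries.coeff j L * e ^ j) := rfl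

theorem compSer_spec (L : PowerSeries (MvPowerSeries σ A)) {e : MvPowerSeries σ A}
    (he : constantCoeff e = 0) (N : ℕ) (d : σ →₀ ℕ) (hd : d.degree < N) :
    coeff d (compSer L e - ∑ j ∈ Finset.range N, PowerSeries.coeff j L * e ^ j) = 0 := by
  rw [map_sub, coeff_compSer, sub_eq_zero, map_sum, map_sum]
  refine Finset.sum_subset (Finset.range_mono (by omega)) fun j _ hj => ?_
  rw [Finset.mem_range, not_lt] at hj
  exact ma_coeff_mul_pow_eq_zero he _ (by omega)

theorem constantCoeff_compSer {L : PowerSeries (MvPowerSeries σ A)}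
    (hL : PowerSeries.constantCoeff L = 0) {e : MvPowerSeries σ A} :
    constantCoeff (compSer L e) = 0 := by
  rw [← coeff_zero_eq_constantCoeff_apply, coeff_compSer]
  simp [hL]

theorem coeff_single_compSer {L : PowerSeries (MvPowerSeries σ A)}
    (hL : PowerSeries.constantCoeff L = 0) {e : MvPowerSeries σ A} (he : constantCoeff e = 0)
    (i : σ) : coeff (Finsupp.single i 1) (compSer L e) =
      constantCoeff (PowerSeries.coeff 1 L) * coeff (Finsupp.single i 1) e := by
  classical
  rw [coeff_compSer, Finsupp.degree_single, Finset.sum_range_succ, Finset.sum_range_one,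
    PowerSeries.coeff_zero_eq_constantCoeff_apply, hL, zero_mul, zero_add, pow_one, coeff_mul]
  rw [Finset.sum_eq_single (0, Finsupp.single i 1)]
  · rfl
  · intro x hx hne
    rw [Finset.HasAntidiagonal.mem_antidiagonal] at hx
    have h1 : x.2 = 0 := by
      by_contra hx2
      apply hne
      have h2 : x.1.degree + x.2.degree = 1 := by
        rw [← map_add, hx, Finsupp.degree_single]
      have h3 : x.2.degree ≠ 0 := by
        rw [Ne, Finsupp.degree_eq_zero_iff]
        exact hx2
      have h4 : x.1 = 0 := by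
        rw [← Finsupp.degree_eq_zero_iff]
        omega
      rw [h4, zero_add] at hx
      exact Prod.ext h4 hx
    rw [h1, coeff_zero_eq_constantCoeff_apply, he, mul_zero]
  · intro hx
    exact absurd (Finset.HasAntidiagonal.mem_antidiagonal.2 (zero_add _)) hx

end comp

/-! ### functionals -/

theorem ma_exists_functional {K : Type*} [Field K] (κ : Subfield K) {x : K} (hx : x ≠ 0) :
    ∃ ℓ : K →ₗ[κ] κ, ℓ x ≠ 0 := by
  by_contra hcon
  push Not at hcon
  exact hx ((Module.forall_dual_apply_eq_zero_iff κ x).1 hcon)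

/-! ### substitution of a series close to `X` -/

theorem ma_subst_sub_mem {R : Type*} [CommRing R] (J : Ideal R) (lam t : PowerSeries R)
    (ht0 : PowerSeries.constantCoeff t = 0) (N : ℕ)
    (h : ∀ j < N, PowerSeries.coeff j t - (if j = 1 then 1 else 0) ∈ J) {j : ℕ} (hj : j < N) :
    PowerSeries.coeff j (lam.subst t) - PowerSeries.coeff j lam ∈ J := by
  set ψ := Ideal.Quotient.mk J with hψ
  have ht : PowerSeries.HasSubst t := PowerSeries.HasSubst.of_constantCoeff_zero' ht0
  rw [← Ideal.Quotient.eq, ← hψ]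
  have e1 : ψ (PowerSeries.coeff j (lam.subst t)) =
      PowerSeries.coeff j ((lam.subst t).map ψ) := (PowerSeries.coeff_map _ _ _).symm
  have e2 : ψ (PowerSeries.coeff j lam) = PowerSeries.coeff j (lam.map ψ) :=
    (PowerSeries.coeff_map _ _ _).symm
  have e3 : (lam.subst t).map ψ = (lam.map ψ).subst (t.map ψ) := PowerSeries.map_subst ht lam
  have ht' : PowerSeries.HasSubst (t.map ψ) := by
    apply PowerSeries.HasSubst.of_constantCoeff_zero'
    rw [← PowerSeries.coeff_zero_eq_constantCoeff_apply, PowerSeries.coeff_map,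
      PowerSeries.coeff_zero_eq_constantCoeff_apply, ht0, map_zero]
  have e4 : PowerSeries.X ^ N ∣ t.map ψ - PowerSeries.X := by
    rw [PowerSeries.X_pow_dvd_iff]
    intro i hi
    rw [map_sub, PowerSeries.coeff_map, PowerSeries.coeff_X, sub_eq_zero]
    have h1 := h i hi
    rw [← Ideal.Quotient.eq, ← hψ] at h1
    rw [h1]
    split_ifs
    · exact map_one _
    · exact map_zero _
  have e5 : PowerSeries.coeff j ((lam.map ψ).subst (t.map ψ)) =
      PowerSeries.coeff j ((lam.map ψ).subst (PowerSeries.X : PowerSeries (R ⧸ J))) := by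
    rw [PowerSeries.coeff_subst' ht', PowerSeries.coeff_subst' PowerSeries.HasSubst.X']
    refine finsum_congr fun d => ?_
    congr 1
    rw [← sub_eq_zero, ← map_sub]
    exact PowerSeries.X_pow_dvd_iff.1 (e4.trans (sub_dvd_pow_sub_pow _ _ d)) j hj
  have e6 : (lam.map ψ).subst (PowerSeries.X : PowerSeries (R ⧸ J)) = lam.map ψ :=
    PowerSeries.X_subst _
  rw [e1, e2, e3, e5, e6]

end Vale.Agent.P217
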