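import Vale.Agent.Lib.P217.Formal

/-!
# P217: power series modulo terms of total degree at least `n`

`Ot n` is the ideal of the series all of whose coefficients of total degree `< n` vanish.
-/

set_option linter.unusedSectionVars false

namespace Vale.Agent.P217

open MvPowerSeries

section ot
variable {R : Type*} [CommRing R] {σ τ : Type*}

/-- series without terms of total degree `< n` -/
def Ot (n : ℕ) : Ideal (MvPowerSeries σ R) where
  carrier := {f | ∀ e : σ →₀ ℕ, e.degree < n → coeff e f = 0}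
  add_mem' := by
    intro f g hf hg e he
    rw [map_add, hf e he, hg e he, add_zero]
  zero_mem' := by
    intro e _
    exact map_zero _
  smul_mem' := by
    intro c f hf e he
    classical
    rw [smul_eq_mul, coeff_mul]
    refine Finset.sum_eq_zero fun x hx => ?_
    rw [Finset.HasAntidiagonal.mem_antidiagonal] at hx
    have : x.2.degree < n := by
      have h := congrArg Finsupp.degree hx
      rw [map_add] at h
      omega
    rw [hf _ this, mul_zero]

theorem mem_Ot {n : ℕ} {f : MvPowerSeries σ R} :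
    f ∈ Ot n ↔ ∀ e : σ →₀ ℕ, e.degree < n → coeff e f = 0 := Iff.rfl

theorem Ot_mono {m n : ℕ} (h : m ≤ n) {f : MvPowerSeries σ R} (hf : f ∈ Ot n) : f ∈ Ot m :=
  fun e he => hf e (he.trans_le h)

theorem Ot_mul {a b : ℕ} {f g : MvPowerSeries σ R} (hf : f ∈ Ot a) (hg : g ∈ Ot b) :
    f * g ∈ Ot (a + b) := by
  classical
  intro e he
  rw [coeff_mul]
  refine Finset.sum_eq_zero fun x hx => ?_
  rw [Finset.HasAntidiagonal.mem_antidiagonal] at hx
  have h := congrArg Finsupp.degree hx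
  rw [map_add] at h
  by_cases h1 : x.1.degree < a
  · rw [hf _ h1, zero_mul]
  · rw [hg _ (by omega), mul_zero]

theorem one_mem_Ot : (1 : MvPowerSeries σ R) ∈ Ot 0 := fun _ he => absurd he (Nat.not_lt_zero _)

theorem mem_Ot_zero (f : MvPowerSeries σ R) : f ∈ Ot 0 := fun _ he => absurd he (Nat.not_lt_zero _)

theorem Ot_pow {f : MvPowerSeries σ R} (hf : f ∈ Ot 1) (k : ℕ) : f ^ k ∈ Ot k := by
  induction k with
  | zero => rw [pow_zero]; exact one_mem_Ot
  | succ k ih => rw [pow_succ]; exact Ot_mul ih hf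

theorem mem_Ot_one {f : MvPowerSeries σ R} : f ∈ Ot 1 ↔ constantCoeff f = 0 := by
  constructor
  · intro h
    have := h 0 (by simp)
    rwa [coeff_zero_eq_constantCoeff_apply] at this
  · intro h e he
    have : e = 0 := (Finsupp.degree_eq_zero_iff e).mp (by omega)
    rw [this, coeff_zero_eq_constantCoeff_apply, h]

theorem X_mem_Ot (s : σ) : (X s : MvPowerSeries σ R) ∈ Ot 1 := mem_Ot_one.mpr (constantCoeff_X s)

theorem hasSubst_of_Ot {f : MvPowerSeries σ R} (h : f ∈ Ot 1) : PowerSeries.HasSubst f :=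
  PowerSeries.HasSubst.of_constantCoeff_zero (mem_Ot_one.mp h)

theorem eq_zero_of_Ot {f : MvPowerSeries σ R} (h : ∀ n, f ∈ Ot n) : f = 0 := by
  ext e
  rw [h (e.degree + 1) e (Nat.lt_succ_self _), map_zero]

theorem pow_sub_pow_mem {a b : MvPowerSeries σ R} (ha : a ∈ Ot 1) (hb : b ∈ Ot 1)
    (h : a - b ∈ Ot 2) (k : ℕ) : a ^ k - b ^ k ∈ Ot (k + 1) := by
  induction k with
  | zero => rw [pow_zero, pow_zero, sub_self]; exact (Ot _).zero_mem
  | succ k ih =>
    have e : a ^ (k + 1) - b ^ (k + 1) = (a ^ k - b ^ k) * a + b ^ k * (a - b) := by ring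
    rw [e]
    exact (Ot _).add_mem (Ot_mul ih ha) (Ot_mono (le_refl (k + 2)) (Ot_mul (Ot_pow hb k) h))

/-- values of monomials -/
theorem prod_mem_Ot {a : τ → MvPowerSeries σ R} (ha : ∀ s, a s ∈ Ot 1) (d : τ →₀ ℕ) :
    (d.prod fun s e => a s ^ e) ∈ Ot d.degree := by
  classical
  unfold Finsupp.prod Finsupp.degree
  change _ ∈ Ot (∑ i ∈ d.support, d i)
  induction d.support using Finset.induction_on with
  | empty => rw [Finset.prod_empty, Finset.sum_empty]; exact one_mem_Ot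
  | insert s t hs ih =>
    rw [Finset.prod_insert hs, Finset.sum_insert hs]
    exact Ot_mul (Ot_pow (ha s) _) ih

theorem subst_mem_Ot {a : τ → MvPowerSeries σ R} (hs : MvPowerSeries.HasSubst a)
    (ha : ∀ s, a s ∈ Ot 1) {n : ℕ} {f : MvPowerSeries τ R} (hf : f ∈ Ot n) :
    subst a f ∈ Ot n := by
  intro e he
  rw [coeff_subst hs]
  refine finsum_eq_zero_of_forall_eq_zero fun d => ?_
  by_cases hd : d.degree < n
  · rw [hf d hd, zero_smul]
  · rw [prod_mem_Ot ha d e (by omega), smul_zero]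

theorem prod_sub_prod_mem {a b : τ → MvPowerSeries σ R} {n : ℕ} (h : ∀ s, a s - b s ∈ Ot n)
    (d : τ →₀ ℕ) : (d.prod fun s e => a s ^ e) - (d.prod fun s e => b s ^ e) ∈ Ot n := by
  rw [← Ideal.Quotient.eq]
  unfold Finsupp.prod
  rw [map_prod, map_prod]
  refine Finset.prod_congr rfl fun s _ => ?_
  rw [map_pow, map_pow, Ideal.Quotient.eq.mpr (h s)]

theorem subst_sub_mem {a b : τ → MvPowerSeries σ R} (hsa : MvPowerSeries.HasSubst a)
    (hsb : MvPowerSeries.HasSubst b) {n : ℕ} (h : ∀ s, a s - b s ∈ Ot n)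
    (f : MvPowerSeries τ R) : subst a f - subst b f ∈ Ot n := by
  intro e he
  rw [map_sub, sub_eq_zero, coeff_subst hsa, coeff_subst hsb]
  refine finsum_congr fun d => ?_
  have := prod_sub_prod_mem h d e he
  rw [map_sub, sub_eq_zero] at this
  rw [this]

/-- two-variable versions -/
theorem subst_pair_mem {A B : MvPowerSeries σ R} (hA : A ∈ Ot 1) (hB : B ∈ Ot 1) {n : ℕ}
    {f : MvPowerSeries (Fin 2) R} (hf : f ∈ Ot n) : subst ![A, B] f ∈ Ot n :=
  subst_mem_Ot (hasSubst_pair (hasSubst_of_Ot hA) (hasSubst_of_Ot hB))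
    (fun s => by fin_cases s <;> simpa) hf

theorem subst_pair_sub_mem {A B A' B' : MvPowerSeries σ R} (hA : A ∈ Ot 1) (hB : B ∈ Ot 1)
    (hA' : A' ∈ Ot 1) (hB' : B' ∈ Ot 1) {n : ℕ} (h1 : A - A' ∈ Ot n) (h2 : B - B' ∈ Ot n)
    (f : MvPowerSeries (Fin 2) R) : subst ![A, B] f - subst ![A', B'] f ∈ Ot n :=
  subst_sub_mem (hasSubst_pair (hasSubst_of_Ot hA) (hasSubst_of_Ot hB))
    (hasSubst_pair (hasSubst_of_Ot hA') (hasSubst_of_Ot hB'))
    (fun s => by fin_cases s <;> simpa) f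

theorem psubst_sub_mem {A A' : MvPowerSeries σ R} (hA : A ∈ Ot 1) (hA' : A' ∈ Ot 1)
    {n : ℕ} (h : A - A' ∈ Ot n) (f : PowerSeries R) :
    PowerSeries.subst A f - PowerSeries.subst A' f ∈ Ot n :=
  subst_sub_mem (hasSubst_of_Ot hA).const (hasSubst_of_Ot hA').const (fun _ => h) f

theorem psubst_mem {A : MvPowerSeries σ R} (hA : A ∈ Ot 1) {n : ℕ} {f : PowerSeries R}
    (hf : f ∈ (Ot n : Ideal (MvPowerSeries Unit R))) : PowerSeries.subst A f ∈ Ot n :=
  subst_mem_Ot (hasSubst_of_Ot hA).const (fun _ => hA) hf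

theorem psubst_mem_one {A : MvPowerSeries σ R} (hA : A ∈ Ot 1) {f : PowerSeries R}
    (hf : PowerSeries.constantCoeff f = 0) : PowerSeries.subst A f ∈ Ot 1 :=
  psubst_mem hA (mem_Ot_one.mpr hf)

theorem F_mem_Ot (F : FormalGroup R) : F.toPowerSeries ∈ Ot 1 :=
  mem_Ot_one.mpr F.zero_constantCoeff

theorem F_pair_mem_Ot (F : FormalGroup R) {A B : MvPowerSeries σ R} (hA : A ∈ Ot 1)
    (hB : B ∈ Ot 1) : subst ![A, B] F.toPowerSeries ∈ Ot 1 :=
  subst_pair_mem hA hB (F_mem_Ot F)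

/-- `F(A,B) = A + B` up to degree `2` -/
theorem F_pair_sub_mem (F : FormalGroup R) {A B : MvPowerSeries σ R} (hA : A ∈ Ot 1)
    (hB : B ∈ Ot 1) : subst ![A, B] F.toPowerSeries - (A + B) ∈ Ot 2 := by
  obtain ⟨H, hH⟩ := exists_toPowerSeries_eq F
  rw [subst_pair_eq hH (hasSubst_of_Ot hA) (hasSubst_of_Ot hB)]
  have e : A + B + A * B * subst ![A, B] H - (A + B) = subst ![A, B] H * (A * B) := by ring
  rw [e]
  exact (Ot 2).mul_mem_left _ (Ot_mul hA hB)

/-- adding terms of high degree to the arguments of a formal group law -/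
theorem F_pair_add (F : FormalGroup R) {A B δ ε : MvPowerSeries σ R} {n : ℕ} (hn : 1 ≤ n)
    (hA : A ∈ Ot 1) (hB : B ∈ Ot 1) (hδ : δ ∈ Ot n) (hε : ε ∈ Ot n) :
    subst ![A + δ, B + ε] F.toPowerSeries - (subst ![A, B] F.toPowerSeries + δ + ε) ∈
      Ot (n + 1) := by
  obtain ⟨H, hH⟩ := exists_toPowerSeries_eq F
  have hδ1 := Ot_mono hn hδ
  have hε1 := Ot_mono hn hε
  have hA' := (Ot 1).add_mem hA hδ1
  have hB' := (Ot 1).add_mem hB hε1
  rw [subst_pair_eq hH (hasSubst_of_Ot hA) (hasSubst_of_Ot hB),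
    subst_pair_eq hH (hasSubst_of_Ot hA') (hasSubst_of_Ot hB')]
  have hd := subst_pair_sub_mem hA' hB' hA hB (n := n) (by rwa [add_sub_cancel_left])
    (by rwa [add_sub_cancel_left]) H
  set H1 := subst ![A + δ, B + ε] H
  set H0 := subst ![A, B] H
  have e : A + δ + (B + ε) + (A + δ) * (B + ε) * H1 - (A + B + A * B * H0 + δ + ε) =
      H1 * (ε * A) + H1 * (δ * B) + H1 * (δ * ε) + A * ((H1 - H0) * B) := by ring
  rw [e]
  refine (Ot _).add_mem ((Ot _).add_mem ((Ot _).add_mem ?_ ?_) ?_) ?_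
  · exact (Ot _).mul_mem_left _ (Ot_mul hε hA)
  · exact (Ot _).mul_mem_left _ (Ot_mul hδ hB)
  · exact (Ot _).mul_mem_left _ (Ot_mul hδ hε1)
  · exact (Ot _).mul_mem_left _ (Ot_mul hd hB)

/-! homogeneous parts -/

theorem exists_homogeneous [Finite σ] {d : ℕ} {f : MvPowerSeries σ R} (hf : f ∈ Ot d) :
    ∃ P : MvPolynomial σ R, P.IsHomogeneous d ∧ f - (P : MvPowerSeries σ R) ∈ Ot (d + 1) := by
  classical
  cases nonempty_fintype σ
  refine ⟨∑ m ∈ Finset.finsuppAntidiag Finset.univ d, MvPolynomial.monomial m (coeff m f),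
    ?_, ?_⟩
  · refine MvPolynomial.IsHomogeneous.sum _ _ _ fun m hm => ?_
    apply MvPolynomial.isHomogeneous_monomial
    rw [Finset.mem_finsuppAntidiag] at hm
    rw [← hm.1, Finsupp.degree_eq_sum]
  · intro e he
    have h1 : coeff e ((∑ m ∈ Finset.finsuppAntidiag Finset.univ d,
        MvPolynomial.monomial m (coeff m f) : MvPolynomial σ R) : MvPowerSeries σ R) =
        if e.degree = d then coeff e f else 0 := by
      rw [MvPolynomial.coeff_coe, MvPolynomial.coeff_sum]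
      simp only [MvPolynomial.coeff_monomial]
      rw [Finset.sum_ite_eq' (Finset.finsuppAntidiag Finset.univ d) e]
      congr 1
      rw [Finset.mem_finsuppAntidiag, Finsupp.degree_eq_sum]
      simp
    rw [map_sub, h1]
    by_cases h2 : e.degree = d
    · rw [if_pos h2, sub_self]
    · rw [if_neg h2, hf e (by omega), sub_zero]

theorem homogeneous_eq_zero {d : ℕ} {P : MvPolynomial σ R} (hP : P.IsHomogeneous d)
    (h : (P : MvPowerSeries σ R) ∈ Ot (d + 1)) : P = 0 := by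
  ext m
  rw [MvPolynomial.coeff_zero]
  by_cases hm : m.degree = d
  · have := h m (by omega)
    rwa [MvPolynomial.coeff_coe] at this
  · exact hP.coeff_eq_zero hm

theorem aeval_pair_eq (P : MvPolynomial (Fin 2) R) (A B : MvPowerSeries σ R) :
    MvPolynomial.aeval ![A, B] P =
      ∑ m ∈ P.support, algebraMap R _ (P.coeff m) * (A ^ (m 0) * B ^ (m 1)) := by
  rw [MvPolynomial.aeval_def, MvPolynomial.eval₂_eq']
  simp [Fin.prod_univ_two]

theorem aeval_pair_sub_mem {d : ℕ} {P : MvPolynomial (Fin 2) R} (hP : P.IsHomogeneous d)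
    {A B A' B' : MvPowerSeries σ R} (hA : A ∈ Ot 1) (hB : B ∈ Ot 1)
    (hA' : A' ∈ Ot 1) (hB' : B' ∈ Ot 1) (h1 : A - A' ∈ Ot 2) (h2 : B - B' ∈ Ot 2) :
    MvPolynomial.aeval ![A, B] P - MvPolynomial.aeval ![A', B'] P ∈ Ot (d + 1) := by
  rw [aeval_pair_eq, aeval_pair_eq, ← Finset.sum_sub_distrib]
  refine Submodule.sum_mem _ fun m hm => ?_
  rw [← mul_sub]
  refine (Ot _).mul_mem_left _ ?_
  have hd : m 0 + m 1 = d := by
    have h3 := hP (MvPolynomial.mem_support_iff.mp hm)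
    rw [← h3]
    rw [Finsupp.weight_apply, Finsupp.sum_fintype _ _ (by simp)]
    simp [Fin.sum_univ_two]
  have e : A ^ m 0 * B ^ m 1 - A' ^ m 0 * B' ^ m 1 =
      (A ^ m 0 - A' ^ m 0) * B ^ m 1 + A' ^ m 0 * (B ^ m 1 - B' ^ m 1) := by ring
  rw [e]
  refine (Ot _).add_mem ?_ ?_
  · exact Ot_mono (by omega) (Ot_mul (pow_sub_pow_mem hA hA' h1 (m 0)) (Ot_pow hB (m 1)))
  · exact Ot_mono (by omega) (Ot_mul (Ot_pow hA' (m 0)) (pow_sub_pow_mem hB hB' h2 (m 1)))

theorem aeval_pair_mem {d : ℕ} {P : MvPolynomial (Fin 2) R} (hP : P.IsHomogeneous d)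
    {A B : MvPowerSeries σ R} (hA : A ∈ Ot 1) (hB : B ∈ Ot 1) :
    MvPolynomial.aeval ![A, B] P ∈ Ot d := by
  rw [aeval_pair_eq]
  refine Submodule.sum_mem _ fun m hm => ?_
  refine (Ot _).mul_mem_left _ ?_
  have hd : m 0 + m 1 = d := by
    have h3 := hP (MvPolynomial.mem_support_iff.mp hm)
    rw [← h3]
    rw [Finsupp.weight_apply, Finsupp.sum_fintype _ _ (by simp)]
    simp [Fin.sum_univ_two]
  exact Ot_mono (by omega) (Ot_mul (Ot_pow hA (m 0)) (Ot_pow hB (m 1)))

/-- a homogeneous polynomial on a line -/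
theorem aeval_pair_line {d : ℕ} {P : MvPolynomial (Fin 2) R} (hP : P.IsHomogeneous d)
    (c : R) (A : MvPowerSeries σ R) :
    MvPolynomial.aeval ![C c * A, A] P = C (MvPolynomial.eval ![c, 1] P) * A ^ d := by
  rw [aeval_pair_eq, MvPolynomial.eval_eq', map_sum, Finset.sum_mul]
  refine Finset.sum_congr rfl fun m hm => ?_
  have hd : m 0 + m 1 = d := by
    have h3 := hP (MvPolynomial.mem_support_iff.mp hm)
    rw [← h3]
    rw [Finsupp.weight_apply, Finsupp.sum_fintype _ _ (by simp)]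
    simp [Fin.sum_univ_two]
  rw [← hd]
  simp only [Fin.prod_univ_two, Matrix.cons_val_zero, Matrix.cons_val_one, map_mul, map_pow,
    one_pow, mul_one]
  have : (algebraMap R (MvPowerSeries σ R)) (MvPolynomial.coeff m P) =
      C (MvPolynomial.coeff m P) := rfl
  rw [this]
  ring

end ot

end Vale.Agent.P217
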