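import Vale.Agent.Lib.P217.WHom

/-!
# P217: quotients of complete Noetherian local rings; variation of the coefficients of `[p]`

* `isPrecomplete_map_of_surjective`, `isAdicComplete_of_surjective`.
* `coeff_variation_aux`: the statement `coeff_variation` of `SmallExt.lean`.
-/

set_option linter.unusedSectionVars false

namespace Vale.Agent.P217

open MvPowerSeries

theorem isPrecomplete_map_of_surjective {A B : Type*} [CommRing A] [CommRing B] (φ : A →+* B)
    (hφ : Function.Surjective φ) (I : Ideal A) (hI : IsPrecomplete I A) :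
    IsPrecomplete (I.map φ) B := by
  rw [isPrecomplete_iff]
  intro f hf
  simp only [smul_eq_mul, Ideal.mul_top, SModEq.sub_mem] at hf ⊢
  have hdiff : ∀ n, ∃ c ∈ I ^ n, φ c = f (n + 1) - f n := by
    intro n
    have h1 : f n - f (n + 1) ∈ (I.map φ) ^ n := hf (Nat.le_succ n)
    have h2 : f (n + 1) - f n ∈ (I ^ n).map φ := by
      rw [Ideal.map_pow, ← neg_sub]
      exact neg_mem h1
    obtain ⟨c, hc, hc'⟩ := (Ideal.mem_map_iff_of_surjective φ hφ).1 h2
    exact ⟨c, hc, hc'⟩
  choose c hc hcf using hdiff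
  obtain ⟨a0, ha0⟩ := hφ (f 0)
  have h1 := (isPrecomplete_iff (I := I) (M := A)).1 hI (fun n => ∑ i ∈ Finset.range n, c i)
  simp only [smul_eq_mul, Ideal.mul_top, SModEq.sub_mem] at h1
  obtain ⟨L, hL⟩ := h1 (by
    intro m n hmn
    have h2 : (∑ i ∈ Finset.range m, c i) - ∑ i ∈ Finset.range n, c i
        = - ∑ i ∈ Finset.Ico m n, c i := by
      rw [Finset.sum_Ico_eq_sub _ hmn]
      ring
    rw [h2]
    apply neg_mem
    apply Ideal.sum_mem
    intro i hi
    exact Ideal.pow_le_pow_right (Finset.mem_Ico.1 hi).1 (hc i))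
  refine ⟨φ (a0 + L), fun n => ?_⟩
  have htel : f n = φ (a0 + ∑ i ∈ Finset.range n, c i) := by
    induction n with
    | zero => simp [ha0]
    | succ n ih =>
      rw [Finset.sum_range_succ, ← add_assoc, map_add, ← ih, hcf]
      ring
  have h3 : f n - φ (a0 + L) = φ ((∑ i ∈ Finset.range n, c i) - L) := by
    rw [htel, ← map_sub]
    congr 1
    ring
  rw [h3, ← Ideal.map_pow]
  exact Ideal.mem_map_of_mem φ (hL n)

theorem map_maximalIdeal_of_surjective' {A B : Type*} [CommRing A] [CommRing B] [IsLocalRing A]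
    [IsLocalRing B] (φ : A →+* B) (hφ : Function.Surjective φ) :
    (IsLocalRing.maximalIdeal A).map φ = IsLocalRing.maximalIdeal B := by
  apply le_antisymm
  · rw [Ideal.map_le_iff_le_comap]
    intro a ha
    rw [Ideal.mem_comap, IsLocalRing.mem_maximalIdeal]
    intro hu
    obtain ⟨b, hb⟩ := hu.exists_right_inv
    obtain ⟨a', rfl⟩ := hφ b
    have h1 : a * a' - 1 ∈ RingHom.ker φ := by
      rw [RingHom.mem_ker, map_sub, map_mul, hb, map_one, sub_self]
    have h2 : RingHom.ker φ ≤ IsLocalRing.maximalIdeal A :=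
      IsLocalRing.le_maximalIdeal (RingHom.ker_ne_top φ)
    have h3 : a * a' ∈ IsLocalRing.maximalIdeal A := Ideal.mul_mem_right _ _ ha
    have h4 : (1 : A) ∈ IsLocalRing.maximalIdeal A := by
      have := Ideal.sub_mem _ h3 (h2 h1)
      rwa [sub_sub_cancel] at this
    exact (Ideal.ne_top_iff_one _).1 (IsLocalRing.maximalIdeal.isMaximal A).ne_top h4
  · intro b hb
    obtain ⟨a, rfl⟩ := hφ b
    refine Ideal.mem_map_of_mem φ ?_
    rw [IsLocalRing.mem_maximalIdeal] at hb ⊢
    intro hu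
    exact hb (hu.map φ)

theorem isAdicComplete_of_surjective {A B : Type*} [CommRing A] [CommRing B] [IsLocalRing A]
    [IsLocalRing B] [IsNoetherianRing A] [IsAdicComplete (IsLocalRing.maximalIdeal A) A]
    (φ : A →+* B) (hφ : Function.Surjective φ) :
    IsAdicComplete (IsLocalRing.maximalIdeal B) B := by
  have h1 : IsNoetherianRing B := isNoetherianRing_of_surjective A B φ hφ
  have h2 : IsHausdorff (IsLocalRing.maximalIdeal B) B := inferInstance
  have h3 : IsPrecomplete (IsLocalRing.maximalIdeal B) B := by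
    rw [← map_maximalIdeal_of_surjective' φ hφ]
    exact isPrecomplete_map_of_surjective φ hφ _ inferInstance
  exact { }

/-- two homomorphisms over `k` which agree on the variables modulo `ε` agree modulo `ε` -/
theorem hom_sub_mem_of_X (p : ℕ) [Fact p.Prime] (n : ℕ)
    (A : Type) [CommRing A] [IsLocalRing A] [IsNoetherianRing A]
    [IsAdicComplete (IsLocalRing.maximalIdeal A) A] (πA : A →+* GaloisField p n)
    (hπ : Function.Surjective πA) (ε : A) (hε0 : πA ε = 0)
    (φ₁ φ₂ : LTRing p n →+* A) (h1 : πA.comp φ₁ = residueMap p n)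
    (h2 : πA.comp φ₂ = residueMap p n) (hX : ∀ i, ∃ c, φ₂ (X i) - φ₁ (X i) = c * ε)
    (f : LTRing p n) : ∃ a, φ₂ f - φ₁ f = a * ε := by
  set J : Ideal A := Ideal.span {ε} with hJ
  have hJle : ∀ a ∈ J, πA a = 0 := by
    intro a ha
    obtain ⟨b, rfl⟩ := Ideal.mem_span_singleton'.1 ha
    rw [map_mul, hε0, mul_zero]
  have hJtop : J ≠ ⊤ := by
    intro h
    have h3 := hJle 1 (by rw [h]; exact Submodule.mem_top)
    rw [map_one] at h3
    exact one_ne_zero h3
  have hnt : Nontrivial (A ⧸ J) := Ideal.Quotient.nontrivial_iff.2 hJtop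
  have hloc : IsLocalRing (A ⧸ J) :=
    IsLocalRing.of_surjective' (Ideal.Quotient.mk J) Ideal.Quotient.mk_surjective
  have hcomp : IsAdicComplete (IsLocalRing.maximalIdeal (A ⧸ J)) (A ⧸ J) :=
    isAdicComplete_of_surjective (Ideal.Quotient.mk J) Ideal.Quotient.mk_surjective
  let π' : (A ⧸ J) →+* GaloisField p n := Ideal.Quotient.lift J πA hJle
  have hπ' : π'.comp (Ideal.Quotient.mk J) = πA := by
    ext a
    rfl
  have hπs : Function.Surjective π' := by
    intro b
    obtain ⟨a, rfl⟩ := hπ b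
    exact ⟨Ideal.Quotient.mk J a, rfl⟩
  have key := lt_hom_ext p π' hπs ((Ideal.Quotient.mk J).comp φ₁) ((Ideal.Quotient.mk J).comp φ₂)
    (by rw [← RingHom.comp_assoc, hπ', h1]; rfl) (by rw [← RingHom.comp_assoc, hπ', h2]; rfl)
    (fun i => by
      obtain ⟨c, hc⟩ := hX i
      rw [RingHom.comp_apply, RingHom.comp_apply, eq_comm, Ideal.Quotient.mk_eq_mk_iff_sub_mem, hc]
      exact Ideal.mem_span_singleton'.2 ⟨c, rfl⟩)
  have h3 := RingHom.congr_fun key f
  rw [RingHom.comp_apply, RingHom.comp_apply, eq_comm, Ideal.Quotient.mk_eq_mk_iff_sub_mem] at h3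
  obtain ⟨a, ha⟩ := Ideal.mem_span_singleton'.1 h3
  exact ⟨a, ha.symm⟩

theorem exists_of_mem_span_union {R : Type*} [CommRing R] {ι : Type*} [Fintype ι]
    (P : ι → Prop) [DecidablePred P] (x : ι → R) (a w : R)
    (hw : w ∈ Ideal.span ({a} ∪ {y | ∃ j, P j ∧ y = x j})) :
    ∃ (b : R) (g : ι → R), w = a * b + ∑ j ∈ Finset.univ.filter P, x j * g j := by
  classical
  induction hw using Submodule.span_induction with
  | mem y hy =>
    rcases hy with hy | ⟨j, hj, rfl⟩
    · rw [Set.mem_singleton_iff] at hy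
      exact ⟨1, 0, by simp [hy]⟩
    · refine ⟨0, Pi.single j 1, ?_⟩
      rw [mul_zero, zero_add, Finset.sum_eq_single_of_mem j (by simp [hj])]
      · simp
      · intro k _ hk
        rw [Pi.single_eq_of_ne hk, mul_zero]
  | zero => exact ⟨0, 0, by simp⟩
  | add y z _ _ hy hz =>
    obtain ⟨b, g, rfl⟩ := hy
    obtain ⟨b', g', rfl⟩ := hz
    refine ⟨b + b', g + g', ?_⟩
    simp only [Pi.add_apply, mul_add, Finset.sum_add_distrib]
    ring
  | smul c y _ hy =>
    obtain ⟨b, g, rfl⟩ := hy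
    refine ⟨c * b, fun j => c * g j, ?_⟩
    rw [smul_eq_mul, mul_add, Finset.mul_sum]
    congr 1
    · ring
    · refine Finset.sum_congr rfl fun j _ => ?_
      ring

/-- elements of the height ideals -/
theorem exists_of_mem_heightIdeal (p : ℕ) [Fact p.Prime] (n : ℕ) (i : Fin (n - 1))
    (w : LTRing p n) (hw : w ∈ heightIdeal p n ((i : ℕ) + 1)) :
    ∃ (b : LTRing p n) (g : Fin (n - 1) → LTRing p n),
      w = (p : LTRing p n) * b + ∑ j ∈ Finset.univ.filter (fun j => j < i), X j * g j := by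
  apply exists_of_mem_span_union (fun j => j < i) (fun j => (X j : LTRing p n))
  unfold heightIdeal at hw
  rw [if_neg (Nat.succ_ne_zero _)] at hw
  have heq : {y : LTRing p n | ∃ j, j < i ∧ y = X j} =
      {x | ∃ j : Fin (n - 1), (j : ℕ) + 1 < (i : ℕ) + 1 ∧ x = X j} := by
    ext y
    constructor
    · rintro ⟨j, hj, rfl⟩
      exact ⟨j, by rw [Fin.lt_def] at hj; omega, rfl⟩
    · rintro ⟨j, hj, rfl⟩
      exact ⟨j, by rw [Fin.lt_def]; omega, rfl⟩
  rw [heq]
  exact hw

theorem coeff_variation_aux (p : ℕ) [Fact p.Prime] (n : ℕ)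
    (F : FormalGroup (LTRing p n)) [F.IsComm] (hc : HasStandardCoordinates p n F) :
    ∃ β : Fin (n - 1) → Fin (n - 1) → GaloisField p n,
      ∀ (A : Type) [CommRing A] [IsLocalRing A] [IsNoetherianRing A]
        [IsAdicComplete (IsLocalRing.maximalIdeal A) A] (πA : A →+* GaloisField p n)
        (_ : Function.Surjective πA) (ε : A) (_ : ∀ a, a * ε = 0 ↔ πA a = 0) (_ : πA ε = 0)
        (φ₁ φ₂ : LTRing p n →+* A) (_ : πA.comp φ₁ = residueMap p n)
        (_ : πA.comp φ₂ = residueMap p n) (c : Fin (n - 1) → A)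
        (_ : ∀ i, φ₂ (X i) = φ₁ (X i) + c i * ε) (i : Fin (n - 1)),
        ∃ a, πA a = πA (c i) + ∑ j ∈ Finset.univ.filter (fun j => j < i), β i j * πA (c j) ∧
          PowerSeries.coeff (p ^ ((i : ℕ) + 1))
            (mulSeries (F.map φ₂) p - mulSeries (F.map φ₁) p) = a * ε := by
  choose b g hbg using fun i => exists_of_mem_heightIdeal p n i _ (hc i)
  refine ⟨fun i j => residueMap p n (g i j), ?_⟩
  intro A _ _ _ _ πA hπ ε hε hε0 φ₁ φ₂ h1 h2 c hX i
  have hmod := hom_sub_mem_of_X p n A πA hπ ε hε0 φ₁ φ₂ h1 h2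
    (fun i => ⟨c i, by rw [hX i]; ring⟩)
  have hp : (p : A) * ε = 0 := by
    rw [hε, map_natCast]
    exact CharP.cast_eq_zero _ _
  have hXε : ∀ j, φ₁ (X j) * ε = 0 := by
    intro j
    rw [hε, ← RingHom.comp_apply, h1, residueMap, RingHom.comp_apply, constantCoeff_X, map_zero]
  refine ⟨c i + ∑ j ∈ Finset.univ.filter (fun j => j < i), φ₂ (g i j) * c j, ?_, ?_⟩
  · rw [map_add, map_sum]
    congr 1
    refine Finset.sum_congr rfl fun j _ => ?_
    rw [map_mul, ← h2]
    rfl
  · have hw : PowerSeries.coeff (p ^ ((i : ℕ) + 1)) (mulSeries F p) =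
        X i + ((p : LTRing p n) * b i +
          ∑ j ∈ Finset.univ.filter (fun j => j < i), X j * g i j) := by
      rw [← hbg i, add_sub_cancel]
    rw [map_sub, mulSeries_map, mulSeries_map, PowerSeries.coeff_map, PowerSeries.coeff_map, hw]
    simp only [map_add, map_mul, map_natCast, map_sum]
    obtain ⟨a1, ha1⟩ := hmod (b i)
    have e1 : (p : A) * φ₂ (b i) - p * φ₁ (b i) = 0 := by
      rw [← mul_sub, ha1, mul_left_comm, hp, mul_zero]
    have e2 : ∀ j, φ₂ (X j) * φ₂ (g i j) - φ₁ (X j) * φ₁ (g i j) = φ₂ (g i j) * c j * ε := by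
      intro j
      obtain ⟨a2, ha2⟩ := hmod (g i j)
      have e3 : φ₁ (X j) * (φ₂ (g i j) - φ₁ (g i j)) = 0 := by
        rw [ha2, mul_left_comm, hXε, mul_zero]
      rw [hX j]
      linear_combination e3
    have e4 : ∑ j ∈ Finset.univ.filter (fun j => j < i), φ₂ (X j) * φ₂ (g i j) -
        ∑ j ∈ Finset.univ.filter (fun j => j < i), φ₁ (X j) * φ₁ (g i j) =
        (∑ j ∈ Finset.univ.filter (fun j => j < i), φ₂ (g i j) * c j) * ε := by
      rw [← Finset.sum_sub_distrib, Finset.sum_mul]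
      exact Finset.sum_congr rfl fun j _ => e2 j
    rw [hX i]
    linear_combination e1 + e4

end Vale.Agent.P217
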