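import Mathlib.Algebra.Module.StablyFree.Basic
import Mathlib.Topology.UniformSpace.Uniformizable
import Vale.Agent.Lib.P217.Rigid
import Vale.Agent.Lib.P217.IFT
import Vale.Agent.Lib.P217.Pt

/-!
# P217: auxiliary lemmas for relations (evaluation of series in two groups of variables, rigidity for
series vanishing on a subgroup)
-/

set_option linter.unusedSectionVars false

namespace Vale.Agent.P217

open MvPowerSeries Filter Topology

section generic
variable {B : Type*} [CommRing B] [UniformSpace B] {σ τ : Type*}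

theorem ev_poly (a : σ → B) (P : MvPolynomial σ B) :
    ev a (P : MvPowerSeries σ B) = MvPolynomial.eval a P :=
  @MvPowerSeries.eval₂_coe σ B _ ⊥ B _ _ (RingHom.id B) a P

/-- the coefficient of `X ^ α` of a series in two groups `X`, `Y` of variables -/
noncomputable def part {R : Type*} (Φ : MvPowerSeries (σ ⊕ τ) R) (α : σ →₀ ℕ) : MvPowerSeries τ R :=
  fun β => Φ (Finsupp.sumFinsuppEquivProdFinsupp.symm (α, β))

theorem eq_zero_of_part {R : Type*} [CommRing R] (Φ : MvPowerSeries (σ ⊕ τ) R)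
    (h : ∀ α, part Φ α = 0) : Φ = 0 := by
  ext d
  have h1 := congrFun (h (Finsupp.sumFinsuppEquivProdFinsupp d).1)
    (Finsupp.sumFinsuppEquivProdFinsupp d).2
  unfold part at h1
  rw [Prod.mk.eta, Equiv.symm_apply_apply] at h1
  exact h1

theorem part_map {R S : Type*} [CommRing R] [CommRing S] (A : R →+* S)
    (Φ : MvPowerSeries (σ ⊕ τ) R) (α : σ →₀ ℕ) : part (Φ.map A) α = (part Φ α).map A := rfl

variable [AdicRing B]

/-- evaluation of a series in two groups of variables -/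
theorem ev_split [Finite σ] [Finite τ] {a : σ → B} {b : τ → B} (ha : HasEval a) (hb : HasEval b)
    (Φ : MvPowerSeries (σ ⊕ τ) B) :
    ev (Sum.elim a b) Φ = ev a (fun α => ev b (part Φ α)) := by
  have := Fintype.ofFinite σ
  have := Fintype.ofFinite τ
  have hab : HasEval (Sum.elim a b) := hasEval_of_finite (by
    intro s
    cases s with
    | inl s => exact ha.hpow s
    | inr s => exact hb.hpow s)
  have h1 := ev_hasSum hab Φ
  rw [← Finsupp.sumFinsuppEquivProdFinsupp.symm.hasSum_iff] at h1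
  have h2 := ev_hasSum ha (fun α => ev b (part Φ α) : MvPowerSeries σ B)
  refine HasSum.unique ?_ h2
  refine h1.prod_fiberwise ?_
  intro α
  have h3 := (ev_hasSum hb (part Φ α)).mul_right (α.prod fun s e => a s ^ e)
  have key : ∀ β : τ →₀ ℕ, ((fun d : σ ⊕ τ →₀ ℕ => (coeff d) Φ * d.prod fun s e =>
      Sum.elim a b s ^ e) ∘ Finsupp.sumFinsuppEquivProdFinsupp.symm) (α, β) =
      (coeff β) (part Φ α) * (β.prod fun s e => b s ^ e) * α.prod fun s e => a s ^ e := ?_
  · exact (funext key : (fun β => _) = _) ▸ h3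
  intro β
  simp only [Function.comp_apply]
  rw [Finsupp.prod_fintype _ _ (by simp), Finsupp.prod_fintype _ _ (by simp),
    Finsupp.prod_fintype _ _ (by simp), Fintype.prod_sum_type]
  simp only [Finsupp.sumFinsuppEquivProdFinsupp_symm_inl,
    Finsupp.sumFinsuppEquivProdFinsupp_symm_inr, Sum.elim_inl, Sum.elim_inr]
  change Φ _ * _ = Φ _ * _ * _
  ring

theorem hasEval_zero' [Finite σ] : HasEval (fun _ : σ => (0 : B)) := hasEval_of_finite (fun _ => by
  unfold IsTopologicallyNilpotent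
  refine tendsto_atTop_of_eventually_const (i₀ := 1) fun i hi => ?_
  exact zero_pow (by omega))

theorem ev_at_zero [Finite σ] (f : MvPowerSeries σ B) :
    ev (fun _ : σ => (0 : B)) f = constantCoeff f := by
  have := Fintype.ofFinite σ
  have h1 := ev_hasSum (hasEval_zero' (B := B) (σ := σ)) f
  have h2 := hasSum_single (f := fun d : σ →₀ ℕ => coeff d f * d.prod (fun _ e => (0 : B) ^ e)) 0
    (by
      intro d hd
      obtain ⟨i, hi⟩ := Finsupp.ne_iff.1 hd
      rw [Finsupp.prod_fintype _ _ (by simp), Finset.prod_eq_zero (Finset.mem_univ i), mul_zero]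
      exact zero_pow hi)
  have h3 := h1.unique h2
  rw [h3]
  simp

end generic

section
variable {K : Type*} [NontriviallyNormedField K] [IsUltrametricDist K] [CompleteSpace K]
  {p : ℕ} [Fact p.Prime] [CharP K p] {h : ℕ} [Fact (0 < h)]

/-- the value of the truncation, over the field -/
theorem trEval_coe {σ : Type*} [Finite σ] (N : ℕ) (Ψ : MvPowerSeries σ (OO K)) (a : σ → OO K) :
    trEval N (Ψ.map (OO K).subtype) (fun i => (a i : K)) =
      ((MvPolynomial.eval a (truncTotal N Ψ) : OO K) : K) := by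
  unfold trEval
  have h1 : truncTotal N (Ψ.map (OO K).subtype) = (truncTotal N Ψ).map (OO K).subtype := by
    ext d
    rw [MvPolynomial.coeff_map, coeff_truncTotal_eq_ite, coeff_truncTotal_eq_ite]
    split_ifs
    · rfl
    · simp
  rw [h1, MvPolynomial.eval_map, ← MvPolynomial.coe_eval₂Hom]
  have h2 := MvPolynomial.eval₂_comp_left (OO K).subtype (RingHom.id (OO K)) a (truncTotal N Ψ)
  exact h2.symm

/-- the tail of a series in degrees at least `N` is small -/
theorem norm_tail_le {σ : Type*} [Finite σ] (N : ℕ) (Ψ : MvPowerSeries σ (OO K)) (a : σ → OO K)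
    (ρ : ℝ) (h0 : 0 ≤ ρ) (h1 : ρ < 1) (ha : ∀ i, ‖(a i : K)‖ ≤ ρ) (hΨ : ev a Ψ = 0) :
    ‖trEval N (Ψ.map (OO K).subtype) (fun i => (a i : K))‖ ≤ ρ ^ N := by
  have := Fintype.ofFinite σ
  have hev : HasEval a := hasEval_of_finite fun i => tn_iff.mpr ((ha i).trans_lt h1)
  rw [trEval_coe]
  have h2 : MvPolynomial.eval a (truncTotal N Ψ) =
      - ev a (Ψ - ((truncTotal N Ψ : MvPolynomial σ (OO K)) : MvPowerSeries σ (OO K))) := by
    rw [ev_sub hev, hΨ, ev_poly]
    ring
  rw [h2]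
  have h3 : ev a (Ψ - ((truncTotal N Ψ : MvPolynomial σ (OO K)) : MvPowerSeries σ (OO K))) ∈
      ballIdeal K (ρ ^ N) (pow_nonneg h0 N) := by
    apply ev_mem_of_closed hev _ _ (isClosed_ballIdeal _ _)
    intro d
    rw [mem_ballIdeal]
    by_cases hd : d.degree < N
    · have : coeff d (Ψ - ((truncTotal N Ψ : MvPolynomial σ (OO K)) : MvPowerSeries σ (OO K))) =
          0 := by
        rw [map_sub, MvPolynomial.coeff_coe, coeff_truncTotal _ hd, sub_self]
      rw [this]
      simp [pow_nonneg h0 N]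
    · rw [Finsupp.prod_fintype _ _ (by simp)]
      rw [Subring.coe_mul, norm_mul]
      have h4 : ‖((∏ i, a i ^ d i : OO K) : K)‖ ≤ ρ ^ N := by
        have h5 : ((∏ i, a i ^ d i : OO K) : K) = ∏ i, (a i : K) ^ d i := by
          push_cast
          rfl
        rw [h5, norm_prod]
        calc ∏ i, ‖(a i : K) ^ d i‖ ≤ ∏ i, ρ ^ d i := by
              apply Finset.prod_le_prod
              · intro i _
                exact norm_nonneg _
              · intro i _
                rw [norm_pow]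
                exact pow_le_pow_left₀ (norm_nonneg _) (ha i) _
          _ = ρ ^ d.degree := by
              rw [Finset.prod_pow_eq_pow_sum, Finsupp.degree_eq_sum]
          _ ≤ ρ ^ N := pow_le_pow_of_le_one h0 h1.le (not_lt.1 hd)
      calc _ ≤ 1 * ρ ^ N := by
            apply mul_le_mul (norm_le_one _) h4 (norm_nonneg _) zero_le_one
        _ = ρ ^ N := one_mul _
  rw [mem_ballIdeal] at h3
  simpa using h3

theorem exists_radius {σ : Type*} [Finite σ] (a : σ → OO K) (ha : ∀ i, ‖(a i : K)‖ < 1) :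
    ∃ ρ : ℝ, 0 < ρ ∧ ρ < 1 ∧ ∀ i, ‖(a i : K)‖ ≤ ρ := by
  have := Fintype.ofFinite σ
  by_cases hne : Nonempty σ
  · obtain ⟨i₀, hi₀⟩ := Finite.exists_max fun i => ‖(a i : K)‖
    refine ⟨max (1 / 2) ‖(a i₀ : K)‖, by positivity, max_lt (by norm_num) (ha i₀), fun i => ?_⟩
    exact (hi₀ i).trans (le_max_right _ _)
  · exact ⟨1 / 2, by norm_num, by norm_num, fun i => absurd ⟨i⟩ hne⟩

theorem nsmul_p_val (G : FormalGroup (FixF K p h)) [G.IsComm]
    (hG : mulSeries G p = PowerSeries.X ^ (p ^ h))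
    (x : Pt (G.map (algebraMap (FixF K p h) (OO K)))) : (p • x).val = x.val ^ (p ^ h) := by
  rw [Pt.nsmul_val, mulSeries_map, hG, map_pow, PowerSeries.map_X]
  have h1 := ev_pow (hasEval_unit x.tn) (X () : MvPowerSeries Unit (OO K)) (p ^ h)
  rw [ev_X] at h1
  exact h1

theorem nsmul_pow_val (G : FormalGroup (FixF K p h)) [G.IsComm]
    (hG : mulSeries G p = PowerSeries.X ^ (p ^ h))
    (x : Pt (G.map (algebraMap (FixF K p h) (OO K)))) (m : ℕ) :
    ((p ^ m) • x).val = x.val ^ ((p ^ h) ^ m) := by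
  induction m with
  | zero => simp
  | succ m ih => rw [pow_succ', mul_smul, nsmul_p_val G hG, ih, ← pow_mul, ← pow_succ]

/-- Rigidity for series vanishing on a subgroup: the components of the coefficients also vanish. -/
theorem rigid_of_vanish {σ : Type*} [Finite σ] (G : FormalGroup (FixF K p h)) [G.IsComm]
    (hG : mulSeries G p = PowerSeries.X ^ (p ^ h))
    (Ω : AddSubgroup (σ → Pt (G.map (algebraMap (FixF K p h) (OO K)))))
    (Ψ : MvPowerSeries σ (OO K)) (hΨ : ∀ ω ∈ Ω, ev (fun i => (ω i).val) Ψ = 0)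
    (ℓ : K →ₗ[FixF K p h] (FixF K p h)) : ∀ ω ∈ Ω,
      ev (fun i => (ω i).val) ((mapCoeff ℓ (Ψ.map (OO K).subtype)).map
        (algebraMap (FixF K p h) (OO K))) = 0 := by
  intro ω hω
  apply rigidity {a : σ → OO K | ∃ ω ∈ Ω, a = fun i => (ω i).val} (Ψ.map (OO K).subtype) ?_ ℓ _
    ⟨ω, hω, rfl⟩
  rintro a ⟨ω, hω, rfl⟩
  obtain ⟨ρ, h0, h1, h2⟩ := exists_radius (fun i => (ω i).val) (fun i => (ω i).norm_lt)
  refine ⟨ρ, h0, h1, h2, fun N => ⟨1, 0, fun m _ => ?_⟩⟩
  have h3 : ∀ i, ((ω i).val : OO K) ^ ((p ^ h) ^ m) = ((p ^ m • ω) i).val := fun i =>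
    (nsmul_pow_val G hG (ω i) m).symm
  have h4 := hΨ _ (Ω.nsmul_mem hω (p ^ m))
  have hQ : (p ^ h) ^ m ≠ 0 := pow_ne_zero _ (pow_ne_zero _ (Fact.out : p.Prime).ne_zero)
  have h5 := norm_tail_le N Ψ (fun i => (ω i).val ^ ((p ^ h) ^ m)) (ρ ^ ((p ^ h) ^ m))
    (by positivity) (pow_lt_one₀ h0.le h1 hQ) (by
      intro i
      rw [Subring.coe_pow, norm_pow]
      exact pow_le_pow_left₀ (norm_nonneg _) (h2 i) _) (by
      simp only [h3]
      exact h4)
  have h6 : (ρ ^ ((p ^ h) ^ m)) ^ N = ρ ^ (N * (p ^ h) ^ m) := by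
    rw [← pow_mul ρ, mul_comm N]
  rw [one_mul]
  exact h5.trans_eq h6

/-- If no nonzero series vanishes on `Ω` and on `Ω'`, none vanishes on the product. -/
theorem prod_vanish {σ τ : Type*} [Finite σ] [Finite τ] (G : FormalGroup (FixF K p h)) [G.IsComm]
    (hG : mulSeries G p = PowerSeries.X ^ (p ^ h))
    (Ω : AddSubgroup (σ → Pt (G.map (algebraMap (FixF K p h) (OO K)))))
    (Ω' : AddSubgroup (τ → Pt (G.map (algebraMap (FixF K p h) (OO K)))))
    (h1 : ∀ φ : MvPowerSeries σ (FixF K p h), (∀ ω ∈ Ω, ev (fun i => (ω i).val)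
      (φ.map (algebraMap (FixF K p h) (OO K))) = 0) → φ = 0)
    (h2 : ∀ φ : MvPowerSeries τ (FixF K p h), (∀ ω ∈ Ω', ev (fun i => (ω i).val)
      (φ.map (algebraMap (FixF K p h) (OO K))) = 0) → φ = 0)
    (Φ : MvPowerSeries (σ ⊕ τ) (FixF K p h))
    (hΦ : ∀ ω ∈ Ω, ∀ ω' ∈ Ω', ev (Sum.elim (fun i => (ω i).val) (fun i => (ω' i).val))
      (Φ.map (algebraMap (FixF K p h) (OO K))) = 0) : Φ = 0 := by
  apply eq_zero_of_part
  intro α
  apply h2
  intro ω' hω'
  have hev' : HasEval (fun i => (ω' i).val) := hasEval_of_finite fun i => (ω' i).tn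
  let Ψ : MvPowerSeries σ (OO K) := fun α => ev (fun i => (ω' i).val)
    (part (Φ.map (algebraMap (FixF K p h) (OO K))) α)
  have hΨ : ∀ ω ∈ Ω, ev (fun i => (ω i).val) Ψ = 0 := by
    intro ω hω
    have hev : HasEval (fun i => (ω i).val) := hasEval_of_finite fun i => (ω i).tn
    rw [← ev_split hev hev']
    exact hΦ ω hω ω' hω'
  have h3 : ∀ ℓ : K →ₗ[FixF K p h] (FixF K p h), ℓ ((Ψ α : OO K) : K) = 0 := by
    intro ℓ
    have h4 := h1 _ (rigid_of_vanish G hG Ω Ψ hΨ ℓ)
    exact congrFun h4 α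
  have h5 : ((Ψ α : OO K) : K) = 0 := (Module.forall_dual_apply_eq_zero_iff (FixF K p h) _).1 h3
  exact Subtype.ext h5

end
end Vale.Agent.P217
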