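import Vale.Agent.Lib.P217.Coh
import Vale.Agent.Lib.P217.LiftPow
import Vale.Agent.Lib.P217.MainP

/-!
# P217 (existence of the universal deformation): proof of `small_diff`

Formal points `E f = ⟨C ε * f⟩` for `ε² = 0`; `F₂(x, y) = x +_{F₁} y +_{F₁} E (D̂(x, y))`.
-/

set_option linter.unusedSectionVars false

namespace Vale.Agent.P217

open MvPowerSeries

namespace SD

section basic
variable {A : Type*} [CommRing A] {ε : A} (h2 : ε * ε = 0)

include h2 in
theorem hasSubst_eps {σ : Type*} (f : MvPowerSeries σ A) :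
    PowerSeries.HasSubst (MvPowerSeries.C ε * f) := by
  have h : IsNilpotent (MvPowerSeries.constantCoeff (MvPowerSeries.C ε * f)) := by
    refine ⟨2, ?_⟩
    rw [map_mul, MvPowerSeries.constantCoeff_C]
    linear_combination (MvPowerSeries.constantCoeff f) ^ 2 * h2
  exact h

/-- the formal point `ε f` -/
noncomputable def E (F : FormalGroup A) {σ : Type*} (f : MvPowerSeries σ A) : F.Point σ :=
  ⟨MvPowerSeries.C ε * f, hasSubst_eps h2 f⟩

theorem E_val (F : FormalGroup A) {σ : Type*} (f : MvPowerSeries σ A) :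
    (E h2 F f).val = MvPowerSeries.C ε * f := rfl

include h2 in
theorem C_sq {σ : Type*} : (MvPowerSeries.C ε : MvPowerSeries σ A) * MvPowerSeries.C ε = 0 := by
  rw [← map_mul, h2, map_zero]

theorem E_add (F : FormalGroup A) {σ : Type*} (f g : MvPowerSeries σ A) :
    E h2 F f + E h2 F g = E h2 F (f + g) := by
  apply Subtype.ext
  obtain ⟨H, hH⟩ := exists_toPowerSeries_eq F
  rw [FormalGroup.add_apply, subst_pair_eq hH (E h2 F f).prop (E h2 F g).prop, E_val, E_val, E_val]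
  linear_combination (f * g * subst ![MvPowerSeries.C ε * f, MvPowerSeries.C ε * g] H) *
    (C_sq h2 : (MvPowerSeries.C ε : MvPowerSeries σ A) * MvPowerSeries.C ε = 0)

/-- substitution, a homomorphism of formal points -/
noncomputable def sb (F : FormalGroup A) [F.IsComm] {σ τ : Type*} {s : σ → MvPowerSeries τ A}
    (hs : MvPowerSeries.HasSubst s) : F.Point σ →+ F.Point τ where
  toFun x := ⟨subst s x.val, hasSubst_subst hs x.prop⟩
  map_zero' := by
    apply Subtype.ext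
    change subst s (0 : MvPowerSeries σ A) = 0
    rw [← coe_substAlgHom hs, map_zero]
  map_add' x y := by
    apply Subtype.ext
    exact subst_pair_subst x.prop y.prop hs _

theorem sb_val (F : FormalGroup A) [F.IsComm] {σ τ : Type*} {s : σ → MvPowerSeries τ A}
    (hs : MvPowerSeries.HasSubst s) (x : F.Point σ) : (sb F hs x).val = subst s x.val := rfl

theorem subst_eps {σ τ : Type*} {s : σ → MvPowerSeries τ A} (hs : MvPowerSeries.HasSubst s)
    (f : MvPowerSeries σ A) :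
    subst s (MvPowerSeries.C ε * f) = MvPowerSeries.C ε * subst s f := by
  have h : subst s (MvPowerSeries.C ε : MvPowerSeries σ A) = (MvPowerSeries.C ε :
      MvPowerSeries τ A) := MvPowerSeries.subst_C _
  rw [subst_mul hs, h]

theorem sb_E (F : FormalGroup A) [F.IsComm] {σ τ : Type*} {s : σ → MvPowerSeries τ A}
    (hs : MvPowerSeries.HasSubst s) (f : MvPowerSeries σ A) :
    sb F hs (E h2 F f) = E h2 F (subst s f) := by
  apply Subtype.ext
  rw [sb_val, E_val, E_val, subst_eps hs]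

end basic

section red
variable {k A : Type*} [Field k] [CommRing A] {πA : A →+* k} {ε : A}
  (hε : ∀ a, a * ε = 0 ↔ πA a = 0) (h2 : ε * ε = 0)

include hε in
theorem C_mul_eq_iff {σ : Type*} (f g : MvPowerSeries σ A) :
    MvPowerSeries.C ε * f = MvPowerSeries.C ε * g ↔ f.map πA = g.map πA := by
  rw [MvPowerSeries.ext_iff, MvPowerSeries.ext_iff]
  refine forall_congr' fun d => ?_
  rw [coeff_C_mul, coeff_C_mul, coeff_map, coeff_map, ← sub_eq_zero, ← mul_sub, mul_comm, hε,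
    map_sub, sub_eq_zero]

include hε in
theorem E_eq_iff (F : FormalGroup A) {σ : Type*} (f g : MvPowerSeries σ A) :
    E h2 F f = E h2 F g ↔ f.map πA = g.map πA := by
  rw [← C_mul_eq_iff hε]
  constructor
  · intro h
    exact congrArg Subtype.val h
  · intro h
    exact Subtype.ext h

theorem exists_E (F : FormalGroup A) {σ : Type*} (x : F.Point σ)
    (hx : ∀ d, ∃ a, coeff d x.val = a * ε) : ∃ f : MvPowerSeries σ A, x = E h2 F f := by
  choose f hf using hx
  have h : x.val = MvPowerSeries.C ε * (show MvPowerSeries σ A from f) := by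
    ext d
    rw [coeff_C_mul, hf, mul_comm]
    rfl
  exact ⟨f, Subtype.ext h⟩

end red

section two
variable {k A : Type*} [Field k] [CommRing A] {πA : A →+* k} {ε : A}
  (hε : ∀ a, a * ε = 0 ↔ πA a = 0) (h2 : ε * ε = 0) (Γ : FormalGroup k) [Γ.IsComm]
  (F₁ F₂ : FormalGroup A) [F₁.IsComm] [F₂.IsComm] (h₁ : F₁.map πA = Γ) (h₂ : F₂.map πA = Γ)

/-- addition of `F₂` on the points of `F₁` -/
noncomputable def ad {σ : Type*} (x y : F₁.Point σ) : F₁.Point σ :=
  ⟨subst ![x.val, y.val] F₂.toPowerSeries, hasSubst_subst (hasSubst_pair x.prop y.prop)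
    (hasSubst_F F₂)⟩

theorem ad_val {σ : Type*} (x y : F₁.Point σ) :
    (ad F₁ F₂ x y).val = subst ![x.val, y.val] F₂.toPowerSeries := rfl

theorem ad_assoc {σ : Type*} (x y z : F₁.Point σ) :
    ad F₁ F₂ (ad F₁ F₂ x y) z = ad F₁ F₂ x (ad F₁ F₂ y z) :=
  Subtype.ext (F₂.assoc' x.prop y.prop z.prop)

/-- `D̂` -/
structure IsDhat (Dh : MvPowerSeries (Fin 2) A) : Prop where
  ad_eq : ∀ {σ : Type} (x y : F₁.Point σ),
    ad F₁ F₂ x y = x + y + E h2 F₁ (subst ![x.val, y.val] Dh)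
  zl : ∀ i, coeff (Finsupp.single 1 i) (Dh.map πA) = 0
  zr : ∀ i, coeff (Finsupp.single 0 i) (Dh.map πA) = 0
  symm : subst ![(X 1 : MvPowerSeries (Fin 2) k), X 0] (Dh.map πA) = Dh.map πA

include hε in
theorem exists_Dhat (h : ∀ d, ∃ a, coeff d (F₂.toPowerSeries - F₁.toPowerSeries) = a * ε) :
    ∃ Dh : MvPowerSeries (Fin 2) A, IsDhat (πA := πA) h2 F₁ F₂ Dh := by
  set P : F₁.Point (Fin 2) := ⟨F₂.toPowerSeries, hasSubst_F F₂⟩ with hP
  set Q : F₁.Point (Fin 2) := ⟨F₁.toPowerSeries, hasSubst_F F₁⟩ with hQ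
  have hmem : (P - Q).val ∈ LiftPow.coefId (Fin 2) (Ideal.span {ε}) := by
    rw [← LiftPow.sub_mem_iff, LiftPow.mem_coefId]
    intro d
    obtain ⟨a, ha⟩ := h d
    rw [Ideal.mem_span_singleton]
    exact ⟨a, by rw [mul_comm ε a]; exact ha⟩
  rw [LiftPow.mem_coefId] at hmem
  obtain ⟨Dh, hDh⟩ := exists_E h2 F₁ (P - Q) (fun d => by
    obtain ⟨a, ha⟩ := Ideal.mem_span_singleton.1 (hmem d)
    exact ⟨a, by rw [ha, mul_comm]⟩)
  have hPQ : P = Q + E h2 F₁ Dh := by rw [← hDh]; abel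
  obtain ⟨u, hu, hPu⟩ := LiftPow.sub_val_eq P Q
  obtain ⟨H₁, hH₁⟩ := exists_toPowerSeries_eq F₁
  obtain ⟨H₂, hH₂⟩ := exists_toPowerSeries_eq F₂
  have hdvd : X 0 * X 1 ∣ (P - Q).val := by
    have h3 : X 0 * X 1 ∣ (P - Q).val * u := by
      rw [← hPu]
      refine ⟨H₂ - H₁, ?_⟩
      change F₂.toPowerSeries - F₁.toPowerSeries = _
      rw [hH₁, hH₂]
      ring
    exact (hu.dvd_mul_right).1 h3
  have hcoef : ∀ d : Fin 2 →₀ ℕ, (d 0 = 0 ∨ d 1 = 0) → coeff d (Dh.map πA) = 0 := by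
    intro d hd
    rw [coeff_map, ← hε]
    have h4 : coeff d (P - Q).val = 0 := by
      rcases hd with hd | hd
      · exact X_dvd_iff.1 ((Dvd.intro _ rfl).trans hdvd) d hd
      · exact X_dvd_iff.1 ((Dvd.intro_left _ rfl).trans hdvd) d hd
    rw [hDh, E_val, coeff_C_mul] at h4
    rw [mul_comm]
    exact h4
  have hadeq : ∀ {σ : Type} (x y : F₁.Point σ),
      ad F₁ F₂ x y = x + y + E h2 F₁ (subst ![x.val, y.val] Dh) := by
    intro σ x y
    have h5 := congrArg (sb F₁ (hasSubst_pair x.prop y.prop)) hPQ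
    rw [map_add, sb_E] at h5
    exact h5
  refine ⟨Dh, hadeq, ?_, ?_, ?_⟩
  · intro i
    exact hcoef _ (Or.inl (by simp))
  · intro i
    exact hcoef _ (Or.inr (by simp))
  · have hX0 : PowerSeries.HasSubst (X 0 : MvPowerSeries (Fin 2) A) := hasSubst_X 0
    have hX1 : PowerSeries.HasSubst (X 1 : MvPowerSeries (Fin 2) A) := hasSubst_X 1
    have h6 := congrArg (sb F₁ (hasSubst_pair hX1 hX0)) hPQ
    rw [map_add, sb_E] at h6
    have h7 : sb F₁ (hasSubst_pair hX1 hX0) P = P := Subtype.ext (FormalGroup.IsComm.comm).symm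
    have h8 : sb F₁ (hasSubst_pair hX1 hX0) Q = Q := Subtype.ext (FormalGroup.IsComm.comm).symm
    rw [h7, h8] at h6
    rw [hPQ, add_left_cancel_iff, E_eq_iff hε h2 F₁] at h6
    have h9 := map_subst_pair πA hX1 hX0 Dh
    rw [map_X, map_X] at h9
    rw [← h9]
    exact h6.symm

variable {Dh : MvPowerSeries (Fin 2) A}

/-- `D(x, 0) = 0` -/
theorem subst_right_zero {D : MvPowerSeries (Fin 2) k}
    (hD : ∀ i, coeff (Finsupp.single 0 i) D = 0) {σ : Type*} {x : MvPowerSeries σ k}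
    (hx : PowerSeries.HasSubst x) : subst ![x, 0] D = 0 := by
  have h : X 1 ∣ D := by
    rw [X_dvd_iff]
    intro m hm
    obtain ⟨n, rfl⟩ : ∃ n, m = Finsupp.single 0 n := ⟨m 0, by
      ext s
      fin_cases s
      · simp
      · simp [hm]⟩
    exact hD n
  obtain ⟨D', rfl⟩ := h
  have hs := hasSubst_pair hx (PowerSeries.HasSubst.zero : PowerSeries.HasSubst
    (0 : MvPowerSeries σ k))
  rw [subst_mul hs, subst_X hs]
  simp

include hε in
/-- `x +_{F₂} ε g = x +_{F₁} ε g` -/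
theorem ad_E (hD : IsDhat (πA := πA) h2 F₁ F₂ Dh) {σ : Type} (x : F₁.Point σ)
    (f : MvPowerSeries σ A) : ad F₁ F₂ x (E h2 F₁ f) = x + E h2 F₁ f := by
  rw [hD.ad_eq]
  have hE0 : E h2 F₁ (0 : MvPowerSeries σ A) = 0 := Subtype.ext (mul_zero _)
  have h3 : E h2 F₁ (subst ![x.val, (E h2 F₁ f).val] Dh) = E h2 F₁ 0 := by
    rw [E_eq_iff hε h2 F₁, map_subst_pair πA x.prop (E h2 F₁ f).prop, map_zero]
    have h4 : MvPowerSeries.map πA (E h2 F₁ f).val = 0 := by
      rw [E_val, map_mul, map_C]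
      have h5 : πA ε = 0 := (hε ε).1 h2
      rw [h5, map_zero, zero_mul]
    rw [h4]
    refine subst_right_zero hD.zr ?_
    have h6 : IsNilpotent (MvPowerSeries.constantCoeff x.val) := x.prop
    have h7 := h6.map πA
    rw [← MvPowerSeries.constantCoeff_map] at h7
    exact h7
  rw [h3, hE0, add_zero]

include hε h₂ in
theorem isCocycle_D (hD : IsDhat (πA := πA) h2 F₁ F₂ Dh) : IsCocycle Γ (Dh.map πA) := by
  refine ⟨hD.zl, hD.zr, hD.symm, ?_⟩
  set x : F₁.Point (Fin 3) := ⟨X 0, hasSubst_X 0⟩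
  set y : F₁.Point (Fin 3) := ⟨X 1, hasSubst_X 1⟩
  set z : F₁.Point (Fin 3) := ⟨X 2, hasSubst_X 2⟩
  have h3 := ad_assoc F₁ F₂ x y z
  rw [hD.ad_eq (ad F₁ F₂ x y) z, hD.ad_eq x (ad F₁ F₂ y z)] at h3
  have h4 : E h2 F₁ (subst ![x.val, y.val] Dh) +
      E h2 F₁ (subst ![(ad F₁ F₂ x y).val, z.val] Dh) =
      E h2 F₁ (subst ![y.val, z.val] Dh) +
      E h2 F₁ (subst ![x.val, (ad F₁ F₂ y z).val] Dh) := by
    have h5 := hD.ad_eq x y
    have h6 := hD.ad_eq y z
    generalize hu : E h2 F₁ (subst ![x.val, y.val] Dh) = u at *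
    generalize hv : E h2 F₁ (subst ![y.val, z.val] Dh) = v at *
    generalize hu' : E h2 F₁ (subst ![(ad F₁ F₂ x y).val, z.val] Dh) = u' at *
    generalize hv' : E h2 F₁ (subst ![x.val, (ad F₁ F₂ y z).val] Dh) = v' at *
    rw [h5, h6] at h3
    have h7 : x + y + z + (u + u') = x + y + z + (v + v') := by
      calc x + y + z + (u + u') = x + y + u + z + u' := by abel
        _ = x + (y + z + v) + v' := h3
        _ = x + y + z + (v + v') := by abel
    exact add_left_cancel h7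
  rw [E_add, E_add, E_eq_iff hε h2 F₁, map_add, map_add,
    map_subst_pair πA x.prop y.prop, map_subst_pair πA (ad F₁ F₂ x y).prop z.prop,
    map_subst_pair πA y.prop z.prop, map_subst_pair πA x.prop (ad F₁ F₂ y z).prop, ad_val, ad_val,
    map_subst_pair πA x.prop y.prop, map_subst_pair πA y.prop z.prop] at h4
  have h8 : MvPowerSeries.map πA F₂.toPowerSeries = Γ.toPowerSeries :=
    congrArg FormalGroup.toPowerSeries h₂
  have hx : MvPowerSeries.map πA x.val = X 0 := map_X _ _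
  have hy : MvPowerSeries.map πA y.val = X 1 := map_X _ _
  have hz : MvPowerSeries.map πA z.val = X 2 := map_X _ _
  rw [h8, hx, hy, hz] at h4
  exact h4

/-- the series `∑_{i<j} D̂([i]_{F₂} X, X)` -/
noncomputable def Nh (F₂ : FormalGroup A) (Dh : MvPowerSeries (Fin 2) A) (j : ℕ) :
    MvPowerSeries Unit A :=
  ∑ i ∈ Finset.range j, (subst ![(mulSeries F₂ i : MvPowerSeries Unit A),
    (PowerSeries.X : MvPowerSeries Unit A)] Dh : MvPowerSeries Unit A)

/-- `[j]_{F₂}` as a point of `F₁` -/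
noncomputable def mp (F₁ F₂ : FormalGroup A) (j : ℕ) : F₁.Point Unit :=
  ⟨mulSeries F₂ j, hasSubst_mulSeries F₂ j⟩

theorem mulSeries_eq (hD : IsDhat (πA := πA) h2 F₁ F₂ Dh) (j : ℕ) :
    mp F₁ F₂ j = j • idPoint F₁ + E h2 F₁ (Nh F₂ Dh j) := by
  induction j with
  | zero =>
    have h3 : Nh F₂ Dh 0 = 0 := Finset.sum_range_zero _
    have h4 : E h2 F₁ (0 : MvPowerSeries Unit A) = 0 := Subtype.ext (mul_zero _)
    rw [h3, zero_nsmul, h4, add_zero]
    exact Subtype.ext (mulSeries_zero F₂)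
  | succ j ih =>
    have h3 : mp F₁ F₂ (j + 1) = ad F₁ F₂ (mp F₁ F₂ j) (idPoint F₁) :=
      Subtype.ext (mulSeries_succ F₂ j)
    have h4 : Nh F₂ Dh (j + 1) = Nh F₂ Dh j +
        (subst ![(mulSeries F₂ j : MvPowerSeries Unit A),
          (PowerSeries.X : MvPowerSeries Unit A)] Dh : MvPowerSeries Unit A) :=
      Finset.sum_range_succ _ _
    have h5 : E h2 F₁ (subst ![(mp F₁ F₂ j).val, (idPoint F₁).val] Dh) =
        E h2 F₁ (subst ![(mulSeries F₂ j : MvPowerSeries Unit A),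
          (PowerSeries.X : MvPowerSeries Unit A)] Dh : MvPowerSeries Unit A) := rfl
    rw [h3, hD.ad_eq, h5, ih, h4, ← E_add, succ_nsmul]
    abel

include hε h₁ h₂ in
theorem coeff_mulSeries_sub (hD : IsDhat (πA := πA) h2 F₁ F₂ Dh) (p q : ℕ)
    (hΓp : mulSeries Γ p = PowerSeries.X ^ q) (m : ℕ) (hm : m < q) :
    PowerSeries.coeff m (mulSeries F₂ p - mulSeries F₁ p) =
      PowerSeries.coeff m (Nh F₂ Dh p : PowerSeries A) * ε := by
  obtain ⟨H, hH⟩ := exists_toPowerSeries_eq F₁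
  have h3 := congrArg Subtype.val (mulSeries_eq h2 F₁ F₂ hD p)
  have h4 : (p • idPoint F₁ + E h2 F₁ (Nh F₂ Dh p)).val =
      subst ![mulSeries F₁ p, (MvPowerSeries.C ε * Nh F₂ Dh p : MvPowerSeries Unit A)]
        F₁.toPowerSeries := rfl
  rw [h4, subst_pair_eq hH (hasSubst_mulSeries F₁ p) (hasSubst_eps h2 _)] at h3
  have h5 : mulSeries F₂ p - mulSeries F₁ p = (PowerSeries.C ε * (Nh F₂ Dh p : PowerSeries A) +
      PowerSeries.C ε * (PowerSeries.X ^ q * ((Nh F₂ Dh p : PowerSeries A) *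
        (subst ![mulSeries F₁ p, (MvPowerSeries.C ε * Nh F₂ Dh p : MvPowerSeries Unit A)] H :
          PowerSeries A)))) := by
    have h6 : (MvPowerSeries.C ε : MvPowerSeries Unit A) * mulSeries F₁ p =
        MvPowerSeries.C ε * (PowerSeries.X ^ q : PowerSeries A) := by
      rw [C_mul_eq_iff hε]
      have h7 : PowerSeries.map πA (mulSeries F₁ p) = PowerSeries.map πA (PowerSeries.X ^ q) := by
        rw [← mulSeries_map, h₁, hΓp, map_pow, PowerSeries.map_X]
      exact h7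
    have h8 : (PowerSeries.C ε : PowerSeries A) * mulSeries F₁ p =
        PowerSeries.C ε * PowerSeries.X ^ q := h6
    have h9 : mulSeries F₂ p = mulSeries F₁ p + PowerSeries.C ε * (Nh F₂ Dh p : PowerSeries A) +
        mulSeries F₁ p * (PowerSeries.C ε * (Nh F₂ Dh p : PowerSeries A)) *
        (subst ![mulSeries F₁ p, (MvPowerSeries.C ε * Nh F₂ Dh p : MvPowerSeries Unit A)] H :
          PowerSeries A) := h3
    rw [h9]
    linear_combination ((Nh F₂ Dh p : PowerSeries A) *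
        (subst ![mulSeries F₁ p, (MvPowerSeries.C ε * Nh F₂ Dh p : MvPowerSeries Unit A)] H :
          PowerSeries A)) * h8
  rw [h5, map_add, PowerSeries.coeff_C_mul, PowerSeries.coeff_C_mul]
  have h10 : PowerSeries.coeff m (PowerSeries.X ^ q * ((Nh F₂ Dh p : PowerSeries A) *
        (subst ![mulSeries F₁ p, (MvPowerSeries.C ε * Nh F₂ Dh p : MvPowerSeries Unit A)] H :
          PowerSeries A))) = 0 :=
    PowerSeries.X_pow_dvd_iff.1 (Dvd.intro _ rfl) m hm
  rw [h10, mul_zero, add_zero, mul_comm]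

include h₂ in
theorem map_Nh (p : ℕ) :
    PowerSeries.map πA (Nh F₂ Dh p : PowerSeries A) = Nser Γ p (Dh.map πA) := by
  unfold Nh Nser
  have h3 : PowerSeries.map πA ((∑ i ∈ Finset.range p,
      (subst ![(mulSeries F₂ i : MvPowerSeries Unit A),
    (PowerSeries.X : MvPowerSeries Unit A)] Dh : MvPowerSeries Unit A) : MvPowerSeries Unit A) :
      PowerSeries A) = ∑ i ∈ Finset.range p, MvPowerSeries.map πA
      (subst ![(mulSeries F₂ i : MvPowerSeries Unit A),
    (PowerSeries.X : MvPowerSeries Unit A)] Dh : MvPowerSeries Unit A) :=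
    map_sum (MvPowerSeries.map πA) _ _
  rw [h3]
  refine Finset.sum_congr rfl fun i _ => ?_
  rw [map_subst_pair πA (hasSubst_mulSeries F₂ i) (PowerSeries.HasSubst.X' :
    PowerSeries.HasSubst (PowerSeries.X : PowerSeries A))]
  have h4 : MvPowerSeries.map πA (mulSeries F₂ i) = mulSeries Γ i := by
    have h5 := mulSeries_map πA F₂ i
    rw [h₂] at h5
    exact h5.symm
  have h6 : MvPowerSeries.map πA (PowerSeries.X : PowerSeries A) = PowerSeries.X :=
    PowerSeries.map_X πA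
  rw [h4, h6]

include hε h₁ h₂ in
theorem isHom_iff (hD : IsDhat (πA := πA) h2 F₁ F₂ Dh) (g : PowerSeries A)
    (h0 : PowerSeries.constantCoeff g = 0) (t : PowerSeries A)
    (ht : t = (idPoint F₂ + seriesPoint F₂ (PowerSeries.C ε * g) (by simp [h0])).val) :
    IsHom F₁ F₂ t ↔ Dh.map πA = - cob Γ (g.map πA) := by
  have hg : PowerSeries.HasSubst g := PowerSeries.HasSubst.of_constantCoeff_zero' h0
  have ht0 : PowerSeries.constantCoeff t = 0 := by
    have h3 : PowerSeries.HasSubst (PowerSeries.C ε * g : PowerSeries A) :=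
      PowerSeries.HasSubst.of_constantCoeff_zero' (by simp [h0])
    have h4 : t = subst ![(PowerSeries.X : PowerSeries A), PowerSeries.C ε * g]
      F₂.toPowerSeries := ht
    obtain ⟨H, hH⟩ := exists_toPowerSeries_eq F₂
    rw [h4, subst_pair_eq hH PowerSeries.HasSubst.X' h3]
    simp [h0]
  -- `t` as a point of `F₁`
  have hts : PowerSeries.HasSubst t := PowerSeries.HasSubst.of_constantCoeff_zero' ht0
  set tp : F₁.Point Unit := ⟨t, hts⟩ with htp
  have htp2 : tp = idPoint F₁ + E h2 F₁ g := by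
    rw [← ad_E hε h2 F₁ F₂ hD]
    exact Subtype.ext ht
  have hsub : ∀ {τ : Type} (x : F₁.Point τ),
      sb F₁ x.prop.const tp = x + E h2 F₁ (PowerSeries.subst x.val g) := by
    intro τ x
    rw [htp2, map_add, sb_E]
    congr 1
    apply Subtype.ext
    exact PowerSeries.subst_X x.prop
  set P0 : F₁.Point (Fin 2) := ⟨X 0, hasSubst_X 0⟩ with hP0
  set P1 : F₁.Point (Fin 2) := ⟨X 1, hasSubst_X 1⟩ with hP1
  have hF1 : (P0 + P1).val = F₁.toPowerSeries := subst_pair_X F₁.toPowerSeries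
  have e1 : (sb F₁ (P0 + P1).prop.const tp).val = PowerSeries.subst F₁.toPowerSeries t := by
    rw [sb_val]
    change PowerSeries.subst (P0 + P1).val t = _
    rw [hF1]
  have e2 : (ad F₁ F₂ (sb F₁ P0.prop.const tp) (sb F₁ P1.prop.const tp)).val =
      MvPowerSeries.subst ![PowerSeries.subst (X 0 : MvPowerSeries (Fin 2) A) t,
        PowerSeries.subst (X 1 : MvPowerSeries (Fin 2) A) t] F₂.toPowerSeries := rfl
  have e3 : IsHom F₁ F₂ t ↔ sb F₁ (P0 + P1).prop.const tp =
      ad F₁ F₂ (sb F₁ P0.prop.const tp) (sb F₁ P1.prop.const tp) := by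
    constructor
    · intro h
      apply Subtype.ext
      exact (e1.trans h.2).trans e2.symm
    · intro h
      refine ⟨ht0, ?_⟩
      have h5 := congrArg Subtype.val h
      exact (e1.symm.trans h5).trans e2
  rw [e3, hD.ad_eq, hsub, hsub, hsub]
  have e4 : (P0 + P1 + E h2 F₁ (PowerSeries.subst (P0 + P1).val g) =
      P0 + E h2 F₁ (PowerSeries.subst P0.val g) + (P1 + E h2 F₁ (PowerSeries.subst P1.val g)) +
        E h2 F₁ (subst ![(P0 + E h2 F₁ (PowerSeries.subst P0.val g)).val,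
          (P1 + E h2 F₁ (PowerSeries.subst P1.val g)).val] Dh)) ↔
      E h2 F₁ (PowerSeries.subst (P0 + P1).val g) =
        E h2 F₁ (PowerSeries.subst P0.val g + PowerSeries.subst P1.val g +
          subst ![(P0 + E h2 F₁ (PowerSeries.subst P0.val g)).val,
          (P1 + E h2 F₁ (PowerSeries.subst P1.val g)).val] Dh) := by
    rw [← E_add, ← E_add]
    generalize E h2 F₁ (subst ![(P0 + E h2 F₁ (PowerSeries.subst P0.val g)).val,
          (P1 + E h2 F₁ (PowerSeries.subst P1.val g)).val] Dh) = w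
    generalize E h2 F₁ (PowerSeries.subst P0.val g) = u
    generalize E h2 F₁ (PowerSeries.subst P1.val g) = v
    have e5 : P0 + u + (P1 + v) + w = P0 + P1 + (u + v + w) := by abel
    rw [e5, add_left_cancel_iff]
  rw [e4, E_eq_iff hε h2 F₁, map_add, map_add]
  have hε0 : πA ε = 0 := (hε ε).1 h2
  have hmapE : ∀ {τ : Type} (x : F₁.Point τ) (f : MvPowerSeries τ A),
      MvPowerSeries.map πA (x + E h2 F₁ f).val = MvPowerSeries.map πA x.val := by
    intro τ x f
    obtain ⟨H, hH⟩ := exists_toPowerSeries_eq F₁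
    rw [FormalGroup.add_apply, subst_pair_eq hH x.prop (E h2 F₁ f).prop, E_val, map_add, map_add,
      map_mul, map_mul, map_mul, map_C, hε0]
    simp [hε0]
  have hx0 : MvPowerSeries.map πA P0.val = X 0 := map_X _ _
  have hx1 : MvPowerSeries.map πA P1.val = X 1 := map_X _ _
  have hx2 : MvPowerSeries.map πA (P0 + P1).val = Γ.toPowerSeries := by
    rw [hF1]
    exact congrArg FormalGroup.toPowerSeries h₁
  have hs : ∀ {τ : Type} (x : F₁.Point τ), MvPowerSeries.map πA (PowerSeries.subst x.val g) =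
      PowerSeries.subst (MvPowerSeries.map πA x.val) (g.map πA) := by
    intro τ x
    exact PowerSeries.map_subst x.prop g
  rw [map_subst_pair πA (P0 + E h2 F₁ (PowerSeries.subst P0.val g)).prop
    (P1 + E h2 F₁ (PowerSeries.subst P1.val g)).prop, hmapE, hmapE, hs, hs, hs, hx0, hx1, hx2,
    subst_pair_X]
  unfold cob
  constructor
  · intro h
    linear_combination -h
  · intro h
    linear_combination -h

end two

end SD

section
variable {k A : Type} [Field k] [CommRing A] (πA : A →+* k) (hπA : Function.Surjective πA)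
  (ε : A) (hε : ∀ a, a * ε = 0 ↔ πA a = 0) (hε0 : πA ε = 0)
  (p : ℕ) [Fact p.Prime] [CharP k p] {n : ℕ} (hn : 0 < n) (Γ : FormalGroup k) [Γ.IsComm]
  (hΓp : mulSeries Γ p = PowerSeries.X ^ (p ^ n))
  (F₁ F₂ : FormalGroup A) [F₁.IsComm] [F₂.IsComm] (h₁ : F₁.map πA = Γ) (h₂ : F₂.map πA = Γ)

include hπA hε hε0 hn hΓp h₁ h₂ in
theorem small_diff_aux (h : ∀ d, ∃ a, coeff d (F₂.toPowerSeries - F₁.toPowerSeries) = a * ε) :
    ∃ D : MvPowerSeries (Fin 2) k, IsCocycle Γ D ∧
      (∀ m < p ^ n, ∃ a, πA a = PowerSeries.coeff m (Nser Γ p D) ∧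
        PowerSeries.coeff m (mulSeries F₂ p - mulSeries F₁ p) = a * ε) ∧
      ∀ (g : PowerSeries A) (h0 : PowerSeries.constantCoeff g = 0),
        IsHom F₁ F₂ (idPoint F₂ + seriesPoint F₂ (PowerSeries.C ε * g) (by simp [h0])).val ↔
          D = - cob Γ (g.map πA) := by
  have h2 : ε * ε = 0 := (hε ε).2 hε0
  obtain ⟨Dh, hD⟩ := SD.exists_Dhat hε h2 F₁ F₂ h
  refine ⟨Dh.map πA, SD.isCocycle_D hε h2 Γ F₁ F₂ h₂ hD, ?_, ?_⟩
  · intro m hm
    refine ⟨PowerSeries.coeff m (SD.Nh F₂ Dh p : PowerSeries A), ?_,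
      SD.coeff_mulSeries_sub hε h2 Γ F₁ F₂ h₁ h₂ hD p (p ^ n) hΓp m hm⟩
    rw [← PowerSeries.coeff_map, SD.map_Nh Γ F₂ h₂]
  · intro g h0
    exact SD.isHom_iff hε h2 Γ F₁ F₂ h₁ h₂ hD g h0 _ rfl

end

end Vale.Agent.P217
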