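import Mathlib.LinearAlgebra.SModEq.Pow
import Mathlib.RingTheory.AdicCompletion.RingHom
import Mathlib.RingTheory.LocalRing.MaximalIdeal.Basic
import Mathlib.RingTheory.WittVector.TeichmullerSeries

/-!
# P217: the homomorphism `W(k) → A` for a complete local ring `A` with perfect residue field `k`
-/

set_option linter.unusedSectionVars false

namespace Vale.Agent.P217

open Ideal Quotient

section
variable (p : ℕ) [hp : Fact p.Prime] {k : Type} [Field k] [CharP k p] [PerfectRing k p]
  {A : Type} [CommRing A] [IsLocalRing A]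
  (πA : A →+* k) (hπA : Function.Surjective πA)

include hπA in
theorem wh_ker : RingHom.ker πA = IsLocalRing.maximalIdeal A :=
  IsLocalRing.eq_maximalIdeal (RingHom.ker_isMaximal_of_surjective πA hπA)

include hπA in
theorem wh_mem {a : A} : a ∈ IsLocalRing.maximalIdeal A ↔ πA a = 0 := by
  rw [← wh_ker πA hπA, RingHom.mem_ker]

include hπA in
theorem wh_p_mem : (p : A) ∈ IsLocalRing.maximalIdeal A := by
  rw [wh_mem πA hπA, map_natCast, CharP.cast_eq_zero]

include hπA in
theorem wh_ghost (n : ℕ) (x : WittVector p A) (hx : ∀ i, x.coeff i ∈ IsLocalRing.maximalIdeal A) :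
    WittVector.ghostComponent n x ∈ IsLocalRing.maximalIdeal A ^ (n + 1) := by
  rw [WittVector.ghostComponent_apply, wittPolynomial, MvPolynomial.aeval_sum]
  refine Ideal.sum_mem _ fun i hi => ?_
  simp only [Finset.mem_range] at hi
  have h1 : (MvPolynomial.aeval x.coeff) ((MvPolynomial.monomial (R := ℤ)
      (Finsupp.single i (p ^ (n - i)))) (p ^ i)) = ((p : A) ^ i) * (x.coeff i) ^ (p ^ (n - i)) := by
    simp [MvPolynomial.aeval_monomial, map_pow]
  rw [h1]
  have h2 : (p : A) ^ i ∈ IsLocalRing.maximalIdeal A ^ i := Ideal.pow_mem_pow (wh_p_mem p πA hπA) i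
  have h3 : (x.coeff i) ^ (p ^ (n - i)) ∈ IsLocalRing.maximalIdeal A ^ (n - i + 1) := by
    refine Ideal.pow_le_pow_right ?_ (Ideal.pow_mem_pow (hx i) (p ^ (n - i)))
    exact ((n - i).lt_two_pow_self).succ_le.trans
        (Nat.pow_le_pow_left hp.out.two_le (n - i))
  have h4 := Ideal.mul_mem_mul h2 h3
  rw [← pow_add] at h4
  have h5 : i + (n - i + 1) = n + 1 := by omega
  rwa [h5] at h4

include hπA in
theorem wh_ker_le (n : ℕ) :
    RingHom.ker (WittVector.map πA : WittVector p A →+* WittVector p k) ≤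
    RingHom.ker (((Ideal.Quotient.mk (IsLocalRing.maximalIdeal A ^ (n + 1)))).comp
    (WittVector.ghostComponent (p := p) n)) := by
  intro x hx
  rw [RingHom.mem_ker] at hx ⊢
  rw [RingHom.comp_apply, Ideal.Quotient.eq_zero_iff_mem]
  refine wh_ghost p πA hπA n x fun i => ?_
  rw [wh_mem πA hπA]
  have h1 := congrArg (fun y : WittVector p k => y.coeff i) hx
  simpa [WittVector.map_coeff] using h1

/-- the ghost component on Witt vectors of the residue field -/
noncomputable def whGh (n : ℕ) : WittVector p k →+* A ⧸ IsLocalRing.maximalIdeal A ^ (n + 1) :=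
  RingHom.liftOfSurjective (WittVector.map πA)
    (WittVector.map_surjective _ hπA) ⟨((Ideal.Quotient.mk _)).comp
      (WittVector.ghostComponent n), wh_ker_le p πA hπA n⟩

theorem whGh_map (n : ℕ) (x : WittVector p A) :
    whGh p πA hπA n (WittVector.map πA x) =
      Ideal.Quotient.mk _ (WittVector.ghostComponent n x) :=
  RingHom.liftOfSurjective_comp_apply ..

/-- the inverse of the Frobenius automorphism -/
noncomputable def whS (k : Type) [Field k] [CharP k p] [PerfectRing k p] : k →+* k :=
  ((_root_.frobeniusEquiv k p).symm : k ≃+* k).toRingHom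

omit [IsLocalRing A] in
theorem whS_pow (n : ℕ) (c : k) : (whS p k ^ n) (c ^ p ^ n) = c := by
  induction n with
  | zero => simp
  | succ n ih =>
    rw [pow_succ, RingHom.mul_def, RingHom.comp_apply]
    have h1 : whS p k (c ^ p ^ (n + 1)) = c ^ p ^ n := by
      have h2 : c ^ p ^ (n + 1) = (_root_.frobeniusEquiv k p) (c ^ p ^ n) := by
        rw [_root_.frobeniusEquiv_apply, frobenius_def, ← pow_mul, pow_succ]
      rw [h2]
      exact RingEquiv.symm_apply_apply _ _
    rw [h1, ih]

/-- the homomorphism modulo `𝔪 ^ (n + 1)` -/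
noncomputable def whTh (n : ℕ) : WittVector p k →+* A ⧸ IsLocalRing.maximalIdeal A ^ (n + 1) :=
  (whGh p πA hπA n).comp (WittVector.map (whS p k ^ n))

theorem whTh_teichmuller (n : ℕ) (a : k) (b : A) (hb : πA b ^ p ^ n = a) :
    whTh p πA hπA n (WittVector.teichmuller p a) =
      Ideal.Quotient.mk _ (b ^ p ^ n) := by
  unfold whTh
  rw [RingHom.comp_apply, WittVector.map_teichmuller, ← hb, whS_pow,
    ← WittVector.map_teichmuller, whGh_map, WittVector.ghostComponent_teichmuller]

include hπA in
theorem wh_nilp (n : ℕ) :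
    IsNilpotent ((p : ℕ) : A ⧸ IsLocalRing.maximalIdeal A ^ (n + 1)) := by
  refine ⟨n + 1, ?_⟩
  have h1 : ((p : ℕ) : A ⧸ IsLocalRing.maximalIdeal A ^ (n + 1)) =
      Ideal.Quotient.mk (IsLocalRing.maximalIdeal A ^ (n + 1)) (p : A) := by
    rw [map_natCast]
  rw [h1, ← map_pow, Ideal.Quotient.eq_zero_iff_mem]
  exact Ideal.pow_mem_pow (wh_p_mem p πA hπA) _

omit [IsLocalRing A] in
/-- in a perfect field every element is a `p ^ n`-th power -/
theorem wh_root (n : ℕ) (a : k) : ∃ c : k, c ^ p ^ n = a := by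
  induction n with
  | zero => exact ⟨a, by simp⟩
  | succ n ih =>
    obtain ⟨c, hc⟩ := ih
    refine ⟨(_root_.frobeniusEquiv k p).symm c, ?_⟩
    have h1 : ((_root_.frobeniusEquiv k p).symm c) ^ p = c := by
      have := RingEquiv.apply_symm_apply (_root_.frobeniusEquiv k p) c
      rwa [_root_.frobeniusEquiv_apply, frobenius_def] at this
    rw [pow_succ', pow_mul, h1, hc]

include hπA in
theorem wh_lift (n : ℕ) (a : k) : ∃ b : A, πA b ^ p ^ n = a := by
  obtain ⟨c, hc⟩ := wh_root p n a
  obtain ⟨b, hb⟩ := hπA c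
  exact ⟨b, by rw [hb, hc]⟩

theorem whTh_compat (n : ℕ) :
    (factorPowSucc (IsLocalRing.maximalIdeal A) (n + 1)).comp (whTh p πA hπA (n + 1)) =
      whTh p πA hπA n := by
  apply WittVector.eq_of_apply_teichmuller_eq _ _ (wh_nilp p πA hπA n)
  intro a
  obtain ⟨b, hb⟩ := wh_lift p πA hπA (n + 1) a
  have hb' : πA (b ^ p) ^ p ^ n = a := by
    rw [map_pow, ← pow_mul, ← pow_succ', hb]
  rw [RingHom.comp_apply, whTh_teichmuller p πA hπA (n + 1) a b hb,
    whTh_teichmuller p πA hπA n a (b ^ p) hb', ← pow_mul, ← pow_succ']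
  rfl

variable [IsAdicComplete (IsLocalRing.maximalIdeal A) A]

/-- the homomorphism `W(k) → A` -/
noncomputable def whPsi : WittVector p k →+* A :=
  IsAdicComplete.StrictMono.liftRingHom (IsLocalRing.maximalIdeal A) Order.succ_strictMono
    (fun n => whTh p πA hπA n) (whTh_compat p πA hπA _)

theorem mk_whPsi (n : ℕ) (x : WittVector p k) :
    Ideal.Quotient.mk (IsLocalRing.maximalIdeal A ^ (n + 1)) (whPsi p πA hπA x) =
      whTh p πA hπA n x :=
  IsAdicComplete.StrictMono.mk_liftRingHom (IsLocalRing.maximalIdeal A) Order.succ_strictMono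
    (fun n => whTh p πA hπA n) (whTh_compat p πA hπA _) x

theorem whPsi_spec : πA.comp (whPsi p πA hπA) = WittVector.constantCoeff := by
  ext x
  rw [RingHom.comp_apply]
  obtain ⟨y, hy⟩ := WittVector.map_surjective (p := p) πA hπA x
  have h1 := mk_whPsi p πA hπA 0 x
  have h2 : whTh p πA hπA 0 x =
      Ideal.Quotient.mk (IsLocalRing.maximalIdeal A ^ (0 + 1)) (y.coeff 0) := by
    unfold whTh
    rw [RingHom.comp_apply, pow_zero]
    have h3 : WittVector.map (1 : k →+* k) x = x := by
      ext i
      rw [WittVector.map_coeff]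
      rfl
    rw [h3, ← hy, whGh_map]
    congr 1
    simp [WittVector.ghostComponent_apply]
  rw [h2, Ideal.Quotient.eq, zero_add, pow_one, wh_mem πA hπA, map_sub, sub_eq_zero] at h1
  rw [h1, ← hy]
  rfl

include hπA in
/-- uniqueness of homomorphisms from the Witt vectors -/
theorem witt_hom_ext (ψ ψ' : WittVector p k →+* A) (h : πA.comp ψ = πA.comp ψ') : ψ = ψ' := by
  apply DFunLike.coe_injective
  apply IsHausdorff.StrictMono.funext' (IsLocalRing.maximalIdeal A) Order.succ_strictMono
  intro n x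
  have key : (Ideal.Quotient.mk (IsLocalRing.maximalIdeal A ^ (n + 1))).comp ψ =
      (Ideal.Quotient.mk (IsLocalRing.maximalIdeal A ^ (n + 1))).comp ψ' := by
    apply WittVector.eq_of_apply_teichmuller_eq _ _ (wh_nilp p πA hπA n)
    intro a
    obtain ⟨c, hc⟩ := wh_root p n a
    rw [RingHom.comp_apply, RingHom.comp_apply, ← hc, map_pow (WittVector.teichmuller p), map_pow ψ,
      map_pow ψ']
    have h1 : ψ (WittVector.teichmuller p c) ≡ ψ' (WittVector.teichmuller p c)
        [SMOD IsLocalRing.maximalIdeal A] := by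
      rw [SModEq.sub_mem, wh_mem πA hπA, map_sub, sub_eq_zero]
      exact RingHom.congr_fun h _
    have h2 := SModEq.pow_pow_add_one (wh_p_mem p πA hπA) h1 n
    rw [SModEq.sub_mem] at h2
    exact (Ideal.Quotient.eq).2 h2
  exact RingHom.congr_fun key x

end
end Vale.Agent.P217
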