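import Vale.Agent.Lib.P217.HeightQuot
import Vale.Agent.Lib.P217.WittHom
import Vale.Agent.Lib.P217.Ev

/-!
# P217 (existence of the universal deformation): homomorphisms from the Lubin-Tate ring (module U2)

`A` is a complete Noetherian local ring with residue field `k` (`π_A : A → k` surjective), `k` perfect of characteristic `p`.
* `exists_witt_hom`: existence. For each `M` the ghost component `w_M : W(A) → A → A/𝔪^{M+1}`, `w_M(a) = ∑ p^i a_i^{p^{M-i}}`, vanishes on Witt vectors with all
  components in `𝔪` (`p ∈ 𝔪`, and `a ≡ b` modulo `𝔪` implies `a^{p^j} ≡ b^{p^j}` modulo `𝔪^{j+1}`), i.e. on the kernel of the surjection `W(A) → W(k)`; so it factors through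
  a ring homomorphism `W(k) → A/𝔪^{M+1}`; compose it with `φ^{-M}` on `W(k)` (`k` perfect) to get `ψ_M` with `ψ_M(x) = ∑_{i ≤ M} p^i τ(x_i^{p^{-i}})^…`,
  compatible for varying `M`, and take the limit (`IsAdicComplete`, `AdicCompletion.liftRingHom` or a direct construction).
  Uniqueness: for two solutions `ψ, ψ'` and `a ∈ k`, `ψ([b]) ≡ ψ'([b])` modulo `𝔪` with `b^{p^m} = a` so `ψ([a]) ≡ ψ'([a])` modulo `𝔪^{m+1}` for all `m`; every Witt
  vector is congruent to a combination of Teichmüller elements modulo `p^m`; `A` is separated.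
* `exists_lt_hom`: `E = W(k)[[u]]`, `u_i ↦ x_i`: evaluation of power series (coefficients through `W(k) → A`) in the complete ring `A`.
* `lt_hom_ext`: uniqueness; `𝔪_E = (p, u)` and `A` is separated: two homomorphisms `E → A` over `k` agree on `W(k)` by `exists_witt_hom` and on the `u_i`, so on
  polynomials, and are continuous.
-/

set_option linter.unusedSectionVars false

namespace Vale.Agent.P217

open MvPowerSeries

/-- a power series without constant term is in the ideal of the variables -/
theorem sub_C_mem_vars {r : ℕ} {R : Type*} [CommRing R] (f : MvPowerSeries (Fin r) R) :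
    ∃ c : Fin r → MvPowerSeries (Fin r) R, f = C (constantCoeff f) + ∑ i, c i * X i := by
  classical
  have h1 := sub_cutVars_mem (Finset.univ : Finset (Fin r)) f
  have h2 : cutVars (Finset.univ : Finset (Fin r)) f = C (constantCoeff f) := by
    ext d
    rw [coeff_cutVars, coeff_C]
    by_cases hd : d = 0
    · subst hd
      simp
    · rw [if_neg hd, if_neg]
      intro h
      exact hd (Finsupp.ext fun i => h i (Finset.mem_univ i))
  have h3 : (X '' ((Finset.univ : Finset (Fin r)) : Set (Fin r)) :
      Set (MvPowerSeries (Fin r) R)) = Set.range X := by simp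
  rw [h2, h3] at h1
  obtain ⟨c, hc⟩ := Ideal.mem_span_range_iff_exists_fun.1 h1
  exact ⟨c, by rw [hc]; ring⟩

section
variable (p : ℕ) [Fact p.Prime] {k : Type} [Field k] [CharP k p] [PerfectRing k p]
  {A : Type} [CommRing A] [IsLocalRing A] [IsNoetherianRing A]
  [IsAdicComplete (IsLocalRing.maximalIdeal A) A] (πA : A →+* k) (hπA : Function.Surjective πA)

theorem mem_maximalIdeal_of_map_eq_zero {x : A} (h : πA x = 0) :
    x ∈ IsLocalRing.maximalIdeal A := by
  rw [IsLocalRing.mem_maximalIdeal, mem_nonunits_iff]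
  intro hu
  have := hu.map πA
  rw [h] at this
  exact not_isUnit_zero this

include hπA in
theorem exists_witt_hom :
    ∃! ψ : WittVector p k →+* A, πA.comp ψ = WittVector.constantCoeff := by
  refine ⟨whPsi p πA hπA, whPsi_spec p πA hπA, fun ψ' h => ?_⟩
  refine witt_hom_ext p πA hπA ψ' _ ?_
  rw [whPsi_spec p πA hπA]
  exact h

include hπA in
theorem exists_lt_hom {r : ℕ} (x : Fin r → A) (hx : ∀ i, πA (x i) = 0) :
    ∃ φ : MvPowerSeries (Fin r) (WittVector p k) →+* A,
      πA.comp φ = (WittVector.constantCoeff : WittVector p k →+* k).comp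
        MvPowerSeries.constantCoeff ∧ ∀ i, φ (X i) = x i := by
  obtain ⟨ψ, hψ, -⟩ := exists_witt_hom p πA hπA
  let _ : WithIdeal A := ⟨IsLocalRing.maximalIdeal A⟩
  have hct : CompleteSpace A ∧ T2Space A :=
    (IsAdic.isAdicComplete_iff (R := A) (I := IsLocalRing.maximalIdeal A) rfl).1 inferInstance
  have _ : CompleteSpace A := hct.1
  have _ : T2Space A := hct.2
  have _ : AdicRing A := {}
  let _ : Algebra (WittVector p k) A := ψ.toAlgebra
  have ha : HasEval x := hasEval_of_finite fun i =>
    WithIdeal.isTopologicallyNilpotent_of_mem (mem_maximalIdeal_of_map_eq_zero πA (hx i))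
  have hX : ∀ i, evRHom (WittVector p k) ha (X i) = x i := by
    intro i
    rw [coe_evRHom]
    exact @MvPowerSeries.eval₂_X (Fin r) (WittVector p k) _ ⊥ A _ _ (algebraMap _ A) x i
  have hC : ∀ w, evRHom (WittVector p k) ha (C w) = ψ w := by
    intro w
    rw [coe_evRHom]
    exact @MvPowerSeries.eval₂_C (Fin r) (WittVector p k) _ ⊥ A _ _ (algebraMap _ A) x w
  refine ⟨evRHom (WittVector p k) ha, ?_, hX⟩
  ext f
  obtain ⟨c, hc⟩ := sub_C_mem_vars f
  rw [RingHom.comp_apply, RingHom.comp_apply]
  have h1 : πA (ψ (constantCoeff f)) = WittVector.constantCoeff (constantCoeff f) :=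
    RingHom.congr_fun hψ _
  conv_lhs => rw [hc]
  rw [map_add, map_add, hC, h1, map_sum, map_sum]
  have h2 : ∀ i, πA (evRHom (WittVector p k) ha (c i * X i)) = 0 := by
    intro i
    rw [map_mul, map_mul, hX, hx, mul_zero]
  rw [Finset.sum_eq_zero fun i _ => h2 i, add_zero]

include hπA in
theorem lt_hom_ext {r : ℕ} (φ φ' : MvPowerSeries (Fin r) (WittVector p k) →+* A)
    (h : πA.comp φ = (WittVector.constantCoeff : WittVector p k →+* k).comp
        MvPowerSeries.constantCoeff)
    (h' : πA.comp φ' = (WittVector.constantCoeff : WittVector p k →+* k).comp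
        MvPowerSeries.constantCoeff)
    (hX : ∀ i, φ (X i) = φ' (X i)) : φ = φ' := by
  have hC : φ.comp C = φ'.comp C := by
    refine (exists_witt_hom p πA hπA).unique ?_ ?_
    · rw [← RingHom.comp_assoc, h]
      ext w
      simp
    · rw [← RingHom.comp_assoc, h']
      ext w
      simp
  have hm : ∀ i, φ (X i) ∈ IsLocalRing.maximalIdeal A := by
    intro i
    refine mem_maximalIdeal_of_map_eq_zero πA ?_
    have := RingHom.congr_fun h (X i)
    rw [RingHom.comp_apply, RingHom.comp_apply] at this
    rw [this]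
    simp
  have key : ∀ N, ∀ f, φ f - φ' f ∈ IsLocalRing.maximalIdeal A ^ N := by
    intro N
    induction N with
    | zero => intro f; simp
    | succ N ih =>
      intro f
      obtain ⟨c, hc⟩ := sub_C_mem_vars f
      have e : φ f - φ' f = ∑ i, (φ (c i) - φ' (c i)) * φ (X i) := by
        have h1 : φ (C (constantCoeff f)) = φ' (C (constantCoeff f)) := RingHom.congr_fun hC _
        conv_lhs => rw [hc]
        rw [map_add, map_add, map_sum, map_sum, h1, add_sub_add_left_eq_sub,
          ← Finset.sum_sub_distrib]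
        refine Finset.sum_congr rfl fun i _ => ?_
        rw [map_mul, map_mul, ← hX]
        ring
      rw [e, pow_succ]
      exact Ideal.sum_mem _ fun i _ => Ideal.mul_mem_mul (ih (c i)) (hm i)
  ext f
  have h3 : IsHausdorff (IsLocalRing.maximalIdeal A) A := inferInstance
  rw [← sub_eq_zero]
  refine h3.haus _ fun N => ?_
  rw [SModEq.zero, smul_eq_mul, Ideal.mul_top]
  exact key N f

end
end Vale.Agent.P217
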