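import Vale.Agent.Lib.P217.Coh
import Vale.Agent.Lib.P217.WHom
import Vale.Agent.Lib.P217.QuotComplete
import Vale.Agent.Lib.P217.LiftPow
import Vale.Agent.Lib.P217.MainP
import Vale.Agent.Lib.P217.SmallDiff

/-!
# P217 (existence of the universal deformation): small extensions (module U4)

`A` a local ring with residue field `k`, `π_A : A → k`, `ε ∈ A` nonzero with `𝔪 ε = 0`; `a ε = 0` iff `π_A a = 0`.  For a formal group law `F` over `A` reducing to `Γ`,
a series `ε g` with coefficients in `(ε)` only depends on `g` modulo `𝔪`, substituting a series `s` in `ε g` only depends on `s` modulo `𝔪`, and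
`ε g +_F ε g' = ε (g + g')` (`ε² = 0`).

* `small_diff`: `F₁ ≡ F₂` modulo `(ε)`: in the group of formal points of `F₁`, `F₂(X,Y) = F₁(X,Y) +_{F₁} ε D̂(X,Y)` (`sub_mem_iff`), `D = π_A(D̂)`.
  Since `x +_{F₁} ε y = x +_{F₂} ε y` this is symmetric in `F₁, F₂`.  The associativity of `F₂` gives
  `F₂(F₂(X,Y),Z) = F₁(F₂(X,Y),Z) +_{F₁} ε D(Γ(X,Y),Z) = X +_{F₁} Y +_{F₁} Z +_{F₁} ε D(X,Y) +_{F₁} ε D(Γ(X,Y),Z)`, and symmetrically, so the cocycle identity.
  `[j+1]_{F₂} = F₂([j]_{F₂} X, X) = [j]_{F₂} X +_{F₁} X +_{F₁} ε D([j]_Γ X, X)`, so `[p]_{F₂} = [p]_{F₁} +_{F₁} ε Nser(D)`, and `[p]_{F₁} ≡ X^q` modulo `𝔪` so in degrees `< q`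
  the formal sum is the ordinary sum.
  For `t = X +_{F₂} ε g`: `t(F₁(X,Y)) = F₁(X,Y) +_{F₂} ε g(Γ(X,Y))` and `F₂(tX, tY) = F₂(X,Y) +_{F₂} ε (g(X) + g(Y))`; they are equal iff `ε D = - ε cob(g)`.
* `exists_pert`: `ε g = s -_{F₂} X`.
* `coeff_variation`: write `coeff (p^{i+1}) [p]_F = u_{i+1} + p b + ∑_{j<i} u_{j+1} b_j` (`HasStandardCoordinates`), `β i j = residueMap (b_j)`. `φ₁ ≡ φ₂` modulo `(ε)`
  (`lt_hom_ext` for the ring `A/(ε)`), so `p (φ₂ b - φ₁ b) = 0` and `φ₂(u_j b_j) - φ₁(u_j b_j) = c_j ε φ₂(b_j) + φ₁(u_j)(φ₂ b_j - φ₁ b_j) = c_j ε b_j`.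
-/

set_option linter.unusedSectionVars false

namespace Vale.Agent.P217

open MvPowerSeries

section
variable {k A : Type} [Field k] [CommRing A] (πA : A →+* k) (hπA : Function.Surjective πA)
  (ε : A) (hε : ∀ a, a * ε = 0 ↔ πA a = 0) (hε0 : πA ε = 0)

/-- the series `X +_F ε g` -/
noncomputable def pert (F : FormalGroup A) (ε : A) (g : PowerSeries A)
    (h0 : PowerSeries.constantCoeff g = 0) : PowerSeries A :=
  (idPoint F + seriesPoint F (PowerSeries.C ε * g) (by simp [h0])).val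

variable (p : ℕ) [Fact p.Prime] [CharP k p] {n : ℕ} (hn : 0 < n) (Γ : FormalGroup k) [Γ.IsComm]
  (hΓp : mulSeries Γ p = PowerSeries.X ^ (p ^ n))
  (F₁ F₂ : FormalGroup A) [F₁.IsComm] [F₂.IsComm] (h₁ : F₁.map πA = Γ) (h₂ : F₂.map πA = Γ)

include hπA hε hε0 hn hΓp h₁ h₂ in
theorem small_diff (h : ∀ d, ∃ a, coeff d (F₂.toPowerSeries - F₁.toPowerSeries) = a * ε) :
    ∃ D : MvPowerSeries (Fin 2) k, IsCocycle Γ D ∧
      (∀ m < p ^ n, ∃ a, πA a = PowerSeries.coeff m (Nser Γ p D) ∧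
        PowerSeries.coeff m (mulSeries F₂ p - mulSeries F₁ p) = a * ε) ∧
      ∀ (g : PowerSeries A) (h0 : PowerSeries.constantCoeff g = 0),
        IsHom F₁ F₂ (pert F₂ ε g h0) ↔ D = - cob Γ (g.map πA) := by
  exact small_diff_aux πA hπA ε hε hε0 p hn Γ hΓp F₁ F₂ h₁ h₂ h

theorem mem_coefId_span_iff (f : PowerSeries A) :
    (f : MvPowerSeries Unit A) ∈ LiftPow.coefId Unit (Ideal.span {ε}) ↔
      ∀ m, ∃ a, PowerSeries.coeff m f = a * ε := by
  rw [LiftPow.mem_coefId]
  constructor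
  · intro h m
    obtain ⟨a, ha⟩ := Ideal.mem_span_singleton'.1 (h (Finsupp.single () m))
    exact ⟨a, ha.symm⟩
  · intro h d
    obtain ⟨a, ha⟩ := h (d ())
    rw [Ideal.mem_span_singleton']
    refine ⟨a, ?_⟩
    have hd : d = Finsupp.single () (d ()) := by
      ext
      simp
    rw [← ha]
    change MvPowerSeries.coeff (Finsupp.single () (d ())) f = MvPowerSeries.coeff d f
    rw [← hd]

include hε hε0 in
theorem exists_pert (F : FormalGroup A) [F.IsComm] (s : PowerSeries A)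
    (hs0 : PowerSeries.constantCoeff s = 0)
    (hs : ∀ m, ∃ a, PowerSeries.coeff m (s - PowerSeries.X) = a * ε) :
    ∃ (g : PowerSeries A) (h0 : PowerSeries.constantCoeff g = 0), s = pert F ε g h0 := by
  obtain ⟨P, hP⟩ : ∃ P : F.Point Unit, P = seriesPoint F s hs0 - idPoint F := ⟨_, rfl⟩
  have h1 : ∀ m, ∃ a, PowerSeries.coeff m (P.val : PowerSeries A) = a * ε := by
    rw [← mem_coefId_span_iff, hP]
    rw [← LiftPow.sub_mem_iff]
    exact (mem_coefId_span_iff ε _).2 hs
  have h2 : PowerSeries.constantCoeff (P.val : PowerSeries A) = 0 := by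
    obtain ⟨u, hu, hu2⟩ := LiftPow.sub_val_eq (seriesPoint F s hs0) (idPoint F)
    have h3 := congrArg (MvPowerSeries.constantCoeff (σ := Unit) (R := A)) hu2
    rw [map_sub, map_mul] at h3
    have h4 : MvPowerSeries.constantCoeff (seriesPoint F s hs0).val = 0 := hs0
    have h5 : MvPowerSeries.constantCoeff (idPoint F).val = 0 :=
      PowerSeries.constantCoeff_X
    rw [h4, h5, sub_zero] at h3
    have h6 : IsUnit (MvPowerSeries.constantCoeff u) := hu.map _
    have h7 := (h6.mul_left_eq_zero).1 h3.symm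
    rw [hP]
    exact h7
  choose a ha using h1
  have hg0 : PowerSeries.constantCoeff
      (PowerSeries.mk fun m => if m = 0 then 0 else a m : PowerSeries A) = 0 := by
    rw [← PowerSeries.coeff_zero_eq_constantCoeff_apply, PowerSeries.coeff_mk, if_pos rfl]
  refine ⟨PowerSeries.mk fun m => if m = 0 then 0 else a m, hg0, ?_⟩
  have h8 : PowerSeries.C ε * (PowerSeries.mk fun m => if m = 0 then 0 else a m) =
      (P.val : PowerSeries A) := by
    ext m
    rw [PowerSeries.coeff_C_mul, PowerSeries.coeff_mk]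
    split_ifs with hm
    · subst hm
      rw [PowerSeries.coeff_zero_eq_constantCoeff_apply, h2, mul_zero]
    · rw [ha m, mul_comm]
  have h9 : seriesPoint F (PowerSeries.C ε * (PowerSeries.mk fun m => if m = 0 then 0 else a m))
      (by simp [hg0]) = P := Subtype.ext h8
  rw [pert, h9, hP, add_sub_cancel]
  rfl

include hε hε0 in
theorem pert_eq_X_iff (F : FormalGroup A) [F.IsComm] (g : PowerSeries A)
    (h0 : PowerSeries.constantCoeff g = 0) : pert F ε g h0 = PowerSeries.X ↔ g.map πA = 0 := by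
  have h1 : pert F ε g h0 = PowerSeries.X ↔
      idPoint F + seriesPoint F (PowerSeries.C ε * g) (by simp [h0]) = idPoint F := by
    rw [pert]
    exact ⟨fun h => Subtype.ext h, fun h => congrArg Subtype.val h⟩
  rw [h1, add_eq_left]
  constructor
  · intro h
    have h2 : PowerSeries.C ε * g = 0 := congrArg Subtype.val h
    ext m
    rw [PowerSeries.coeff_map, map_zero]
    apply (hε _).1
    have h3 := congrArg (PowerSeries.coeff m) h2
    rw [PowerSeries.coeff_C_mul, map_zero] at h3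
    rw [mul_comm, h3]
  · intro h
    apply Subtype.ext
    change PowerSeries.C ε * g = 0
    ext m
    have h3 := congrArg (PowerSeries.coeff m) h
    rw [PowerSeries.coeff_map, map_zero] at h3
    rw [PowerSeries.coeff_C_mul, map_zero, mul_comm]
    exact (hε _).2 h3

include hε hε0 in
theorem pert_sub_X (F : FormalGroup A) [F.IsComm] (g : PowerSeries A)
    (h0 : PowerSeries.constantCoeff g = 0) (m : ℕ) :
    ∃ a, PowerSeries.coeff m (pert F ε g h0 - PowerSeries.X) = a * ε := by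
  revert m
  rw [← mem_coefId_span_iff]
  have h1 := (LiftPow.sub_mem_iff
    (idPoint F + seriesPoint F (PowerSeries.C ε * g) (by simp [h0])) (idPoint F)
    (Ideal.span {ε})).2
  apply h1
  rw [add_sub_cancel_left]
  refine (mem_coefId_span_iff ε (PowerSeries.C ε * g)).2 fun m => ⟨PowerSeries.coeff m g, ?_⟩
  rw [PowerSeries.coeff_C_mul, mul_comm]

end

theorem coeff_variation (p : ℕ) [Fact p.Prime] (n : ℕ) (hn : n ≠ 0)
    (F : FormalGroup (LTRing p n)) [F.IsComm] (hc : HasStandardCoordinates p n F) :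
    ∃ β : Fin (n - 1) → Fin (n - 1) → GaloisField p n,
      ∀ (A : Type) [CommRing A] [IsLocalRing A] [IsNoetherianRing A]
        [IsAdicComplete (IsLocalRing.maximalIdeal A) A] (πA : A →+* GaloisField p n)
        (_ : Function.Surjective πA) (ε : A) (_ : ∀ a, a * ε = 0 ↔ πA a = 0) (_ : πA ε = 0)
        (φ₁ φ₂ : LTRing p n →+* A) (_ : πA.comp φ₁ = residueMap p n)
        (_ : πA.comp φ₂ = residueMap p n) (c : Fin (n - 1) → A)
        (_ : ∀ i, φ₂ (X i) = φ₁ (X i) + c i * ε) (i : Fin (n - 1)),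
        ∃ a, πA a = πA (c i) + ∑ j ∈ Finset.univ.filter (fun j => j < i), β i j * πA (c j) ∧
          PowerSeries.coeff (p ^ ((i : ℕ) + 1))
            (mulSeries (F.map φ₂) p - mulSeries (F.map φ₁) p) = a * ε := by
  exact coeff_variation_aux p n F hc

/-- universality at the ring `A` -/
def UnivAt {k E : Type} [Field k] [CommRing E] (Γ : FormalGroup k) (π : E →+* k)
    (F : FormalGroup E) (A : Type) [CommRing A] (πA : A →+* k) : Prop :=
  ∀ G : FormalGroup A, G.IsComm → G.map πA = Γ →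
    ∃! φt : (E →+* A) × PowerSeries A,
      πA.comp φt.1 = π ∧ IsHom (F.map φt.1) G φt.2 ∧ φt.2.map πA = PowerSeries.X

end Vale.Agent.P217
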