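import Mathlib.Algebra.Group.MinimalAxioms
import Vale.Agent.Lib.P217.Universal
import Vale.Agent.Lib.P217.HeightQuot

/-!
# P217: the extended Morava stabilizer group, as a group, and its action on the Lubin-Tate ring
-/

namespace Vale.Agent.P217.Stab

open MvPowerSeries

section formal_groups
variable {R : Type*} [CommRing R]

/-- `t` is an isomorphism `F → G` of one-dimensional formal group laws over `R`: `t(0) = 0`,
`t'(0)` is a unit of `R`, and `t(F(X,Y)) = G(t(X),t(Y))`. -/
def IsFGIso (F G : FormalGroup R) (t : PowerSeries R) : Prop :=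
  PowerSeries.constantCoeff t = 0 ∧ IsUnit (PowerSeries.coeff 1 t) ∧
    PowerSeries.subst F.toPowerSeries t =
      MvPowerSeries.subst ![PowerSeries.subst (X 0 : MvPowerSeries (Fin 2) R) t,
        PowerSeries.subst (X 1 : MvPowerSeries (Fin 2) R) t] G.toPowerSeries

/-- The series `[m]_F(X)`: `[0]_F = 0` and `[m + 1]_F(X) = F([m]_F(X), X)`. -/
noncomputable def mult (F : FormalGroup R) : ℕ → PowerSeries R
  | 0 => 0
  | m + 1 => MvPowerSeries.subst ![mult F m, PowerSeries.X] F.toPowerSeries

theorem isFGIso_iff {F G : FormalGroup R} {t : PowerSeries R} :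
    IsFGIso F G t ↔ IsHom F G t ∧ IsUnit (PowerSeries.coeff 1 t) := by
  unfold IsFGIso IsHom
  tauto

theorem isFGIso_comp {F G H : FormalGroup R} {h g : PowerSeries R} (hh : IsFGIso F G h)
    (hg : IsFGIso G H g) : IsFGIso F H (PowerSeries.subst h g) := by
  rw [isFGIso_iff] at hh hg ⊢
  refine ⟨hh.1.comp hg.1, ?_⟩
  rw [coeff_subst_lead hg.1.1 le_rfl (by rw [pow_one]; exact PowerSeries.X_dvd_iff.2 hh.1.1)]
  exact hg.2.mul hh.2

end formal_groups

section stabilizer
variable (p : ℕ) [Fact p.Prime] (n : ℕ)

/-- A formal group law over `𝔽_p`, viewed over `𝔽_{p^n}`. -/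
noncomputable abbrev overFq (Γ : FormalGroup (ZMod p)) : FormalGroup (GaloisField p n) :=
  Γ.map (algebraMap (ZMod p) (GaloisField p n))

/-- The elements of the extended stabilizer group `G_n = Aut(Γ) ⋊ Gal(𝔽_{p^n}/𝔽_p)`: pairs of an
automorphism `series` of `Γ` over `𝔽_{p^n}` and an element `gal` of the Galois group. -/
@[ext]
structure ExtStab (Γ : FormalGroup (ZMod p)) : Type where
  series : PowerSeries (GaloisField p n)
  gal : GaloisField p n ≃ₐ[ZMod p] GaloisField p n
  isIso : IsFGIso (overFq p n Γ) (overFq p n Γ) series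

variable {p n}

/-- The Galois group acts on power series through the coefficients. -/
noncomputable def twist (σ : GaloisField p n ≃ₐ[ZMod p] GaloisField p n)
    (g : PowerSeries (GaloisField p n)) : PowerSeries (GaloisField p n) :=
  g.map (σ : GaloisField p n →+* GaloisField p n)

variable {Γ : FormalGroup (ZMod p)}

theorem isFGIso_twist {g : PowerSeries (GaloisField p n)}
    (hg : IsFGIso (overFq p n Γ) (overFq p n Γ) g)
    (σ : GaloisField p n ≃ₐ[ZMod p] GaloisField p n) :
    IsFGIso (overFq p n Γ) (overFq p n Γ) (twist σ g) := by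
  rw [isFGIso_iff] at hg ⊢
  have h1 := hg.1.map (σ : GaloisField p n →+* GaloisField p n)
  have h2 : (σ : GaloisField p n →+* GaloisField p n).comp (algebraMap (ZMod p) (GaloisField p n))
      = algebraMap (ZMod p) (GaloisField p n) := Subsingleton.elim _ _
  rw [un_map_map, h2] at h1
  refine ⟨h1, ?_⟩
  rw [twist, PowerSeries.coeff_map]
  exact hg.2.map _

theorem isFGIso_mul (x y : ExtStab p n Γ) : IsFGIso (overFq p n Γ) (overFq p n Γ)
    (PowerSeries.subst (twist x.gal y.series) x.series) :=
  isFGIso_comp (isFGIso_twist y.isIso x.gal) x.isIso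

/-- The product in the semidirect product: `(g, σ) (h, τ) = (g ∘ σ(h), σ τ)`. -/
noncomputable instance : Mul (ExtStab p n Γ) :=
  ⟨fun x y => ⟨PowerSeries.subst (twist x.gal y.series) x.series, x.gal * y.gal, isFGIso_mul x y⟩⟩

theorem isFGIso_X (F : FormalGroup (GaloisField p n)) : IsFGIso F F PowerSeries.X :=
  isFGIso_iff.mpr ⟨isHom_X F, by rw [PowerSeries.coeff_one_X]; exact isUnit_one⟩

/-- The unit element `(X, 1)`. -/
noncomputable instance : One (ExtStab p n Γ) :=
  ⟨⟨PowerSeries.X, 1, isFGIso_X (overFq p n Γ)⟩⟩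

theorem stab_exists_inv (x : ExtStab p n Γ) : ∃ y, y * x = 1 := by
  have h := isFGIso_iff.mp (isFGIso_twist x.isIso x.gal⁻¹)
  obtain ⟨g, g1, g2, g3, -⟩ := exists_inverse_hom h.1 h.2
  exact ⟨⟨g, x.gal⁻¹, isFGIso_iff.mpr ⟨g1, g2⟩⟩, ExtStab.ext g3 (inv_mul_cancel x.gal)⟩

/-- The inverse of an element of the group. -/
noncomputable instance : Inv (ExtStab p n Γ) := ⟨fun x => (stab_exists_inv x).choose⟩

theorem stab_mul_assoc (x y z : ExtStab p n Γ) : x * y * z = x * (y * z) := by
  refine ExtStab.ext ?_ (mul_assoc _ _ _)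
  have h0 := (isFGIso_twist z.isIso y.gal).1
  have h1 := isFGIso_twist y.isIso x.gal
  have h2 := isFGIso_twist (isFGIso_twist z.isIso y.gal) x.gal
  have h3 : twist (x.gal * y.gal) z.series = twist x.gal (twist y.gal z.series) := by
    ext j
    simp [twist]
  show PowerSeries.subst (twist (x.gal * y.gal) z.series)
    (PowerSeries.subst (twist x.gal y.series) x.series : PowerSeries _) =
    PowerSeries.subst (twist x.gal
      (PowerSeries.subst (twist y.gal z.series) y.series : PowerSeries _)) x.series
  rw [h3, PowerSeries.subst_comp_subst_apply (PowerSeries.HasSubst.of_constantCoeff_zero' h1.1)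
    (PowerSeries.HasSubst.of_constantCoeff_zero' h2.1)]
  congr 1
  exact (un_map_psubst _ h0).symm

theorem stab_one_mul (x : ExtStab p n Γ) : 1 * x = x := by
  refine ExtStab.ext ?_ (one_mul _)
  have h3 : twist 1 x.series = x.series := by
    ext j
    simp [twist]
  show PowerSeries.subst (twist 1 x.series) (PowerSeries.X : PowerSeries _) = x.series
  rw [h3]
  exact PowerSeries.subst_X (PowerSeries.HasSubst.of_constantCoeff_zero' x.isIso.1)

theorem stab_inv_mul (x : ExtStab p n Γ) : x⁻¹ * x = 1 := (stab_exists_inv x).choose_spec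

/-- The extended stabilizer group is a group. -/
noncomputable instance : Group (ExtStab p n Γ) :=
  Group.ofLeftAxioms stab_mul_assoc stab_one_mul stab_inv_mul

variable (p n)

/-- The Lubin-Tate ring `E_0 = W(𝔽_{p^n})[[u_1, …, u_{n-1}]]`. -/
abbrev E0 : Type := MvPowerSeries (Fin (n - 1)) (WittVector p (GaloisField p n))

/-- The residue map `E_0 → 𝔽_{p^n}`. -/
noncomputable def res : E0 p n →+* GaloisField p n :=
  (WittVector.constantCoeff : WittVector p (GaloisField p n) →+* GaloisField p n).comp
    MvPowerSeries.constantCoeff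

/-- `u_0 = p`, and `u_i` is the `i`-th power series variable of `E_0` for `1 ≤ i < n`. -/
noncomputable def u (i : Fin n) : E0 p n :=
  if h : (i : ℕ) = 0 then (p : E0 p n) else X ⟨(i : ℕ) - 1, by omega⟩

/-- The ideal `I_h = (u_0, u_1, …, u_{h-1}) = (p, u_1, …, u_{h-1})`, with `I_0 = 0`. -/
noncomputable def I (h : ℕ) : Ideal (E0 p n) :=
  Ideal.span {x | ∃ i : Fin n, (i : ℕ) < h ∧ x = u p n i}

/-- `F` is a commutative formal group law over `E_0` which reduces to `Γ` over `𝔽_{p^n}`, in
standard coordinates: for `0 ≤ i < n` the coefficient of `X^{p^i}` in `[p]_F(X)` is `u_i` modulo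
`I_i = (u_0, …, u_{i-1})`. -/
def IsStandardLift (Γ : FormalGroup (ZMod p)) (F : FormalGroup (E0 p n)) : Prop :=
  F.IsComm ∧ F.map (res p n) = overFq p n Γ ∧
    ∀ i : Fin n, PowerSeries.coeff (p ^ (i : ℕ)) (mult F p) - u p n i ∈ I p n i

/-- `E_0`, with the formal group law `F`, pro-represents deformations of `Γ` together with a
marking: for every complete Noetherian local ring `A` with residue field `𝔽_{p^n}` (residue map
`π`), every commutative formal group law `G` over `A` and every isomorphism `γ` (the marking) from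
`Γ` to the reduction of `G` there is a unique ring homomorphism `φ : E_0 → A`, compatible with the
residue maps, for which there is an isomorphism `φ_* F → G` with reduction `γ`; and this
isomorphism is unique too. -/
def IsUniversal (Γ : FormalGroup (ZMod p)) (F : FormalGroup (E0 p n)) : Prop :=
  ∀ (A : Type) [CommRing A] [IsLocalRing A] [IsNoetherianRing A]
    [IsAdicComplete (IsLocalRing.maximalIdeal A) A] (π : A →+* GaloisField p n),
    Function.Surjective π → ∀ G : FormalGroup A, G.IsComm →
    ∀ γ : PowerSeries (GaloisField p n), IsFGIso (overFq p n Γ) (G.map π) γ →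
      ∃! φ : E0 p n →+* A, π.comp φ = res p n ∧
        ∃! t : PowerSeries A, IsFGIso (F.map φ) G t ∧ t.map π = γ

variable {p n}

/-- The ring automorphism `φ` of `E_0` is the change of marking by the element `x = (g, σ)` of
`G_n`: `φ` induces `σ` on the residue field, and there is an isomorphism `φ_* F → F` of formal
group laws over `E_0` with reduction `g`. -/
def ChangesMarking (F : FormalGroup (E0 p n)) (x : ExtStab p n Γ) (φ : RingAut (E0 p n)) : Prop :=
  (∀ a, res p n (φ a) = x.gal (res p n a)) ∧
  ∃ t : PowerSeries (E0 p n), IsFGIso (F.map (φ : E0 p n →+* E0 p n)) F t ∧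
    t.map (res p n) = x.series

variable (p n) in
/-- The actions of the group `G_n` on `E_0` by ring automorphisms. -/
abbrev StabAction (Γ : FormalGroup (ZMod p)) : Type := ExtStab p n Γ →* RingAut (E0 p n)

/-- `ρ` is the action of `G_n` on `E_0` by changing the marking: for every element `x` of `G_n`,
`ρ x` is the one and only ring automorphism of `E_0` which is the change of marking by `x`. -/
def IsMarkingAction (F : FormalGroup (E0 p n)) (ρ : StabAction p n Γ) : Prop :=
  ∀ (x : ExtStab p n Γ) (φ : RingAut (E0 p n)), ChangesMarking F x φ ↔ φ = ρ x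

/-- The ideal `J` of `E_0` is invariant under the action `ρ` of the group `G_n`: every element of
`G_n` maps `J` into itself. -/
def IsStable (ρ : StabAction p n Γ) (J : Ideal (E0 p n)) : Prop :=
  ∀ x : ExtStab p n Γ, ∀ a ∈ J, ρ x a ∈ J

end stabilizer

end Vale.Agent.P217.Stab
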