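import Vale.Agent.Lib.P217.SmallExt
import Vale.Agent.Lib.P217.Universal

/-!
# P217: auxiliary lemmas for `univAt_artin`
-/

namespace Vale.Agent.P217

open MvPowerSeries

theorem ua_isAdicComplete {R : Type*} [CommRing R] (I : Ideal R) (N : ℕ) (hN : I ^ N = ⊥) :
    IsAdicComplete I R := by
  have hN' : ∀ n, N ≤ n → I ^ n = ⊥ := by
    intro n hn
    rw [eq_bot_iff]
    refine (Ideal.pow_le_pow_right hn).trans ?_
    rw [hN]
  refine { haus' := ?_, prec' := ?_ }
  · intro x hx
    have h1 := hx N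
    rw [hN' N le_rfl, Submodule.bot_smul, SModEq.bot] at h1
    exact h1
  · intro f hf
    refine ⟨f N, fun n => ?_⟩
    rcases le_total n N with h | h
    · exact hf h
    · have h1 := hf h
      rw [hN' N le_rfl, Submodule.bot_smul, SModEq.bot] at h1
      rw [h1]

theorem ua_exists_socle {A : Type*} [CommRing A] [IsLocalRing A] (m : ℕ)
    (hm : IsLocalRing.maximalIdeal A ^ m = ⊥) (hne : IsLocalRing.maximalIdeal A ≠ ⊥) :
    ∃ ε : A, ε ≠ 0 ∧ ε ∈ IsLocalRing.maximalIdeal A ∧
      ∀ a ∈ IsLocalRing.maximalIdeal A, a * ε = 0 := by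
  classical
  have hex : ∃ m, IsLocalRing.maximalIdeal A ^ m = ⊥ := ⟨m, hm⟩
  obtain ⟨m0, h0, hmin⟩ : ∃ m0, IsLocalRing.maximalIdeal A ^ m0 = ⊥ ∧
      ∀ j, j < m0 → IsLocalRing.maximalIdeal A ^ j ≠ ⊥ :=
    ⟨Nat.find hex, Nat.find_spec hex, fun j hj => Nat.find_min hex hj⟩
  have h2 : 2 ≤ m0 := by
    by_contra hcon
    have h3 : m0 = 0 ∨ m0 = 1 := by omega
    rcases h3 with rfl | rfl
    · rw [pow_zero, Ideal.one_eq_top] at h0
      exact top_ne_bot h0
    · rw [pow_one] at h0
      exact hne h0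
  obtain ⟨ε, hε, hε0⟩ := Submodule.exists_mem_ne_zero_of_ne_bot (hmin (m0 - 1) (by omega))
  refine ⟨ε, hε0, Ideal.pow_le_self (by omega) hε, fun a ha => ?_⟩
  have h3 := Ideal.mul_mem_mul ha hε
  rw [← pow_succ', show m0 - 1 + 1 = m0 by omega, h0] at h3
  exact h3

/-- The case of a field. -/
theorem ua_field {k E : Type} [Field k] [CommRing E] (Γ : FormalGroup k) (π : E →+* k)
    (F : FormalGroup E) (hred : F.map π = Γ) (A : Type) [CommRing A]
    (πA : A →+* k) (hb : Function.Bijective πA) : UnivAt Γ π F A πA := by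
  intro G _ hG
  set e : A ≃+* k := RingEquiv.ofBijective πA hb with he
  have hcomp : πA.comp ((e.symm : k →+* A).comp π) = π := by
    ext x
    exact e.apply_symm_apply (π x)
  refine ⟨((e.symm : k →+* A).comp π, PowerSeries.X), ⟨hcomp, ?_, PowerSeries.map_X _⟩, ?_⟩
  · have h1 : F.map ((e.symm : k →+* A).comp π) = G := by
      have h2 : (F.map ((e.symm : k →+* A).comp π)).map πA = G.map πA := by
        rw [un_map_map, hcomp, hred, hG]
      apply FormalGroup.ext
      ext d
      apply hb.1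
      have h3 := congrArg (fun H : FormalGroup k => coeff d H.toPowerSeries) h2
      simpa [FormalGroup.map, MvPowerSeries.coeff_map] using h3
    simp only
    rw [h1]
    exact isHom_X G
  · rintro ⟨φ, t⟩ ⟨h1, -, h3⟩
    simp only at h1 h3
    refine Prod.ext ?_ ?_
    · refine RingHom.ext fun x => hb.1 ?_
      have e1 := congrArg (fun f : E →+* k => f x) h1
      have e2 := congrArg (fun f : E →+* k => f x) hcomp
      simp only [RingHom.comp_apply] at e1 e2 ⊢
      rw [e1, e2]
    · refine PowerSeries.ext fun j => hb.1 ?_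
      have e1 := congrArg (PowerSeries.coeff j) h3
      rw [PowerSeries.coeff_map] at e1
      simp only
      rw [e1, PowerSeries.coeff_X, PowerSeries.coeff_X]
      split_ifs
      · rw [map_one]
      · rw [map_zero]

theorem ua_ker_eq {A k : Type*} [CommRing A] [IsLocalRing A] [Field k] (πA : A →+* k)
    (hπA : Function.Surjective πA) : RingHom.ker πA = IsLocalRing.maximalIdeal A :=
  IsLocalRing.eq_maximalIdeal (RingHom.ker_isMaximal_of_surjective πA hπA)

/-- The quotient by an element of the maximal ideal. -/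
theorem ua_quot_local {A : Type*} [CommRing A] [IsLocalRing A] {ε : A}
    (hε : ε ∈ IsLocalRing.maximalIdeal A) : IsLocalRing (A ⧸ Ideal.span {ε}) := by
  have h1 : Nontrivial (A ⧸ Ideal.span {ε}) := by
    rw [Ideal.Quotient.nontrivial_iff]
    intro h
    have h2 : Ideal.span {ε} ≤ IsLocalRing.maximalIdeal A := by
      rw [Ideal.span_le, Set.singleton_subset_iff]
      exact hε
    rw [h, top_le_iff] at h2
    exact (IsLocalRing.maximalIdeal.isMaximal A).ne_top h2
  exact IsLocalRing.of_surjective' (Ideal.Quotient.mk (Ideal.span {ε}))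
    Ideal.Quotient.mk_surjective

theorem ua_quot_pow {A B : Type*} [CommRing A] [IsLocalRing A] [CommRing B] [IsLocalRing B]
    (f : A →+* B) (hf : Function.Surjective f) (m : ℕ)
    (hm : IsLocalRing.maximalIdeal A ^ m = ⊥) : IsLocalRing.maximalIdeal B ^ m = ⊥ := by
  have h1 : IsLocalRing.maximalIdeal B ≤ (IsLocalRing.maximalIdeal A).map f := by
    intro y hy
    obtain ⟨x, rfl⟩ := hf y
    apply Ideal.mem_map_of_mem
    rw [IsLocalRing.mem_maximalIdeal] at hy ⊢
    intro hx
    exact hy (hx.map f)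
  rw [eq_bot_iff]
  refine (Ideal.pow_right_mono h1 m).trans ?_
  rw [← Ideal.map_pow, hm, Ideal.map_bot]

end Vale.Agent.P217
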