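import Vale.Agent.Lib.P217.Universal
import Vale.Agent.Lib.P217.HeightQuot
import Vale.Agent.Lib.P217.Iso
import Vale.Agent.Lib.P217.Honda

/-!
# P217 (existence of the universal deformation): transport along a strict isomorphism

`ue_transport`: if `w : F' → F` is an isomorphism over `E` and `F` is a universal deformation of `H`, then `F'` is a universal deformation of its reduction.
`ue_standard`: if moreover `w ≡ X` modulo degree `2` and `F` is in standard coordinates then so is `F'`.
-/

set_option linter.unusedSectionVars false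

namespace Vale.Agent.P217

open MvPowerSeries

/-- leading coefficient of `r(w)` for `w = X + …` -/
theorem ue_coeff_subst_right {R : Type*} [CommRing R] {r w : PowerSeries R}
    (hw : PowerSeries.constantCoeff w = 0) (hw1 : PowerSeries.coeff 1 w = 1) {m : ℕ}
    (hr : PowerSeries.X ^ m ∣ r) :
    PowerSeries.coeff m (PowerSeries.subst w r : PowerSeries R) = PowerSeries.coeff m r := by
  have hw' : PowerSeries.HasSubst w := PowerSeries.HasSubst.of_constantCoeff_zero' hw
  obtain ⟨g, rfl⟩ := hr
  obtain ⟨w', hww⟩ := PowerSeries.X_dvd_iff.2 hw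
  have hw'0 : PowerSeries.constantCoeff w' = 1 := by
    have h1 := hw1
    rw [hww] at h1
    have h2 := PowerSeries.coeff_succ_X_mul 0 w'
    rw [zero_add] at h2
    rw [h2, PowerSeries.coeff_zero_eq_constantCoeff_apply] at h1
    exact h1
  have hg0 : PowerSeries.constantCoeff (PowerSeries.subst w g : PowerSeries R) =
      PowerSeries.constantCoeff g := by
    obtain ⟨g', hg'⟩ : PowerSeries.X ∣ g - PowerSeries.C (PowerSeries.constantCoeff g) := by
      rw [PowerSeries.X_dvd_iff]; simp
    have h1 : g = PowerSeries.C (PowerSeries.constantCoeff g) + PowerSeries.X * g' := by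
      rw [← hg']; ring
    have h2 : (PowerSeries.subst w g : PowerSeries R) =
        PowerSeries.C (PowerSeries.constantCoeff g) + w * PowerSeries.subst w g' := by
      conv_lhs => rw [h1]
      rw [PowerSeries.subst_add hw', PowerSeries.subst_mul hw', PowerSeries.subst_X hw',
        PowerSeries.subst_C]
      rfl
    rw [h2, map_add, map_mul, hw, zero_mul, add_zero, PowerSeries.constantCoeff_C]
  rw [PowerSeries.subst_mul hw', PowerSeries.subst_pow hw', PowerSeries.subst_X hw']
  have h3 : w ^ m = PowerSeries.X ^ m * w' ^ m := by rw [hww, mul_pow]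
  rw [h3, mul_assoc, PowerSeries.coeff_X_pow_mul', PowerSeries.coeff_X_pow_mul', if_pos le_rfl,
    if_pos le_rfl, Nat.sub_self, PowerSeries.coeff_zero_eq_constantCoeff_apply,
    PowerSeries.coeff_zero_eq_constantCoeff_apply, map_mul, map_pow, hw'0, one_pow, one_mul, hg0]

/-- transport of a universal deformation along an isomorphism over `E` -/
theorem ue_transport {k E : Type} [Field k] [CommRing E] {H Γ : FormalGroup k} [H.IsComm]
    [Γ.IsComm] {π : E →+* k} {F F' : FormalGroup E} (hF' : F'.IsComm)
    (hF : IsUniversalDeformation H π F) (w : PowerSeries E) (hw : IsHom F' F w)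
    (hw1 : IsUnit (PowerSeries.coeff 1 w)) (hred : F'.map π = Γ) :
    IsUniversalDeformation Γ π F' := by
  obtain ⟨u, hu, hu1, huw, hwu⟩ := exists_inverse_hom hw hw1
  refine ⟨hF', hred, ?_⟩
  intro A _ _ _ _ πA hπA G hGc hGred
  have hv : IsHom H (G.map πA) (u.map π) := by
    have h1 := hu.map π
    rw [hF.reduction, hred] at h1
    rw [hGred]
    exact h1
  have hv1 : IsUnit (PowerSeries.coeff 1 (u.map π)) := by
    rw [PowerSeries.coeff_map]
    exact hu1.map π
  obtain ⟨ψ, t, h1, h2, h3⟩ := univ_exists hF A πA hπA G (u.map π) hv hv1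
  have huw' : ∀ {S : Type} [CommRing S] (φ : E →+* S),
      (PowerSeries.subst (w.map φ) (u.map φ) : PowerSeries S) = PowerSeries.X := by
    intro S _ φ
    have h4 := un_map_psubst φ (f := u) hw.1
    rw [huw, PowerSeries.map_X] at h4
    exact h4.symm
  have hwc : PowerSeries.constantCoeff (w.map ψ) = 0 := (hw.map ψ).1
  refine ⟨(ψ, t.subst (w.map ψ)), ⟨h1, (hw.map ψ).comp h2, ?_⟩, ?_⟩
  · have h4 := un_map_psubst πA (f := t) hwc
    rw [h3, un_pmap_map, h1, huw' π] at h4
    exact h4
  · rintro ⟨φ, s⟩ ⟨k1, k2, k3⟩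
    simp only at k1 k2 k3
    have huφ := hu.map φ
    have k4 : IsHom (F.map φ) G (s.subst (u.map φ)) := huφ.comp k2
    have k5 : PowerSeries.map πA (s.subst (u.map φ) : PowerSeries A) = u.map π := by
      have h4 := un_map_psubst πA (f := s) huφ.1
      rw [k3, un_pmap_map, k1] at h4
      rw [h4]
      exact PowerSeries.subst_X (PowerSeries.HasSubst.of_constantCoeff_zero' (hu.map π).1)
    obtain ⟨e1, e2⟩ := univ_unique hF A πA hπA G (u.map π) hv1 φ ψ _ _ k1 h1 k4 h2 k5 h3
    subst e1
    have k6 : PowerSeries.subst (w.map φ) (PowerSeries.subst (u.map φ) s : PowerSeries A) =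
        (s : PowerSeries A) := by
      rw [PowerSeries.subst_comp_subst_apply (hasSubst_of_isHom huφ)
        (hasSubst_of_isHom (hw.map φ)), huw' φ]
      exact PowerSeries.X_subst s
    have k7 : t.subst (w.map φ) = s := by rw [← e2]; exact k6
    rw [k7]

section
variable (p : ℕ) [Fact p.Prime] (n : ℕ)

theorem ue_standard {F F' : FormalGroup (LTRing p n)} [F.IsComm] [F'.IsComm]
    (hc : HasStandardCoordinates p n F) (w : PowerSeries (LTRing p n)) (hw : IsHom F' F w)
    (hw1 : PowerSeries.coeff 1 w = 1) : HasStandardCoordinates p n F' := by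
  intro i
  have hi := i.isLt
  obtain ⟨u, hu, -, huw, hwu⟩ := exists_inverse_hom hw (by rw [hw1]; exact isUnit_one)
  have hu1 : PowerSeries.coeff 1 u = 1 := by
    have h1 := coeff_subst_lead (t := u) (w := w) hu.1 (m := 1) le_rfl
      (by rw [pow_one]; exact PowerSeries.X_dvd_iff.2 hw.1)
    rw [hw1, mul_one] at h1
    rw [← h1]
    have h2 : (PowerSeries.subst w u : PowerSeries (LTRing p n)) = PowerSeries.X := huw
    rw [h2, PowerSeries.coeff_one_X]
  have e0 : mulSeries F' p = u.subst ((mulSeries F p).subst w) := by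
    rw [← hw.comp_mulSeries p]
    exact (un_cancel hw.1 huw (hasSubst_mulSeries _ _)).symm
  set h := (i : ℕ) + 1 with hh
  set I := heightIdeal p n h with hI
  set π : LTRing p n →+* LTRing p n ⧸ I := Ideal.Quotient.mk I with hπ
  have hr : PowerSeries.X ^ (p ^ h) ∣ (mulSeries F p).map π := by
    rw [PowerSeries.X_pow_dvd_iff]
    intro j hj
    rw [PowerSeries.coeff_map, hπ, Ideal.Quotient.eq_zero_iff_mem]
    exact coeff_mulSeries_mem p n F hc h (by omega) (by omega) j hj
  have hwπ : PowerSeries.constantCoeff (w.map π) = 0 := (hw.map π).1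
  have huπ : PowerSeries.constantCoeff (u.map π) = 0 := (hu.map π).1
  have hp : p.Prime := Fact.out
  have hm0 : PowerSeries.constantCoeff ((mulSeries F p).subst w) = 0 :=
    PowerSeries.constantCoeff_subst_eq_zero hw.1 _ (mulSeries_constantCoeff F p)
  have e1 : (mulSeries F' p).map π =
      (u.map π).subst (((mulSeries F p).map π).subst (w.map π)) := by
    rw [e0, un_map_psubst π hm0, un_map_psubst π hw.1]
  have e2 : π (PowerSeries.coeff (p ^ h) (mulSeries F' p)) =
      π (PowerSeries.coeff (p ^ h) (mulSeries F p)) := by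
    rw [← PowerSeries.coeff_map, ← PowerSeries.coeff_map, e1]
    have h1 := coeff_subst_lead (t := u.map π)
      (w := (((mulSeries F p).map π).subst (w.map π) : PowerSeries (LTRing p n ⧸ I))) huπ
      (Nat.one_le_pow h p hp.pos) (X_pow_dvd_subst hwπ hr)
    refine h1.trans ?_
    rw [PowerSeries.coeff_map, hu1, map_one, one_mul]
    exact ue_coeff_subst_right hwπ (by rw [PowerSeries.coeff_map, hw1, map_one]) hr
  have e3 : PowerSeries.coeff (p ^ h) (mulSeries F' p) -
      PowerSeries.coeff (p ^ h) (mulSeries F p) ∈ I := by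
    rw [← Ideal.Quotient.eq_zero_iff_mem, map_sub, sub_eq_zero]
    exact e2
  have e4 := Ideal.add_mem _ e3 (hc i)
  rw [sub_add_sub_cancel] at e4
  exact e4

/-- transport of a universal deformation in standard coordinates along a strict isomorphism -/
theorem ue_exists {H Γ : FormalGroup (GaloisField p n)} [H.IsComm] [Γ.IsComm]
    (v : PowerSeries (GaloisField p n)) (hv : IsHom Γ H v) (hv1 : PowerSeries.coeff 1 v = 1)
    {F : FormalGroup (LTRing p n)} (hF : IsUniversalDeformation H (residueMap p n) F)
    (hc : HasStandardCoordinates p n F) :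
    ∃ F' : FormalGroup (LTRing p n),
      IsUniversalDeformation Γ (residueMap p n) F' ∧ HasStandardCoordinates p n F' := by
  have hFc := hF.comm
  choose s hs using residueMap_surjective p n
  let w : PowerSeries (LTRing p n) := PowerSeries.mk fun j =>
    if j = 0 then 0 else if j = 1 then 1 else s (PowerSeries.coeff j v)
  have hwc : ∀ j, PowerSeries.coeff j w =
      if j = 0 then 0 else if j = 1 then 1 else s (PowerSeries.coeff j v) := fun j =>
    PowerSeries.coeff_mk j _
  have hw0 : PowerSeries.constantCoeff w = 0 := by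
    rw [← PowerSeries.coeff_zero_eq_constantCoeff_apply, hwc, if_pos rfl]
  have hw1 : PowerSeries.coeff 1 w = 1 := by
    rw [hwc, if_neg one_ne_zero, if_pos rfl]
  have hwv : w.map (residueMap p n) = v := by
    ext j
    rw [PowerSeries.coeff_map, hwc]
    by_cases h0 : j = 0
    · subst h0
      rw [if_pos rfl, map_zero, PowerSeries.coeff_zero_eq_constantCoeff_apply, hv.1]
    · by_cases h1 : j = 1
      · subst h1
        rw [if_neg one_ne_zero, if_pos rfl, map_one, hv1]
      · rw [if_neg h0, if_neg h1, hs]
  obtain ⟨F', hF'c, hF'⟩ := exists_conj F w hw0 (by rw [hw1]; exact isUnit_one)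
  have hred : F'.map (residueMap p n) = Γ := by
    have h1 := hF'.map (residueMap p n)
    rw [hwv, hF.reduction] at h1
    exact formalGroup_eq_of_hom (by rw [hv1]; exact isUnit_one) h1 hv
  exact ⟨F', ue_transport hF'c hF w hF' (by rw [hw1]; exact isUnit_one) hred,
    ue_standard p n hc w hF' hw1⟩

end

end Vale.Agent.P217
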