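import Vale.Agent.Lib.P217.SmallExt

/-!
# P217: universality passes from the quotients `A / 𝔪^m` to the complete ring `A`
-/

set_option linter.unusedSectionVars false

namespace Vale.Agent.P217

open MvPowerSeries

namespace UnivLim

theorem fg_map_map {A B D : Type*} [CommRing A] [CommRing B] [CommRing D] (F : FormalGroup A)
    (f : A →+* B) (g : B →+* D) : (F.map f).map g = F.map (g.comp f) := by
  apply FormalGroup.ext
  rw [FormalGroup.map_toPowerSeries, FormalGroup.map_toPowerSeries,
    FormalGroup.map_toPowerSeries]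
  ext m
  simp only [coeff_map, RingHom.comp_apply]

theorem ps_map_map {A B D : Type*} [CommRing A] [CommRing B] [CommRing D] (t : PowerSeries A)
    (f : A →+* B) (g : B →+* D) : (t.map f).map g = t.map (g.comp f) := by
  ext m
  simp only [PowerSeries.coeff_map, RingHom.comp_apply]

section complete
variable {A : Type} [CommRing A] (I : Ideal A) [IsAdicComplete I A]

/-- elements agreeing modulo all powers of `I` are equal -/
theorem eq_of_forall_mk {a b : A}
    (h : ∀ n, Ideal.Quotient.mk (I ^ (n + 1)) a = Ideal.Quotient.mk (I ^ (n + 1)) b) : a = b := by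
  have key : (fun _ : Unit => a) = fun _ => b := by
    apply IsHausdorff.funext' I
    intro n _
    have h1 := congrArg (Ideal.Quotient.factorPow I (Nat.le_succ n)) (h n)
    simpa using h1
  exact congrFun key ()

/-- compatible families of elements of the quotients, indexed by `ℕ`, have a limit -/
theorem exists_limit_family (x : ∀ n : ℕ, ℕ → A ⧸ I ^ (n + 1))
    (hx : ∀ (m n : ℕ) (hle : m ≤ n) (j : ℕ),
      Ideal.Quotient.factorPow I (Nat.succ_le_succ hle) (x n j) = x m j) :
    ∃ L : ℕ → A, ∀ n j, Ideal.Quotient.mk (I ^ (n + 1)) (L j) = x n j := by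
  let f : (n : ℕ) → MvPolynomial ℕ ℤ →+* A ⧸ I ^ n := fun n =>
    (Ideal.Quotient.factorPow I (Nat.le_succ n)).comp
      (MvPolynomial.eval₂Hom (Int.castRingHom (A ⧸ I ^ (n + 1))) (x n))
  have hf : ∀ {m n : ℕ} (hle : m ≤ n), (Ideal.Quotient.factorPow I hle).comp (f n) = f m := by
    intro m n hle
    apply MvPolynomial.ringHom_ext
    · intro r
      simp [f]
    · intro j
      simp only [f, RingHom.comp_apply, MvPolynomial.eval₂Hom_X']
      rw [← hx m n hle j]
      simp only [Ideal.Quotient.factorPow, Ideal.Quotient.factor_comp_apply]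
  refine ⟨fun j => IsAdicComplete.liftRingHom I f hf (MvPolynomial.X j), fun n j => ?_⟩
  rw [IsAdicComplete.mk_liftRingHom I f hf (n + 1)]
  simp only [f, RingHom.comp_apply, MvPolynomial.eval₂Hom_X']
  exact hx n (n + 1) (Nat.le_succ n) j

end complete

end UnivLim

open UnivLim

/-- Universality at the quotients `A / 𝔪^(m+1)` implies universality at `A`. -/
theorem univAt_of_quotients {k E : Type} [Field k] [CommRing E] (Γ : FormalGroup k) (π : E →+* k)
    (F : FormalGroup E) (A : Type) [CommRing A] [IsLocalRing A]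
    [IsAdicComplete (IsLocalRing.maximalIdeal A) A] (πA : A →+* k)
    (hπA : Function.Surjective πA)
    (h : ∀ (m : ℕ) (πm : A ⧸ IsLocalRing.maximalIdeal A ^ (m + 1) →+* k),
      πm.comp (Ideal.Quotient.mk (IsLocalRing.maximalIdeal A ^ (m + 1))) = πA →
      UnivAt Γ π F (A ⧸ IsLocalRing.maximalIdeal A ^ (m + 1)) πm) :
    UnivAt Γ π F A πA := by
  intro G hG hGΓ
  set I := IsLocalRing.maximalIdeal A with hI
  have hker : ∀ a ∈ I, πA a = 0 := by
    intro a ha
    have h1 := IsLocalRing.ker_eq_maximalIdeal πA hπA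
    rw [hI, ← h1] at ha
    exact ha
  have hkerm : ∀ m : ℕ, ∀ a ∈ I ^ (m + 1), πA a = 0 := fun m a ha =>
    hker a (Ideal.pow_le_self (Nat.succ_ne_zero m) ha)
  let πq : (m : ℕ) → A ⧸ I ^ (m + 1) →+* k := fun m =>
    Ideal.Quotient.lift (I ^ (m + 1)) πA (hkerm m)
  have hπq : ∀ m, (πq m).comp (Ideal.Quotient.mk (I ^ (m + 1))) = πA := fun m =>
    Ideal.Quotient.lift_comp_mk _ _ _
  let mk : (m : ℕ) → A →+* A ⧸ I ^ (m + 1) := fun m => Ideal.Quotient.mk (I ^ (m + 1))
  let ρ : {m n : ℕ} → m ≤ n → A ⧸ I ^ (n + 1) →+* A ⧸ I ^ (m + 1) := fun {m n} hle =>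
    Ideal.Quotient.factorPow I (Nat.succ_le_succ hle)
  have hρmk : ∀ {m n : ℕ} (hle : m ≤ n), (ρ hle).comp (mk n) = mk m := by
    intro m n hle
    ext a
    rfl
  have hπρ : ∀ {m n : ℕ} (hle : m ≤ n), (πq m).comp (ρ hle) = πq n := by
    intro m n hle
    apply Ideal.Quotient.ringHom_ext
    rw [RingHom.comp_assoc, hπq n]
    have := hρmk hle
    change (πq m).comp ((ρ hle).comp (mk n)) = πA
    rw [this]
    exact hπq m
  -- the solutions over the quotients
  have hGm : ∀ m, (G.map (mk m)).map (πq m) = Γ := by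
    intro m
    rw [fg_map_map]
    have := hπq m
    change G.map ((πq m).comp (Ideal.Quotient.mk (I ^ (m + 1)))) = Γ
    rw [this, hGΓ]
  have hsol := fun m => h m (πq m) (hπq m) (G.map (mk m)) inferInstance (hGm m)
  choose φt hφt huniq using hsol
  have hcompat : ∀ {m n : ℕ} (hle : m ≤ n),
      ((ρ hle).comp (φt n).1, (φt n).2.map (ρ hle)) = φt m := by
    intro m n hle
    refine huniq m _ ⟨?_, ?_, ?_⟩
    · change (πq m).comp ((ρ hle).comp (φt n).1) = π
      rw [← RingHom.comp_assoc, hπρ hle]
      exact (hφt n).1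
    · have h1 := (hφt n).2.1.map (ρ hle)
      rw [fg_map_map, fg_map_map, hρmk hle] at h1
      exact h1
    · change ((φt n).2.map (ρ hle)).map (πq m) = PowerSeries.X
      rw [ps_map_map, hπρ hle]
      exact (hφt n).2.2
  have hc1 : ∀ {m n : ℕ} (hle : m ≤ n), (ρ hle).comp (φt n).1 = (φt m).1 := fun hle =>
    congrArg Prod.fst (hcompat hle)
  have hc2 : ∀ {m n : ℕ} (hle : m ≤ n), (φt n).2.map (ρ hle) = (φt m).2 := fun hle =>
    congrArg Prod.snd (hcompat hle)
  -- the limit of the ring homomorphisms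
  let f : (n : ℕ) → E →+* A ⧸ I ^ n := fun n =>
    (Ideal.Quotient.factorPow I (Nat.le_succ n)).comp (φt n).1
  have hf : ∀ {m n : ℕ} (hle : m ≤ n), (Ideal.Quotient.factorPow I hle).comp (f n) = f m := by
    intro m n hle
    ext e
    have h1 := congrArg (fun g : E →+* A ⧸ I ^ (m + 1) => g e) (hc1 hle)
    simp only [f, RingHom.comp_apply] at h1 ⊢
    rw [← h1]
    simp only [ρ, Ideal.Quotient.factorPow, Ideal.Quotient.factor_comp_apply]
  let φ : E →+* A := IsAdicComplete.liftRingHom I f hf
  have hφ : ∀ n, (mk n).comp φ = (φt n).1 := by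
    intro n
    have h1 := IsAdicComplete.mk_comp_liftRingHom I f hf (n + 1)
    change (Ideal.Quotient.mk (I ^ (n + 1))).comp (IsAdicComplete.liftRingHom I f hf) = _
    rw [h1]
    exact hc1 (Nat.le_succ n)
  -- the limit of the series
  obtain ⟨L, hL⟩ := exists_limit_family I (fun n j => PowerSeries.coeff j (φt n).2) (by
    intro m n hle j
    have h1 := congrArg (PowerSeries.coeff j) (hc2 hle)
    rw [PowerSeries.coeff_map] at h1
    exact h1)
  let t : PowerSeries A := PowerSeries.mk L
  have ht : ∀ n, t.map (mk n) = (φt n).2 := by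
    intro n
    ext j
    rw [PowerSeries.coeff_map, PowerSeries.coeff_mk]
    exact hL n j
  have hFm : ∀ n, (F.map φ).map (mk n) = F.map (φt n).1 := by
    intro n
    rw [fg_map_map, hφ n]
  have ht0 : PowerSeries.constantCoeff t = 0 := by
    apply eq_of_forall_mk I
    intro n
    have h1 := (hφt n).2.1.1
    rw [← ht n] at h1
    rw [map_zero]
    rw [← PowerSeries.coeff_zero_eq_constantCoeff_apply, PowerSeries.coeff_map,
      PowerSeries.coeff_zero_eq_constantCoeff_apply] at h1
    exact h1
  have htH : IsHom (F.map φ) G t := by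
    refine ⟨ht0, ?_⟩
    ext d
    apply eq_of_forall_mk I
    intro n
    have h1 := (hφt n).2.1.2
    rw [← ht n, ← hFm n] at h1
    have h2 : MvPowerSeries.map (mk n) (PowerSeries.subst (F.map φ).toPowerSeries t) =
        MvPowerSeries.map (mk n) (subst ![PowerSeries.subst (X 0 : MvPowerSeries (Fin 2) A) t,
          PowerSeries.subst (X 1 : MvPowerSeries (Fin 2) A) t] G.toPowerSeries) := by
      rw [PowerSeries.map_subst (hasSubst_F (F.map φ)), map_subst_pair (mk n)
        (hasSubst_psubst (hasSubst_X 0) ht0) (hasSubst_psubst (hasSubst_X 1) ht0),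
        PowerSeries.map_subst (hasSubst_X 0), PowerSeries.map_subst (hasSubst_X 1), map_X,
        map_X]
      exact h1
    have h3 := congrArg (coeff d) h2
    rw [coeff_map, coeff_map] at h3
    exact h3
  refine ⟨(φ, t), ⟨?_, htH, ?_⟩, ?_⟩
  · change πA.comp φ = π
    have h1 := (hφt 0).1
    rw [← hφ 0, ← RingHom.comp_assoc] at h1
    have h2 := hπq 0
    change ((πq 0).comp (Ideal.Quotient.mk (I ^ (0 + 1)))).comp φ = π at h1
    rw [h2] at h1
    exact h1
  · change t.map πA = PowerSeries.X
    have h1 := (hφt 0).2.2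
    rw [← ht 0, ps_map_map] at h1
    have h2 := hπq 0
    change t.map ((πq 0).comp (Ideal.Quotient.mk (I ^ (0 + 1)))) = PowerSeries.X at h1
    rw [h2] at h1
    exact h1
  · rintro ⟨ψ, s⟩ ⟨hψ1, hψ2, hψ3⟩
    have key : ∀ n, ((mk n).comp ψ, s.map (mk n)) = φt n := by
      intro n
      refine huniq n _ ⟨?_, ?_, ?_⟩
      · change (πq n).comp ((mk n).comp ψ) = π
        rw [← RingHom.comp_assoc]
        have h2 := hπq n
        change ((πq n).comp (Ideal.Quotient.mk (I ^ (n + 1)))).comp ψ = π
        rw [h2]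
        exact hψ1
      · have h1 := hψ2.map (mk n)
        rw [fg_map_map] at h1
        exact h1
      · change (s.map (mk n)).map (πq n) = PowerSeries.X
        rw [ps_map_map]
        have h2 := hπq n
        change s.map ((πq n).comp (Ideal.Quotient.mk (I ^ (n + 1)))) = PowerSeries.X
        rw [h2]
        exact hψ3
    refine Prod.ext ?_ ?_
    · change ψ = φ
      ext e
      apply eq_of_forall_mk I
      intro n
      have h1 : (mk n).comp ψ = (φt n).1 := congrArg Prod.fst (key n)
      rw [← hφ n] at h1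
      exact congrArg (fun g : E →+* A ⧸ I ^ (n + 1) => g e) h1
    · change s = t
      ext j
      apply eq_of_forall_mk I
      intro n
      have h1 : s.map (mk n) = (φt n).2 := congrArg Prod.snd (key n)
      rw [← ht n] at h1
      have h2 := congrArg (PowerSeries.coeff j) h1
      rw [PowerSeries.coeff_map, PowerSeries.coeff_map] at h2
      exact h2

/-- The quotients of a local ring by powers of the maximal ideal. -/
theorem quotient_pow_local (A : Type) [CommRing A] [IsLocalRing A] (m : ℕ) :
    ∃ _ : IsLocalRing (A ⧸ IsLocalRing.maximalIdeal A ^ (m + 1)),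
      IsLocalRing.maximalIdeal (A ⧸ IsLocalRing.maximalIdeal A ^ (m + 1)) ^ (m + 1) = ⊥ := by
  set I := IsLocalRing.maximalIdeal A ^ (m + 1) with hI
  have hle : I ≤ IsLocalRing.maximalIdeal A := Ideal.pow_le_self (Nat.succ_ne_zero m)
  have hne : I ≠ ⊤ := by
    intro h
    rw [h] at hle
    exact (IsLocalRing.maximalIdeal.isMaximal A).ne_top (top_le_iff.1 hle)
  have h1 : Nontrivial (A ⧸ I) := Ideal.Quotient.nontrivial_iff.mpr hne
  have h2 : IsLocalRing (A ⧸ I) :=
    IsLocalRing.of_surjective' (Ideal.Quotient.mk I) Ideal.Quotient.mk_surjective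
  have h3 : IsLocalHom (Ideal.Quotient.mk I) :=
    IsLocalHom.of_surjective (Ideal.Quotient.mk I) Ideal.Quotient.mk_surjective
  refine ⟨h2, ?_⟩
  have h4 : (IsLocalRing.maximalIdeal A).map (Ideal.Quotient.mk I) =
      IsLocalRing.maximalIdeal (A ⧸ I) := by
    ext x
    obtain ⟨x, rfl⟩ := Ideal.Quotient.mk_surjective x
    simp [sup_eq_left.mpr hle]
  rw [← h4, ← Ideal.map_pow, ← hI, Ideal.map_quotient_self]

end Vale.Agent.P217
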