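import Vale.Agent.Lib.P217.SmallExt
import Vale.Agent.Lib.P217.ChaiP

/-!
# P217: universality along a small extension (module U5, proof of `univAt_small`)
-/

set_option linter.unusedSectionVars false

namespace Vale.Agent.P217

open MvPowerSeries

/-- a triangular system has a solution -/
theorem us_triangular {κ : Type*} [CommRing κ] {m : ℕ} (β : Fin m → Fin m → κ) (e : Fin m → κ) :
    ∃ γ : Fin m → κ, ∀ i, γ i + ∑ j ∈ Finset.univ.filter (fun j => j < i), β i j * γ j = e i := by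
  have key : ∀ N : ℕ, ∃ γ : Fin m → κ, ∀ i : Fin m, (i : ℕ) < N →
      γ i + ∑ j ∈ Finset.univ.filter (fun j => j < i), β i j * γ j = e i := by
    intro N
    induction N with
    | zero => exact ⟨0, fun i hi => absurd hi (Nat.not_lt_zero _)⟩
    | succ N ih =>
      obtain ⟨γ, hγ⟩ := ih
      by_cases hN : N < m
      · refine ⟨Function.update γ ⟨N, hN⟩ (e ⟨N, hN⟩ -
          ∑ j ∈ Finset.univ.filter (fun j => j < (⟨N, hN⟩ : Fin m)), β ⟨N, hN⟩ j * γ j), ?_⟩
        intro i hi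
        have hsum : ∀ i : Fin m, (i : ℕ) ≤ N →
            ∑ j ∈ Finset.univ.filter (fun j => j < i), β i j *
              Function.update γ ⟨N, hN⟩ (e ⟨N, hN⟩ -
                ∑ j ∈ Finset.univ.filter (fun j => j < (⟨N, hN⟩ : Fin m)),
                  β ⟨N, hN⟩ j * γ j) j =
            ∑ j ∈ Finset.univ.filter (fun j => j < i), β i j * γ j := by
          intro i hi
          refine Finset.sum_congr rfl fun j hj => ?_
          rw [Finset.mem_filter] at hj
          rw [Function.update_of_ne]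
          intro h
          have h1 : (j : ℕ) < i := hj.2
          rw [h] at h1
          simp only at h1
          omega
        rw [hsum i (by omega)]
        by_cases hiN : (i : ℕ) = N
        · have : i = ⟨N, hN⟩ := Fin.ext hiN
          subst this
          rw [Function.update_self]
          ring
        · rw [Function.update_of_ne (fun h => hiN (by rw [h]))]
          exact hγ i (by omega)
      · exact ⟨γ, fun i hi => hγ i (by have := i.2; omega)⟩
  obtain ⟨γ, hγ⟩ := key m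
  exact ⟨γ, fun i => hγ i i.2⟩

/-- lifting a series without constant term -/
theorem us_lift {R S : Type*} [CommRing R] [CommRing S] (ψ : R →+* S)
    (hψ : Function.Surjective ψ) (g : PowerSeries S) (hg : PowerSeries.constantCoeff g = 0) :
    ∃ f : PowerSeries R, PowerSeries.constantCoeff f = 0 ∧ f.map ψ = g := by
  obtain ⟨u, hu⟩ := PowerSeries.map_surjective ψ hψ g
  refine ⟨u - PowerSeries.C (PowerSeries.constantCoeff u), by simp, ?_⟩
  rw [map_sub, hu, PowerSeries.map_C]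
  have h1 : ψ (PowerSeries.constantCoeff u) = 0 := by
    have h2 : PowerSeries.coeff 0 (u.map ψ) = 0 := by
      rw [hu, PowerSeries.coeff_zero_eq_constantCoeff_apply]
      exact hg
    rw [PowerSeries.coeff_map, PowerSeries.coeff_zero_eq_constantCoeff_apply] at h2
    exact h2
  rw [h1, map_zero, sub_zero]

section cob
variable {k : Type*} [Field k] (Γ : FormalGroup k)

theorem us_cob_neg (g : PowerSeries k) : cob Γ (-g) = - cob Γ g := by
  have h : ∀ (a : MvPowerSeries (Fin 2) k), PowerSeries.HasSubst a →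
      PowerSeries.subst a (-g) = - PowerSeries.subst a g := by
    intro a ha
    have h1 := map_neg (PowerSeries.substAlgHom ha) g
    rwa [PowerSeries.coe_substAlgHom] at h1
  unfold cob
  rw [h _ (hasSubst_X 0), h _ (hasSubst_X 1), h _ (hasSubst_F Γ)]
  ring

theorem us_cob_zero : cob Γ 0 = 0 := by
  have h := us_cob_neg Γ 0
  have h1 : ∀ (a : MvPowerSeries (Fin 2) k), PowerSeries.HasSubst a →
      PowerSeries.subst a (0 : PowerSeries k) = 0 := by
    intro a ha
    have h1 := map_zero (PowerSeries.substAlgHom (R := k) ha)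
    rwa [PowerSeries.coe_substAlgHom] at h1
  unfold cob
  rw [h1 _ (hasSubst_X 0), h1 _ (hasSubst_X 1), h1 _ (hasSubst_F Γ)]
  ring

/-- low coefficients of `g(X^q)` -/
theorem us_coeff_subst_X_pow (g : PowerSeries k) (h0 : PowerSeries.constantCoeff g = 0) {q m : ℕ}
    (hq : 0 < q) (hm : m < q) :
    PowerSeries.coeff m (g.subst (PowerSeries.X ^ q : PowerSeries k) : PowerSeries k) = 0 := by
  obtain ⟨h, hh⟩ := PowerSeries.X_dvd_iff.mpr h0
  have hs : PowerSeries.HasSubst (PowerSeries.X ^ q : PowerSeries k) :=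
    PowerSeries.HasSubst.of_constantCoeff_zero' (by simp [hq.ne'])
  have h1 : (g.subst (PowerSeries.X ^ q : PowerSeries k) : PowerSeries k) =
      PowerSeries.X ^ q * (h.subst (PowerSeries.X ^ q : PowerSeries k) : PowerSeries k) := by
    have h2 := map_mul (PowerSeries.substAlgHom hs) PowerSeries.X h
    rw [PowerSeries.coe_substAlgHom, PowerSeries.subst_X hs] at h2
    rw [hh]
    exact h2
  rw [h1, PowerSeries.coeff_X_pow_mul', if_neg (by omega)]

end cob

section
variable {p : ℕ} [Fact p.Prime] {n : ℕ} (hn : n ≠ 0) (Γ : FormalGroup (GaloisField p n)) [Γ.IsComm]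
  (hΓp : mulSeries Γ p = PowerSeries.X ^ (p ^ n))
  (hlow : ∀ d : Fin 2 →₀ ℕ, 2 ≤ d.degree → d.degree < p ^ n → coeff d Γ.toPowerSeries = 0)
  (F : FormalGroup (LTRing p n)) [F.IsComm] (hc : HasStandardCoordinates p n F)
  (hred : F.map (residueMap p n) = Γ)
  {A A' : Type} [CommRing A] [IsLocalRing A] [IsNoetherianRing A]
  [IsAdicComplete (IsLocalRing.maximalIdeal A) A] [CommRing A'] [IsLocalRing A']
  [IsNoetherianRing A'] [IsAdicComplete (IsLocalRing.maximalIdeal A') A']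
  (πA : A →+* GaloisField p n) (hπA : Function.Surjective πA)
  (πA' : A' →+* GaloisField p n) (ρ : A →+* A') (hρ : Function.Surjective ρ)
  (hρπ : πA'.comp ρ = πA) (ε : A) (hker : RingHom.ker ρ = Ideal.span {ε}) (hε0 : ε ≠ 0)
  (hε : ∀ a, πA a = 0 → a * ε = 0)

include hρπ hker in
theorem us_pi_eps : πA ε = 0 := by
  have h1 : ε ∈ RingHom.ker ρ := by
    rw [hker]
    exact Ideal.mem_span_singleton_self ε
  rw [RingHom.mem_ker] at h1
  rw [← hρπ, RingHom.comp_apply, h1, map_zero]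

include hπA hε0 hε in
theorem us_mul_eps (a : A) : a * ε = 0 ↔ πA a = 0 := by
  refine ⟨fun h => ?_, hε a⟩
  by_contra hne
  have : IsLocalHom πA := hπA.isLocalHom
  have hu : IsUnit a := isUnit_of_map_unit πA a (isUnit_iff_ne_zero.mpr hne)
  exact hε0 (hu.mul_right_eq_zero.mp h)

include hker in
theorem us_mem_ker {a : A} (h : ρ a = 0) : ∃ b, a = b * ε := by
  have h1 : a ∈ RingHom.ker ρ := h
  rw [hker, Ideal.mem_span_singleton'] at h1
  obtain ⟨b, hb⟩ := h1
  exact ⟨b, hb.symm⟩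

include hker in
theorem us_series_diff {F₁ F₂ : FormalGroup A} (h : F₁.map ρ = F₂.map ρ) (d : Fin 2 →₀ ℕ) :
    ∃ a, coeff d (F₂.toPowerSeries - F₁.toPowerSeries) = a * ε := by
  apply us_mem_ker ρ ε hker
  have h1 := congrArg (fun G : FormalGroup A' => coeff d G.toPowerSeries) h
  simp only [FormalGroup.map_toPowerSeries, coeff_map] at h1
  rw [map_sub, map_sub, h1, sub_self]

include hn hΓp hlow hc hred hπA hρ hρπ hker hε0 hε in
theorem us_exists (hA' : UnivAt Γ (residueMap p n) F A' πA') (G : FormalGroup A) [G.IsComm]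
    (hG : G.map πA = Γ) :
    ∃ φt : (LTRing p n →+* A) × PowerSeries A, πA.comp φt.1 = residueMap p n ∧
      IsHom (F.map φt.1) G φt.2 ∧ φt.2.map πA = PowerSeries.X := by
  have hπA' : Function.Surjective πA' := by
    intro y
    obtain ⟨a, ha⟩ := hπA y
    exact ⟨ρ a, by rw [← RingHom.comp_apply, hρπ, ha]⟩
  have hεπ := us_pi_eps πA πA' ρ hρπ ε hker
  have hεiff := us_mul_eps πA hπA ε hε0 hε
  have hn' : 0 < n := Nat.pos_of_ne_zero hn
  obtain ⟨⟨φ', t'⟩, ⟨hφ', ht', ht'X⟩, -⟩ := hA' (G.map ρ) inferInstance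
    (by rw [un_map_map, hρπ, hG])
  simp only at hφ' ht' ht'X
  -- lift `φ'`
  choose x hx using fun i : Fin (n - 1) => hρ (φ' (X i))
  have hresX : ∀ i : Fin (n - 1), residueMap p n (X i) = 0 := by
    intro i
    unfold residueMap
    rw [RingHom.comp_apply, constantCoeff_X, map_zero]
  have hφ'X : ∀ i : Fin (n - 1), πA' (φ' (X i)) = 0 := by
    intro i
    rw [← RingHom.comp_apply, hφ', hresX]
  have hxπ : ∀ (c : Fin (n - 1) → A) (i : Fin (n - 1)), πA (x i + c i * ε) = 0 := by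
    intro c i
    rw [map_add, map_mul, hεπ, mul_zero, add_zero, ← hρπ, RingHom.comp_apply, hx, hφ'X]
  have hφc : ∀ c : Fin (n - 1) → A, ∃ φ : LTRing p n →+* A, πA.comp φ = residueMap p n ∧
      (∀ i, φ (X i) = x i + c i * ε) ∧ ρ.comp φ = φ' := by
    intro c
    obtain ⟨φ, h1, h2⟩ := exists_lt_hom p πA hπA (fun i => x i + c i * ε) (hxπ c)
    refine ⟨φ, h1, h2, ?_⟩
    refine lt_hom_ext p πA' hπA' _ _ ?_ hφ' ?_
    · rw [← RingHom.comp_assoc, hρπ]
      exact h1
    · intro i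
      have h3 : ρ ε = 0 := by
        have h1 : ε ∈ RingHom.ker ρ := by
          rw [hker]
          exact Ideal.mem_span_singleton_self ε
        exact h1
      rw [RingHom.comp_apply, h2, map_add, map_mul, h3, mul_zero, add_zero, hx]
  -- lift `t'`
  obtain ⟨t, ht0, htρ⟩ := us_lift ρ hρ t' ht'.1
  have htπ : t.map πA = PowerSeries.X := by
    rw [← hρπ, ← un_pmap_map, htρ, ht'X]
  have ht1 : IsUnit (PowerSeries.coeff 1 t) :=
    un_isUnit_coeff_one A πA hπA t (by rw [htπ]; simp)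
  obtain ⟨F₂, hF₂c, hF₂⟩ := exists_conj G t ht0 ht1
  have ht'1 : IsUnit (PowerSeries.coeff 1 t') := by
    rw [← htρ, PowerSeries.coeff_map]
    exact ht1.map ρ
  have hF₂ρ : F₂.map ρ = F.map φ' := by
    have h1 := hF₂.map ρ
    rw [htρ] at h1
    exact formalGroup_eq_of_hom ht'1 h1 ht'
  have hF₂π : F₂.map πA = Γ := by
    rw [← hρπ, ← un_map_map, hF₂ρ, un_map_map, hφ', hred]
  -- the first homomorphism
  obtain ⟨φ₁, hφ₁, hφ₁X, hφ₁ρ⟩ := hφc 0
  have hF₁π : ∀ φ : LTRing p n →+* A, πA.comp φ = residueMap p n → (F.map φ).map πA = Γ := by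
    intro φ h
    rw [un_map_map, h, hred]
  have hF₁ρ : ∀ φ : LTRing p n →+* A, ρ.comp φ = φ' → (F.map φ).map ρ = F₂.map ρ := by
    intro φ h
    rw [un_map_map, h, hF₂ρ]
  obtain ⟨D₁, -, hD₁, -⟩ := small_diff πA hπA ε hεiff hεπ p hn' Γ hΓp (F.map φ₁) F₂
    (hF₁π φ₁ hφ₁) hF₂π (us_series_diff ρ ε hker (hF₁ρ φ₁ hφ₁ρ))
  obtain ⟨β, hβ⟩ := coeff_variation p n hn F hc
  obtain ⟨γ, hγ⟩ := us_triangular β
    (fun i : Fin (n - 1) => PowerSeries.coeff (p ^ ((i : ℕ) + 1)) (Nser Γ p D₁))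
  choose c hcγ using fun i => hπA (γ i)
  obtain ⟨φ, hφ, hφX, hφρ⟩ := hφc c
  -- the coefficients
  have hpow : ∀ i : Fin (n - 1), p ^ ((i : ℕ) + 1) < p ^ n := by
    intro i
    have := i.2
    exact Nat.pow_lt_pow_right (Fact.out : p.Prime).one_lt (by omega)
  have hcoef : ∀ i : Fin (n - 1), PowerSeries.coeff (p ^ ((i : ℕ) + 1))
      (mulSeries F₂ p - mulSeries (F.map φ) p) = 0 := by
    intro i
    obtain ⟨a, ha, hae⟩ := hD₁ _ (hpow i)
    obtain ⟨a', ha', hae'⟩ := hβ A πA hπA ε hεiff hεπ φ₁ φ hφ₁ hφ c (fun i => by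
      rw [hφX, hφ₁X]
      simp) i
    have h1 : PowerSeries.coeff (p ^ ((i : ℕ) + 1)) (mulSeries F₂ p - mulSeries (F.map φ) p) =
        (a - a') * ε := by
      rw [sub_mul, ← hae, ← hae', ← map_sub]
      congr 1
      ring
    rw [h1, hεiff, map_sub, ha, ha']
    simp only [hcγ]
    rw [hγ i, sub_self]
  obtain ⟨D, hDc, hD, hDiff⟩ := small_diff πA hπA ε hεiff hεπ p hn' Γ hΓp (F.map φ) F₂
    (hF₁π φ hφ) hF₂π (us_series_diff ρ ε hker (hF₁ρ φ hφρ))
  obtain ⟨g₀, hg₀, hDg⟩ := cocycle_eq_cob p Γ hΓp hlow D hDc (fun i hi1 hin => by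
    have h1 := hcoef ⟨i - 1, by omega⟩
    have h2 : ((⟨i - 1, by omega⟩ : Fin (n - 1)) : ℕ) + 1 = i := by
      simp only
      omega
    rw [h2] at h1
    obtain ⟨a, ha, hae⟩ := hD (p ^ i) (Nat.pow_lt_pow_right (Fact.out : p.Prime).one_lt hin)
    rw [h1] at hae
    rw [← ha]
    exact (hεiff a).mp hae.symm)
  obtain ⟨g, hg0, hg⟩ := us_lift πA hπA (-g₀) (by rw [map_neg, hg₀, neg_zero])
  have hs : IsHom (F.map φ) F₂ (pert F₂ ε g hg0) := by
    rw [hDiff g hg0, hg, us_cob_neg, neg_neg]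
    exact hDg
  refine ⟨(φ, t.subst (pert F₂ ε g hg0)), hφ, hs.comp hF₂, ?_⟩
  have h7 := un_map_psubst πA (f := t) hs.1
  have h8 : (pert F₂ ε g hg0).map πA = PowerSeries.X := by
    have h9 : (pert F₂ ε g hg0 - PowerSeries.X).map πA = 0 := by
      ext m
      obtain ⟨a, ha⟩ := pert_sub_X πA ε hεiff hεπ F₂ g hg0 m
      rw [PowerSeries.coeff_map, ha, map_mul, hεπ, mul_zero, map_zero]
    rw [map_sub, PowerSeries.map_X, sub_eq_zero] at h9
    exact h9
  rw [h8, htπ, PowerSeries.X_subst] at h7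
  exact h7

include hn hΓp hlow hc hred hπA hρ hρπ hker hε0 hε in
theorem us_unique (hA' : UnivAt Γ (residueMap p n) F A' πA') (G : FormalGroup A) [G.IsComm]
    (hG : G.map πA = Γ) (φ₁ φ₂ : LTRing p n →+* A) (t₁ t₂ : PowerSeries A)
    (h₁ : πA.comp φ₁ = residueMap p n) (h₂ : πA.comp φ₂ = residueMap p n)
    (ht₁ : IsHom (F.map φ₁) G t₁) (ht₂ : IsHom (F.map φ₂) G t₂)
    (hX₁ : t₁.map πA = PowerSeries.X) (hX₂ : t₂.map πA = PowerSeries.X) :
    φ₁ = φ₂ ∧ t₁ = t₂ := by
  have hπA' : Function.Surjective πA' := by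
    intro y
    obtain ⟨a, ha⟩ := hπA y
    exact ⟨ρ a, by rw [← RingHom.comp_apply, hρπ, ha]⟩
  have hεπ := us_pi_eps πA πA' ρ hρπ ε hker
  have hεiff := us_mul_eps πA hπA ε hε0 hε
  have hn' : 0 < n := Nat.pos_of_ne_zero hn
  have hq : 0 < p ^ n := pow_pos (Fact.out : p.Prime).pos _
  -- modulo `ε`
  have hmod : ((ρ.comp φ₁, t₁.map ρ) : (LTRing p n →+* A') × PowerSeries A') =
      (ρ.comp φ₂, t₂.map ρ) := by
    refine (hA' (G.map ρ) inferInstance (by rw [un_map_map, hρπ, hG])).unique ?_ ?_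
    · refine ⟨?_, ?_, ?_⟩
      · simp only
        rw [← RingHom.comp_assoc, hρπ, h₁]
      · have h3 := ht₁.map ρ
        rwa [un_map_map] at h3
      · simp only
        rw [un_pmap_map, hρπ, hX₁]
    · refine ⟨?_, ?_, ?_⟩
      · simp only
        rw [← RingHom.comp_assoc, hρπ, h₂]
      · have h3 := ht₂.map ρ
        rwa [un_map_map] at h3
      · simp only
        rw [un_pmap_map, hρπ, hX₂]
  obtain ⟨hm1, hm2⟩ := Prod.mk.inj hmod
  have hu2 : IsUnit (PowerSeries.coeff 1 t₂) :=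
    un_isUnit_coeff_one A πA hπA t₂ (by rw [hX₂]; simp)
  obtain ⟨r, hr, hr1, hrt, htr⟩ := exists_inverse_hom ht₂ hu2
  -- the composition
  have hs : IsHom (F.map φ₁) (F.map φ₂) (r.subst t₁) := ht₁.comp hr
  have hsρ : PowerSeries.map ρ (r.subst t₁ : PowerSeries A) = PowerSeries.X := by
    have e1 := un_map_psubst ρ (f := r) ht₁.1
    have e2 := un_map_psubst ρ (f := r) ht₂.1
    rw [hm2, ← e2, hrt, PowerSeries.map_X] at e1
    exact e1
  have hF12 : (F.map φ₁).map ρ = (F.map φ₂).map ρ := by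
    rw [un_map_map, un_map_map, hm1]
  obtain ⟨g, hg0, hsg⟩ := exists_pert πA ε hεiff hεπ (F.map φ₂) (r.subst t₁) hs.1 (fun m => by
    apply us_mem_ker ρ ε hker
    rw [← PowerSeries.coeff_map, map_sub, hsρ, PowerSeries.map_X, sub_self, map_zero])
  have hpert := hs
  rw [hsg] at hpert
  obtain ⟨D, hDc, hD, hDiff⟩ := small_diff πA hπA ε hεiff hεπ p hn' Γ hΓp (F.map φ₁) (F.map φ₂)
    (by rw [un_map_map, h₁, hred]) (by rw [un_map_map, h₂, hred])
    (us_series_diff ρ ε hker hF12)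
  have hDg := (hDiff g hg0).mp hpert
  -- the low coefficients of `Nser`
  have hgm0 : PowerSeries.constantCoeff (g.map πA) = 0 := by
    rw [← PowerSeries.coeff_zero_eq_constantCoeff_apply, PowerSeries.coeff_map,
      PowerSeries.coeff_zero_eq_constantCoeff_apply, hg0, map_zero]
  have hN : ∀ m < p ^ n, PowerSeries.coeff m (Nser Γ p D) = 0 := by
    intro m hm
    rw [hDg, ← us_cob_neg, Nser_cob p Γ hΓp _ (by rw [map_neg, hgm0, neg_zero]), map_neg,
      us_coeff_subst_X_pow _ (by rw [map_neg, hgm0, neg_zero]) hq hm, neg_zero]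
  -- the variables
  have hcdef : ∀ i : Fin (n - 1), ∃ b, φ₂ (X i) - φ₁ (X i) = b * ε := by
    intro i
    apply us_mem_ker ρ ε hker
    rw [map_sub, ← RingHom.comp_apply, ← RingHom.comp_apply, hm1, sub_self]
  choose c hcX using hcdef
  obtain ⟨β, hβ⟩ := coeff_variation p n hn F hc
  have hpow : ∀ i : Fin (n - 1), p ^ ((i : ℕ) + 1) < p ^ n := by
    intro i
    have := i.2
    exact Nat.pow_lt_pow_right (Fact.out : p.Prime).one_lt (by omega)
  have hc0 : ∀ N : ℕ, ∀ i : Fin (n - 1), (i : ℕ) < N → πA (c i) = 0 := by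
    intro N
    induction N with
    | zero => exact fun i hi => absurd hi (Nat.not_lt_zero _)
    | succ N ih =>
      intro i hi
      obtain ⟨a, ha, hae⟩ := hβ A πA hπA ε hεiff hεπ φ₁ φ₂ h₁ h₂ c (fun i => by
        rw [← hcX i]; ring) i
      obtain ⟨a', ha', hae'⟩ := hD _ (hpow i)
      rw [hN _ (hpow i)] at ha'
      rw [(hεiff a').mpr ha'] at hae'
      rw [hae'] at hae
      have h3 := (hεiff a).mp hae.symm
      rw [ha, Finset.sum_eq_zero, add_zero] at h3
      · exact h3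
      · intro j hj
        rw [Finset.mem_filter] at hj
        have h4 : (j : ℕ) < i := hj.2
        rw [ih j (by omega), mul_zero]
  have hφ : φ₁ = φ₂ := by
    refine lt_hom_ext p πA hπA φ₁ φ₂ h₁ h₂ fun i => ?_
    have h3 := hcX i
    rw [(hεiff (c i)).mpr (hc0 _ i i.2)] at h3
    exact (sub_eq_zero.mp h3).symm
  refine ⟨hφ, ?_⟩
  have hD0 : D = 0 := by
    have h3 := hDiff 0 (map_zero _)
    have h4 : pert (F.map φ₂) ε 0 (map_zero _) = PowerSeries.X := by
      rw [pert_eq_X_iff πA ε hεiff hεπ, map_zero]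
    rw [h4, hφ] at h3
    have h5 := h3.mp (isHom_X _)
    rw [map_zero, us_cob_zero, neg_zero] at h5
    exact h5
  rw [hD0] at hDg
  have hcob : cob Γ (g.map πA) = 0 := by
    have := neg_eq_zero.mp hDg.symm
    exact this
  have hg : g.map πA = 0 := cob_eq_zero p Γ hΓp _ hgm0 hcob
  have hsX : (r.subst t₁ : PowerSeries A) = PowerSeries.X := by
    rw [hsg]
    exact (pert_eq_X_iff πA ε hεiff hεπ _ g hg0).mpr hg
  have h5 : PowerSeries.subst (PowerSeries.subst t₁ r) t₂ = t₁ :=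
    un_cancel hr.1 htr (hasSubst_of_isHom ht₁)
  have h6 : PowerSeries.subst t₁ r = (PowerSeries.X : PowerSeries A) := hsX
  rw [h6] at h5
  rw [← h5]
  exact PowerSeries.X_subst t₂

include hn hΓp hlow hc hred hπA hρ hρπ hker hε0 hε in
theorem us_main (hA' : UnivAt Γ (residueMap p n) F A' πA') :
    UnivAt Γ (residueMap p n) F A πA := by
  intro G hGc hG
  obtain ⟨φt, h1, h2, h3⟩ := us_exists hn Γ hΓp hlow F hc hred πA hπA πA' ρ hρ hρπ ε hker hε0 hε
    hA' G hG
  refine ⟨φt, ⟨h1, h2, h3⟩, ?_⟩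
  rintro ⟨φ, t⟩ ⟨h1', h2', h3'⟩
  obtain ⟨e1, e2⟩ := us_unique hn Γ hΓp hlow F hc hred πA hπA πA' ρ hρ hρπ ε hker hε0 hε
    hA' G hG φ φt.1 t φt.2 h1' h1 h2' h2 h3' h3
  exact Prod.ext e1 e2

end

end Vale.Agent.P217
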