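import Vale.Agent.Lib.P217.SmallExt
import Vale.Agent.Lib.P217.UnivLim
import Vale.Agent.Lib.P217.UnivSmall
import Vale.Agent.Lib.P217.Haze
import Vale.Agent.Lib.P217.ChaiP
import Vale.Agent.Lib.P217.UnivArtin
import Vale.Agent.Lib.P217.UnivExAux

/-!
# P217: existence of the universal deformation (Lubin-Tate theorem), modules U5, U6, U7

`E = LTRing p n`, `k = GaloisField p n`, `F` over `E` in standard coordinates, reducing to `Γ` with `[p]_Γ = X^q`, `Γ ≡ X + Y` modulo degree `q`.

* `univAt_small`: `ρ : A → A'` surjective with kernel `(ε)`, `𝔪 ε = 0`, `ε ≠ 0`; universality at `A'` implies universality at `A`.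
  Existence: `G` over `A`, `(φ', t')` for `G.map ρ`. Lift `φ'(u_i)` to `x_i ∈ A`; let `F₁(c) = φ_* F`, `φ(u_i) = x_i + c_i ε` (`exists_lt_hom`; `ρ ∘ φ = φ'` by `lt_hom_ext`). Lift `t'` to
  `t` over `A`, `t(0) = 0`, `t ≡ X` modulo `𝔪`; `F₂` the formal group law with `t : F₂ → G` a homomorphism (`exists_conj`). `F₂ ≡ F₁(c)` modulo `ε` (`formalGroup_eq_of_hom` over
  `A'`).  By `coeff_variation` (triangular system, solve for `π_A(c_i)` recursively in `i`) choose `c` such that the coefficients of `X^{p^i}`, `1 ≤ i < n`, of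
  `[p]_{F₂}` and `[p]_{F₁(c)}` are equal (their difference is in `(ε)` and depends on `c` as in `coeff_variation`). `small_diff` for `F₁ = F₁(c)`: the cocycle `D` has `Nser` with zero coefficients at `X^{p^i}`, `1 ≤ i < n`; by
  `cocycle_eq_cob`, `D = cob Γ g₀ = - cob Γ (-g₀)`; lift `-g₀` to `g` over `A`: `pert F₂ ε g : F₁(c) → F₂` is a homomorphism, compose with `t`.
  Uniqueness: two solutions `(φ₁, t₁)`, `(φ₂, t₂)` agree after `ρ`. `s = t₂^{-1} ∘ t₁ : φ₁_* F → φ₂_* F` (`exists_inverse_hom`) is `≡ X` modulo `ε`, so `s = pert ε g` (`exists_pert`), so by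
  `small_diff` the cocycle is `D = - cob Γ (g mod 𝔪)`, and by `Nser_cob` its `Nser` is `g(X^q)`, with zero coefficients at `X^{p^i}`, `i < n`; so by `coeff_variation` (with
  `φ₂(u_i) = φ₁(u_i) + c_i ε`) `π_A(c_i) = 0` for all `i` by induction on `i`, `φ₁ = φ₂` (`lt_hom_ext`), `D = 0`, so `cob Γ g = 0`, `g ≡ 0` modulo `𝔪`
  (`cob_eq_zero`), `s = X` (`pert_eq_X_iff`).
* `univAt_artin`: for `A` local Noetherian with nilpotent maximal ideal: Noetherian induction on an ideal `J ≠ A` for the rings `A/J` (or induction on the length of `A`).  If `𝔪 = 0`, `A = k` (the pair is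
  `(π_A^{-1} ∘ π, X)`).  Otherwise there is `ε ≠ 0` with `𝔪 ε = 0`.
* `univAt_complete`: from the `A/𝔪^m` to `A`: the pairs `(φ_m, t_m)` are compatible by uniqueness; `φ = lim φ_m` (`IsAdicComplete`), `t = lim t_m` coefficientwise.
* `exists_universal_honda`: `F` = image of the formal group law of `exists_haze` under `ℤ[u] → E`.  Its reduction is `honda k p n`, which is `≡ X + Y` modulo degree `q` by `IsHonda.deg`.
* `exists_universal`: for general `Γ₀`: `f : honda (ZMod p) → Γ₀` a strict isomorphism (`exists_strict_iso`), lift its base change to `k` to `f̃` over `E` with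
  `f̃(0) = 0`, linear coefficient `1`; `F' = f̃ F(f̃^{-1} X, f̃^{-1} Y)` is universal for `Γ₀` (a deformation `G` of `Γ₀` to `A` is transported to a deformation
  `f_A^{-1} G(f_A X, f_A Y)` of honda, with `f_A` any lift of `f` to `A`; use `univ_exists`, `univ_unique` of `Universal.lean`, which allow arbitrary markings),
  and is in standard coordinates: modulo `I_{i+1} = (p, u_1, …, u_i)`, `[p]_F ≡ u_{i+1} X^{p^{i+1}}` modulo higher degree (`coeff_mulSeries_mem`), and `[p]_{F'} = f̃ ∘ [p]_F ∘ f̃^{-1}`.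
-/

set_option linter.unusedSectionVars false

namespace Vale.Agent.P217

open MvPowerSeries

section
variable {p : ℕ} [Fact p.Prime] {n : ℕ} (hn : n ≠ 0) (Γ : FormalGroup (GaloisField p n)) [Γ.IsComm]
  (hΓp : mulSeries Γ p = PowerSeries.X ^ (p ^ n))
  (hlow : ∀ d : Fin 2 →₀ ℕ, 2 ≤ d.degree → d.degree < p ^ n → coeff d Γ.toPowerSeries = 0)
  (F : FormalGroup (LTRing p n)) [F.IsComm] (hc : HasStandardCoordinates p n F)
  (hred : F.map (residueMap p n) = Γ)

include hn hΓp hlow hc hred

theorem univAt_small (A A' : Type) [CommRing A] [IsLocalRing A] [IsNoetherianRing A]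
    [IsAdicComplete (IsLocalRing.maximalIdeal A) A] [CommRing A'] [IsLocalRing A']
    [IsNoetherianRing A'] [IsAdicComplete (IsLocalRing.maximalIdeal A') A']
    (πA : A →+* GaloisField p n) (hπA : Function.Surjective πA)
    (πA' : A' →+* GaloisField p n) (ρ : A →+* A') (hρ : Function.Surjective ρ)
    (hρπ : πA'.comp ρ = πA) (ε : A) (hker : RingHom.ker ρ = Ideal.span {ε}) (hε0 : ε ≠ 0)
    (hε : ∀ a, πA a = 0 → a * ε = 0) (hA' : UnivAt Γ (residueMap p n) F A' πA') :
    UnivAt Γ (residueMap p n) F A πA := by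
  exact us_main hn Γ hΓp hlow F hc hred πA hπA πA' ρ hρ hρπ ε hker hε0 hε hA'

theorem univAt_artin (A : Type) [CommRing A] [IsLocalRing A] [IsNoetherianRing A]
    (m : ℕ) (hm : IsLocalRing.maximalIdeal A ^ m = ⊥)
    (πA : A →+* GaloisField p n) (hπA : Function.Surjective πA) :
    UnivAt Γ (residueMap p n) F A πA := by
  have key : ∀ J : Ideal A, ∀ (A' : Type) [CommRing A'] [IsLocalRing A'] [IsNoetherianRing A']
      (m' : ℕ) (_ : IsLocalRing.maximalIdeal A' ^ m' = ⊥) (πA' : A' →+* GaloisField p n)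
      (_ : Function.Surjective πA') (ρ : A →+* A') (_ : Function.Surjective ρ)
      (_ : RingHom.ker ρ = J), UnivAt Γ (residueMap p n) F A' πA' := by
    intro J
    refine IsNoetherian.induction (R := A) (M := A) (P := fun J : Ideal A =>
      ∀ (A' : Type) [CommRing A'] [IsLocalRing A'] [IsNoetherianRing A']
      (m' : ℕ) (_ : IsLocalRing.maximalIdeal A' ^ m' = ⊥) (πA' : A' →+* GaloisField p n)
      (_ : Function.Surjective πA') (ρ : A →+* A') (_ : Function.Surjective ρ)
      (_ : RingHom.ker ρ = J), UnivAt Γ (residueMap p n) F A' πA') ?_ J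
    intro J IH A' _ _ _ m' hm' πA' hπA' ρ hρ hJ
    have hker' := ua_ker_eq πA' hπA'
    by_cases hbot : IsLocalRing.maximalIdeal A' = ⊥
    · have hinj : Function.Injective πA' := by
        rw [RingHom.injective_iff_ker_eq_bot, hker', hbot]
      exact ua_field Γ (residueMap p n) F hred A' πA' ⟨hinj, hπA'⟩
    · obtain ⟨ε, hε0, hεm, hε⟩ := ua_exists_socle m' hm' hbot
      have := ua_quot_local hεm
      have hmks : Function.Surjective (Ideal.Quotient.mk (Ideal.span {ε})) :=
        Ideal.Quotient.mk_surjective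
      have hm'' := ua_quot_pow (Ideal.Quotient.mk (Ideal.span {ε})) hmks m' hm'
      have := ua_isAdicComplete _ m' hm''
      have := ua_isAdicComplete _ m' hm'
      have hlift : ∀ a ∈ Ideal.span {ε}, πA' a = 0 := by
        intro a ha
        have h2 : Ideal.span {ε} ≤ RingHom.ker πA' := by
          rw [Ideal.span_le, Set.singleton_subset_iff, hker']
          exact hεm
        exact h2 ha
      have hlt : RingHom.ker ((Ideal.Quotient.mk (Ideal.span {ε})).comp ρ) > J := by
        rw [← hJ]
        refine lt_of_le_of_ne ?_ ?_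
        · intro a ha
          rw [RingHom.mem_ker] at ha ⊢
          rw [RingHom.comp_apply, ha, map_zero]
        · intro heq
          obtain ⟨a, ha⟩ := hρ ε
          have h3 : a ∈ RingHom.ker ((Ideal.Quotient.mk (Ideal.span {ε})).comp ρ) := by
            rw [RingHom.mem_ker, RingHom.comp_apply, ha, Ideal.Quotient.eq_zero_iff_mem]
            exact Ideal.mem_span_singleton_self ε
          rw [← heq, RingHom.mem_ker, ha] at h3
          exact hε0 h3
      have h1 := IH _ hlt (A' ⧸ Ideal.span {ε}) m' hm''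
        (Ideal.Quotient.lift (Ideal.span {ε}) πA' hlift)
        (Ideal.Quotient.lift_surjective_of_surjective _ _ hπA')
        ((Ideal.Quotient.mk (Ideal.span {ε})).comp ρ) (hmks.comp hρ) rfl
      exact univAt_small hn Γ hΓp hlow F hc hred A' (A' ⧸ Ideal.span {ε}) πA' hπA'
        (Ideal.Quotient.lift (Ideal.span {ε}) πA' hlift) (Ideal.Quotient.mk (Ideal.span {ε}))
        hmks (RingHom.ext fun a => rfl) ε Ideal.mk_ker hε0
        (fun a ha => hε a (by rw [← hker']; exact ha)) h1
  exact key _ A m hm πA hπA (RingHom.id A) Function.surjective_id rfl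

theorem univAt_complete (A : Type) [CommRing A] [IsLocalRing A] [IsNoetherianRing A]
    [IsAdicComplete (IsLocalRing.maximalIdeal A) A]
    (πA : A →+* GaloisField p n) (hπA : Function.Surjective πA) :
    UnivAt Γ (residueMap p n) F A πA := by
  refine univAt_of_quotients Γ (residueMap p n) F A πA hπA fun m πm hπm => ?_
  obtain ⟨hloc, hm⟩ := quotient_pow_local A m
  have hs : Function.Surjective πm := by
    have h1 : Function.Surjective
        (πm.comp (Ideal.Quotient.mk (IsLocalRing.maximalIdeal A ^ (m + 1)))) := by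
      rw [hπm]
      exact hπA
    intro y
    obtain ⟨x, hx⟩ := h1 y
    exact ⟨_, hx⟩
  exact univAt_artin hn Γ hΓp hlow F hc hred _ (m + 1) hm πm hs

end

theorem exists_universal_honda (p : ℕ) [Fact p.Prime] (n : ℕ) (hn : n ≠ 0) :
    ∃ F : FormalGroup (LTRing p n),
      IsUniversalDeformation (honda (GaloisField p n) p n (Nat.pos_of_ne_zero hn))
        (residueMap p n) F ∧ HasStandardCoordinates p n F := by
  obtain ⟨F0, hcomm, heval, hstd⟩ := exists_haze p n (Nat.pos_of_ne_zero hn)
  set ψ : MvPolynomial (Fin (n - 1)) ℤ →+* LTRing p n :=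
    MvPolynomial.eval₂Hom (Int.castRingHom _) (fun i => X i) with hψ
  have hψX : ∀ i, ψ (MvPolynomial.X i) = X i := fun i => by
    rw [hψ, MvPolynomial.coe_eval₂Hom, MvPolynomial.eval₂_X]
  have hc : HasStandardCoordinates p n (F0.map ψ) := by
    intro i
    rw [mulSeries_map, PowerSeries.coeff_map, ← hψX i, ← map_sub]
    have h1 := Ideal.mem_map_of_mem ψ (hstd i)
    rw [Ideal.map_span] at h1
    rw [heightIdeal, if_neg (Nat.succ_ne_zero _)]
    refine Ideal.span_mono ?_ h1
    rintro _ ⟨x, hx, rfl⟩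
    rcases hx with hx | ⟨j, hj, rfl⟩
    · left
      rw [Set.mem_singleton_iff] at hx ⊢
      rw [hx, map_natCast]
    · right
      exact ⟨j, by omega, hψX j⟩
  have hred : (F0.map ψ).map (residueMap p n) =
      honda (GaloisField p n) p n (Nat.pos_of_ne_zero hn) := by
    have h1 : (residueMap p n).comp ψ = (Int.castRingHom (GaloisField p n)).comp
        (MvPolynomial.eval (fun _ => (0 : ℤ))) := by
      apply MvPolynomial.ringHom_ext
      · intro a
        simp [hψ]
      · intro i
        rw [RingHom.comp_apply, hψX, RingHom.comp_apply, MvPolynomial.eval_X, map_zero]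
        show WittVector.constantCoeff (MvPowerSeries.constantCoeff (X i)) = 0
        rw [MvPowerSeries.constantCoeff_X, map_zero]
    show _ = (hondaZ p n _).map (Int.castRingHom (GaloisField p n))
    rw [← heval]
    ext d
    simp only [FormalGroup.map_toPowerSeries, coeff_map]
    exact DFunLike.congr_fun h1 _
  refine ⟨F0.map ψ, ⟨inferInstance, hred, ?_⟩, hc⟩
  intro A _ _ _ _ πA hπA
  refine univAt_complete hn _ (mulSeries_honda (GaloisField p n) p n (Nat.pos_of_ne_zero hn))
    ?_ (F0.map ψ) hc hred A πA hπA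
  intro d hd2 hdq
  show coeff d (MvPowerSeries.map (Int.castRingHom (GaloisField p n))
    (hondaZ p n (Nat.pos_of_ne_zero hn)).toPowerSeries) = 0
  rw [coeff_map]
  have h1 : coeff d (hondaZ p n (Nat.pos_of_ne_zero hn)).toPowerSeries = 0 := by
    by_contra h
    have h2 := (hondaZ_spec p n (Nat.pos_of_ne_zero hn)).deg d h
    have h3 := (Nat.modEq_iff_dvd' (by omega : 1 ≤ d.degree)).mp h2.symm
    have h4 := Nat.le_of_dvd (by omega) h3
    omega
  rw [h1, map_zero]

theorem exists_universal (p : ℕ) [Fact p.Prime] (n : ℕ) (hn : n ≠ 0) (Γ₀ : FormalGroup (ZMod p))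
    [Γ₀.IsComm] (hΓ : mulSeries Γ₀ p = PowerSeries.X ^ (p ^ n)) :
    ∃ F : FormalGroup (LTRing p n),
      IsUniversalDeformation (Gk p n Γ₀) (residueMap p n) F ∧ HasStandardCoordinates p n F := by
  obtain ⟨F, hF, hc⟩ := exists_universal_honda p n hn
  have hn' : 0 < n := Nat.pos_of_ne_zero hn
  have hκ : ∀ x : GaloisField p n, x ^ (p ^ n) = x := by
    intro x
    have : Fintype (GaloisField p n) := Fintype.ofFinite _
    have h1 := FiniteField.pow_card x
    rwa [← Nat.card_eq_fintype_card, GaloisField.card p n hn] at h1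
  have hG : mulSeries (Gk p n Γ₀) p = PowerSeries.X ^ (p ^ n) := by
    rw [mulSeries_map, hΓ, map_pow, PowerSeries.map_X]
  obtain ⟨v, hv, hv1⟩ := exists_strict_iso p n hn' hκ (Gk p n Γ₀)
    (honda (GaloisField p n) p n hn') hG (mulSeries_honda (GaloisField p n) p n hn')
  exact ue_exists p n v hv hv1 hF hc

end Vale.Agent.P217
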