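import Vale.Agent.Lib.P217.StabDefs
import Vale.Agent.Lib.P217.Final
import Vale.Agent.Lib.P217.UnivEx
import Vale.Agent.Lib.P217.ActEx

/-!
# P217: proofs for the group action form
-/

set_option linter.unusedSectionVars false

namespace Vale.Agent.P217.Stab

open MvPowerSeries

section
variable {p : ℕ} [Fact p.Prime] {n : ℕ}

theorem I_eq (hn : n ≠ 0) (h : ℕ) : I p n h = heightIdeal p n h := by
  unfold I heightIdeal
  by_cases h0 : h = 0
  · subst h0
    rw [if_pos rfl]
    rw [Ideal.span_eq_bot]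
    rintro x ⟨i, hi, -⟩
    exact absurd hi (Nat.not_lt_zero _)
  · rw [if_neg h0]
    apply le_antisymm
    · rw [Ideal.span_le]
      rintro x ⟨i, hi, rfl⟩
      apply Ideal.subset_span
      unfold u
      by_cases hi0 : (i : ℕ) = 0
      · left
        rw [dif_pos hi0]
        exact Set.mem_singleton _
      · right
        refine ⟨⟨(i : ℕ) - 1, by omega⟩, by simp only; omega, ?_⟩
        rw [dif_neg hi0]
    · rw [Ideal.span_le]
      rintro x (hx | ⟨i, hi, rfl⟩)
      · rw [Set.mem_singleton_iff] at hx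
        apply Ideal.subset_span
        refine ⟨⟨0, Nat.pos_of_ne_zero hn⟩, Nat.pos_of_ne_zero h0, ?_⟩
        rw [hx, u, dif_pos rfl]
      · apply Ideal.subset_span
        have hlt := i.isLt
        refine ⟨⟨(i : ℕ) + 1, by omega⟩, hi, ?_⟩
        rw [u, dif_neg (Nat.succ_ne_zero _)]
        rfl

theorem mult_eq {R : Type*} [CommRing R] (F : FormalGroup R) (m : ℕ) :
    mult F m = mulSeries F m := by
  induction m with
  | zero => rw [mulSeries_zero]; rfl
  | succ m ih => rw [mulSeries_succ, ← ih]; rfl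

theorem std_of (hn : n ≠ 0) {F : FormalGroup (E0 p n)}
    (h : ∀ i : Fin n, PowerSeries.coeff (p ^ (i : ℕ)) (mult F p) - u p n i ∈ I p n i) :
    HasStandardCoordinates p n F := by
  intro i
  have hlt := i.isLt
  have h1 := h ⟨(i : ℕ) + 1, by omega⟩
  rw [I_eq hn, mult_eq, u, dif_neg (Nat.succ_ne_zero _)] at h1
  exact h1

theorem of_std (hn : n ≠ 0) {F : FormalGroup (E0 p n)} (h : HasStandardCoordinates p n F) :
    ∀ i : Fin n, PowerSeries.coeff (p ^ (i : ℕ)) (mult F p) - u p n i ∈ I p n i := by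
  intro i
  have hlt := i.isLt
  by_cases hi0 : (i : ℕ) = 0
  · rw [u, dif_pos hi0, hi0, pow_zero, mult_eq, mulSeries_coeff_one, sub_self]
    exact Ideal.zero_mem _
  · have h1 := h ⟨(i : ℕ) - 1, by omega⟩
    simp only at h1
    rw [Nat.sub_add_cancel (Nat.one_le_iff_ne_zero.mpr hi0)] at h1
    rw [I_eq hn, mult_eq, u, dif_neg hi0]
    exact h1

theorem univ_of_std (hn : n ≠ 0) (Γ₀ : FormalGroup (ZMod p)) [Γ₀.IsComm]
    (hΓ : mulSeries Γ₀ p = PowerSeries.X ^ (p ^ n)) (F : FormalGroup (LTRing p n))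
    (hFc : F.IsComm) (hred : F.map (residueMap p n) = Gk p n Γ₀)
    (hc : HasStandardCoordinates p n F) :
    IsUniversalDeformation (Gk p n Γ₀) (residueMap p n) F := by
  have hn' : 0 < n := Nat.pos_of_ne_zero hn
  have hκ : ∀ x : GaloisField p n, x ^ (p ^ n) = x := by
    intro x
    have : Fintype (GaloisField p n) := Fintype.ofFinite _
    have h1 := FiniteField.pow_card x
    rwa [← Nat.card_eq_fintype_card, GaloisField.card p n hn] at h1
  have hG : mulSeries (Gk p n Γ₀) p = PowerSeries.X ^ (p ^ n) := by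
    rw [mulSeries_map, hΓ, map_pow, PowerSeries.map_X]
  obtain ⟨v, hv, hv1⟩ := exists_strict_iso p n hn' hκ (honda (GaloisField p n) p n hn')
    (Gk p n Γ₀) (mulSeries_honda (GaloisField p n) p n hn') hG
  choose s hs using residueMap_surjective p n
  let w : PowerSeries (LTRing p n) := PowerSeries.mk fun j =>
    if j = 0 then 0 else if j = 1 then 1 else s (PowerSeries.coeff j v)
  have hwc : ∀ j, PowerSeries.coeff j w =
      if j = 0 then 0 else if j = 1 then 1 else s (PowerSeries.coeff j v) := fun j =>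
    PowerSeries.coeff_mk j _
  have hw0 : PowerSeries.constantCoeff w = 0 := by
    rw [← PowerSeries.coeff_zero_eq_constantCoeff_apply, hwc, if_pos rfl]
  have hw1 : PowerSeries.coeff 1 w = 1 := by
    rw [hwc, if_neg one_ne_zero, if_pos rfl]
  have hwv : w.map (residueMap p n) = v := by
    ext j
    rw [PowerSeries.coeff_map, hwc]
    by_cases h0 : j = 0
    · subst h0
      rw [if_pos rfl, map_zero, PowerSeries.coeff_zero_eq_constantCoeff_apply, hv.1]
    · by_cases h1 : j = 1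
      · subst h1
        rw [if_neg one_ne_zero, if_pos rfl, map_one, hv1]
      · rw [if_neg h0, if_neg h1, hs]
  have hu1 : IsUnit (PowerSeries.coeff 1 w) := by rw [hw1]; exact isUnit_one
  obtain ⟨F', hF'c, hF'⟩ := exists_conj F w hw0 hu1
  have hred' : F'.map (residueMap p n) = honda (GaloisField p n) p n hn' := by
    have h1 := hF'.map (residueMap p n)
    rw [hwv, hred] at h1
    exact formalGroup_eq_of_hom (by rw [hv1]; exact isUnit_one) h1 hv
  have hc' : HasStandardCoordinates p n F' := ue_standard p n hc w hF' hw1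
  have hU' : IsUniversalDeformation (honda (GaloisField p n) p n hn') (residueMap p n) F' := by
    refine ⟨hF'c, hred', ?_⟩
    intro A _ _ _ _ πA hπA
    refine univAt_complete hn _ (mulSeries_honda (GaloisField p n) p n (Nat.pos_of_ne_zero hn))
      ?_ F' hc' hred' A πA hπA
    intro d hd2 hdq
    show coeff d (MvPowerSeries.map (Int.castRingHom (GaloisField p n))
      (hondaZ p n (Nat.pos_of_ne_zero hn)).toPowerSeries) = 0
    rw [coeff_map]
    have h1 : coeff d (hondaZ p n (Nat.pos_of_ne_zero hn)).toPowerSeries = 0 := by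
      by_contra h
      have h2 := (hondaZ_spec p n (Nat.pos_of_ne_zero hn)).deg d h
      have h3 := (Nat.modEq_iff_dvd' (by omega : 1 ≤ d.degree)).mp h2.symm
      have h4 := Nat.le_of_dvd (by omega) h3
      omega
    rw [h1, map_zero]
  obtain ⟨w', hw', hw'1, -, -⟩ := exists_inverse_hom hF' hu1
  exact ue_transport hFc hU' w' hw' hw'1 hred

theorem isUniversal_of (Γ : FormalGroup (ZMod p)) [Γ.IsComm] (F : FormalGroup (E0 p n))
    (hU : IsUniversalDeformation (Gk p n Γ) (residueMap p n) F) : IsUniversal p n Γ F := by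
  intro A _ _ _ _ π hπ G hG γ hγ
  obtain ⟨hγ1, hγ2⟩ := isFGIso_iff.mp hγ
  obtain ⟨ψ, t, h1, h2, h3⟩ := univ_exists hU A π hπ G γ hγ1 hγ2
  have ht : IsFGIso (F.map ψ) G t :=
    isFGIso_iff.mpr ⟨h2, un_isUnit_coeff_one A π hπ t (by rw [h3]; exact hγ2)⟩
  refine ⟨ψ, ⟨h1, t, ⟨ht, h3⟩, ?_⟩, ?_⟩
  · rintro t' ⟨ht', h3'⟩
    exact (univ_unique hU A π hπ G γ hγ2 ψ ψ t' t h1 h1 (isFGIso_iff.mp ht').1 h2 h3' h3).2
  · rintro ψ' ⟨h1', t', ⟨ht', h3'⟩, -⟩
    exact (univ_unique hU A π hπ G γ hγ2 ψ' ψ t' t h1' h1 (isFGIso_iff.mp ht').1 h2 h3' h3).1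

theorem map_gal (Γ : FormalGroup (ZMod p)) (σ : GaloisField p n →+* GaloisField p n) :
    (Gk p n Γ).map σ = Gk p n Γ := by
  have h2 : σ.comp (algebraMap (ZMod p) (GaloisField p n)) =
      algebraMap (ZMod p) (GaloisField p n) := Subsingleton.elim _ _
  rw [un_map_map, h2]

theorem changes_iff (Γ : FormalGroup (ZMod p)) (F : FormalGroup (E0 p n)) (x : ExtStab p n Γ)
    (φ : RingAut (E0 p n)) :
    ChangesMarking F x φ ↔
      ActsBy (Gk p n Γ) (residueMap p n) F x.series
        ((x.gal : GaloisField p n ≃ₐ[ZMod p] GaloisField p n) :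
          GaloisField p n ≃+* GaloisField p n) φ := by
  obtain ⟨h1, h2⟩ := isFGIso_iff.mp x.isIso
  constructor
  · rintro ⟨hφ, t, ht, ht'⟩
    refine ⟨?_, h2, ?_, t, (isFGIso_iff.mp ht).1, ht'⟩
    · rw [map_gal]; exact h1
    · ext1 a
      exact hφ a
  · rintro ⟨-, -, hφ, t, ht, ht'⟩
    refine ⟨fun a => ?_, t, isFGIso_iff.mpr ⟨ht, ?_⟩, ht'⟩
    · exact RingHom.congr_fun hφ a
    · exact un_isUnit_coeff_one (E0 p n) (residueMap p n) (residueMap_surjective p n) t
        (by rw [ht']; exact h2)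

theorem changes_mul (Γ : FormalGroup (ZMod p)) (F : FormalGroup (E0 p n)) {x y : ExtStab p n Γ}
    {φ ψ : RingAut (E0 p n)} (hx : ChangesMarking F x φ) (hy : ChangesMarking F y ψ) :
    ChangesMarking F (x * y) (φ * ψ) := by
  obtain ⟨h1, t, ht, ht'⟩ := hx
  obtain ⟨k1, s, hs, hs'⟩ := hy
  refine ⟨fun a => ?_, PowerSeries.subst (s.map (φ : E0 p n →+* E0 p n)) t, ?_, ?_⟩
  · show res p n (φ (ψ a)) = _
    rw [h1, k1]
    rfl
  · have h2 : IsFGIso (F.map ((φ * ψ : RingAut (E0 p n)) : E0 p n →+* E0 p n))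
        (F.map (φ : E0 p n →+* E0 p n)) (s.map (φ : E0 p n →+* E0 p n)) := by
      rw [isFGIso_iff] at hs ⊢
      have h3 := hs.1.map (φ : E0 p n →+* E0 p n)
      rw [un_map_map] at h3
      refine ⟨h3, ?_⟩
      rw [PowerSeries.coeff_map]
      exact hs.2.map _
    exact isFGIso_comp h2 ht
  · have hs0 : PowerSeries.constantCoeff (s.map (φ : E0 p n →+* E0 p n)) = 0 := by
      rw [← PowerSeries.coeff_zero_eq_constantCoeff_apply, PowerSeries.coeff_map,
        PowerSeries.coeff_zero_eq_constantCoeff_apply, hs.1, map_zero]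
    rw [un_map_psubst (res p n) hs0, ht', un_pmap_map]
    have h4 : (res p n).comp (φ : E0 p n →+* E0 p n) =
        (x.gal : GaloisField p n →+* GaloisField p n).comp (res p n) := by
      ext1 a
      exact h1 a
    rw [h4, ← un_pmap_map, hs']
    rfl

theorem exists_action (Γ : FormalGroup (ZMod p)) [Γ.IsComm]
    (F : FormalGroup (E0 p n))
    (hU : IsUniversalDeformation (Gk p n Γ) (residueMap p n) F) :
    ∃ ρ : ExtStab p n Γ →* RingAut (E0 p n),
      ∀ x φ, ChangesMarking F x φ ↔ φ = ρ x := by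
  have h1 : ∀ x : ExtStab p n Γ, ∃! φ : RingAut (E0 p n), ChangesMarking F x φ := by
    intro x
    obtain ⟨h1, h2⟩ := isFGIso_iff.mp x.isIso
    have h3 := existsUnique_actsBy (residueMap_surjective p n) hU
      ((x.gal : GaloisField p n ≃ₐ[ZMod p] GaloisField p n) :
          GaloisField p n ≃+* GaloisField p n) x.series (by rw [map_gal]; exact h1) h2
    obtain ⟨φ, hφ, hφ'⟩ := h3
    exact ⟨φ, (changes_iff Γ F x φ).mpr hφ, fun ψ hψ => hφ' ψ ((changes_iff Γ F x ψ).mp hψ)⟩
  choose ρ hρ hρ' using h1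
  refine ⟨MonoidHom.mk' ρ fun x y => ?_, fun x φ => ⟨fun h => hρ' x φ h, ?_⟩⟩
  · exact (hρ' (x * y) _ (changes_mul Γ F (hρ x) (hρ y))).symm
  · rintro rfl
    exact hρ x

theorem invariant_iff (Γ : FormalGroup (ZMod p)) (F : FormalGroup (E0 p n))
    (ρ : ExtStab p n Γ →* RingAut (E0 p n))
    (hρ : ∀ x φ, ChangesMarking F x φ ↔ φ = ρ x) (J : Ideal (E0 p n)) :
    IsStable ρ J ↔ IsInvariant (Gk p n Γ) (residueMap p n) F J := by
  constructor
  · intro h g σ φ hφ
    have hg1 : IsHom (Gk p n Γ) (Gk p n Γ) g := by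
      have := hφ.1
      rw [map_gal] at this
      exact this
    have hcomm : ∀ r : ZMod p, σ (algebraMap (ZMod p) (GaloisField p n) r) =
        algebraMap (ZMod p) (GaloisField p n) r := by
      intro r
      have h2 : (σ : GaloisField p n →+* GaloisField p n).comp
          (algebraMap (ZMod p) (GaloisField p n)) =
          algebraMap (ZMod p) (GaloisField p n) := Subsingleton.elim _ _
      exact RingHom.congr_fun h2 r
    let x : ExtStab p n Γ :=
      ⟨g, AlgEquiv.ofRingEquiv (f := σ) hcomm, isFGIso_iff.mpr ⟨hg1, hφ.2.1⟩⟩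
    have hx : φ = ρ x := by
      rw [← hρ, changes_iff]
      exact hφ
    have hle : ∀ y, J.map ((ρ y : RingAut (E0 p n)) : E0 p n →+* E0 p n) ≤ J := by
      intro y
      rw [Ideal.map_le_iff_le_comap]
      intro a ha
      exact h y a ha
    rw [hx]
    apply le_antisymm (hle x)
    intro a ha
    have h3 : (ρ x⁻¹) a ∈ J := h x⁻¹ a ha
    have h4 : (ρ x) ((ρ x⁻¹) a) = a := by
      rw [map_inv]
      exact RingEquiv.apply_symm_apply (ρ x) a
    rw [← h4]
    exact Ideal.mem_map_of_mem ((ρ x : RingAut (E0 p n)) : E0 p n →+* E0 p n) h3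
  · intro h x a ha
    have h1 : ActsBy (Gk p n Γ) (residueMap p n) F x.series
        ((x.gal : GaloisField p n ≃ₐ[ZMod p] GaloisField p n) :
          GaloisField p n ≃+* GaloisField p n) (ρ x) := by
      rw [← changes_iff, hρ]
    have h2 := h _ _ _ h1
    rw [← h2]
    exact Ideal.mem_map_of_mem ((ρ x : RingAut (E0 p n)) : E0 p n →+* E0 p n) ha

end

theorem chai (p : ℕ) [Fact p.Prime] (n : ℕ) (hn : 1 ≤ n) :
    (∃ Γ : FormalGroup (ZMod p), Γ.IsComm ∧ mult Γ p = PowerSeries.X ^ (p ^ n)) ∧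
    ∀ Γ : FormalGroup (ZMod p), Γ.IsComm → mult Γ p = PowerSeries.X ^ (p ^ n) →
      (∃ F : FormalGroup (E0 p n), IsStandardLift p n Γ F) ∧
      ∀ F : FormalGroup (E0 p n), IsStandardLift p n Γ F →
        IsUniversal p n Γ F ∧
        ∃ ρ : StabAction p n Γ,
          IsMarkingAction F ρ ∧
          (∀ P : Ideal (E0 p n), (P.IsPrime ∧ IsStable ρ P) ↔ ∃ h ≤ n, P = I p n h) ∧
          (∀ J : Ideal (E0 p n), (J.IsRadical ∧ IsStable ρ J) ↔ J = ⊤ ∨ ∃ h ≤ n, J = I p n h) := by
  have hn0 : n ≠ 0 := Nat.one_le_iff_ne_zero.mp hn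
  refine ⟨⟨honda (ZMod p) p n (Nat.pos_of_ne_zero hn0), inferInstance, ?_⟩, ?_⟩
  · rw [mult_eq]
    exact mulSeries_honda (ZMod p) p n (Nat.pos_of_ne_zero hn0)
  intro Γ hΓc hΓ
  rw [mult_eq] at hΓ
  refine ⟨?_, ?_⟩
  · obtain ⟨F, hF, hc⟩ := exists_universal p n hn0 Γ hΓ
    exact ⟨F, hF.comm, hF.reduction, of_std hn0 hc⟩
  intro F hF
  obtain ⟨hFc, hred, hstd⟩ := hF
  have hc := std_of hn0 hstd
  have hU := univ_of_std hn0 Γ hΓ F hFc hred hc
  refine ⟨isUniversal_of Γ F hU, ?_⟩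
  obtain ⟨ρ, hρ⟩ := exists_action Γ F hU
  refine ⟨ρ, hρ, fun P => ?_, fun J => ?_⟩
  · rw [invariant_iff Γ F ρ hρ P, final_prime hn0 Γ hΓ F hU hc P]
    simp only [I_eq hn0]
  · rw [invariant_iff Γ F ρ hρ J, final_radical hn0 Γ hΓ F hU hc J]
    simp only [I_eq hn0]

end Vale.Agent.P217.Stab
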